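import Crest.Agent.R018.Tame

/-!
# R018 / AdmEx

`noTors`: shrink `U` into `FixMu l`; let `n > 0` be minimal with `s^n ∈ U`, `s1 = s^(n/l)` (in `FixMu l` by `mem_FixMu_of_pow_prime`); `kummer` on `zpowers s1 ⊔ U` gives `ρ` fixed
by `U` with `s1 ρ = ζ ρ`, `ζ ≠ 1`; `ρ' = rt l ρ`, `s1 ρ' = ζ' ρ'`, `ζ'` a primitive `l²`-th root, `s1 ζ' = ζ'^u`, `u ≡ 1 mod l`, `1 + u + … + u^{l-1} ≡ l mod l²`, so
`s^n = s1^l` multiplies `ρ'` by a primitive `l`-th root of unity.  `U' = (U ⊓ stab ρ').normalCore`.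
`admEx`: shrink `H` to be `Small`; `σ^m ∈ H`, `m = l^k m'`; iterate `noTors` to get `U' ≤ FixMu l` normal open in which `s = α σ` has order `n` divisible by `l^{k+1}`;
`σ' = σ^{m' n / l} ∈ Ine V ⊓ H`, `α σ' ∉ U'`, `(α σ')^l ∈ U'`; `kummer` on `U3 = zpowers (α σ') ⊔ U'` gives `y ∈ L U3`; `H3 = H ⊓ pre U3`.
`inFix`: `zl_unram` for `lcyc ∘ α`.  `exists_not_le_FixMu`: otherwise `κ = kum (l^k) (rt (l^k) y) ∘ α` is additive on `Dec V ⊓ H`, `κ σ` is a unit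
(`fix_pow_iff_dvd_kum`), and `tame_conj` with `d = frob H V` gives `q ≡ 1 mod l^k` for all `k`.
-/

set_option autoImplicit false
set_option linter.unusedSectionVars false

noncomputable section

namespace Crest.Agent.R018

open scoped NNReal Classical

variable {Ω F E : Type*} [Field Ω] [CharZero Ω] [IsAlgClosed Ω] [IsGalois ℚ Ω]
  [Field F] [NumberField F] [Field E] [CharZero E] [Algebra F E] [IsGalois F E] [RadCl E]

theorem ae_order (s : Gal(E/F)) {U : Subgroup Gal(E/F)} [U.Normal]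
    (hU : IsOpen (U : Set Gal(E/F))) : ∃ n : ℕ, n ≠ 0 ∧ ∀ m : ℕ, s ^ m ∈ U ↔ n ∣ m := by
  have h : ∀ m : ℕ, s ^ m ∈ U ↔ orderOf (s : Gal(E/F) ⧸ U) ∣ m := fun m => by
    rw [orderOf_dvd_iff_pow_eq_one, ← QuotientGroup.mk_pow, QuotientGroup.eq_one_iff]
  refine ⟨_, fun h0 => index_ne_zero_of_isOpen hU ?_, h⟩
  have := (h _).1 (U.pow_index_mem s)
  rwa [h0, zero_dvd_iff] at this

theorem ae_kum {l : ℕ} (hl : l.Prime) {t : Gal(E/F)} {U : Subgroup Gal(E/F)} [U.Normal]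
    (hU : IsOpen (U : Set Gal(E/F))) (hμ : U ≤ FixMu F E l) (ht : t ∉ U) (ht' : t ^ l ∈ U) :
    ∃ (J : Subgroup Gal(E/F)) (ρ : E), U ≤ J ∧ t ∈ J ∧ J ≤ FixMu F E l ∧ ρ ≠ 0 ∧ ρ ^ l ∈ L J ∧
      (∀ u ∈ U, u ρ = ρ) ∧ t ρ ≠ ρ := by
  haveI := Fact.mk hl
  have ho : orderOf (t : Gal(E/F) ⧸ U) = l := orderOf_eq_prime
    (by rwa [← QuotientGroup.mk_pow, QuotientGroup.eq_one_iff]) (by rwa [Ne, QuotientGroup.eq_one_iff])
  set J : Subgroup Gal(E/F) := (Subgroup.zpowers (t : Gal(E/F) ⧸ U)).comap (QuotientGroup.mk' U)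
  have hle : U ≤ J := fun x hx => by
    change (x : Gal(E/F) ⧸ U) ∈ Subgroup.zpowers _
    rw [(QuotientGroup.eq_one_iff x).2 hx]
    exact one_mem _
  have hc := nm_cyc_of_mhom (H := J) hU (ψ := fun x => (x : Gal(E/F) ⧸ U)) ⟨rfl, fun _ _ _ _ => rfl⟩
    (fun x => ⟨fun hx => ⟨hle hx, (QuotientGroup.eq_one_iff x).2 hx⟩,
      fun hx => (QuotientGroup.eq_one_iff x).1 hx.2⟩) (σ := t) (Subgroup.mem_zpowers _)
    (fun h hh => (orderOf_pos_iff.1 (ho.symm ▸ hl.pos)).mem_powers_iff_mem_zpowers.2 hh)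
  rw [ho] at hc
  have htμ : t ∈ FixMu F E l := mem_FixMu_of_pow_prime hl 1 (by rw [pow_one]; exact hμ ht')
  have hJ : J ≤ FixMu F E l := fun h hh => by
    obtain ⟨i, hi⟩ := hc.gen h hh
    simpa using (FixMu F E l).mul_mem ((FixMu F E l).pow_mem htμ i) (hμ hi)
  obtain ⟨χ, hχ, h1, h0⟩ := hc.exists_chi
  obtain ⟨ρ, hρ, hL, hk⟩ := kummer hl.ne_zero hJ hχ
  refine ⟨J, ρ, hle, hc.mem, hJ, hρ, hL, fun u hu => ?_, fun h => ?_⟩
  · rw [← kum_eq_zero_iff hl.ne_zero hρ (mem_L.1 hL u (hle hu)), hk u (hle hu), h0 u (hle hu)]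
    exact hu
  · rw [← kum_eq_zero_iff hl.ne_zero hρ (mem_L.1 hL t hc.mem), hk t hc.mem, h1] at h
    exact one_ne_zero h

theorem ae_geom {l : ℕ} (hl : l.Prime) (hl2 : l ≠ 2) {u : ZMod (l * l)}
    (hu : ZMod.castHom (dvd_mul_left l l) (ZMod l) u = 1) :
    ∑ i ∈ Finset.range l, u ^ i = l := by
  haveI : NeZero (l * l) := ⟨mul_ne_zero hl.ne_zero hl.ne_zero⟩
  have h1 : ZMod.castHom (dvd_mul_left l l) (ZMod l) (((u - 1).val : ℕ) : ZMod (l * l)) = 0 := by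
    rw [ZMod.natCast_zmod_val, map_sub, hu, map_one, sub_self]
  rw [map_natCast, ZMod.natCast_eq_zero_iff] at h1
  obtain ⟨c, hc⟩ := h1
  have h2 : u = 1 + l * c := by
    rw [← Nat.cast_mul, ← hc, ZMod.natCast_zmod_val, add_sub_cancel]
  have h3 : (l : ZMod (l * l)) * l = 0 := by rw [← Nat.cast_mul, ZMod.natCast_self]
  have h4 : ∀ i : ℕ, u ^ i = 1 + i * (l * c) := fun i => by
    induction i with
    | zero => simp
    | succ i ih =>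
      rw [pow_succ, ih, h2]
      push_cast
      linear_combination (i * c * c : ZMod (l * l)) * h3
  obtain ⟨r, hr⟩ := hl.odd_of_ne_two hl2
  have h5 : ∑ i ∈ Finset.range l, i = l * r := by
    have := Finset.sum_range_id_mul_two l
    rw [show l - 1 = r * 2 by omega, ← mul_assoc] at this
    omega
  simp only [h4, Finset.sum_add_distrib, Finset.sum_const, Finset.card_range, nsmul_eq_mul, mul_one]
  rw [← Finset.sum_mul, ← Nat.cast_sum, h5]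
  push_cast
  linear_combination (r * c : ZMod (l * l)) * h3

theorem ae_move {l : ℕ} (hl : l.Prime) (hl2 : l ≠ 2) {t : Gal(E/F)} (ht : t ∈ FixMu F E l) {ρ : E}
    (hρ : ρ ≠ 0) (h1 : t (ρ ^ (l * l)) = ρ ^ (l * l)) (h2 : t (ρ ^ l) ≠ ρ ^ l) : (t ^ l) ρ ≠ ρ := by
  have hN := mul_ne_zero hl.ne_zero hl.ne_zero
  haveI : NeZero (l * l) := ⟨hN⟩
  have hfix : ∀ m : ℕ, (t ^ m) (ρ ^ (l * l)) = ρ ^ (l * l) := fun m =>
    (stab F (ρ ^ (l * l))).pow_mem h1 m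
  have hk : ∀ m : ℕ, kum (l * l) ρ (t ^ m) =
      (∑ i ∈ Finset.range m, cyc (l * l) t ^ i) * kum (l * l) ρ t := fun m => by
    induction m with
    | zero => simpa using (kum_eq_zero_iff hN hρ (g := (1 : Gal(E/F))) rfl).2 rfl
    | succ m ih => rw [pow_succ, kum_mul_right hN hρ (hfix m) h1, ih, cyc_pow hN,
        Finset.sum_range_succ, add_mul]
  intro h
  rw [← kum_eq_zero_iff hN hρ (hfix l), hk, ae_geom hl hl2 (by
    rw [cyc_cast _ hN, (mem_FixMu_iff hl.ne_zero).1 ht]), ← ZMod.natCast_zmod_val (kum (l * l) ρ t),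
    ← Nat.cast_mul, ZMod.natCast_eq_zero_iff, mul_dvd_mul_iff_left hl.ne_zero] at h
  exact h2 ((fix_pow_iff_dvd_kum hl.ne_zero hl.ne_zero hρ h1).2 h)

theorem noTors {l : ℕ} (hl : l.Prime) (hl2 : l ≠ 2) (s : Gal(E/F)) {U : Subgroup Gal(E/F)} [U.Normal]
    (hU : IsOpen (U : Set Gal(E/F))) {k : ℕ} (h : ∀ n : ℕ, s ^ n ∈ U → l ^ (k + 1) ∣ n) :
    ∃ U' : Subgroup Gal(E/F), U'.Normal ∧ IsOpen (U' : Set Gal(E/F)) ∧
      ∀ n : ℕ, s ^ n ∈ U' → l ^ (k + 2) ∣ n := by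
  haveI := Fact.mk hl
  haveI := FixMu_normal (F := F) (E := E) hl.ne_zero
  have hU1 := isOpen_inf hU (isOpen_FixMu (F := F) (E := E) l)
  obtain ⟨n, hn0, hn⟩ := ae_order s hU1
  have hd : l ^ (k + 1) ∣ n := h n ((hn n).2 dvd_rfl).1
  obtain ⟨n', rfl⟩ : l ∣ n := (dvd_pow_self l k.succ_ne_zero).trans hd
  have hn' : n' ≠ 0 := right_ne_zero_of_mul hn0
  have hmem : (s ^ n') ^ l ∈ U ⊓ FixMu F E l := by rw [← pow_mul, hn, mul_comm]
  obtain ⟨J, ρ, hle, ht, hJ, hρ, hL, hfix, hmove⟩ := ae_kum hl (t := s ^ n') hU1 inf_le_right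
    (fun h2 => by
      have := Nat.le_of_dvd (Nat.pos_of_ne_zero hn') ((hn _).1 h2)
      have := hl.two_le
      nlinarith [Nat.pos_of_ne_zero hn']) hmem
  have e : rt l ρ ^ l = ρ := rt_pow hl.ne_zero ρ
  have hρ' := rt_ne_zero hl.ne_zero hρ
  have hm := ae_move hl hl2 (hJ ht) hρ' (by rw [pow_mul, e]; exact mem_L.1 hL _ ht) (by rwa [e])
  have hχ := chom_kum hl.ne_zero hρ' (H := U ⊓ FixMu F E l) inf_le_right (by rw [e]; exact mem_L.2 hfix)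
  refine ⟨(U ⊓ FixMu F E l ⊓ stab F (rt l ρ)).normalCore, inferInstance,
    isOpen_normalCore (isOpen_inf hU1 (isOpen_stab _)), fun m hm' => ?_⟩
  obtain ⟨h1, h2⟩ := Subgroup.normalCore_le _ hm'
  obtain ⟨j, rfl⟩ := (hn m).1 h1
  have h3 : kum l (rt l ρ) (((s ^ n') ^ l) ^ j) = 0 := by
    rw [← pow_mul, ← pow_mul, ← mul_assoc, mul_comm n' l]
    exact (kum_eq_zero_iff hl.ne_zero hρ' (by rw [e]; exact hfix _ h1)).2 h2
  rw [hχ.1.map_pow hmem, nsmul_eq_mul, mul_eq_zero, ZMod.natCast_eq_zero_iff,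
    kum_eq_zero_iff hl.ne_zero hρ' (by rw [e]; exact hfix _ hmem)] at h3
  rw [pow_succ]
  exact mul_dvd_mul hd (h3.resolve_right hm)

namespace Setup
variable (S : Setup Ω F E)

theorem admEx {l : ℕ} (hl : l.Prime) (hl2 : l ≠ 2) {V : Pl Ω} (hT : S.Tl l V)
    {H : Subgroup Gal(Ω/ℚ)} (hH : IsOpen (H : Set Gal(Ω/ℚ))) : ∃ H3 ≤ H, S.Adm l V H3 := by
  haveI := Fact.mk hl
  haveI := FixMu_normal (F := F) (E := E) hl.ne_zero
  obtain ⟨-, U, hUn, hU, σ, hσI, hσ0, hσ1, hσ2⟩ := hT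
  have key : ∀ k : ℕ, ∃ U' : Subgroup Gal(E/F), U'.Normal ∧ IsOpen (U' : Set Gal(E/F)) ∧
      ∀ n : ℕ, S.α σ ^ n ∈ U' → l ^ (k + 1) ∣ n := fun k => by
    induction k with
    | zero =>
      obtain ⟨n, -, hn⟩ := ae_order (S.α σ) hU
      rcases (Nat.dvd_prime hl).1 ((hn l).1 hσ2) with rfl | rfl
      · exact absurd ((hn 1).2 dvd_rfl) (by rwa [pow_one])
      · exact ⟨U, hUn, hU, fun m hm => by rw [zero_add, pow_one]; exact (hn m).1 hm⟩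
    | succ k ih =>
      obtain ⟨U', _, h1, h2⟩ := ih
      exact noTors hl hl2 _ h1 h2
  have hH1 := isOpen_inf (isOpen_inf hH (isOpen_FixMu (F := ℚ) (E := Ω) l))
    (S.isOpen_pre (isOpen_inf (isOpen_FixMu (F := F) (E := E) l) (isOpen_FixMu (F := F) (E := E) 4)))
  obtain ⟨m, hm0, -, hm⟩ := Subgroup.exists_pow_mem_of_index_ne_zero (index_ne_zero_of_isOpen hH1) σ
  obtain ⟨k, m', hm', rfl⟩ := Nat.exists_eq_pow_mul_and_not_dvd hm0.ne' l hl.ne_one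
  obtain ⟨U', _, h1, h2⟩ := key k
  have hU1 := isOpen_inf h1 (isOpen_FixMu (F := F) (E := E) l)
  obtain ⟨n, hn0, hn⟩ := ae_order (S.α σ) hU1
  obtain ⟨n', rfl⟩ := h2 n ((hn n).2 dvd_rfl).1
  obtain ⟨J, ρ, hle, ht, hJ, hρ, hL, -, hmove⟩ := ae_kum hl (t := S.α σ ^ (l ^ k * m' * n')) hU1
    inf_le_right (fun h3 => hm' (by
      rwa [hn, mul_dvd_mul_iff_right (right_ne_zero_of_mul hn0), pow_succ,
        mul_dvd_mul_iff_left (pow_ne_zero k hl.ne_zero)] at h3))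
    (by rw [← pow_mul, hn]; exact ⟨m', by ring⟩)
  rw [← S.map_pow hσ0] at ht hmove
  refine ⟨H ⊓ FixMu ℚ Ω l ⊓ S.pre (FixMu F E l ⊓ FixMu F E 4) ⊓ S.pre J,
    inf_le_left.trans (inf_le_left.trans inf_le_left),
    ⟨isOpen_inf hH1 (S.isOpen_pre (Subgroup.isOpen_mono hle hU1)),
      inf_le_left.trans (inf_le_left.trans inf_le_right), inf_le_left.trans inf_le_right⟩,
    ρ ^ l, σ ^ (l ^ k * m' * n'), pow_ne_zero _ hρ,
    L_anti (S.img_le_of_le_pre (inf_le_right.trans inf_le_right)) hL, pow_mem hσI _,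
    ⟨by rw [pow_mul]; exact pow_mem hm _, pow_mem hσ0 _, ht⟩, fun h3 => hmove ?_⟩
  exact (fix_root_iff hl.ne_zero (rt_pow hl.ne_zero _) (hJ ht)).1 h3

theorem lcyc_ine {l : ℕ} [Fact l.Prime] (hl2 : l ≠ 2) {V : Pl Ω} (hV : V.p ≠ l) {τ : Gal(Ω/ℚ)}
    (hτ : τ ∈ Ine ℚ V) (hτ' : τ ∈ S.G0) : lcyc l (S.α τ) = 0 := by
  exact zl_unram S.open0 hV (S.zhom_comp (J := Dec ℚ V ⊓ S.G0) (U := ⊤) (fun g hg => ⟨hg.2, trivial⟩) (zhom_lcyc hl2 ⊤))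
    τ hτ hτ'

theorem inFix {l : ℕ} (hl : l.Prime) (hl2 : l ≠ 2) {V : Pl Ω} (hV : V.p ≠ l) {τ : Gal(Ω/ℚ)}
    (hτ : τ ∈ Ine ℚ V) (hτ' : τ ∈ S.G0) (h : S.α τ ∈ FixMu F E l) (k : ℕ) :
    S.α τ ∈ FixMu F E (l ^ k) := by
  haveI := Fact.mk hl
  exact mem_FixMu_pow_of_lcyc hl2 h (S.lcyc_ine hl2 hV hτ hτ') k

theorem exists_not_le_FixMu {l : ℕ} (hl : l.Prime) (hl2 : l ≠ 2) {V : Pl Ω} (hV : V.p ≠ l)
    {H : Subgroup Gal(Ω/ℚ)} (hA : S.Adm l V H) : ∃ k : ℕ, ¬ S.Gam V H ≤ FixMu F E (l ^ k) := by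
  by_contra hcon
  push Not at hcon
  obtain ⟨⟨hH, -, hle⟩, y, σ, hy, hyL, hσI, hσH, hmove⟩ := hA
  have hpre : Dec ℚ V ⊓ H ≤ S.pre (S.Gam V H) := fun g hg =>
    ⟨(hle hg.2).1, g, hg, (hle hg.2).1, rfl⟩
  have hφ := frob_spec hH V
  have hσ : σ ∈ Dec ℚ V ⊓ H := ⟨Ine_le_Dec V hσI, hσH⟩
  have key : ∀ k : ℕ, l ^ k * l ∣ resCard H V - 1 := fun k => by
    have hN : l ^ k * l ≠ 0 := mul_ne_zero (pow_ne_zero _ hl.ne_zero) hl.ne_zero
    haveI : NeZero (l ^ k * l) := ⟨hN⟩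
    have hp : ¬ V.p ∣ l ^ k * l := fun h => hV ((Nat.prime_dvd_prime_iff_eq V.hp hl).1
      (V.hp.dvd_of_dvd_pow (n := k + 1) h))
    have hρ := rt_ne_zero hN hy
    have e := rt_pow hN y
    have hκ := S.chom_comp hpre (chom_kum hN hρ (hcon (k + 1)) (by rw [e]; exact hyL))
    have h1 := tame_conj hp (J := Ine ℚ V ⊓ H) inf_le_left
      (hκ.mono (inf_le_inf_right _ (Ine_le_Dec V))) hφ.2.1 ⟨hσI, hσH⟩
      ⟨conj_mem_Ine hφ.2.1 hσI, H.mul_mem (H.mul_mem hφ.1 hσH) (H.inv_mem hφ.1)⟩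
    have h2 := hκ.1.map_conj ⟨hφ.2.1, hφ.1⟩ hσ
    rw [h2, hφ.cyc_eq hp] at h1
    have h3 : ¬ l ∣ (kum (l ^ k * l) (rt (l ^ k * l) y) (S.α σ)).val := fun h => hmove (by
      have := (fix_pow_iff_dvd_kum (pow_ne_zero k hl.ne_zero) hl.ne_zero hρ
        (by rw [e]; exact mem_L.1 hyL _ (hpre hσ).2)).2 h
      exact (fix_root_iff hl.ne_zero (by rw [← pow_mul, e, rt_pow hl.ne_zero]) (hle hσH).2.1).1 this)
    have h4 : IsUnit (kum (l ^ k * l) (rt (l ^ k * l) y) (S.α σ)) := by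
      rw [← ZMod.natCast_zmod_val (kum _ _ _), ZMod.isUnit_iff_coprime]
      exact (((Nat.Prime.coprime_iff_not_dvd hl).2 h3).symm.pow_right (k + 1))
    have h5 : ((1 : ℕ) : ZMod (l ^ k * l)) = (resCard H V : ℕ) :=
      h4.mul_right_cancel (by rw [Nat.cast_one, one_mul]; exact h1)
    exact Nat.ModEq.dvd' ((ZMod.natCast_eq_natCast_iff _ _ _).1 h5)
  obtain ⟨f, hf, -, hq⟩ := exists_resCard_eq_pow hH V
  have h2 : 1 < resCard H V := hq ▸ Nat.one_lt_pow hf.ne' V.hp.one_lt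
  have h3 := Nat.le_of_dvd (by omega) (key (resCard H V))
  have h4 := Nat.lt_pow_self (n := resCard H V + 1) hl.one_lt
  rw [pow_succ] at h4
  omega

end Setup

end Crest.Agent.R018
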