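import Crest.Agent.R018.Trans

/-!
# R018 / Apx

Approximation.  `approx`: weak approximation in the number field `L H` for the distinct primes `W.prime (L H)` (CRT in `𝓞 (L H)`:
clear denominators by an integer `d`, solve `x ≡ d a_W mod 𝔭_W^n`, divide by `d`; `IsDedekindDomain.exists_forall_sub_mem_ideal`).
`dense`: let `N ≤ H` be open normal fixing `x`, `H1 = (Dec W ⊓ H) ⊔ N` (open, fixes `x`); choose `z ∈ L H1` close to `x` at `W` and close
to `0` at the places `t⁻¹ • W`, `t ∈ H \ H1` (these are not `H1`-conjugate to `W`); `y = ∑_{t ∈ H/H1} t z`.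
Closed versions: `exists_open_sep` with `Z = {g | g • W = W'}`, resp. `Z = Dec W \ stab x`.
-/

set_option autoImplicit false
set_option linter.unusedSectionVars false

noncomputable section

namespace Crest.Agent.R018

open scoped NNReal Classical

variable {F E : Type*} [Field F] [NumberField F] [Field E] [CharZero E] [Algebra F E]
  [IsGalois F E]

/-- a nonzero natural number small at finitely many places. -/
theorem apx_exists_small_nat (s : Finset (Pl E)) {ε : ℝ≥0} (hε : 0 < ε) :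
    ∃ c : ℕ, c ≠ 0 ∧ ∀ W ∈ s, W.v (c : E) < ε := by
  have h : ∀ W : Pl E, ∃ n : ℕ, W.v (W.p : E) ^ n < ε := fun W =>
    NNReal.exists_pow_lt_of_lt_one hε W.v_p_lt_one
  choose n hn using h
  refine ⟨∏ W ∈ s, W.p ^ n W, Finset.prod_ne_zero_iff.2 fun W _ => pow_ne_zero _ W.hp.ne_zero,
    fun W hW => ?_⟩
  obtain ⟨m, hm⟩ := Finset.dvd_prod_of_mem (fun W : Pl E => W.p ^ n W) hW
  rw [hm, Nat.cast_mul, Nat.cast_pow, map_mul, map_pow]
  exact lt_of_le_of_lt (mul_le_of_le_one_right' (W.v_natCast_le_one m)) (hn W)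

/-- an approximation can be made nonzero. -/
theorem apx_ne_zero {H : Subgroup Gal(E/F)} (s : Finset (Pl E)) (a : Pl E → E) {ε : ℝ≥0}
    (hε : 0 < ε) (h : ∃ x ∈ L H, ∀ W ∈ s, W.v (x - a W) < ε) :
    ∃ x ∈ L H, x ≠ 0 ∧ ∀ W ∈ s, W.v (x - a W) < ε := by
  obtain ⟨x, hx, h⟩ := h
  by_cases h0 : x = 0
  · obtain ⟨c, hc, hc'⟩ := apx_exists_small_nat s hε
    refine ⟨c, natCast_mem _ c, by exact_mod_cast hc, fun W hW => ?_⟩
    have e : (c : E) - a W = c + (x - a W) := by rw [h0]; ring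
    rw [e]
    exact lt_of_le_of_lt (W.v.map_add _ _) (max_lt (hc' W hW) (h W hW))
  · exact ⟨x, hx, h0, h⟩

open NumberField in
theorem apx_v_le_of_mem_pow {H : Subgroup Gal(E/F)} (hH : IsOpen (H : Set Gal(E/F)))
    [NumberField (L H)] (W : Pl E) (n : ℕ) :
    ∀ x : 𝓞 (L H), x ∈ (W.prime (L H)).asIdeal ^ n →
      W.v ((x : L H) : E) ≤ (unif H W : ℝ≥0) ^ n := by
  induction n with
  | zero =>
    intro x _
    rw [pow_zero]
    exact W.v_le_one_of_isIntegral (x.isIntegral_coe.map ((L H).val.restrictScalars ℤ))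
  | succ n ih =>
    intro x hx
    rw [pow_succ] at hx
    refine Submodule.mul_induction_on hx (fun y hy z hz => ?_) (fun y z hy hz => ?_)
    · push_cast
      rw [map_mul, pow_succ]
      exact mul_le_mul' (ih y hy) (v_le_unif hH W (z : L H).2 ((W.mem_prime _ z).1 hz))
    · push_cast
      exact le_trans (W.v.map_add _ _) (max_le hy hz)

theorem approx {H : Subgroup Gal(E/F)} (hH : IsOpen (H : Set Gal(E/F))) (s : Finset (Pl E))
    (hs : ∀ W ∈ s, ∀ W' ∈ s, Same H W W' → W = W') (a : Pl E → E) (ha : ∀ W ∈ s, a W ∈ L H)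
    {ε : ℝ≥0} (hε : 0 < ε) : ∃ x ∈ L H, x ≠ 0 ∧ ∀ W ∈ s, W.v (x - a W) < ε := by
  refine apx_ne_zero s a hε ?_
  have := numberField_L hH
  let a' : s → L H := fun W => ⟨a W, ha W W.2⟩
  obtain ⟨d, hd⟩ := IsLocalization.exist_integer_multiples_of_finite
    (nonZeroDivisors (NumberField.RingOfIntegers (L H))) a'
  choose b hb using hd
  have hd0 : (((d : NumberField.RingOfIntegers (L H)) : L H) : E) ≠ 0 := by
    have := nonZeroDivisors.coe_ne_zero d
    exact_mod_cast this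
  have hn : ∀ W : Pl E, ∃ n : ℕ, (unif H W : ℝ≥0) ^ n <
      ε * W.v (((d : NumberField.RingOfIntegers (L H)) : L H) : E) := fun W =>
    NNReal.exists_pow_lt_of_lt_one (mul_pos hε ((Valuation.pos_iff _).2 hd0)) (unif_spec hH W).1
  choose n hn using hn
  obtain ⟨y, hy⟩ := IsDedekindDomain.exists_forall_sub_mem_ideal (s := s)
    (fun W => (W.prime (L H)).asIdeal) n (fun W _ => (W.prime (L H)).prime)
    (fun W hW W' hW' hne h => hne (hs W hW W' hW'
      ((prime_eq_iff_same hH).1 (IsDedekindDomain.HeightOneSpectrum.ext h)))) b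
  refine ⟨(((y : L H) / ((d : NumberField.RingOfIntegers (L H)) : L H) : L H) : E),
    Subtype.prop _, fun W hW => ?_⟩
  have h1 := (apx_v_le_of_mem_pow hH W _ _ (hy W hW)).trans_lt (hn W)
  have h2 : (((b ⟨W, hW⟩ : NumberField.RingOfIntegers (L H)) : L H) : E) =
      (((d : NumberField.RingOfIntegers (L H)) : L H) : E) * a W := by
    have := congrArg (fun z : L H => (z : E)) (hb ⟨W, hW⟩)
    simpa [a', Algebra.smul_def] using this
  have e : (((y : L H) / ((d : NumberField.RingOfIntegers (L H)) : L H) : L H) : E) - a W =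
      (((y - b ⟨W, hW⟩ : NumberField.RingOfIntegers (L H)) : L H) : E) /
        (((d : NumberField.RingOfIntegers (L H)) : L H) : E) := by
    push_cast
    rw [h2]
    field_simp
  rw [e, map_div₀, div_lt_iff₀ ((Valuation.pos_iff _).2 hd0)]
  exact h1

/-- `approx` for an arbitrary finite set of places and data constant on orbits. -/
theorem apx_approx' {H : Subgroup Gal(E/F)} (hH : IsOpen (H : Set Gal(E/F))) (s : Finset (Pl E))
    (a : Pl E → E) (hs : ∀ W ∈ s, ∀ W' ∈ s, Same H W W' → a W = a W') (ha : ∀ W ∈ s, a W ∈ L H)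
    {ε : ℝ≥0} (hε : 0 < ε) : ∃ x ∈ L H, x ≠ 0 ∧ ∀ W ∈ s, W.v (x - a W) < ε := by
  let rep : Pl E → Pl E := fun W => @Classical.epsilon _ ⟨W⟩ (fun W' => W' ∈ s ∧ Same H W W')
  have h1 : ∀ W ∈ s, rep W ∈ s ∧ Same H W (rep W) := fun W hW =>
    @Classical.epsilon_spec _ (fun W' => W' ∈ s ∧ Same H W W') ⟨W, hW, Same.refl H W⟩
  have h2 : ∀ W W', Same H W W' → rep W = rep W' := by
    intro W W' h
    have : (fun V => V ∈ s ∧ Same H W V) = (fun V => V ∈ s ∧ Same H W' V) := by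
      funext V
      exact propext (and_congr_right fun _ => ⟨fun h' => h.symm.trans h', fun h' => h.trans h'⟩)
    simp only [rep, this]
  obtain ⟨x, hx, hx0, h⟩ := approx hH (s.image rep) (by
      intro V hV V' hV' hVV'
      obtain ⟨W, hW, rfl⟩ := Finset.mem_image.1 hV
      obtain ⟨W', hW', rfl⟩ := Finset.mem_image.1 hV'
      exact h2 _ _ (((h1 W hW).2.trans hVV').trans (h1 W' hW').2.symm)) a (by
      intro V hV
      obtain ⟨W, hW, rfl⟩ := Finset.mem_image.1 hV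
      exact ha _ (h1 W hW).1) hε
  refine ⟨x, hx, hx0, fun W hW => ?_⟩
  rw [(h1 W hW).2.v_eq (sub_mem hx (ha W hW)), hs W hW _ (h1 W hW).1 (h1 W hW).2]
  exact h _ (Finset.mem_image_of_mem _ hW)

theorem approx_two_closed {Γ : Subgroup Gal(E/F)} (hΓ : IsClosed (Γ : Set Gal(E/F))) {W W' : Pl E}
    (h : ¬ Same Γ W W') {ε : ℝ≥0} (hε : 0 < ε) :
    ∃ b ∈ L Γ, b ≠ 0 ∧ W.v b⁻¹ < ε ∧ W'.v b < ε := by
  obtain ⟨U, hU, hle, hZ⟩ := exists_open_sep hΓ (isClosed_smul_eq W W').isCompact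
    (fun z hz hzΓ => h ⟨z, hzΓ, hz⟩)
  have hns : ¬ Same U W W' := fun ⟨g, hg, e⟩ => hZ g e hg
  have hne : W' ≠ W := fun e => hns (e ▸ Same.refl U W')
  obtain ⟨c, hc, hc'⟩ := apx_exists_small_nat ({W} : Finset (Pl E)) hε
  have hc0 : ((c : E))⁻¹ ≠ 0 := inv_ne_zero (by exact_mod_cast hc)
  have hpos : 0 < min ε (W.v ((c : E))⁻¹) := lt_min hε ((Valuation.pos_iff _).2 hc0)
  obtain ⟨b, hb, hb0, hb'⟩ := approx hU {W, W'} (by
      intro V hV V' hV' hVV'
      simp only [Finset.mem_insert, Finset.mem_singleton] at hV hV'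
      rcases hV with rfl | rfl <;> rcases hV' with rfl | rfl
      · rfl
      · exact absurd hVV' hns
      · exact absurd hVV'.symm hns
      · rfl) (fun V => if V = W then ((c : E))⁻¹ else 0) (by
      intro V _
      split_ifs
      · exact inv_mem (natCast_mem _ c)
      · exact zero_mem _) hpos
  refine ⟨b, L_anti hle hb, hb0, ?_, ?_⟩
  · have h1 := hb' W (by simp)
    simp only [if_true] at h1
    have h2 := W.v.map_eq_of_sub_lt (h1.trans_le (min_le_right _ _))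
    rw [map_inv₀, h2, map_inv₀, inv_inv]
    exact hc' W (by simp)
  · have h1 := hb' W' (by simp)
    simp only [if_neg hne, sub_zero] at h1
    exact h1.trans_le (min_le_left _ _)

theorem dense {H : Subgroup Gal(E/F)} (hH : IsOpen (H : Set Gal(E/F))) (W : Pl E) {x : E}
    (hx : x ∈ L (Dec F W ⊓ H)) {ε : ℝ≥0} (hε : 0 < ε) : ∃ y ∈ L H, y ≠ 0 ∧ W.v (y - x) < ε := by
  suffices hy : ∃ y ∈ L H, ∀ V ∈ ({W} : Finset (Pl E)), V.v (y - x) < ε by
    obtain ⟨y, h1, h2, h3⟩ := apx_ne_zero {W} (fun _ => x) hε hy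
    exact ⟨y, h1, h2, h3 W (by simp)⟩
  let H1 : Subgroup Gal(E/F) := H ⊓ stab F x
  have hH1 : IsOpen (H1 : Set Gal(E/F)) := isOpen_inf hH (isOpen_stab x)
  have hx1 : x ∈ L H1 := mem_L.2 fun g hg => hg.2
  have hD : Dec F W ⊓ H ≤ H1 := fun g hg => ⟨hg.2, mem_L.1 hx g hg⟩
  have : (H1.subgroupOf H).FiniteIndex := ⟨relIndex_ne_zero_of_isOpen hH1 H⟩
  have : Fintype (H ⧸ H1.subgroupOf H) := Fintype.ofFinite _
  let t : H ⧸ H1.subgroupOf H → Gal(E/F) := fun q => (q.out : H)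
  have hsame : ∀ q, Same H1 W ((t q)⁻¹ • W) → t q ∈ H1 := by
    rintro q ⟨g, hg, e⟩
    have h1 : t q * g ∈ Dec F W ⊓ H :=
      ⟨by change (t q * g) • W = W; rw [mul_smul, e, smul_inv_smul], H.mul_mem q.out.2 hg.1⟩
    exact (H1.mul_mem_cancel_right hg).1 (hD h1)
  obtain ⟨z, hz, -, hz'⟩ := apx_approx' hH1 (Finset.univ.image fun q => (t q)⁻¹ • W)
    (fun V => if Same H1 W V then x else 0) (by
      intro V _ V' _ hVV'
      have : Same H1 W V ↔ Same H1 W V' := ⟨fun h => h.trans hVV', fun h => h.trans hVV'.symm⟩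
      simp only [this]) (by
      intro V _
      split_ifs
      · exact hx1
      · exact zero_mem _) hε
  have hmk : ∀ g : H, t (QuotientGroup.mk g) z = (g : Gal(E/F)) z := by
    intro g
    obtain ⟨k, hk⟩ := QuotientGroup.mk_out_eq_mul (H1.subgroupOf H) g
    simp only [t, hk, Subgroup.coe_mul, AlgEquiv.mul_apply]
    rw [mem_L.1 hz _ (Subgroup.mem_subgroupOf.1 k.2)]
  refine ⟨∑ q, t q z, mem_L.2 fun g hg => ?_, fun V hV => ?_⟩
  · rw [map_sum, ← Equiv.sum_comp (MulAction.toPerm (⟨g, hg⟩ : H)) fun q => t q z]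
    refine Finset.sum_congr rfl fun q _ => ?_
    rw [MulAction.toPerm_apply, ← MulAction.Quotient.mk_smul_out, hmk]
    rfl
  · rw [Finset.mem_singleton.1 hV]
    have hq : ∀ q, W.v (t q z - if q = QuotientGroup.mk 1 then x else 0) < ε := by
      intro q
      have h1 := hz' _ (Finset.mem_image_of_mem (fun q => (t q)⁻¹ • W) (Finset.mem_univ q))
      rw [Pl.smul_v, inv_inv, map_sub] at h1
      by_cases hq : q = QuotientGroup.mk 1
      · have h2 : t q ∈ H1 := by
          have : q.out ∈ H1.subgroupOf H := by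
            have h3 := QuotientGroup.eq.1 (hq.symm.trans (QuotientGroup.out_eq' q).symm)
            simpa using h3
          exact this
        rw [if_pos ⟨(t q)⁻¹, H1.inv_mem h2, rfl⟩, mem_L.1 hx1 _ h2] at h1
        rwa [if_pos hq]
      · have h2 : ¬ Same H1 W ((t q)⁻¹ • W) := by
          intro h3
          apply hq
          rw [← QuotientGroup.out_eq' q, eq_comm, QuotientGroup.eq, inv_one, one_mul]
          exact hsame q h3
        rw [if_neg h2, map_zero] at h1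
        rwa [if_neg hq]
    have e : ∑ q, t q z - x = ∑ q, (t q z - if q = QuotientGroup.mk 1 then x else 0) := by
      rw [Finset.sum_sub_distrib, Finset.sum_ite_eq' Finset.univ, if_pos (Finset.mem_univ _)]
    rw [e]
    exact W.v.map_sum_lt' hε fun q _ => hq q

theorem dense_closed {Γ : Subgroup Gal(E/F)} (hΓ : IsClosed (Γ : Set Gal(E/F))) (W : Pl E) {x : E}
    (hx : x ∈ L (Dec F W ⊓ Γ)) {ε : ℝ≥0} (hε : 0 < ε) : ∃ y ∈ L Γ, y ≠ 0 ∧ W.v (y - x) < ε := by
  obtain ⟨U, hU, hle, hZ⟩ := exists_open_sep hΓ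
    ((isClosed_Dec (F := F) W).sdiff (isOpen_stab (F := F) x)).isCompact
    (fun z hz hzΓ => hz.2 (mem_L.1 hx z ⟨hz.1, hzΓ⟩))
  obtain ⟨y, hy, h⟩ := dense hU W (x := x) (mem_L.2 fun g hg => by
    by_contra hc
    exact hZ g ⟨hg.1, hc⟩ hg.2) hε
  exact ⟨y, L_anti hle hy, h⟩

/-- multiplicative form: approximate given nonzero local data simultaneously, to relative precision `π`. -/
theorem approx_mul {H : Subgroup Gal(E/F)} (hH : IsOpen (H : Set Gal(E/F))) (s : Finset (Pl E))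
    (hs : ∀ W ∈ s, ∀ W' ∈ s, Same H W W' → W = W') (a : Pl E → Eˣ)
    (ha : ∀ W ∈ s, (a W : E) ∈ L (Dec F W ⊓ H)) {ε : ℝ≥0} (hε : 0 < ε) :
    ∃ x ∈ LU H, ∀ W ∈ s, W.v (((x / a W : Eˣ) : E) - 1) < ε := by
  have hpos : ∀ W : Pl E, 0 < W.v (a W : E) := fun W => (Valuation.pos_iff _).2 (a W).ne_zero
  obtain ⟨δ, hδ, hδ'⟩ : ∃ δ : ℝ≥0, 0 < δ ∧ ∀ W ∈ s, δ ≤ ε * W.v (a W : E) := by
    rcases s.eq_empty_or_nonempty with rfl | hne
    · exact ⟨1, one_pos, by simp⟩
    · obtain ⟨W, -, hW⟩ := s.exists_min_image (fun W => ε * W.v (a W : E)) hne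
      exact ⟨_, mul_pos hε (hpos W), hW⟩
  have hy : ∀ W : Pl E, ∃ y : E, W ∈ s → y ∈ L H ∧ W.v (y - a W) < δ := by
    intro W
    by_cases hW : W ∈ s
    · obtain ⟨y, h1, -, h2⟩ := dense hH W (ha W hW) hδ
      exact ⟨y, fun _ => ⟨h1, h2⟩⟩
    · exact ⟨0, fun h => absurd h hW⟩
  choose y hy using hy
  obtain ⟨x, hx, hx0, h⟩ := approx hH s hs y (fun W hW => (hy W hW).1) hδ
  refine ⟨Units.mk0 x hx0, hx, fun W hW => ?_⟩
  have e : ((Units.mk0 x hx0 / a W : Eˣ) : E) - 1 = ((x - y W) + (y W - a W)) / (a W : E) := by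
    rw [Units.val_div_eq_div_val, Units.val_mk0]
    have := (a W).ne_zero
    field_simp
    ring
  rw [e, map_div₀, div_lt_iff₀ (hpos W)]
  exact (lt_of_le_of_lt (W.v.map_add _ _) (max_lt (h W hW) (hy W hW).2)).trans_le (hδ' W hW)

end Crest.Agent.R018
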