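import Crest.Agent.R018.Zeta2

/-!
# R018 / FDT

(FDT') Frobenius density theorem (existence form).  Let `n` be the order of `g` mod `N`, `C_e = zpowers (g^(n/e)) ⊔ N` for `e ∣ n`
(`N.relIndex C_e = e`); these are all subgroups between `N` and `C_n`.  Enlarge `B` by the ramified primes (`exists_ine_le`).  Let
`b_e O` be the number of cosets `t` with `Dec (t • O.out) ⊔ N = C_e` (zero above `B`); `cnt N C_e B O = ∑_{e' ∣ e} b_{e'} O`.
By strong induction on `e ∣ n` and `Nat.sum_totient`, `∑' b_e q^{-s} - φ(e) log (1/(s-1))` is bounded near `1⁺`; since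
`φ(n) > 0` and `log (1/(s-1)) → ∞`, some `b_n O ≠ 0`.
-/

set_option autoImplicit false
set_option linter.unusedSectionVars false

noncomputable section

namespace Crest.Agent.R018

open scoped NNReal Classical

variable {F E : Type*} [Field F] [NumberField F] [Field E] [CharZero E] [Algebra F E]
  [IsGalois F E]

open Filter Topology Asymptotics in
/-- inversion of sums over lower intervals of a finite partial order. -/
theorem fdt_isBigO_of_sum {ι : Type*} [Fintype ι] [PartialOrder ι] {l : Filter ℝ} (f : ι → ℝ → ℝ)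
    (h : ∀ D, (fun s => ∑ D' ∈ Finset.univ.filter (· ≤ D), f D' s) =O[l] fun _ => (1 : ℝ)) (D : ι) :
    f D =O[l] fun _ => (1 : ℝ) := by
  induction D using WellFoundedLT.induction with
  | ind D ih =>
    have e : f D = fun s => (∑ D' ∈ Finset.univ.filter (· ≤ D), f D' s) -
        ∑ D' ∈ (Finset.univ.filter (· ≤ D)).erase D, f D' s := by
      funext s
      rw [← Finset.add_sum_erase _ _ (a := D) (by simp)]
      ring
    rw [e]
    refine (h D).sub (IsBigO.fun_sum fun D' hD' => ih D' ?_)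
    rw [Finset.mem_erase, Finset.mem_filter] at hD'
    exact lt_of_le_of_ne hD'.2.2 hD'.1

theorem fdt_card_fiber {Q ι : Type*} [Finite Q] [Fintype ι] [PartialOrder ι] (φ : Q → ι) (D : ι) :
    Nat.card {t : Q // φ t ≤ D} =
      ∑ D' ∈ Finset.univ.filter (· ≤ D), Nat.card {t : Q // φ t = D'} := by
  have := Fintype.ofFinite Q
  simp only [Nat.card_eq_fintype_card, Fintype.card_subtype]
  rw [Finset.card_eq_sum_card_fiberwise (f := φ) (t := Finset.univ.filter (· ≤ D))
    (fun t ht => by simpa using ht)]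
  refine Finset.sum_congr rfl fun D' hD' => ?_
  congr 1
  ext t
  simp only [Finset.mem_filter, Finset.mem_univ, true_and] at hD' ⊢
  exact ⟨fun h => h.2, fun h => ⟨h ▸ hD', h⟩⟩

open Filter Topology Asymptotics in
theorem fdt_map {N : Subgroup Gal(E/F)} [N.Normal] (hN : IsOpen (N : Set Gal(E/F))) (g : Gal(E/F))
    (B : Finset ℕ) : ∃ W : Pl E, W.p ∉ B ∧ Ine F W ≤ N ∧
      (Dec F W).map (QuotientGroup.mk' N) = Subgroup.zpowers (QuotientGroup.mk' N g) := by
  obtain ⟨B', hB'⟩ := exists_ine_le hN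
  have hfin : Finite (Gal(E/F) ⧸ N) := Subgroup.index_ne_zero_iff_finite.1 (index_ne_zero_of_isOpen hN)
  have : Fintype (Subgroup (Gal(E/F) ⧸ N)) := Fintype.ofFinite _
  let b : Subgroup (Gal(E/F) ⧸ N) → MulAction.orbitRel.Quotient Gal(E/F) (Pl E) → ℕ := fun D O =>
    if (O.out : Pl E).p ∈ B ∪ B' then 0 else
      Nat.card {t : Gal(E/F) ⧸ N // (Dec F (t.out • (O.out : Pl E))).map (QuotientGroup.mk' N) = D}
  let c : Subgroup (Gal(E/F) ⧸ N) → ℕ := fun D =>
    Nat.card {x : Gal(E/F) ⧸ N // Subgroup.zpowers x = D}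
  have hb : ∀ D O, cnt N (D.comap (QuotientGroup.mk' N)) (B ∪ B') O =
      ∑ D' ∈ Finset.univ.filter (· ≤ D), b D' O := by
    intro D O
    by_cases hO : (O.out : Pl E).p ∈ B ∪ B'
    · simp only [cnt, b, if_pos hO, Finset.sum_const_zero]
    · simp only [cnt, b, if_neg hO, ← Subgroup.map_le_iff_le_comap]
      exact fdt_card_fiber _ D
  have hc : ∀ D : Subgroup (Gal(E/F) ⧸ N), N.relIndex (D.comap (QuotientGroup.mk' N)) =
      ∑ D' ∈ Finset.univ.filter (· ≤ D), c D' := by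
    intro D
    have e1 := Subgroup.relIndex_ker (D.comap (QuotientGroup.mk' N)) (QuotientGroup.mk' N)
    rw [QuotientGroup.ker_mk', Subgroup.map_comap_eq_self_of_surjective
      (QuotientGroup.mk'_surjective N)] at e1
    rw [e1, ← fdt_card_fiber]
    simp only [Subgroup.zpowers_le]
  have hsum : ∀ D, ∀ s : ℝ, 1 < s → Summable fun O : MulAction.orbitRel.Quotient Gal(E/F) (Pl E) =>
      (b D O : ℝ) * (resCard (⊤ : Subgroup Gal(E/F)) O.out : ℝ) ^ (-s) := by
    intro D s hs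
    refine Summable.of_nonneg_of_le (fun O => by positivity) (fun O => ?_)
      ((summable_orbits (F := F) (E := E) hs).mul_left (Nat.card (Gal(E/F) ⧸ N) : ℝ))
    refine mul_le_mul_of_nonneg_right ?_ (by positivity)
    have : b D O ≤ Nat.card (Gal(E/F) ⧸ N) := by
      simp only [b]
      split_ifs
      · exact Nat.zero_le _
      · exact Finite.card_subtype_le _
    exact_mod_cast this
  have key := fdt_isBigO_of_sum (l := 𝓝[>] (1 : ℝ))
    (fun D s => (∑' O : MulAction.orbitRel.Quotient Gal(E/F) (Pl E),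
      (b D O : ℝ) * (resCard (⊤ : Subgroup Gal(E/F)) O.out : ℝ) ^ (-s)) -
      (c D : ℝ) * Real.log (1 / (s - 1))) (fun D => by
        have hle : N ≤ D.comap (QuotientGroup.mk' N) := by
          have := Subgroup.ker_le_comap (QuotientGroup.mk' N) D
          rwa [QuotientGroup.ker_mk'] at this
        obtain ⟨C, hC⟩ := cntSum_sub_log_bounded hN hle (B ∪ B')
        refine IsBigO.of_bound C ?_
        filter_upwards [hC, self_mem_nhdsWithin] with s h1 h2
        rw [Finset.sum_sub_distrib, ← Finset.sum_mul,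
          ← Summable.tsum_finsetSum fun D' _ => hsum D' s h2, norm_one, mul_one, Real.norm_eq_abs]
        simp only [hb, hc, Nat.cast_sum, Finset.sum_mul] at h1 ⊢
        exact h1) (Subgroup.zpowers (QuotientGroup.mk' N g))
  by_contra hne
  have hb0 : ∀ O, b (Subgroup.zpowers (QuotientGroup.mk' N g)) O = 0 := by
    intro O
    by_cases hO : (O.out : Pl E).p ∈ B ∪ B'
    · simp only [b, if_pos hO]
    · simp only [b, if_neg hO]
      rw [Finset.mem_union, not_or] at hO
      refine Nat.card_eq_zero.2 (Or.inl ⟨fun t => hne ⟨t.1.out • (O.out : Pl E), hO.1, ?_, t.2⟩⟩)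
      exact hB' _ hO.2
  have hc0 : 0 < c (Subgroup.zpowers (QuotientGroup.mk' N g)) := by
    have : Nonempty {x : Gal(E/F) ⧸ N //
        Subgroup.zpowers x = Subgroup.zpowers (QuotientGroup.mk' N g)} := ⟨⟨_, rfl⟩⟩
    exact Nat.card_pos
  simp only [hb0, Nat.cast_zero, zero_mul, tsum_zero, zero_sub] at key
  obtain ⟨C, hC⟩ := key.bound
  have hlim : Tendsto (fun s : ℝ => Real.log (1 / (s - 1))) (𝓝[>] 1) atTop := by
    refine Real.tendsto_log_atTop.comp ?_
    simp only [one_div]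
    refine tendsto_inv_nhdsGT_zero.comp ?_
    refine tendsto_nhdsWithin_iff.2 ⟨?_, ?_⟩
    · have : Tendsto (fun s : ℝ => s - 1) (𝓝 1) (𝓝 (1 - 1)) := tendsto_id.sub_const 1
      rw [sub_self] at this
      exact this.mono_left nhdsWithin_le_nhds
    · filter_upwards [self_mem_nhdsWithin] with s hs
      exact sub_pos.2 (show (1 : ℝ) < s from hs)
  have hc1 : (1 : ℝ) ≤ c (Subgroup.zpowers (QuotientGroup.mk' N g)) := by exact_mod_cast hc0
  obtain ⟨s, h1, h2⟩ := (hC.and (hlim.eventually_gt_atTop (max C 0))).exists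
  rw [norm_neg, norm_one, mul_one, Real.norm_eq_abs] at h1
  have h3 := (le_abs_self _).trans h1
  have h4 := (max_lt_iff.1 h2)
  nlinarith [h4.1, h4.2]

theorem fdt {N : Subgroup Gal(E/F)} [N.Normal] (hN : IsOpen (N : Set Gal(E/F))) (g : Gal(E/F))
    (B : Finset ℕ) : ∃ W : Pl E, W.p ∉ B ∧ Ine F W ≤ N ∧ Dec F W ⊔ N = Subgroup.zpowers g ⊔ N := by
  obtain ⟨W, h1, h2, h3⟩ := fdt_map hN g B
  refine ⟨W, h1, h2, ?_⟩
  have e := congrArg (Subgroup.comap (QuotientGroup.mk' N)) h3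
  rwa [← MonoidHom.map_zpowers, Subgroup.comap_map_eq, Subgroup.comap_map_eq,
    QuotientGroup.ker_mk'] at e

/-- split places. -/
theorem exists_dec_le {U : Subgroup Gal(E/F)} (hU : IsOpen (U : Set Gal(E/F))) (B : Finset ℕ) :
    ∃ W : Pl E, W.p ∉ B ∧ Dec F W ≤ U := by
  obtain ⟨W, h1, -, h3⟩ := fdt (isOpen_normalCore hU) 1 B
  refine ⟨W, h1, le_trans (le_trans le_sup_left h3.le) ?_⟩
  rw [Subgroup.zpowers_one_eq_bot, bot_sup_eq]
  exact U.normalCore_le

/-- completely split primes. -/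
theorem exists_split {Ω : Type*} [Field Ω] [CharZero Ω] [IsGalois ℚ Ω] {H : Subgroup Gal(Ω/ℚ)}
    (hH : IsOpen (H : Set Gal(Ω/ℚ))) (B : Finset ℕ) : ∃ l : ℕ, l.Prime ∧ l ∉ B ∧ Split H l := by
  obtain ⟨W, h1, h2⟩ := exists_dec_le (isOpen_normalCore hH) B
  refine ⟨W.p, W.hp, h1, fun V hV d hd => ?_⟩
  obtain ⟨g, rfl⟩ := exists_smul_eq_of_p_eq hV.symm
  have h3 := H.normalCore_normal.conj_mem _ (h2 (mem_Dec_smul.1 hd)) g
  refine H.normalCore_le ?_
  simpa [mul_assoc] using h3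

/-- convenient form: `Dec W ≤ zpowers g ⊔ U'` and some `δ ∈ Dec W` is congruent to `g`. -/
theorem fdt' {U' : Subgroup Gal(E/F)} (hU : IsOpen (U' : Set Gal(E/F))) (g : Gal(E/F)) (B : Finset ℕ) :
    ∃ W : Pl E, W.p ∉ B ∧ Ine F W ≤ U' ∧ (∀ d ∈ Dec F W, ∃ i : ℕ, (g ^ i)⁻¹ * d ∈ U') ∧
      ∃ δ ∈ Dec F W, g⁻¹ * δ ∈ U' := by
  have hN := isOpen_normalCore hU
  obtain ⟨W, h1, h2, h3⟩ := fdt_map hN g B
  have hfin : Finite (Gal(E/F) ⧸ U'.normalCore) :=
    Subgroup.index_ne_zero_iff_finite.1 (index_ne_zero_of_isOpen hN)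
  refine ⟨W, h1, h2.trans U'.normalCore_le, fun d hd => ?_, ?_⟩
  · have h4 : QuotientGroup.mk' U'.normalCore d ∈
        Subgroup.zpowers (QuotientGroup.mk' U'.normalCore g) := h3 ▸ Subgroup.mem_map_of_mem _ hd
    obtain ⟨i, hi⟩ := mem_powers_iff_mem_zpowers.2 h4
    refine ⟨i, U'.normalCore_le (QuotientGroup.eq.1 ?_)⟩
    rw [QuotientGroup.mk_pow]
    exact hi
  · have h4 : QuotientGroup.mk' U'.normalCore g ∈ (Dec F W).map (QuotientGroup.mk' U'.normalCore) :=
      h3 ▸ Subgroup.mem_zpowers _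
    obtain ⟨δ, hδ, e⟩ := h4
    exact ⟨δ, hδ, U'.normalCore_le (QuotientGroup.eq.1 e.symm)⟩

end Crest.Agent.R018
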