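import Crest.Agent.R018.CycB

/-!
# R018 / SetupB

Basic properties of a `Setup`.  `α` is continuous on the open subgroup `G0` (preimages of open subgroups are open), so
images of closed subgroups of `G0` are compact; the image of an open subgroup is closed of finite index in the open subgroup
`img ⊤`, hence open.
-/

set_option autoImplicit false
set_option linter.unusedSectionVars false

noncomputable section

namespace Crest.Agent.R018

open scoped NNReal Classical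

variable {Ω F E : Type*} [Field Ω] [CharZero Ω] [IsAlgClosed Ω] [IsGalois ℚ Ω]
  [Field F] [NumberField F] [Field E] [CharZero E] [Algebra F E] [IsGalois F E] [RadCl E]

theorem sb_map_one {Γ : Type*} [Group Γ] {A : Type*} [AddCommGroup A] {H : Subgroup Γ} {f : Γ → A}
    (h : AHom H f) : f 1 = 0 := by
  have := h 1 H.one_mem 1 H.one_mem
  simpa using this

theorem sb_map_pow {Γ : Type*} [Group Γ] {A : Type*} [AddCommGroup A] {H : Subgroup Γ} {f : Γ → A}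
    (h : AHom H f) {x : Γ} (hx : x ∈ H) (n : ℕ) : f (x ^ n) = n • f x := by
  induction n with
  | zero => simpa using sb_map_one h
  | succ n ih => rw [pow_succ, h _ (H.pow_mem hx n) _ hx, ih, succ_nsmul]

namespace Setup
variable (S : Setup Ω F E)

theorem sb_continuous_hom : Continuous S.hom := by
  refine continuous_of_continuousAt_one S.hom ?_
  rw [ContinuousAt, _root_.map_one]
  intro s hs
  obtain ⟨K, hK, hKs⟩ := (krullTopology_mem_nhds_one_iff F E s).1 hs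
  have h1 : IsOpen ((Subtype.val : S.G0 → Gal(Ω/ℚ)) ⁻¹' (S.pre K.fixingSubgroup : Set Gal(Ω/ℚ))) :=
    (S.isOpen_pre K.fixingSubgroup_isOpen).preimage continuous_subtype_val
  rw [Filter.mem_map]
  exact Filter.mem_of_superset (h1.mem_nhds (S.pre K.fixingSubgroup).one_mem) fun g hg => hKs hg.2

theorem sb_img_eq (H : Subgroup Gal(Ω/ℚ)) : S.img H = (H.subgroupOf S.G0).map S.hom := by
  ext u
  constructor
  · rintro ⟨h, h1, h2, rfl⟩
    exact ⟨⟨h, h2⟩, h1, rfl⟩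
  · rintro ⟨h, h1, rfl⟩
    exact ⟨h, h1, h.2, rfl⟩

theorem continuousOn : ContinuousOn S.α (S.G0 : Set Gal(Ω/ℚ)) :=
  continuousOn_iff_continuous_domRestrict.2 S.sb_continuous_hom

theorem isClosed_img {H : Subgroup Gal(Ω/ℚ)} (h : IsClosed (H : Set Gal(Ω/ℚ))) :
    IsClosed (S.img H : Set Gal(E/F)) := by
  have h1 : IsCompact ((H : Set Gal(Ω/ℚ)) ∩ S.G0) := (h.inter (S.G0.isClosed_of_isOpen S.open0)).isCompact
  have h2 := (h1.image_of_continuousOn (S.continuousOn.mono Set.inter_subset_right)).isClosed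
  have e : (S.img H : Set Gal(E/F)) = S.α '' ((H : Set Gal(Ω/ℚ)) ∩ S.G0) := by
    ext u
    constructor
    · rintro ⟨g, h1, h2, rfl⟩
      exact ⟨g, ⟨h1, h2⟩, rfl⟩
    · rintro ⟨g, ⟨h1, h2⟩, rfl⟩
      exact ⟨g, h1, h2, rfl⟩
  rw [e]
  exact h2

theorem isOpen_img {H : Subgroup Gal(Ω/ℚ)} (h : IsOpen (H : Set Gal(Ω/ℚ))) :
    IsOpen (S.img H : Set Gal(E/F)) := by
  have h1 : IsOpen (S.hom.range : Set Gal(E/F)) := by
    have e : (S.hom.range : Set Gal(E/F)) = S.α '' (S.G0 : Set Gal(Ω/ℚ)) := by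
      ext u
      constructor
      · rintro ⟨g, rfl⟩
        exact ⟨g, g.2, rfl⟩
      · rintro ⟨g, hg, rfl⟩
        exact ⟨⟨g, hg⟩, rfl⟩
    rw [e]
    exact S.img_open
  have h2 : (S.img H).index ≠ 0 := by
    rw [S.sb_img_eq, Subgroup.index_map]
    refine mul_ne_zero ?_ (index_ne_zero_of_isOpen h1)
    exact ne_zero_of_dvd_ne_zero (relIndex_ne_zero_of_isOpen h S.G0) (Subgroup.index_dvd_of_le le_sup_left)
  have : (S.img H).FiniteIndex := ⟨h2⟩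
  exact Subgroup.isOpen_of_isClosed_of_finiteIndex _ (S.isClosed_img (H.isClosed_of_isOpen h))

theorem isClosed_Gam (V : Pl Ω) {H : Subgroup Gal(Ω/ℚ)} (h : IsClosed (H : Set Gal(Ω/ℚ))) :
    IsClosed (S.Gam V H : Set Gal(E/F)) :=
  S.isClosed_img ((isClosed_Dec (F := ℚ) V).inter h)

theorem img_mono {H H' : Subgroup Gal(Ω/ℚ)} (h : H' ≤ H) : S.img H' ≤ S.img H := by
  rintro _ ⟨g, h1, h2, rfl⟩
  exact ⟨g, h h1, h2, rfl⟩

theorem img_le_of_le_pre {H : Subgroup Gal(Ω/ℚ)} {U : Subgroup Gal(E/F)} (h : H ≤ S.pre U) :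
    S.img H ≤ U := by
  rintro _ ⟨g, h1, -, rfl⟩
  exact (h h1).2

theorem pre_le_G0 (U : Subgroup Gal(E/F)) : S.pre U ≤ S.G0 := fun _ h => h.1

theorem relIndex_pre_le {U U' : Subgroup Gal(E/F)} (H : Subgroup Gal(Ω/ℚ)) (hH : H ≤ S.pre U)
    (hi : U'.relIndex U ≠ 0) : (S.pre U').relIndex H ≤ U'.relIndex U := by
  let φ : H →* U :=
    { toFun := fun g => ⟨S.α g, (hH g.2).2⟩
      map_one' := Subtype.ext S.map_one
      map_mul' := fun g h => Subtype.ext (S.mul g (hH g.2).1 h (hH h.2).1) }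
  have e : (S.pre U').subgroupOf H = (U'.subgroupOf U).comap φ := by
    ext g
    exact ⟨fun h => h.2, fun h => ⟨(hH g.2).1, h⟩⟩
  rw [Subgroup.relIndex, e, Subgroup.index_comap]
  have h1 := Subgroup.relIndex_le_of_le_right (H := U'.subgroupOf U) (le_top : φ.range ≤ ⊤)
    (by rw [Subgroup.relIndex_top_right]; exact hi)
  rwa [Subgroup.relIndex_top_right] at h1

theorem locZ_comp {A : Type*} [Zero A] {J : Subgroup Gal(Ω/ℚ)} {U : Subgroup Gal(E/F)}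
    (hJ : J ≤ S.pre U) {κ : Gal(E/F) → A} (hκ : LocZ U κ) : LocZ J (fun g => κ (S.α g)) := by
  obtain ⟨N, hN, h⟩ := hκ
  exact ⟨S.pre N, S.isOpen_pre hN, fun x hx hxN => h _ (hJ hx).2 hxN.2⟩

theorem chom_comp {A : Type*} [Add A] [Zero A] {J : Subgroup Gal(Ω/ℚ)} {U : Subgroup Gal(E/F)}
    (hJ : J ≤ S.pre U) {κ : Gal(E/F) → A} (hκ : CHom U κ) : CHom J (fun g => κ (S.α g)) := by
  refine ⟨fun x hx y hy => ?_, S.locZ_comp hJ hκ.2⟩
  simp only
  rw [S.mul x (hJ hx).1 y (hJ hy).1]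
  exact hκ.1 _ (hJ hx).2 _ (hJ hy).2

theorem zhom_comp {l : ℕ} [Fact l.Prime] {J : Subgroup Gal(Ω/ℚ)} {U : Subgroup Gal(E/F)}
    (hJ : J ≤ S.pre U) {a : Gal(E/F) → ℤ_[l]} (ha : ZHom l U a) : ZHom l J (fun g => a (S.α g)) := by
  refine ⟨fun x hx y hy => ?_, fun k => S.locZ_comp hJ (ha.2 k)⟩
  simp only
  rw [S.mul x (hJ hx).1 y (hJ hy).1]
  exact ha.1 _ (hJ hx).2 _ (hJ hy).2

theorem sb_rel_smul {V : Pl Ω} {W : Pl E} {g : Gal(Ω/ℚ)} (hg : g ∈ S.G0) (h : S.Rel V W) :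
    S.Rel (g • V) (S.α g • W) := by
  intro d hd hd0
  have h1 := h _ (mem_Dec_smul.1 hd) (S.G0.mul_mem (S.G0.mul_mem (S.G0.inv_mem hg) hd0) hg)
  rw [S.mul _ (S.G0.mul_mem (S.G0.inv_mem hg) hd0) _ hg, S.mul _ (S.G0.inv_mem hg) _ hd0, S.map_inv hg] at h1
  exact mem_Dec_smul.2 h1

theorem sb_tl_smul {l : ℕ} {V : Pl Ω} {g : Gal(Ω/ℚ)} (hg : g ∈ S.G0) (h : S.Tl l V) : S.Tl l (g • V) := by
  obtain ⟨h1, U, hU, hU', σ, h2, h3, h4, h5⟩ := h
  refine ⟨h1, U, hU, hU', g * σ * g⁻¹, ?_, S.G0.mul_mem (S.G0.mul_mem hg h3) (S.G0.inv_mem hg), ?_, ?_⟩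
  · rw [mem_Ine_smul]
    simpa [mul_assoc] using h2
  · rw [S.map_conj hg h3]
    intro h6
    apply h4
    simpa [mul_assoc] using hU.conj_mem _ h6 (S.α g)⁻¹
  · rw [S.map_conj hg h3, conj_pow]
    exact hU.conj_mem _ h5 _

theorem rel_smul {V : Pl Ω} {W : Pl E} {g : Gal(Ω/ℚ)} (hg : g ∈ S.G0) :
    S.Rel (g • V) (S.α g • W) ↔ S.Rel V W := by
  refine ⟨fun h => ?_, S.sb_rel_smul hg⟩
  have h1 := S.sb_rel_smul (S.G0.inv_mem hg) h
  rwa [S.map_inv hg, inv_smul_smul, inv_smul_smul] at h1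

theorem tl_smul {l : ℕ} {V : Pl Ω} {g : Gal(Ω/ℚ)} (hg : g ∈ S.G0) : S.Tl l (g • V) ↔ S.Tl l V := by
  refine ⟨fun h => ?_, S.sb_tl_smul hg⟩
  have h1 := S.sb_tl_smul (S.G0.inv_mem hg) h
  rwa [inv_smul_smul] at h1

theorem exc_of_same {l : ℕ} {W W' : Pl E} (h : Same (S.img ⊤) W W') (hW : S.Exc l W) : S.Exc l W' := by
  obtain ⟨_, ⟨g, -, hg, rfl⟩, rfl⟩ := h
  rintro ⟨V, h1, h2⟩
  refine hW ⟨g⁻¹ • V, S.sb_tl_smul (S.G0.inv_mem hg) h1, ?_⟩
  rw [← S.rel_smul hg, smul_inv_smul]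
  exact h2

/-- a `ℤ_[l]`-valued character of `U` that is killed by an open subgroup is zero. -/
theorem _root_.Crest.Agent.R018.eq_zero_of_open {l : ℕ} [Fact l.Prime] {U U' : Subgroup Gal(E/F)}
    (hU' : IsOpen (U' : Set Gal(E/F))) {a : Gal(E/F) → ℤ_[l]} (ha : AHom U a)
    (h0 : ∀ x ∈ U, x ∈ U' → a x = 0) : ∀ x ∈ U, a x = 0 := by
  intro x hx
  obtain ⟨n, hn, -, h1⟩ := Subgroup.exists_pow_mem_of_index_ne_zero (index_ne_zero_of_isOpen hU') x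
  have h2 := h0 _ (U.pow_mem hx n) h1
  rw [sb_map_pow ha hx, nsmul_eq_mul] at h2
  exact (mul_eq_zero.1 h2).resolve_left (Nat.cast_ne_zero.2 hn.ne')

/-- a character of `U` to `ZMod N` killed by a subgroup containing all `m`-th powers, `m` prime to `N`, is zero. -/
theorem _root_.Crest.Agent.R018.eq_zero_of_pow_mem {Γ : Type*} [Group Γ] {N m : ℕ} (hm : m.Coprime N)
    {U : Subgroup Γ} {κ : Γ → ZMod N} (hκ : AHom U κ) (h0 : ∀ x ∈ U, κ (x ^ m) = 0) :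
    ∀ x ∈ U, κ x = 0 := by
  intro x hx
  have h2 := h0 x hx
  rw [sb_map_pow hκ hx, nsmul_eq_mul] at h2
  exact ((ZMod.isUnit_iff_coprime m N).2 hm).mul_right_eq_zero.1 h2

end Setup

section
variable {Γ : Type*} [Group Γ] {A : Type*} [AddCommGroup A] {H H' : Subgroup Γ} {f : Γ → A}

theorem AHom.map_one (h : AHom H f) : f 1 = 0 := sb_map_one h

theorem AHom.map_inv (h : AHom H f) {x : Γ} (hx : x ∈ H) : f x⁻¹ = - f x := by
  have h1 := h x hx x⁻¹ (H.inv_mem hx)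
  rw [mul_inv_cancel, h.map_one] at h1
  exact eq_neg_of_add_eq_zero_right h1.symm

theorem AHom.map_pow (h : AHom H f) {x : Γ} (hx : x ∈ H) (n : ℕ) : f (x ^ n) = n • f x :=
  sb_map_pow h hx n

theorem AHom.map_conj (h : AHom H f) {x y : Γ} (hx : x ∈ H) (hy : y ∈ H) : f (x * y * x⁻¹) = f y := by
  rw [h _ (H.mul_mem hx hy) _ (H.inv_mem hx), h _ hx _ hy, h.map_inv hx]
  abel

theorem AHom.mono (h : AHom H f) (hle : H' ≤ H) : AHom H' f :=
  fun x hx y hy => h x (hle hx) y (hle hy)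

/-- the kernel as a subgroup. -/
theorem AHom.exists_ker (h : AHom H f) : ∃ K : Subgroup Γ, ∀ x, x ∈ K ↔ x ∈ H ∧ f x = 0 :=
  ⟨{ carrier := {x | x ∈ H ∧ f x = 0}
     one_mem' := ⟨H.one_mem, h.map_one⟩
     mul_mem' := fun ha hb => ⟨H.mul_mem ha.1 hb.1, by rw [h _ ha.1 _ hb.1, ha.2, hb.2, add_zero]⟩
     inv_mem' := fun ha => ⟨H.inv_mem ha.1, by rw [h.map_inv ha.1, ha.2, neg_zero]⟩ }, fun _ => Iff.rfl⟩

theorem MHom.exists_ker {B : Type*} [Monoid B] {ε : Γ → B} (h : MHom H ε) :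
    ∃ K : Subgroup Γ, ∀ x, x ∈ K ↔ x ∈ H ∧ ε x = 1 :=
  ⟨{ carrier := {x | x ∈ H ∧ ε x = 1}
     one_mem' := ⟨H.one_mem, h.1⟩
     mul_mem' := fun ha hb => ⟨H.mul_mem ha.1 hb.1, by rw [h.2 _ ha.1 _ hb.1, ha.2, hb.2, mul_one]⟩
     inv_mem' := fun {a} ha => ⟨H.inv_mem ha.1, by
       have h1 := h.2 a ha.1 a⁻¹ (H.inv_mem ha.1)
       rw [mul_inv_cancel, h.1, ha.2, one_mul] at h1
       exact h1.symm⟩ }, fun _ => Iff.rfl⟩

variable [TopologicalSpace Γ]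

theorem LocZ.mono (h : LocZ H f) (hle : H' ≤ H) : LocZ H' f := by
  obtain ⟨N, hN, h⟩ := h
  exact ⟨N, hN, fun x hx => h x (hle hx)⟩

theorem CHom.mono (h : CHom H f) (hle : H' ≤ H) : CHom H' f := ⟨h.1.mono hle, h.2.mono hle⟩

theorem ZHom.mono {l : ℕ} [Fact l.Prime] {a : Γ → ℤ_[l]} (h : ZHom l H a) (hle : H' ≤ H) :
    ZHom l H' a := ⟨h.1.mono hle, fun k => (h.2 k).mono hle⟩

theorem ZHom.chom {l : ℕ} [Fact l.Prime] {a : Γ → ℤ_[l]} (h : ZHom l H a) (k : ℕ) :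
    CHom H (fun x => PadicInt.toZModPow k (a x)) := by
  refine ⟨fun x hx y hy => ?_, h.2 k⟩
  simp only
  rw [h.1 x hx y hy, map_add]

theorem ZHom.sub {l : ℕ} [Fact l.Prime] {a b : Γ → ℤ_[l]} (ha : ZHom l H a) (hb : ZHom l H b) :
    ZHom l H (fun x => a x - b x) := by
  refine ⟨fun x hx y hy => ?_, fun k => ?_⟩
  · simp only
    rw [ha.1 x hx y hy, hb.1 x hx y hy]
    ring
  · obtain ⟨N, hN, h1⟩ := ha.2 k
    obtain ⟨N', hN', h2⟩ := hb.2 k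
    refine ⟨N ⊓ N', hN.inter hN', fun x hx hxN => ?_⟩
    have h3 := h1 x hx hxN.1
    have h4 := h2 x hx hxN.2
    simp only at h3 h4 ⊢
    rw [map_sub, h3, h4, sub_zero]

end

end Crest.Agent.R018
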