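import Crest.Agent.R018.DivB
import Crest.Agent.R018.FDT
import Crest.Agent.R018.SetupB

/-!
# R018 / Art

API of the Artin map `art`.  For `a ∈ DivP H 1` the `finsum` has finite support (finitely many orbits) and `expo` is additive on `valGrp`.
`art_bas`: `O.out = h • W`, `frob H (h • W) ≡ h (frob H W) h⁻¹ mod Ine` (`IsFrob.smul`, `IsFrob.inv_mul_mem_Ine` with `f = 1`).
Identities on `DivP` are proved by closure induction (`Subgroup.closure_induction`) from the case of `bas`.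
`art_surj`: `fdt'` with `U' = H ⊓ N` and `B` containing the primes below `π`; `IsFrob.exists_pow`.
-/

set_option autoImplicit false
set_option linter.unusedSectionVars false

noncomputable section

namespace Crest.Agent.R018

open scoped NNReal Classical

variable {F E : Type*} [Field F] [NumberField F] [Field E] [CharZero E] [Algebra F E]
  [IsGalois F E]
variable {A : Type*} [AddCommGroup A] {H H' : Subgroup Gal(E/F)} {π : E} {χ : Gal(E/F) → A}

theorem art_expo_one (hH : IsOpen (H : Set Gal(E/F))) (W : Pl E) : expo H W 1 = 0 := by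
  have := expo_zpow hH W 0
  rwa [zpow_zero] at this

theorem art_expo_mul (hH : IsOpen (H : Set Gal(E/F))) {W : Pl E} {t t' : ℝ≥0ˣ}
    (ht : t ∈ valGrp H W) (ht' : t' ∈ valGrp H W) :
    expo H W (t * t') = expo H W t + expo H W t' := by
  have := expo_zpow hH W (expo H W t + expo H W t')
  rwa [zpow_add, unif_zpow_expo hH ht, unif_zpow_expo hH ht'] at this

theorem art_mk_eq {W : Pl E} {O : MulAction.orbitRel.Quotient H (Pl E)} :
    Same H W O.out ↔ O = Quotient.mk'' W := by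
  constructor
  · rintro ⟨g, hg, h⟩
    rw [← Quotient.out_eq' O]
    refine Quotient.sound' ?_
    exact ⟨⟨g, hg⟩, h⟩
  · intro h
    have h1 : (Quotient.mk'' O.out : MulAction.orbitRel.Quotient H (Pl E)) = Quotient.mk'' W := by
      rw [Quotient.out_eq' O, h]
    obtain ⟨g, hg⟩ := Quotient.exact' h1
    exact ⟨g, g.2, hg⟩

theorem art_supp (hH : IsOpen (H : Set Gal(E/F))) (χ : Gal(E/F) → A) {a : Dv E}
    (ha : a ∈ DivP H 1) : Function.HasFiniteSupport
      (fun O : MulAction.orbitRel.Quotient H (Pl E) =>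
        expo H O.out (a O.out) • χ (frob H O.out)) := by
  obtain ⟨-, -, -, B, hB⟩ := (mem_DivP_iff hH (one_mem _)).1 ha
  obtain ⟨s, -, -, -, hs⟩ := exists_orbit_reps_finset hH B
  refine Set.Finite.subset (s.finite_toSet.image
    (fun W => (Quotient.mk'' W : MulAction.orbitRel.Quotient H (Pl E)))) ?_
  intro O hO
  by_cases hp : O.out.p ∈ B
  · obtain ⟨W, hW, h⟩ := hs _ hp
    exact ⟨W, hW, (art_mk_eq.1 h).symm⟩
  · exfalso
    apply hO
    simp only [hB _ hp, art_expo_one hH, zero_smul]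

theorem art_mul (hH : IsOpen (H : Set Gal(E/F))) (χ : Gal(E/F) → A) {a b : Dv E} (ha : a ∈ DivP H 1)
    (hb : b ∈ DivP H 1) : art H χ (a * b) = art H χ a + art H χ b := by
  have h1 := ((mem_DivP_iff hH (one_mem _)).1 ha).2.1
  have h2 := ((mem_DivP_iff hH (one_mem _)).1 hb).2.1
  unfold art
  rw [← finsum_add_distrib (art_supp hH χ ha) (art_supp hH χ hb)]
  refine finsum_congr fun O => ?_
  rw [Dv.mul_apply, art_expo_mul hH (h1 _) (h2 _), add_smul]

theorem art_one (hH : IsOpen (H : Set Gal(E/F))) (χ : Gal(E/F) → A) : art H χ 1 = 0 := by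
  unfold art
  refine finsum_eq_zero_of_forall_eq_zero fun O => ?_
  rw [Dv.one_apply, art_expo_one hH, zero_smul]

/-- the Artin map as a homomorphism. -/
def artHom (hH : IsOpen (H : Set Gal(E/F))) (χ : Gal(E/F) → A) (π : E) :
    DivP H π →* Multiplicative A where
  toFun a := Multiplicative.ofAdd (art H χ a)
  map_one' := by
    change Multiplicative.ofAdd (art H χ 1) = 1
    rw [art_one hH, ofAdd_zero]
  map_mul' a b := by
    change Multiplicative.ofAdd (art H χ (a * b)) = _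
    rw [art_mul hH χ (DivP_le_one a.2) (DivP_le_one b.2), ofAdd_add]

theorem art_inv (hH : IsOpen (H : Set Gal(E/F))) (χ : Gal(E/F) → A) {a : Dv E}
    (ha : a ∈ DivP H 1) : art H χ a⁻¹ = - art H χ a := by
  have := art_mul hH χ (inv_mem ha) ha
  rw [inv_mul_cancel, art_one hH] at this
  exact eq_neg_of_add_eq_zero_left this.symm

theorem art_zpow (hH : IsOpen (H : Set Gal(E/F))) (χ : Gal(E/F) → A) {a : Dv E} (ha : a ∈ DivP H 1)
    (n : ℤ) : art H χ (a ^ n) = n • art H χ a := by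
  have := congrArg Multiplicative.toAdd (map_zpow (artHom hH χ 1) ⟨a, ha⟩ n)
  rw [toAdd_zpow] at this
  exact this

theorem art_pow (hH : IsOpen (H : Set Gal(E/F))) (χ : Gal(E/F) → A) {a : Dv E} (ha : a ∈ DivP H 1)
    (n : ℕ) : art H χ (a ^ n) = n • art H χ a := by
  rw [← zpow_natCast, art_zpow hH χ ha, natCast_zsmul]

theorem art_prod (hH : IsOpen (H : Set Gal(E/F))) (χ : Gal(E/F) → A) {ι : Type*} (s : Finset ι)
    {a : ι → Dv E} (ha : ∀ i ∈ s, a i ∈ DivP H 1) :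
    art H χ (∏ i ∈ s, a i) = ∑ i ∈ s, art H χ (a i) := by
  induction s using Finset.induction_on with
  | empty => rw [Finset.prod_empty, Finset.sum_empty, art_one hH]
  | insert j s hj ih =>
    have h1 : ∀ i ∈ s, a i ∈ DivP H 1 := fun i hi => ha i (Finset.mem_insert_of_mem hi)
    rw [Finset.prod_insert hj, Finset.sum_insert hj,
      art_mul hH χ (ha j (Finset.mem_insert_self _ _)) (prod_mem h1), ih h1]

theorem AHom.eq_of_isFrob (hχ : AHom H χ) {W : Pl E} (hW : ∀ τ ∈ Ine F W, τ ∈ H → χ τ = 0)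
    {φ φ' : Gal(E/F)} (hle : H' ≤ H) (h : IsFrob H W φ) (h' : IsFrob H' W φ') {f : ℕ}
    (hq : resCard H' W = resCard H W ^ f) : χ φ' = f • χ φ := by
  have h1 := h.inv_mul_mem_Ine h' hq
  have h2 : φ ^ f ∈ H := pow_mem h.1 f
  have h3 : (φ ^ f)⁻¹ * φ' ∈ H := mul_mem (inv_mem h2) (hle h'.1)
  have h4 := hχ _ h2 _ h3
  rw [mul_inv_cancel_left, hW _ h1 h3, add_zero, hχ.map_pow h.1] at h4
  exact h4

theorem art_conj_iff {h : Gal(E/F)} (hh : h ∈ H) (x : Gal(E/F)) : x ∈ H ↔ h * x * h⁻¹ ∈ H := by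
  rw [H.mul_mem_cancel_right (H.inv_mem hh), H.mul_mem_cancel_left hh]

theorem art_bas (hH : IsOpen (H : Set Gal(E/F))) (hχ : AHom H χ) {W : Pl E}
    (hW : ∀ τ ∈ Ine F W, τ ∈ H → χ τ = 0) : art H χ (bas H W) = χ (frob H W) := by
  unfold art
  rw [finsum_eq_single _ (Quotient.mk'' W : MulAction.orbitRel.Quotient H (Pl E))]
  · have hs : Same H W (Quotient.mk'' W : MulAction.orbitRel.Quotient H (Pl E)).out :=
      art_mk_eq.2 rfl
    generalize (Quotient.mk'' W : MulAction.orbitRel.Quotient H (Pl E)).out = W' at hs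
    have h1 : expo H W' (bas H W W') = 1 := by
      have := expo_zpow hH W' 1
      rwa [zpow_one, ← unif_same hs, ← if_pos (c := Same H W W') hs (t := unif H W) (e := 1)]
        at this
    rw [h1, one_smul]
    obtain ⟨g, hg, rfl⟩ := hs
    have h2 := (frob_spec hH W).smul (art_conj_iff hg)
    have h3 : ∀ τ ∈ Ine F (g • W), τ ∈ H → χ τ = 0 := by
      intro τ hτ hτH
      have h4 := hχ.map_conj (H.inv_mem hg) hτH
      rw [inv_inv] at h4
      rw [← h4]
      exact hW _ (mem_Ine_smul.1 hτ) (mul_mem (mul_mem (inv_mem hg) hτH) hg)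
    rw [hχ.eq_of_isFrob h3 le_rfl h2 (frob_spec hH _) (pow_one _).symm, one_smul,
      hχ.map_conj hg (frob_spec hH W).1]
  · intro O hO
    have : ¬ Same H W O.out := fun h => hO (art_mk_eq.1 h)
    rw [bas, if_neg this, art_expo_one hH, zero_smul]

theorem art_map (hH : IsOpen (H : Set Gal(E/F))) {A' : Type*} [AddCommGroup A'] (ψ : A →+ A')
    (χ : Gal(E/F) → A) {a : Dv E} (ha : a ∈ DivP H 1) :
    art H (fun g => ψ (χ g)) a = ψ (art H χ a) := by
  unfold art
  rw [map_finsum ψ (art_supp hH χ ha)]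
  refine finsum_congr fun O => ?_
  rw [map_zsmul]

theorem art_sum (hH : IsOpen (H : Set Gal(E/F))) {ι : Type*} (s : Finset ι) (χ : ι → Gal(E/F) → A)
    {a : Dv E} (ha : a ∈ DivP H 1) :
    art H (fun g => ∑ i ∈ s, χ i g) a = ∑ i ∈ s, art H (χ i) a := by
  have h1 := art_map hH (∑ i ∈ s, Pi.evalAddMonoidHom (fun _ : ι => A) i)
    (fun g i => χ i g) ha
  simp only [AddMonoidHom.finsetSum_apply, Pi.evalAddMonoidHom_apply] at h1
  rw [h1]
  refine Finset.sum_congr rfl fun i _ => ?_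
  exact (art_map hH (Pi.evalAddMonoidHom (fun _ : ι => A) i) (fun g i => χ i g) ha).symm

theorem art_nm (hH' : IsOpen (H' : Set Gal(E/F))) (hle : H' ≤ H) (hχ : AHom H χ)
    (hu : ∀ W : Pl E, ¬ W.v π < 1 → ∀ τ ∈ Ine F W, τ ∈ H → χ τ = 0) {a : Dv E} (ha : a ∈ DivP H' π) :
    art H χ (nm (Dv E) H H' a) = art H' χ a := by
  have hH := Subgroup.isOpen_mono hle hH'
  have hn : ∀ b ∈ DivP H' π, nm (Dv E) H H' b ∈ DivP H 1 := fun b hb =>
    DivP_le_one (NDiv_le_DivP hH' hle ⟨b, hb, rfl⟩)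
  induction ha using Subgroup.closure_induction with
  | mem a ha =>
    obtain ⟨W, hW, rfl⟩ := ha
    obtain ⟨f, -, hq, hf⟩ := nm_bas hH' hle W
    rw [hf, art_pow hH χ (DivP_le_one (bas_mem_DivP hW)), art_bas hH hχ (hu W hW),
      art_bas hH' (hχ.mono hle) (fun τ hτ hτ' => hu W hW τ hτ (hle hτ')),
      hχ.eq_of_isFrob (hu W hW) hle (frob_spec hH W) (frob_spec hH' W) hq]
  | one => rw [map_one, art_one hH, art_one hH']
  | mul a b ha hb iha ihb =>
    rw [map_mul, art_mul hH χ (hn a ha) (hn b hb), iha, ihb,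
      art_mul hH' χ (DivP_le_one ha) (DivP_le_one hb)]
  | inv a ha iha =>
    rw [map_inv, art_inv hH χ (hn a ha), iha, art_inv hH' χ (DivP_le_one ha)]

theorem art_conj (hH : IsOpen (H : Set Gal(E/F))) [H.Normal] (hχ : AHom H χ) {t : Gal(E/F)}
    (ht : t π = π) (hu : ∀ W : Pl E, ¬ W.v π < 1 → ∀ τ ∈ Ine F W, τ ∈ H → χ τ = 0) {a : Dv E}
    (ha : a ∈ DivP H π) : art H (fun g => χ (t * g * t⁻¹)) a = art H χ (t • a) := by
  have hN : H.Normal := inferInstance
  have hg : ∀ x, x ∈ H ↔ t * x * t⁻¹ ∈ H := by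
    intro x
    refine ⟨fun hx => hN.conj_mem x hx t, fun hx => ?_⟩
    have := hN.conj_mem _ hx t⁻¹
    simpa [mul_assoc] using this
  have hn : ∀ b ∈ DivP H π, t • b ∈ DivP H 1 := fun b hb => DivP_le_one (smul_mem_DivP hg ht hb)
  have hχ' : AHom H (fun g => χ (t * g * t⁻¹)) := by
    intro x hx y hy
    have := hχ _ ((hg x).1 hx) _ ((hg y).1 hy)
    rw [← this]
    group
  induction ha using Subgroup.closure_induction with
  | mem a ha =>
    obtain ⟨W, hW, rfl⟩ := ha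
    have hW' : ¬ (t • W).v π < 1 := by
      rw [Pl.smul_v, ← ht]
      simpa using hW
    rw [smul_bas hg, art_bas hH hχ (hu _ hW'), art_bas hH hχ', hχ.eq_of_isFrob (hu _ hW') le_rfl
      ((frob_spec hH W).smul hg) (frob_spec hH _) (pow_one _).symm, one_smul]
    intro τ hτ hτH
    refine hu _ hW' _ (mem_Ine_smul.2 ?_) ((hg τ).1 hτH)
    simpa [mul_assoc] using hτ
  | one => rw [smul_one, art_one hH, art_one hH]
  | mul a b ha hb iha ihb =>
    rw [smul_mul', art_mul hH χ (hn a ha) (hn b hb), ← iha, ← ihb,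
      art_mul hH _ (DivP_le_one ha) (DivP_le_one hb)]
  | inv a ha iha =>
    rw [smul_inv', art_inv hH χ (hn a ha), ← iha, art_inv hH _ (DivP_le_one ha)]

theorem art_surj (hH : IsOpen (H : Set Gal(E/F))) (hχ : CHom H χ) (h0 : π ≠ 0)
    (hu : ∀ W : Pl E, ¬ W.v π < 1 → ∀ τ ∈ Ine F W, τ ∈ H → χ τ = 0) {g : Gal(E/F)} (hg : g ∈ H) :
    ∃ a ∈ DivP H π, art H χ a = χ g := by
  have := isAlgebraic_rat F E
  obtain ⟨hA, N, hN, hN0⟩ := hχ
  obtain ⟨B, hB⟩ := finite_p_v_ne_one h0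
  obtain ⟨W, hWB, -, -, δ, hδ, hgδ⟩ := fdt' (isOpen_inf hH hN) g B
  have hW : ¬ W.v π < 1 := by rw [hB W hWB]; exact lt_irrefl _
  have hδH : δ ∈ H := by
    have := mul_mem hg hgδ.1
    rwa [mul_inv_cancel_left] at this
  have h1 : χ δ = χ g := by
    have := hA _ hg _ hgδ.1
    rwa [mul_inv_cancel_left, hN0 _ hgδ.1 hgδ.2, add_zero] at this
  have hφ := frob_spec hH W
  obtain ⟨m, τ, hτ, hτH, hm⟩ := hφ.exists_pow hH hδ hδH hN
  have h2 : frob H W ^ m * τ ∈ H := mul_mem (pow_mem hφ.1 m) hτH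
  have h3 : (frob H W ^ m * τ)⁻¹ * δ ∈ H := mul_mem (inv_mem h2) hδH
  have h4 := hA _ h2 _ h3
  rw [mul_inv_cancel_left, hN0 _ h3 hm, add_zero, hA _ (pow_mem hφ.1 m) _ hτH, hu W hW τ hτ hτH,
    add_zero, hA.map_pow hφ.1] at h4
  refine ⟨bas H W ^ m, pow_mem (bas_mem_DivP hW) m, ?_⟩
  rw [art_pow hH χ (DivP_le_one (bas_mem_DivP hW)), art_bas hH hA (hu W hW), ← h4, h1]

/-- two characters at once: the pair of values is attained on one group element. -/
theorem exists_art_eq (hH : IsOpen (H : Set Gal(E/F))) {A' : Type*} [AddCommGroup A']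
    {χ' : Gal(E/F) → A'} (hχ : AHom H χ) (hχ' : AHom H χ')
    (hu : ∀ W : Pl E, ¬ W.v π < 1 → ∀ τ ∈ Ine F W, τ ∈ H → χ τ = 0)
    (hu' : ∀ W : Pl E, ¬ W.v π < 1 → ∀ τ ∈ Ine F W, τ ∈ H → χ' τ = 0) {a : Dv E} (ha : a ∈ DivP H π) :
    ∃ g ∈ H, art H χ a = χ g ∧ art H χ' a = χ' g := by
  induction ha using Subgroup.closure_induction with
  | mem a ha =>
    obtain ⟨W, hW, rfl⟩ := ha
    exact ⟨frob H W, (frob_spec hH W).1, art_bas hH hχ (hu W hW), art_bas hH hχ' (hu' W hW)⟩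
  | one => exact ⟨1, one_mem _, by rw [art_one hH, hχ.map_one], by rw [art_one hH, hχ'.map_one]⟩
  | mul a b ha hb iha ihb =>
    obtain ⟨g, hg, h1, h2⟩ := iha
    obtain ⟨g', hg', h1', h2'⟩ := ihb
    refine ⟨g * g', mul_mem hg hg', ?_, ?_⟩
    · rw [art_mul hH _ (DivP_le_one ha) (DivP_le_one hb), h1, h1', hχ _ hg _ hg']
    · rw [art_mul hH _ (DivP_le_one ha) (DivP_le_one hb), h2, h2', hχ' _ hg _ hg']
  | inv a ha iha =>
    obtain ⟨g, hg, h1, h2⟩ := iha
    refine ⟨g⁻¹, inv_mem hg, ?_, ?_⟩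
    · rw [art_inv hH _ (DivP_le_one ha), h1, hχ.map_inv hg]
    · rw [art_inv hH _ (DivP_le_one ha), h2, hχ'.map_inv hg]

/-- the index of the kernel of the Artin map is the order of the image of `χ`. -/
theorem exists_artKer {σ : Gal(E/F)} {n : ℕ} (h : CycExt H H' σ n) (hχ : AHom H χ)
    (hker : ∀ x ∈ H, (χ x = 0 ↔ x ∈ H')) (h0 : π ≠ 0) (hu : Unram H H' π) :
    ∃ K : Subgroup (Dv E), (∀ a, a ∈ K ↔ a ∈ DivP H π ∧ art H χ a = 0) ∧ K.relIndex (DivP H π) = n := by
  have hH := h.isOpen_top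
  have hu' : ∀ W : Pl E, ¬ W.v π < 1 → ∀ τ ∈ Ine F W, τ ∈ H → χ τ = 0 :=
    fun W hW τ hτ hτH => (hker τ hτH).2 (hu W hW ⟨hτ, hτH⟩)
  have hc : CHom H χ := ⟨hχ, H', h.isOpen, fun x hx hx' => (hker x hx).2 hx'⟩
  let ψ : H →* Multiplicative A :=
    { toFun := fun g => Multiplicative.ofAdd (χ g)
      map_one' := by
        change Multiplicative.ofAdd (χ 1) = 1
        rw [hχ.map_one, ofAdd_zero]
      map_mul' := fun a b => by
        change Multiplicative.ofAdd (χ (a * b)) = _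
        rw [hχ _ a.2 _ b.2, ofAdd_add] }
  have hψ : H'.subgroupOf H = ψ.ker := by
    ext x
    rw [Subgroup.mem_subgroupOf, MonoidHom.mem_ker, ← hker x x.2]
    exact Iff.rfl
  have hr : (artHom hH χ π).range = ψ.range := by
    ext y
    constructor
    · rintro ⟨a, rfl⟩
      obtain ⟨g, hg, h1, -⟩ := exists_art_eq hH hχ hχ hu' hu' a.2
      exact ⟨⟨g, hg⟩, congrArg Multiplicative.ofAdd h1.symm⟩
    · rintro ⟨g, rfl⟩
      obtain ⟨a, ha, h1⟩ := art_surj hH hc h0 hu' g.2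
      exact ⟨⟨a, ha⟩, congrArg Multiplicative.ofAdd h1⟩
  refine ⟨(artHom hH χ π).ker.map (DivP H π).subtype, fun a => ?_, ?_⟩
  · constructor
    · rintro ⟨b, hb, rfl⟩
      exact ⟨b.2, hb⟩
    · rintro ⟨ha, h1⟩
      exact ⟨⟨a, ha⟩, h1, rfl⟩
  · rw [Subgroup.relIndex, Subgroup.subgroupOf,
      Subgroup.comap_map_eq_self_of_injective (DivP H π).subtype_injective, Subgroup.index_ker, hr,
      ← Subgroup.index_ker, ← hψ]
    exact h.idx

end Crest.Agent.R018
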