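import Crest.Agent.R018.CycB

/-!
# R018 / Nm

API of the norm `nm` and of `CycExt`.
-/

set_option autoImplicit false
set_option linter.unusedSectionVars false

noncomputable section

namespace Crest.Agent.R018

open scoped NNReal Classical

variable {F E : Type*} [Field F] [NumberField F] [Field E] [CharZero E] [Algebra F E]
  [IsGalois F E]
variable {M : Type*} [CommGroup M] [MulDistribMulAction Gal(E/F) M] {H H' H'' : Subgroup Gal(E/F)}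

theorem nm_apply [Fintype (H ⧸ H'.subgroupOf H)] (x : M) :
    nm M H H' x = ∏ q : H ⧸ H'.subgroupOf H, ((q.out : H) : Gal(E/F)) • x := by
  rw [nm, finprod_eq_prod_of_fintype, MonoidHom.finsetProd_apply]
  rfl

theorem nm_bij {ι : Type*} (s : Finset ι) (t : ι → Gal(E/F)) (hs : ∀ i ∈ s, t i ∈ H)
    (hs' : ∀ h ∈ H, ∃! i, i ∈ s ∧ (t i)⁻¹ * h ∈ H') :
    Function.Bijective fun i : s => ((⟨t i, hs i i.2⟩ : H) : H ⧸ H'.subgroupOf H) := by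
  constructor
  · intro i j hij
    have h1 : (t i)⁻¹ * t j ∈ H' := (QuotientGroup.eq (s := H'.subgroupOf H)).1 hij
    exact Subtype.ext ((hs' _ (hs j j.2)).unique ⟨i.2, h1⟩ ⟨j.2, by simp⟩)
  · intro q
    obtain ⟨h, rfl⟩ := QuotientGroup.mk_surjective q
    obtain ⟨i, ⟨hi, hi'⟩, -⟩ := hs' h h.2
    exact ⟨⟨i, hi⟩, QuotientGroup.eq.2 hi'⟩

theorem nm_card {ι : Type*} (s : Finset ι) (t : ι → Gal(E/F)) (hs : ∀ i ∈ s, t i ∈ H)
    (hs' : ∀ h ∈ H, ∃! i, i ∈ s ∧ (t i)⁻¹ * h ∈ H') : s.card = H'.relIndex H := by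
  rw [← Fintype.card_coe, ← Nat.card_eq_fintype_card]
  exact Nat.card_eq_of_bijective _ (nm_bij s t hs hs')

/-- indexed version of `nm_eq_prod`. -/
theorem nm_eq_prod' {ι : Type*} (s : Finset ι) (t : ι → Gal(E/F)) (hs : ∀ i ∈ s, t i ∈ H)
    (hs' : ∀ h ∈ H, ∃! i, i ∈ s ∧ (t i)⁻¹ * h ∈ H') {x : M} (hx : ∀ g ∈ H', g • x = x) :
    nm M H H' x = ∏ i ∈ s, t i • x := by
  have hb := nm_bij s t hs hs'
  have : Finite (H ⧸ H'.subgroupOf H) := Finite.of_surjective _ hb.2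
  let := Fintype.ofFinite (H ⧸ H'.subgroupOf H)
  rw [nm_apply, ← Finset.prod_coe_sort s]
  refine (Fintype.prod_bijective _ hb _ _ fun i => ?_).symm
  obtain ⟨k, hk⟩ := QuotientGroup.mk_out_eq_mul (H'.subgroupOf H) (⟨t i, hs i i.2⟩ : H)
  rw [hk, Subgroup.coe_mul, mul_smul, hx ((k : H) : Gal(E/F)) k.2]

theorem nm_finite (hi : H'.relIndex H ≠ 0) : Finite (H ⧸ H'.subgroupOf H) :=
  Nat.finite_of_card_ne_zero hi

theorem nm_mem_LU_iff {x : Eˣ} : x ∈ LU H ↔ ∀ g ∈ H, g • x = x := by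
  rw [mem_LU, mem_L]
  exact forall₂_congr fun g _ => by rw [Units.ext_iff, coe_smul_units]

/-- the norm can be computed with any system `s` of representatives of `H / H'`. -/
theorem nm_eq_prod (s : Finset Gal(E/F)) (hs : ∀ t ∈ s, t ∈ H)
    (hs' : ∀ h ∈ H, ∃! t, t ∈ s ∧ t⁻¹ * h ∈ H') {x : M} (hx : ∀ g ∈ H', g • x = x) :
    nm M H H' x = ∏ t ∈ s, t • x :=
  nm_eq_prod' s id hs hs' hx

theorem exists_reps (hi : H'.relIndex H ≠ 0) : ∃ s : Finset Gal(E/F), 1 ∈ s ∧ (∀ t ∈ s, t ∈ H) ∧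
    (∀ h ∈ H, ∃! t, t ∈ s ∧ t⁻¹ * h ∈ H') ∧ s.card = H'.relIndex H := by
  have := nm_finite hi
  let := Fintype.ofFinite (H ⧸ H'.subgroupOf H)
  let r : H ⧸ H'.subgroupOf H → H := fun q => if q = ((1 : H) : H ⧸ H'.subgroupOf H) then 1 else q.out
  have hr : ∀ q, ((r q : H) : H ⧸ H'.subgroupOf H) = q := fun q => by
    simp only [r]
    split_ifs with hq
    · exact hq.symm
    · exact q.out_eq
  have h1 : ∀ t ∈ Finset.univ.image fun q => (r q : Gal(E/F)), t ∈ H := fun t ht => by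
    obtain ⟨q, -, rfl⟩ := Finset.mem_image.1 ht
    exact (r q).2
  have h2 : ∀ h ∈ H, ∃! t, (t ∈ Finset.univ.image fun q => (r q : Gal(E/F))) ∧ t⁻¹ * h ∈ H' := by
    intro h hh
    refine ⟨r ((⟨h, hh⟩ : H) : H ⧸ H'.subgroupOf H), ⟨Finset.mem_image_of_mem _ (Finset.mem_univ _),
      (QuotientGroup.eq (s := H'.subgroupOf H)).1 (hr ((⟨h, hh⟩ : H) : H ⧸ H'.subgroupOf H))⟩, ?_⟩
    rintro t ⟨ht, ht'⟩
    obtain ⟨q, -, rfl⟩ := Finset.mem_image.1 ht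
    have : ((r q : H) : H ⧸ H'.subgroupOf H) = ((⟨h, hh⟩ : H) : H ⧸ H'.subgroupOf H) :=
      QuotientGroup.eq.2 ht'
    rw [← this, hr]
  refine ⟨_, Finset.mem_image.2 ⟨((1 : H) : H ⧸ H'.subgroupOf H), Finset.mem_univ _, ?_⟩, h1, h2,
    nm_card _ id h1 h2⟩
  simp [r]

theorem smul_nm (hi : H'.relIndex H ≠ 0) {x : M} (hx : ∀ g ∈ H', g • x = x) {h : Gal(E/F)}
    (hh : h ∈ H) : h • nm M H H' x = nm M H H' x := by
  obtain ⟨s, -, hs, hs', -⟩ := exists_reps hi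
  have h2 := nm_eq_prod' s (fun t => h * t) (fun t ht => H.mul_mem hh (hs t ht))
    (fun g hg => by simpa only [mul_inv_rev, mul_assoc] using hs' _ (H.mul_mem (H.inv_mem hh) hg)) hx
  conv_rhs => rw [h2]
  rw [nm_eq_prod s hs hs' hx, Finset.smul_prod']
  simp only [mul_smul]

theorem nm_of_fixed (hi : H'.relIndex H ≠ 0) {x : M} (hx : ∀ g ∈ H, g • x = x) :
    nm M H H' x = x ^ H'.relIndex H := by
  have := nm_finite hi
  let := Fintype.ofFinite (H ⧸ H'.subgroupOf H)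
  rw [nm_apply, Finset.prod_congr rfl fun q _ => hx _ (Quotient.out q).2, Finset.prod_const,
    Finset.card_univ, ← Nat.card_eq_fintype_card]
  rfl

theorem nm_trans (h1 : H'' ≤ H') (h2 : H' ≤ H) (hi : H''.relIndex H ≠ 0) {x : M}
    (hx : ∀ g ∈ H'', g • x = x) : nm M H H' (nm M H' H'' x) = nm M H H'' x := by
  have hm := Subgroup.relIndex_mul_relIndex H'' H' H h1 h2
  have i1 : H''.relIndex H' ≠ 0 := left_ne_zero_of_mul (hm ▸ hi)
  have i2 : H'.relIndex H ≠ 0 := right_ne_zero_of_mul (hm ▸ hi)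
  obtain ⟨s, -, hs, hs', -⟩ := exists_reps i2
  obtain ⟨u, -, hu, hu', -⟩ := exists_reps i1
  rw [nm_eq_prod s hs hs' fun g hg => smul_nm i1 hx hg, nm_eq_prod u hu hu' hx,
    nm_eq_prod' (s ×ˢ u) (fun p => p.1 * p.2) (fun p hp => H.mul_mem
      (hs _ (Finset.mem_product.1 hp).1) (h2 (hu _ (Finset.mem_product.1 hp).2))) ?_ hx,
    Finset.prod_product]
  · simp only [Finset.smul_prod', mul_smul]
  · intro h hh
    obtain ⟨t, ⟨ht, ht'⟩, htu⟩ := hs' h hh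
    obtain ⟨v, ⟨hv, hv'⟩, hvu⟩ := hu' _ ht'
    refine ⟨(t, v), ⟨Finset.mem_product.2 ⟨ht, hv⟩, by simpa only [mul_inv_rev, mul_assoc] using hv'⟩,
      ?_⟩
    rintro ⟨t', v'⟩ ⟨hp, hp'⟩
    obtain ⟨ht1, hv1⟩ := Finset.mem_product.1 hp
    simp only [mul_inv_rev, mul_assoc] at hp' ht1 hv1
    have e : t' = t := htu t' ⟨ht1, (H'.mul_mem_cancel_left (H'.inv_mem (hu _ hv1))).1 (h1 hp')⟩
    subst e
    rw [hvu v' ⟨hv1, hp'⟩]

/-- base change of the norm when `H1 H' = H`. -/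
theorem nm_inf {H1 : Subgroup Gal(E/F)} (h1 : H1 ≤ H) (hi : H'.relIndex H ≠ 0)
    (hgen : ∀ h ∈ H, ∃ t ∈ H1, t⁻¹ * h ∈ H') {x : M} (hx : ∀ g ∈ H', g • x = x) :
    nm M H1 (H1 ⊓ H') x = nm M H H' x := by
  have i1 : (H1 ⊓ H').relIndex H1 ≠ 0 := by
    rw [Subgroup.inf_relIndex_left]
    exact fun h0 => hi (Subgroup.relIndex_eq_zero_of_le_right h1 h0)
  obtain ⟨s, -, hs, hs', -⟩ := exists_reps i1
  rw [nm_eq_prod s hs hs' fun g hg => hx g hg.2, nm_eq_prod s (fun t ht => h1 (hs t ht)) ?_ hx]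
  intro h hh
  obtain ⟨t0, ht0, ht0'⟩ := hgen h hh
  obtain ⟨t, ⟨ht, ht'⟩, htu⟩ := hs' t0 ht0
  refine ⟨t, ⟨ht, by simpa [mul_assoc] using H'.mul_mem ht'.2 ht0'⟩, ?_⟩
  rintro t' ⟨ht1, ht2⟩
  exact htu t' ⟨ht1, H1.mul_mem (H1.inv_mem (hs _ ht1)) ht0,
    by simpa [mul_assoc] using H'.mul_mem ht2 (H'.inv_mem ht0')⟩

theorem dv_nm (hi : H'.relIndex H ≠ 0) (x : Eˣ) : dv (nm Eˣ H H' x) = nm (Dv E) H H' (dv x) := by
  have := nm_finite hi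
  let := Fintype.ofFinite (H ⧸ H'.subgroupOf H)
  simp only [nm_apply, map_prod, dv_smul]

theorem nm_mem_LU (hi : H'.relIndex H ≠ 0) {x : Eˣ} (hx : x ∈ LU H') : nm Eˣ H H' x ∈ LU H :=
  nm_mem_LU_iff.2 fun _ hg => smul_nm hi (nm_mem_LU_iff.1 hx) hg

theorem smul_mem_rayU {π : E} {g : Gal(E/F)} (hπ : g π = π) (hn : ∀ x ∈ H', g⁻¹ * x * g ∈ H')
    {x : Eˣ} (hx : x ∈ rayU H' π) : g • x ∈ rayU H' π := by
  refine ⟨nm_mem_LU_iff.2 fun k hk => ?_, fun W hW => ?_⟩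
  · conv_rhs => rw [← nm_mem_LU_iff.1 hx.1 _ (hn k hk)]
    simp only [← mul_smul, ← mul_assoc, mul_inv_cancel, one_mul]
  · have := hx.2 (g⁻¹ • W) (by simpa [hπ] using hW)
    simpa [hπ] using this

theorem nm_mem_rayU (hi : H'.relIndex H ≠ 0) {π : E} (hπ : π ∈ L H) {x : Eˣ} (hx : x ∈ rayU H' π) :
    nm Eˣ H H' x ∈ rayU H π := by
  have := nm_finite hi
  let := Fintype.ofFinite (H ⧸ H'.subgroupOf H)
  refine ⟨nm_mem_LU hi hx.1, ?_⟩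
  have hx' : x ∈ rayU (⊥ : Subgroup Gal(E/F)) π := ⟨L_anti bot_le hx.1, hx.2⟩
  have : nm Eˣ H H' x ∈ rayU (⊥ : Subgroup Gal(E/F)) π := by
    rw [nm_apply]
    exact Subgroup.prod_mem _ fun q _ => smul_mem_rayU (mem_L.1 hπ _ (Quotient.out q).2)
      (fun y hy => by simp [Subgroup.mem_bot.1 hy]) hx'
  exact this.2

theorem cut_smul {π : E} {g : Gal(E/F)} (hπ : g π = π) (a : Dv E) : cut π (g • a) = g • cut π a := by
  ext W
  simp [cut_apply, hπ]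

theorem cut_nm (hi : H'.relIndex H ≠ 0) {π : E} (hπ : π ∈ L H) (a : Dv E) :
    cut π (nm (Dv E) H H' a) = nm (Dv E) H H' (cut π a) := by
  have := nm_finite hi
  let := Fintype.ofFinite (H ⧸ H'.subgroupOf H)
  rw [nm_apply, nm_apply, map_prod]
  exact Finset.prod_congr rfl fun q _ => cut_smul (mem_L.1 hπ _ (Quotient.out q).2) a

theorem rayU_mono {π π' : E} (h : ∀ W : Pl E, W.v π < 1 → W.v π' ≤ W.v π) (hle : H' ≤ H) :
    rayU H π' ≤ rayU H' π :=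
  fun _ hx => ⟨L_anti hle hx.1, fun W hW => (hx.2 W ((h W hW).trans_lt hW)).trans (h W hW)⟩

theorem nm_exists_ker {C : Type*} [Group C] {ψ : Gal(E/F) → C} (hψ : MHom H ψ) :
    ∃ K : Subgroup Gal(E/F), ∀ x, x ∈ K ↔ x ∈ H ∧ ψ x = 1 := by
  refine ⟨{ carrier := {x | x ∈ H ∧ ψ x = 1}
            one_mem' := ⟨H.one_mem, hψ.1⟩
            mul_mem' := fun {a b} ha hb => ⟨H.mul_mem ha.1 hb.1, by
              rw [hψ.2 a ha.1 b hb.1, ha.2, hb.2, one_mul]⟩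
            inv_mem' := fun {a} ha => ⟨H.inv_mem ha.1, ?_⟩ }, fun x => Iff.rfl⟩
  have := hψ.2 a ha.1 a⁻¹ (H.inv_mem ha.1)
  rwa [mul_inv_cancel, hψ.1, ha.2, one_mul, eq_comm] at this

/-- the bundled homomorphism -/
def nm_hom {C : Type*} [Group C] {ψ : Gal(E/F) → C} (hψ : MHom H ψ) : H →* C where
  toFun x := ψ x
  map_one' := hψ.1
  map_mul' x y := hψ.2 x x.2 y y.2

theorem nm_hom_ker {C : Type*} [Group C] {ψ : Gal(E/F) → C} (hψ : MHom H ψ)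
    (hker : ∀ x, x ∈ H' ↔ x ∈ H ∧ ψ x = 1) : H'.subgroupOf H = (nm_hom hψ).ker := by
  ext x
  rw [Subgroup.mem_subgroupOf, hker, MonoidHom.mem_ker]
  exact and_iff_right x.2

theorem nm_cyc_of_mhom (hH' : IsOpen (H' : Set Gal(E/F))) {C : Type*} [Group C]
    {ψ : Gal(E/F) → C} (hψ : MHom H ψ) (hker : ∀ x, x ∈ H' ↔ x ∈ H ∧ ψ x = 1) {σ : Gal(E/F)}
    (hσ : σ ∈ H) (hgen : ∀ h ∈ H, ∃ i : ℕ, ψ σ ^ i = ψ h) : CycExt H H' σ (orderOf (ψ σ)) := by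
  have hk := nm_hom_ker hψ hker
  have hmem : ∀ x : H, nm_hom hψ x = 1 → (x : Gal(E/F)) ∈ H' := fun x hx => (hker x).2 ⟨x.2, hx⟩
  refine ⟨hH', fun x hx => ((hker x).1 hx).1, fun h hh x hx => ?_, hσ, ?_, fun h hh => ?_⟩
  · obtain ⟨hx1, hx2⟩ := (hker x).1 hx
    refine hmem (⟨h, hh⟩ * ⟨x, hx1⟩ * ⟨h, hh⟩⁻¹) ?_
    rw [map_mul, map_mul, map_inv, show nm_hom hψ ⟨x, hx1⟩ = 1 from hx2, mul_one, mul_inv_cancel]
  · rw [Subgroup.relIndex, hk, Subgroup.index_ker, ← Nat.card_zpowers]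
    congr 2
    refine le_antisymm ?_ (Subgroup.zpowers_le.2 ⟨⟨σ, hσ⟩, rfl⟩)
    rintro _ ⟨h, rfl⟩
    obtain ⟨i, hi⟩ := hgen h h.2
    exact ⟨i, (zpow_natCast _ _).trans hi⟩
  · obtain ⟨i, hi⟩ := hgen h hh
    have := hmem (((⟨σ, hσ⟩ : H) ^ i)⁻¹ * ⟨h, hh⟩) (by
      rw [map_mul, map_inv, map_pow]
      exact inv_mul_eq_one.2 hi)
    exact ⟨i, by simpa using this⟩

theorem nm_mhom_of_ahom {A : Type*} [AddGroup A] {χ : Gal(E/F) → A} (hχ : AHom H χ) :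
    MHom H fun x => Multiplicative.ofAdd (χ x) := by
  refine ⟨?_, fun x hx y hy => by simp only [hχ x hx y hy, ofAdd_add]⟩
  have := hχ 1 H.one_mem 1 H.one_mem
  rw [mul_one, left_eq_add] at this
  simp only [this, ofAdd_zero]

theorem nm_cyc_of_ahom (hH' : IsOpen (H' : Set Gal(E/F))) {N : ℕ} (hN : N ≠ 0)
    {χ : Gal(E/F) → ZMod N} (hχ : AHom H χ) (hker : ∀ x, x ∈ H' ↔ x ∈ H ∧ χ x = 0) {σ : Gal(E/F)}
    (hσ : σ ∈ H) (hu : IsUnit (χ σ)) : CycExt H H' σ N := by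
  have : NeZero N := ⟨hN⟩
  have key : ∀ c : Multiplicative (ZMod N), ∃ i : ℕ, Multiplicative.ofAdd (χ σ) ^ i = c := by
    intro c
    obtain ⟨u, hu⟩ := hu
    refine ⟨(c.toAdd * (u⁻¹ : (ZMod N)ˣ)).val, ?_⟩
    rw [← ofAdd_nsmul, nsmul_eq_mul, ZMod.natCast_zmod_val, ← hu, Units.inv_mul_cancel_right,
      ofAdd_toAdd]
  have h := nm_cyc_of_mhom hH' (nm_mhom_of_ahom hχ) hker hσ fun h _ => key _
  rwa [orderOf_eq_card_of_forall_mem_powers key, Nat.card_congr Multiplicative.toAdd,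
    Nat.card_zmod] at h

namespace CycExt
variable {σ : Gal(E/F)} {n : ℕ}

theorem ne_zero (h : CycExt H H' σ n) : n ≠ 0 :=
  h.idx ▸ relIndex_ne_zero_of_isOpen h.isOpen H

theorem isOpen_top (h : CycExt H H' σ n) : IsOpen (H : Set Gal(E/F)) :=
  Subgroup.isOpen_mono h.le h.isOpen

theorem modEq_iff (h : CycExt H H' σ n) (i j : ℕ) : (σ ^ i)⁻¹ * σ ^ j ∈ H' ↔ i ≡ j [MOD n] := by
  have : (H'.subgroupOf H).Normal := ⟨fun x hx g => h.normal g g.2 x hx⟩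
  have ho : orderOf ((⟨σ, h.mem⟩ : H) : H ⧸ H'.subgroupOf H) = n := by
    refine (orderOf_eq_card_of_forall_mem_powers fun q => ?_).trans h.idx
    obtain ⟨g, rfl⟩ := QuotientGroup.mk_surjective q
    obtain ⟨k, hk⟩ := h.gen g g.2
    exact ⟨k, (QuotientGroup.mk_pow _ _ _).symm.trans (QuotientGroup.eq.2 hk)⟩
  rw [← ho, ← pow_eq_pow_iff_modEq, ← QuotientGroup.mk_pow, ← QuotientGroup.mk_pow,
    QuotientGroup.eq]
  rfl

theorem modEq_iff' (h : CycExt H H' σ n) {g : Gal(E/F)} {j : ℕ} (hj : (σ ^ j)⁻¹ * g ∈ H') (i : ℕ) :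
    (σ ^ i)⁻¹ * g ∈ H' ↔ i ≡ j [MOD n] := by
  rw [← h.modEq_iff, ← H'.mul_mem_cancel_right (y := (σ ^ i)⁻¹ * σ ^ j) hj, mul_assoc,
    mul_inv_cancel_left]

theorem pow_mem_iff (h : CycExt H H' σ n) (i : ℕ) : σ ^ i ∈ H' ↔ n ∣ i := by
  have := h.modEq_iff 0 i
  rwa [pow_zero, inv_one, one_mul, Nat.ModEq.comm, Nat.modEq_zero_iff_dvd] at this

theorem gen_lt (h : CycExt H H' σ n) {g : Gal(E/F)} (hg : g ∈ H) :
    ∃! i, i < n ∧ (σ ^ i)⁻¹ * g ∈ H' := by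
  obtain ⟨j, hj⟩ := h.gen g hg
  refine ⟨j % n, ⟨Nat.mod_lt _ (Nat.pos_of_ne_zero h.ne_zero),
    (h.modEq_iff' hj _).2 (Nat.mod_modEq _ _)⟩, ?_⟩
  rintro i ⟨hi, hi'⟩
  exact (Nat.mod_eq_of_lt hi).symm.trans ((h.modEq_iff' hj i).1 hi')

theorem nm_eq_nr (h : CycExt H H' σ n) {x : M} (hx : ∀ g ∈ H', g • x = x) :
    nm M H H' x = nr M σ n x := by
  rw [nr_apply]
  exact nm_eq_prod' (Finset.range n) (fun i => σ ^ i) (fun i _ => H.pow_mem h.mem i)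
    (fun g hg => by simpa only [Finset.mem_range] using h.gen_lt hg) hx

theorem fixed_iff (h : CycExt H H' σ n) {x : M} (hx : ∀ g ∈ H', g • x = x) :
    σ • x = x ↔ ∀ g ∈ H, g • x = x := by
  refine ⟨fun hσ g hg => ?_, fun hg => hg σ h.mem⟩
  obtain ⟨i, hi⟩ := h.gen g hg
  have h1 : σ ^ i • x = x := (MulAction.stabilizer Gal(E/F) x).pow_mem hσ i
  rw [← mul_inv_cancel_left (σ ^ i) g, mul_smul, hx _ hi, h1]

theorem smul_fixed (h : CycExt H H' σ n) {x : M} (hx : ∀ g ∈ H', g • x = x) {t : Gal(E/F)}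
    (ht : t ∈ H) : ∀ g ∈ H', g • t • x = t • x := by
  intro g hg
  conv_rhs => rw [← hx _ (h.normal _ (H.inv_mem ht) g hg)]
  simp only [← mul_smul, ← mul_assoc, mul_inv_cancel, one_mul, inv_inv]

theorem hPair (h : CycExt H H' σ n) {X : Subgroup M} (hX : ∀ x ∈ X, σ • x ∈ X)
    (hfix : ∀ x ∈ X, ∀ g ∈ H', g • x = x) : HPair (dl M σ) (nr M σ n) X := by
  have h1 : ∀ x ∈ X, σ • nr M σ n x = nr M σ n x := fun x hx => by
    rw [← h.nm_eq_nr (hfix x hx)]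
    exact smul_nm (h.idx ▸ h.ne_zero) (hfix x hx) h.mem
  refine ⟨fun x hx => X.div_mem (hX x hx) hx, fun x hx => ?_, fun x hx => ?_, fun x hx => ?_⟩
  · rw [nr_apply]
    refine X.prod_mem fun i hi => ?_
    clear hi
    induction i with
    | zero => simpa using hx
    | succ i ih => rw [pow_succ', mul_smul]; exact hX _ ih
  · rw [dl_apply, h1 x hx, div_self']
  · rw [dl_apply, map_div, div_eq_one, ← h1 x hx, nr_apply, nr_apply, Finset.smul_prod']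
    simp only [← mul_smul, ← pow_succ, ← pow_succ']

theorem exists_chi (h : CycExt H H' σ n) : ∃ χ : Gal(E/F) → ZMod n, CHom H χ ∧ χ σ = 1 ∧
    ∀ x ∈ H, (χ x = 0 ↔ x ∈ H') := by
  let χ : Gal(E/F) → ZMod n := fun g => if hg : g ∈ H then ((h.gen g hg).choose : ZMod n) else 0
  have key : ∀ g ∈ H, ∀ i : ℕ, (σ ^ i)⁻¹ * g ∈ H' ↔ χ g = i := fun g hg i => by
    rw [h.modEq_iff' (h.gen g hg).choose_spec, Nat.ModEq.comm, ← ZMod.natCast_eq_natCast_iff]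
    simp only [χ, dif_pos hg]
  have k0 : ∀ x ∈ H, (χ x = 0 ↔ x ∈ H') := fun x hx => by simpa using (key x hx 0).symm
  refine ⟨χ, ⟨fun x hx y hy => ?_, H', h.isOpen, fun x hx hx' => (k0 x hx).2 hx'⟩, ?_, k0⟩
  · obtain ⟨i, hi⟩ := h.gen x hx
    obtain ⟨j, hj⟩ := h.gen y hy
    rw [(key x hx i).1 hi, (key y hy j).1 hj, ← Nat.cast_add, ← key _ (H.mul_mem hx hy)]
    have := H'.mul_mem (h.normal _ (H.inv_mem (H.pow_mem h.mem j)) _ hi) hj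
    simpa [pow_add, mul_assoc] using this
  · simpa using (key σ h.mem 1).1 (by simp)

/-- intermediate steps of a cyclic extension. -/
theorem exists_mid (h : CycExt H H' σ n) {a b : ℕ} (hab : n = a * b) :
    ∃ H1 : Subgroup Gal(E/F), CycExt H H1 σ a ∧ CycExt H1 H' (σ ^ a) b := by
  obtain ⟨χ, hχ, h1, h0⟩ := h.exists_chi
  have ha : a ≠ 0 := left_ne_zero_of_mul (hab ▸ h.ne_zero)
  have hd : a ∣ n := ⟨b, hab⟩
  have hA : AHom H fun x => ZMod.castHom hd (ZMod a) (χ x) := fun x hx y hy => by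
    simp only [hχ.1 x hx y hy, map_add]
  obtain ⟨K, hK⟩ := nm_exists_ker (nm_mhom_of_ahom hA)
  have hle : H' ≤ K := fun x hx =>
    (hK x).2 ⟨h.le hx, by rw [(h0 x (h.le hx)).2 hx, map_zero, ofAdd_zero]⟩
  have c1 : CycExt H K σ a := nm_cyc_of_ahom (Subgroup.isOpen_mono hle h.isOpen) ha hA hK h.mem
    (by rw [h1, map_one]; exact isUnit_one)
  refine ⟨K, c1, h.isOpen, hle, fun g hg => h.normal g (c1.le hg), (c1.pow_mem_iff a).2 dvd_rfl,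
    ?_, fun g hg => ?_⟩
  · have := Subgroup.relIndex_mul_relIndex H' K H hle c1.le
    rw [c1.idx, h.idx, hab, mul_comm] at this
    exact mul_left_cancel₀ ha this
  · obtain ⟨i, hi⟩ := h.gen g (c1.le hg)
    obtain ⟨k, rfl⟩ := (c1.pow_mem_iff i).1
      (K.inv_mem_iff.1 ((K.mul_mem_cancel_right hg).1 (hle hi)))
    exact ⟨k, by rwa [← pow_mul]⟩

/-- base change to an open subgroup `H1 ≤ H` containing an element of `σ H'`. -/
theorem restrict (h : CycExt H H' σ n) {H1 : Subgroup Gal(E/F)} (h1 : H1 ≤ H)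
    (ho : IsOpen (H1 : Set Gal(E/F))) {s : Gal(E/F)} (hs : s ∈ H1) (hs' : σ⁻¹ * s ∈ H') :
    CycExt H1 (H1 ⊓ H') s n := by
  obtain ⟨χ, hχ, hσ, h0⟩ := h.exists_chi
  refine nm_cyc_of_ahom (isOpen_inf ho h.isOpen) h.ne_zero (χ := χ)
    (fun x hx y hy => hχ.1 x (h1 hx) y (h1 hy))
    (fun x => and_congr_right fun hx => (h0 x (h1 hx)).symm) hs ?_
  have := hχ.1 σ h.mem _ (h.le hs')
  rw [mul_inv_cancel_left, hσ, (h0 _ (h.le hs')).2 hs', add_zero] at this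
  rw [this]
  exact isUnit_one

end CycExt

theorem nm_exists_cyc (hH' : IsOpen (H' : Set Gal(E/F))) {C : Type*} [CommGroup C] [IsCyclic C]
    {ψ : Gal(E/F) → C} (hψ : MHom H ψ) (hker : ∀ x, x ∈ H' ↔ x ∈ H ∧ ψ x = 1) :
    ∃ (σ : Gal(E/F)) (n : ℕ), CycExt H H' σ n ∧ orderOf (ψ σ) = n := by
  have : Finite (nm_hom hψ).range := by
    refine Nat.finite_of_card_ne_zero ?_
    rw [← Subgroup.index_ker, ← nm_hom_ker hψ hker]
    exact relIndex_ne_zero_of_isOpen hH' H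
  obtain ⟨⟨_, σ, rfl⟩, hg⟩ := IsCyclic.exists_monoid_generator (α := (nm_hom hψ).range)
  refine ⟨σ, _, nm_cyc_of_mhom hH' hψ hker σ.2 fun h hh => ?_, rfl⟩
  obtain ⟨i, hi⟩ := hg ⟨_, ⟨h, hh⟩, rfl⟩
  exact ⟨i, congrArg Subtype.val hi⟩

theorem exists_cycExt_of_chom (hH : IsOpen (H : Set Gal(E/F))) {l k : ℕ} (hl : l.Prime)
    {χ : Gal(E/F) → ZMod (l ^ k)} (hχ : CHom H χ) :
    ∃ (H' : Subgroup Gal(E/F)) (σ : Gal(E/F)) (j : ℕ), CycExt H H' σ (l ^ j) ∧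
      ∀ x, x ∈ H' ↔ x ∈ H ∧ χ x = 0 := by
  obtain ⟨K, hK⟩ := nm_exists_ker (nm_mhom_of_ahom hχ.1)
  obtain ⟨N, hN, hN'⟩ := hχ.2
  have hKo : IsOpen (K : Set Gal(E/F)) := Subgroup.isOpen_mono (H₁ := H ⊓ N)
    (fun x hx => (hK x).2 ⟨hx.1, by rw [hN' x hx.1 hx.2, ofAdd_zero]⟩) (isOpen_inf hH hN)
  obtain ⟨σ, n, hc, hn⟩ := nm_exists_cyc hKo (nm_mhom_of_ahom hχ.1) hK
  have hd : n ∣ l ^ k := by
    have := orderOf_dvd_natCard (Multiplicative.ofAdd (χ σ))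
    rwa [hn, Nat.card_congr Multiplicative.toAdd, Nat.card_zmod] at this
  obtain ⟨j, -, rfl⟩ := (Nat.dvd_prime_pow hl).1 hd
  exact ⟨K, σ, j, hc, hK⟩

/-- a subquotient embedded in a cyclic group by a multiplicative character is cyclic. -/
theorem exists_cycExt_of_mhom (hH' : IsOpen (H' : Set Gal(E/F))) {C : Type*} [CommGroup C] [IsCyclic C]
    {ψ : Gal(E/F) → C} (hψ : MHom H ψ) (hker : ∀ x, x ∈ H' ↔ x ∈ H ∧ ψ x = 1) :
    ∃ (σ : Gal(E/F)) (n : ℕ), CycExt H H' σ n ∧ orderOf (ψ σ) = n :=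
  nm_exists_cyc hH' hψ hker

theorem cycExt_stab [RadCl E] (hH : IsOpen (H : Set Gal(E/F))) {l : ℕ} (hl : l.Prime)
    (hμ : H ≤ FixMu F E l) {ρ : E} (hρ : ρ ^ l ∈ L H) {σ : Gal(E/F)} (hσ : σ ∈ H) (hmove : σ ρ ≠ ρ) :
    CycExt H (H ⊓ stab F ρ) σ l := by
  have : Fact l.Prime := ⟨hl⟩
  have h0 : ρ ≠ 0 := by
    rintro rfl
    exact hmove (map_zero σ)
  have hz : ∀ x ∈ H, kum l ρ x = 0 ↔ x ρ = ρ := fun x hx =>
    kum_eq_zero_iff hl.ne_zero h0 (mem_L.1 hρ x hx)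
  exact nm_cyc_of_ahom (isOpen_inf hH (isOpen_stab ρ)) hl.ne_zero
    (chom_kum hl.ne_zero h0 hμ hρ).1 (fun x => and_congr_right fun hx => (hz x hx).symm) hσ
    (isUnit_iff_ne_zero.2 (mt (hz σ hσ).1 hmove))

end Crest.Agent.R018
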