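import Crest.Agent.R018.CycSurj
import Crest.Agent.R018.Nm

/-!
# R018 / ArtinL

Artin's lemma for prime-power degree `n = l^j`.  `exists_prime_orderOf`: a prime divisor `≠ l` of `Φ = (q^{l^j} - 1)/(q^{l^{j-1}} - 1) = ∑_{i<l} Q^i`
(`Q = q^{l^{j-1}}`) has `orderOf q = l^j`; such a divisor exists for `j ≥ 2` as `Φ > l` and `l² ∤ Φ`; different `j` give different primes.
`artin_lemma`: `B` from `exists_cyc_surj` for `H'`; `m'` prime `≡ 1 mod n`, outside `B ∪ {W.p}` (`Nat.exists_prime_gt_modEq_one`), `t ∈ (ZMod m')ˣ` of order `n`;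
for `W ∈ s`, `q = resCard H W ≥ 2`, `m_W` prime outside `B ∪ {m'} ∪ {W'.p}` with `orderOf q = l^{j_W}`, `j_W ≥ max j (v_l (m'-1))`; `M = m' ∏ m_W`;
`s0 ∈ σ H'` with `cyc M s0 ≡ t mod m'`, `≡ 1 mod ∏ m_W`; `HW W = closure {s0, frob H W} ⊔ (H' ⊓ FixMu (m' m_W))`.  `H / (H' ⊓ FixMu ..)` is abelian so elements of
`HW W` are `s0^a φ^b h''`; if such an element fixes `μ_M` then `l^{j_W} ∣ b` (so `φ^b ∈ H'`), `q^b` has order prime to `l` mod `m'`, `t^a q^b = 1` gives `n ∣ a`.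
-/

set_option autoImplicit false
set_option linter.unusedSectionVars false

noncomputable section

namespace Crest.Agent.R018

open scoped NNReal Classical

variable {F E : Type*} [Field F] [NumberField F] [Field E] [CharZero E] [Algebra F E]
  [IsGalois F E] [RadCl E]

theorem artinL_geom {l Q : ℕ} (hl : 2 ≤ l) (hQ : 2 ≤ Q) : l < ∑ i ∈ Finset.range l, Q ^ i := by
  calc l = ∑ _i ∈ Finset.range l, 1 := by simp
    _ < _ := by
      refine Finset.sum_lt_sum (fun i _ => Nat.one_le_pow _ _ (by omega)) ⟨1, by simp; omega, ?_⟩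
      simp only [pow_one]; omega

theorem artinL_exists {l q : ℕ} (hl : l.Prime) (hq : 2 ≤ q) (k : ℕ) :
    ∃ m : ℕ, m.Prime ∧ orderOf (q : ZMod m) = l ^ (k + 2) := by
  have : Fact l.Prime := ⟨hl⟩
  set Q : ℕ := q ^ l ^ (k + 1) with hQ
  have hQ2 : 2 ≤ Q := le_trans hq (Nat.le_self_pow (pow_ne_zero _ hl.ne_zero) q)
  set Φ : ℕ := ∑ i ∈ Finset.range l, Q ^ i with hΦ
  have hlt : l < Φ := artinL_geom hl.two_le hQ2
  have hpow : ∀ m : ℕ, m ∣ Φ → (Q : ZMod m) ^ l = 1 := fun m hm => by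
    have h1 : ((Φ : ℕ) : ZMod m) = 0 := (ZMod.natCast_eq_zero_iff _ _).2 hm
    have h2 := geom_sum_mul (Q : ZMod m) l
    rw [hΦ] at h1
    push_cast at h1
    rw [h1, zero_mul] at h2
    exact (sub_eq_zero.1 h2.symm)
  have hone : ∀ m : ℕ, m ∣ Φ → (Q : ZMod m) = 1 → m ∣ l := fun m hm h => by
    have h1 : ((Φ : ℕ) : ZMod m) = 0 := (ZMod.natCast_eq_zero_iff _ _).2 hm
    rw [hΦ] at h1
    push_cast at h1
    rw [h] at h1
    simp only [one_pow, Finset.sum_const, Finset.card_range, nsmul_eq_mul, mul_one] at h1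
    exact (ZMod.natCast_eq_zero_iff _ _).1 h1
  have hex : ∃ m : ℕ, m.Prime ∧ m ∣ Φ ∧ m ≠ l := by
    by_contra hc
    push Not at hc
    have h1 := Nat.eq_prime_pow_of_unique_prime_dvd (n := Φ) (p := l) (by omega)
      (fun {d} hd hdv => hc d hd hdv)
    set e := Φ.primeFactorsList.length
    have he : 2 ≤ e := by
      by_contra he
      have : e = 0 ∨ e = 1 := by omega
      have := hl.one_lt
      rcases ‹e = 0 ∨ e = 1› with h | h <;> rw [h] at h1 <;> simp at h1 <;> omega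
    have h2 : l ^ 2 ∣ Φ := h1 ▸ pow_dvd_pow l he
    have h3 := hpow l ((dvd_pow_self l two_ne_zero).trans h2)
    rw [ZMod.pow_card, hQ] at h3
    push_cast at h3
    rw [ZMod.pow_card_pow] at h3
    have h4 : (l : ℤ) ∣ (q : ℤ) ^ l ^ k - 1 := by
      rw [← ZMod.intCast_zmod_eq_zero_iff_dvd]
      push_cast
      rw [h3]; simp
    have h5 := dvd_sub_pow_of_dvd_sub h4 1
    have h6 : (Q : ZMod (l ^ 2)) = 1 := by
      rw [← sub_eq_zero]
      have h7 : (((Q : ℤ) - 1 : ℤ) : ZMod (l ^ 2)) = 0 := by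
        rw [ZMod.intCast_zmod_eq_zero_iff_dvd, hQ]
        push_cast
        rw [pow_one, one_pow, ← pow_mul, ← pow_succ] at h5
        exact h5
      exact_mod_cast h7
    have h8 := Nat.le_of_dvd hl.pos (hone _ h2 h6)
    have := hl.one_lt
    nlinarith
  obtain ⟨m, hm, hmΦ, hml⟩ := hex
  refine ⟨m, hm, orderOf_eq_prime_pow (fun h => hml ?_) ?_⟩
  · exact (Nat.prime_dvd_prime_iff_eq hm hl).1 (hone m hmΦ (by rw [hQ]; push_cast; exact h))
  · have := hpow m hmΦ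
    rw [hQ] at this
    push_cast at this
    rw [pow_succ, pow_mul]; exact this

theorem exists_prime_orderOf {l q : ℕ} (hl : l.Prime) (hq : 2 ≤ q) (j0 : ℕ) (B : Finset ℕ) :
    ∃ m : ℕ, m.Prime ∧ m ∉ B ∧ ∃ j, j0 ≤ j ∧ orderOf (q : ZMod m) = l ^ j := by
  choose m hm hord using artinL_exists hl hq
  have hinj : Function.Injective fun k => m (k + j0) := by
    intro a b hab
    have h1 := hord (a + j0)
    have h2 := hord (b + j0)
    simp only at hab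
    rw [hab, h2] at h1
    have := Nat.pow_right_injective hl.two_le h1
    omega
  by_contra hc
  push Not at hc
  have hB : ∀ k, m (k + j0) ∈ B := fun k => by
    by_contra h
    exact hc _ (hm _) h (k + j0 + 2) (by omega) (hord _)
  exact Set.infinite_of_injective_forall_mem (s := (B : Set ℕ)) hinj hB B.finite_toSet

theorem artinL_zero {H : Subgroup Gal(E/F)} {n : ℕ} {χ : Gal(E/F) → ZMod n} (h : AHom H χ) :
    χ 1 = 0 := by
  have := h 1 H.one_mem 1 H.one_mem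
  simpa using this

theorem artinL_inv {H : Subgroup Gal(E/F)} {n : ℕ} {χ : Gal(E/F) → ZMod n} (h : AHom H χ)
    {g : Gal(E/F)} (hg : g ∈ H) : χ g⁻¹ = - χ g := by
  have := h g hg g⁻¹ (H.inv_mem hg)
  rw [mul_inv_cancel, artinL_zero h] at this
  linear_combination -this

/-- the subgroup of `H` generated by `s0`, `φ` and the common kernel of `χ, c1, c2`. -/
def artinLGrp {H : Subgroup Gal(E/F)} {n : ℕ} {χ : Gal(E/F) → ZMod n} (h : AHom H χ)
    {A B : Type*} [CommGroup A] [CommGroup B] (c1 : Gal(E/F) →* A) (c2 : Gal(E/F) →* B)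
    (t : A) (φ : Gal(E/F)) : Subgroup Gal(E/F) where
  carrier := {g | g ∈ H ∧ ∃ a b : ℤ, χ g = a + b * χ φ ∧ c1 g = t ^ a * c1 φ ^ b ∧ c2 g = c2 φ ^ b}
  one_mem' := ⟨H.one_mem, 0, 0, by simp [artinL_zero h], by simp, by simp⟩
  mul_mem' := by
    rintro g g' ⟨hg, a, b, h1, h2, h3⟩ ⟨hg', a', b', h1', h2', h3'⟩
    refine ⟨H.mul_mem hg hg', a + a', b + b', ?_, ?_, ?_⟩
    · rw [h g hg g' hg', h1, h1']; push_cast; ring
    · rw [map_mul, h2, h2', zpow_add, zpow_add, mul_mul_mul_comm]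
    · rw [map_mul, h3, h3', zpow_add]
  inv_mem' := by
    rintro g ⟨hg, a, b, h1, h2, h3⟩
    refine ⟨H.inv_mem hg, -a, -b, ?_, ?_, ?_⟩
    · rw [artinL_inv h hg, h1]; push_cast; ring
    · rw [map_inv, h2, zpow_neg, zpow_neg, mul_inv]
    · rw [map_inv, h3, zpow_neg]

theorem artinL_arith {l j j1 j2 N : ℕ} (hl : l.Prime) {A : Type*} [CommGroup A] {t u : A}
    (hN : N ≠ 0) (hu : u ^ N = 1) (ht : orderOf t = l ^ j1) (h1 : j ≤ j1) (h2 : N ≤ j2) {a b : ℤ}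
    (hb : ((l ^ j2 : ℕ) : ℤ) ∣ b) (hab : t ^ a * u ^ b = 1) : ((l ^ j : ℕ) : ℤ) ∣ a := by
  obtain ⟨v, r, hr, rfl⟩ := Nat.exists_eq_pow_mul_and_not_dvd hN l hl.one_lt.ne'
  have hr0 : r ≠ 0 := by rintro rfl; exact hr (dvd_zero _)
  have hv : v ≤ j2 := by
    have := Nat.lt_pow_self (n := v) hl.one_lt
    have := Nat.le_mul_of_pos_right (l ^ v) (Nat.pos_of_ne_zero hr0)
    omega
  obtain ⟨c, rfl⟩ := (Int.natCast_dvd_natCast.2 (pow_dvd_pow l hv)).trans hb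
  have h3 : (u ^ (((l ^ v : ℕ) : ℤ) * c)) ^ (r : ℤ) = 1 := by
    rw [← zpow_mul, mul_right_comm, ← Nat.cast_mul, zpow_mul, zpow_natCast, hu, one_zpow]
  have h4 : t ^ (a * r) = 1 := by
    have := congrArg (· ^ (r : ℤ)) hab
    simp only [mul_zpow, h3, mul_one, one_zpow] at this
    rw [zpow_mul, this]
  rw [← orderOf_dvd_iff_zpow_eq_one, ht] at h4
  have h5 : IsCoprime ((l ^ j1 : ℕ) : ℤ) (r : ℤ) :=
    Nat.isCoprime_iff_coprime.2 (Nat.Coprime.pow_left _ ((Nat.Prime.coprime_iff_not_dvd hl).2 hr))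
  exact (Int.natCast_dvd_natCast.2 (pow_dvd_pow l h1)).trans (h5.dvd_of_dvd_mul_right h4)

theorem artin_lemma {H H' : Subgroup Gal(E/F)} {σ : Gal(E/F)} {l j : ℕ} (h : CycExt H H' σ (l ^ j))
    (hl : l.Prime) (s : Finset (Pl E)) (hs : ∀ W ∈ s, Ine F W ⊓ H ≤ H') :
    ∃ s0 ∈ H, σ⁻¹ * s0 ∈ H' ∧ ∃ M : ℕ, M ≠ 0 ∧ (∀ W ∈ s, ¬ W.p ∣ M) ∧
      ∃ HW : Pl E → Subgroup Gal(E/F), ∀ W ∈ s, IsOpen (HW W : Set Gal(E/F)) ∧ HW W ≤ H ∧
        s0 ∈ HW W ∧ Dec F W ⊓ H ≤ HW W ∧ HW W ⊓ FixMu F E M ≤ H' := by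
  have hH := h.isOpen_top
  obtain ⟨χ, ⟨hχ, -⟩, hχσ, hker⟩ := h.exists_chi
  obtain ⟨B, hB⟩ := exists_cyc_surj h.isOpen
  obtain ⟨m', hm', hm'B, j1, hj1, ht⟩ := exists_prime_orderOf hl le_rfl j (B ∪ s.image Pl.p)
  have hq : ∀ W : Pl E, 2 ≤ resCard H W := fun W => by
    obtain ⟨f, hf, -, he⟩ := exists_resCard_eq_pow hH W
    rw [he]
    exact le_trans W.hp.two_le (Nat.le_self_pow hf.ne' _)
  choose m hm hmB jW hjW hord using fun W : Pl E =>
    exists_prime_orderOf hl (hq W) (j + m') (insert m' (B ∪ s.image Pl.p))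
  simp only [Finset.mem_insert, Finset.mem_union, Finset.mem_image, not_or, not_exists,
    not_and] at hm'B hmB
  set P : ℕ := ∏ W ∈ s, m W with hP
  have hP0 : P ≠ 0 := Finset.prod_ne_zero_iff.2 fun W _ => (hm W).ne_zero
  have hM0 : m' * P ≠ 0 := mul_ne_zero hm'.ne_zero hP0
  have hdiv : ∀ p : ℕ, p.Prime → p ∣ m' * P → p = m' ∨ ∃ W, p = m W := fun p hp hd => by
    rcases (Nat.Prime.dvd_mul hp).1 hd with hd | hd
    · exact Or.inl ((Nat.prime_dvd_prime_iff_eq hp hm').1 hd)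
    · obtain ⟨W, -, hW⟩ := (Prime.dvd_finsetProd_iff hp.prime _).1 hd
      exact Or.inr ⟨W, (Nat.prime_dvd_prime_iff_eq hp (hm W)).1 hW⟩
  have hcop : m'.Coprime P := Nat.Coprime.prod_right fun W _ =>
    (Nat.coprime_primes hm' (hm W)).2 fun e => (hmB W).1 e.symm
  obtain ⟨k, hk1, hk2⟩ := Nat.chineseRemainder hcop 2 1
  have h2u : IsUnit ((2 : ℕ) : ZMod m') :=
    (orderOf_pos_iff.1 (by rw [ht]; exact pow_pos hl.pos _)).isUnit
  have hku : IsUnit (k : ZMod (m' * P)) := by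
    rw [ZMod.isUnit_iff_coprime]
    refine Nat.Coprime.mul_right ?_ ?_
    · rw [← ZMod.isUnit_iff_coprime, (ZMod.natCast_eq_natCast_iff _ _ _).2 hk1]; exact h2u
    · rw [← ZMod.isUnit_iff_coprime, (ZMod.natCast_eq_natCast_iff _ _ _).2 hk2]; simp
  obtain ⟨g0, hg0, hcyc⟩ := hB (m' * P) hM0 (fun p hp hd => by
    rcases hdiv p hp hd with rfl | ⟨W, rfl⟩
    · exact hm'B.1
    · exact (hmB W).2.1) (cyc (m' * P) σ⁻¹ * k) ((isUnit_cyc hM0 _).mul hku)
  have hs0 : cyc (m' * P) (σ * g0) = k := by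
    rw [cyc_mul hM0, hcyc, ← mul_assoc, mul_comm (cyc _ σ), cyc_inv_mul hM0, one_mul]
  have hnd : ∀ W ∈ s, ¬ W.p ∣ m' * P := fun W hW hd => by
    rcases hdiv _ W.hp hd with e | ⟨W', e⟩
    · exact hm'B.2 W hW e
    · exact (hmB W').2.2 W hW e
  refine ⟨σ * g0, H.mul_mem h.mem (h.le hg0), by simpa using hg0, m' * P, hM0, hnd,
    fun W => artinLGrp hχ (csU F E hm'.ne_zero) (csU F E (hm W).ne_zero) h2u.unit (frob H W),
    fun W hW => ?_⟩
  have hd1 : m' ∣ m' * P := dvd_mul_right _ _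
  have hd2 : m W ∣ m' * P := (Finset.dvd_prod_of_mem m hW).mul_left _
  have hφ := frob_spec hH W
  have hsub : H' ⊓ FixMu F E (m' * P) ≤ artinLGrp hχ (csU F E hm'.ne_zero)
      (csU F E (hm W).ne_zero) h2u.unit (frob H W) := fun g hg => by
    refine ⟨h.le hg.1, 0, 0, by simpa using (hker g (h.le hg.1)).2 hg.1, ?_, ?_⟩
    · have := FixMu_anti hd1 hM0 hg.2
      rw [← csU_ker hm'.ne_zero] at this
      simpa using this
    · have := FixMu_anti hd2 hM0 hg.2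
      rw [← csU_ker (hm W).ne_zero] at this
      simpa using this
  have hopen := Subgroup.isOpen_mono hsub (isOpen_inf h.isOpen (isOpen_FixMu _))
  refine ⟨hopen, fun g hg => hg.1, ⟨H.mul_mem h.mem (h.le hg0), 1, 0, ?_, ?_, ?_⟩,
    hφ.dec_le hH hopen ⟨hφ.1, 0, 1, by simp, by simp, by simp⟩
      (fun g hg => hsub ⟨hs W hW hg, Ine_le_FixMu (hnd W hW) hg.1⟩), ?_⟩
  · rw [hχ σ h.mem g0 (h.le hg0), hχσ, (hker g0 (h.le hg0)).2 hg0]; simp
  · ext1
    rw [csU_coe, ← cyc_cast hd1 hM0, hs0, map_natCast, (ZMod.natCast_eq_natCast_iff _ _ _).2 hk1]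
    simp
  · ext1
    rw [csU_coe, ← cyc_cast hd2 hM0, hs0, map_natCast,
      (ZMod.natCast_eq_natCast_iff _ _ _).2 (hk2.of_dvd (Finset.dvd_prod_of_mem m hW))]
    simp
  · rintro g ⟨⟨hg, a, b, h1, h2, h3⟩, hgM⟩
    have e1 := FixMu_anti hd1 hM0 hgM
    have e2 := FixMu_anti hd2 hM0 hgM
    rw [← csU_ker hm'.ne_zero, MonoidHom.mem_ker] at e1
    rw [← csU_ker (hm W).ne_zero, MonoidHom.mem_ker] at e2
    have ho : orderOf (csU F E (hm W).ne_zero (frob H W)) = l ^ jW W := by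
      rw [← orderOf_units, csU_coe, hφ.cyc_eq (fun hd => hnd W hW (hd.trans hd2)), hord]
    have hb : ((l ^ jW W : ℕ) : ℤ) ∣ b := by
      rw [← ho, orderOf_dvd_iff_zpow_eq_one, ← h3, e2]
    have : Fact m'.Prime := ⟨hm'⟩
    have ha : ((l ^ j : ℕ) : ℤ) ∣ a := by
      refine artinL_arith hl (N := m' - 1) (by have := hm'.two_le; omega)
        (ZMod.units_pow_card_sub_one_eq_one m' (csU F E hm'.ne_zero (frob H W))) (t := h2u.unit)
        (by rw [← orderOf_units, IsUnit.unit_spec, ht]) hj1 (by have := hjW W; omega) hb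
        (by rw [← h2, e1])
    have hb' : ((l ^ j : ℕ) : ℤ) ∣ b :=
      (Int.natCast_dvd_natCast.2 (pow_dvd_pow l (by have := hjW W; omega))).trans hb
    rw [← hker g hg, h1, (ZMod.intCast_zmod_eq_zero_iff_dvd _ _).2 ha,
      (ZMod.intCast_zmod_eq_zero_iff_dvd _ _).2 hb']
    simp

end Crest.Agent.R018
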