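import Crest.Agent.R018.PlEx

/-!
# R018 / Bridge

Bridge to Mathlib's ideal theory of the number field `L H`.  For a number field `K ⊆ E`, the restriction of `W.v` to `K` is a
valuation that is `≤ 1` on `𝓞 K` with centre `𝔭 = W.prime K`; the localisation at `𝔭` is a DVR whose fraction field is `K`, so
`W.v|K` is equivalent to `𝔭.valuation K` (write `x = a / b`; for `a ∈ 𝓞 K`, `a = ϖ^n u/s` with `u, s ∉ 𝔭`; see
`IsDedekindDomain.HeightOneSpectrum.intValuation_exists_uniformizer`, `valuation_lt_one_iff_mem`, `valuation_le_one`,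
`exists_primeCompl_mul_eq_of_integer`-type lemmas).
-/

set_option autoImplicit false
set_option linter.unusedSectionVars false

noncomputable section

namespace Crest.Agent.R018

open scoped NNReal Classical

variable {F E : Type*} [Field F] [NumberField F] [Field E] [CharZero E] [Algebra F E]
  [IsGalois F E]
open NumberField IsDedekindDomain

theorem bridge_v_int_le_one (W : Pl E) (K : IntermediateField F E) [NumberField K] (a : 𝓞 K) :
    W.v ((algebraMap (𝓞 K) K a : K) : E) ≤ 1 :=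
  W.v_le_one_of_isIntegral (a.isIntegral_coe.map (K.val.restrictScalars ℤ))

theorem bridge_v_int_eq_one (W : Pl E) (K : IntermediateField F E) [NumberField K] (a : 𝓞 K) :
    W.v ((algebraMap (𝓞 K) K a : K) : E) = 1 ↔ a ∉ (W.prime K).asIdeal := by
  rw [Pl.mem_prime, not_lt]
  exact ⟨fun h => h.ge, fun h => le_antisymm (bridge_v_int_le_one W K a) h⟩

theorem bridge_val_int_eq_one (K : IntermediateField F E) [NumberField K]
    (𝔭 : HeightOneSpectrum (𝓞 K)) (a : 𝓞 K) :
    𝔭.valuation K (algebraMap (𝓞 K) K a) = 1 ↔ a ∉ 𝔭.asIdeal := by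
  rw [HeightOneSpectrum.valuation_of_algebraMap, HeightOneSpectrum.intValuation_eq_one_iff]

theorem bridge_le_one_iff {Γ : Type*} [LinearOrderedCommMonoidWithZero Γ] {a b : Γ}
    (hab : a * b = 1) (hb : b ≤ 1) : a ≤ 1 ↔ b = 1 := by
  constructor
  · intro ha
    exact eq_one_of_one_le_mul_right ha hb hab.ge
  · rintro rfl
    rw [mul_one] at hab
    exact hab.le

theorem v_le_one_iff_prime (W : Pl E) (K : IntermediateField F E) [NumberField K] (x : K) :
    W.v (x : E) ≤ 1 ↔ (W.prime K).valuation K x ≤ 1 := by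
  obtain ⟨n, d, h | h⟩ := (W.prime K).exists_primeCompl_mul_eq_or_mul_eq (K := K) x
  · have h1 := congrArg (fun y : K => W.v (y : E)) h
    have h2 := congrArg ((W.prime K).valuation K) h
    simp only [MulMemClass.coe_mul, map_mul] at h1 h2
    rw [(bridge_v_int_eq_one W K d).2 d.2, mul_one] at h1
    rw [(bridge_val_int_eq_one K _ d).2 d.2, mul_one] at h2
    rw [h1, h2]
    exact iff_of_true (bridge_v_int_le_one W K n) ((W.prime K).valuation_le_one n)
  · have h1 := congrArg (fun y : K => W.v (y : E)) h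
    have h2 := congrArg ((W.prime K).valuation K) h
    simp only [MulMemClass.coe_mul, map_mul] at h1 h2
    rw [(bridge_v_int_eq_one W K d).2 d.2] at h1
    rw [(bridge_val_int_eq_one K _ d).2 d.2] at h2
    rw [bridge_le_one_iff h1 (bridge_v_int_le_one W K n),
      bridge_le_one_iff h2 ((W.prime K).valuation_le_one n), bridge_v_int_eq_one,
      bridge_val_int_eq_one]

theorem bridge_isEquiv (W : Pl E) (K : IntermediateField F E) [NumberField K] :
    (W.v.comap (algebraMap K E)).IsEquiv ((W.prime K).valuation K) :=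
  Valuation.isEquiv_iff_val_le_one.2 fun {x} => v_le_one_iff_prime W K x

theorem bridge_v_lt_one_iff (W : Pl E) (K : IntermediateField F E) [NumberField K] (x : K) :
    W.v (x : E) < 1 ↔ (W.prime K).valuation K x < 1 :=
  Valuation.isEquiv_iff_val_lt_one.1 (bridge_isEquiv W K)

theorem bridge_v_eq_one_iff (W : Pl E) (K : IntermediateField F E) [NumberField K] (x : K) :
    W.v (x : E) = 1 ↔ (W.prime K).valuation K x = 1 :=
  Valuation.isEquiv_iff_val_eq_one.1 (bridge_isEquiv W K)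

theorem bridge_unif_ne_zero {K : IntermediateField F E} [NumberField K]
    {𝔭 : HeightOneSpectrum (𝓞 K)} {π : K} (hπ : 𝔭.valuation K π = WithZero.exp (-1 : ℤ)) :
    π ≠ 0 := by
  rintro rfl
  rw [map_zero] at hπ
  exact WithZero.exp_ne_zero hπ.symm

theorem bridge_unif_lt_one (W : Pl E) (K : IntermediateField F E) [NumberField K] {π : K}
    (hπ : (W.prime K).valuation K π = WithZero.exp (-1 : ℤ)) : W.v (π : E) < 1 := by
  rw [bridge_v_lt_one_iff, hπ, ← WithZero.exp_zero, WithZero.exp_lt_exp]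
  norm_num

theorem bridge_zpow (W : Pl E) (K : IntermediateField F E) [NumberField K] {π : K}
    (hπ : (W.prime K).valuation K π = WithZero.exp (-1 : ℤ)) {x : K} (hx : x ≠ 0) :
    W.v (x : E) = W.v (π : E) ^ (- WithZero.log ((W.prime K).valuation K x)) := by
  have hπ0 := bridge_unif_ne_zero hπ
  have hx0 : (W.prime K).valuation K x ≠ 0 := (Valuation.ne_zero_iff _).2 hx
  set n := - WithZero.log ((W.prime K).valuation K x) with hn
  have h1 : (W.prime K).valuation K (x / π ^ n) = 1 := by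
    rw [map_div₀, map_zpow₀, hπ, ← WithZero.exp_zsmul, div_eq_one_iff_eq WithZero.exp_ne_zero, hn]
    simp [WithZero.exp_log hx0]
  rw [← bridge_v_eq_one_iff] at h1
  have hπE : W.v (π : E) ≠ 0 := (Valuation.ne_zero_iff _).2 (by exact_mod_cast hπ0)
  have e : ((x / π ^ n : K) : E) = (x : E) / (π : E) ^ n := by
    change algebraMap K E (x / π ^ n) = algebraMap K E x / algebraMap K E π ^ n
    rw [map_div₀, map_zpow₀]
  rw [e, map_div₀, map_zpow₀, div_eq_one_iff_eq (zpow_ne_zero _ hπE)] at h1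
  exact h1

theorem v_eq_of_prime_eq {W W' : Pl E} (K : IntermediateField F E) [NumberField K]
    (h : W.prime K = W'.prime K) (x : K) : W.v (x : E) = W'.v (x : E) := by
  obtain rfl | hx := eq_or_ne x 0
  · simp
  obtain ⟨π, hπ⟩ := (W.prime K).valuation_exists_uniformizer K
  have hπ' := hπ
  rw [h] at hπ'
  have hp0 : ((W.p : ℕ) : K) ≠ 0 := by exact_mod_cast W.hp.ne_zero
  have hpp : W.p = W'.p := by
    have h1 : W.v ((((W.p : ℕ) : K)) : E) < 1 := by simpa using W.v_p_lt_one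
    rw [bridge_v_lt_one_iff, h, ← bridge_v_lt_one_iff] at h1
    have h2 : W'.v (W.p : E) < 1 := by simpa using h1
    exact ((Nat.prime_dvd_prime_iff_eq W'.hp W.hp).1 (W'.v_natCast_lt_one_iff.1 h2)).symm
  have e1 := bridge_zpow W K hπ hp0
  have e2 := bridge_zpow W' K hπ' hp0
  rw [← h] at e2
  set n := - WithZero.log ((W.prime K).valuation K ((W.p : ℕ) : K))
  have f1 : W.v ((((W.p : ℕ) : K)) : E) = (W.p : ℝ≥0)⁻¹ := by simpa using W.vp
  have f2 : W'.v ((((W.p : ℕ) : K)) : E) = (W.p : ℝ≥0)⁻¹ := by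
    rw [hpp]
    simpa using W'.vp
  have hn : n ≠ 0 := by
    intro hn
    rw [hn, zpow_zero] at e1
    have : W.v ((((W.p : ℕ) : K)) : E) < 1 := by simpa using W.v_p_lt_one
    exact this.ne e1
  have hππ : W.v (π : E) = W'.v (π : E) := by
    have : W.v (π : E) ^ n = W'.v (π : E) ^ n := by rw [← e1, ← e2, f1, f2]
    exact (zpow_left_inj₀ zero_le zero_le hn).1 this
  rw [bridge_zpow W K hπ hx, bridge_zpow W' K hπ' hx, h, hππ]

theorem bridge_valGrp {H : Subgroup Gal(E/F)} [NumberField (L H)] (W : Pl E) {π : L H}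
    (hπ : (W.prime (L H)).valuation (L H) π = WithZero.exp (-1 : ℤ)) :
    ∃ t : ℝ≥0ˣ, (t : ℝ≥0) = W.v (π : E) ∧ (t : ℝ≥0) < 1 ∧ valGrp H W = Subgroup.zpowers t := by
  have hπ0 : (π : E) ≠ 0 := by exact_mod_cast bridge_unif_ne_zero hπ
  refine ⟨W.vU (Units.mk0 _ hπ0), rfl, bridge_unif_lt_one W _ hπ, le_antisymm ?_ ?_⟩
  · rintro _ ⟨x, hx, rfl⟩
    have hx0 : (⟨(x : E), hx⟩ : L H) ≠ 0 := fun h => x.ne_zero (congrArg Subtype.val h)
    refine ⟨- WithZero.log ((W.prime (L H)).valuation (L H) ⟨(x : E), hx⟩), Units.ext ?_⟩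
    simp only [Units.val_zpow_eq_zpow_val, Pl.coe_vU, Units.val_mk0]
    exact (bridge_zpow W (L H) hπ hx0).symm
  · rw [Subgroup.zpowers_le]
    exact ⟨_, π.2, rfl⟩

theorem bridge_zpow_injective {u : ℝ≥0ˣ} (hu : (u : ℝ≥0) < 1) :
    Function.Injective fun n : ℤ => u ^ n := by
  intro a b hab
  have h := congrArg (Units.val : ℝ≥0ˣ → ℝ≥0) hab
  simp only [Units.val_zpow_eq_zpow_val] at h
  exact zpow_right_injective₀ (pos_iff_ne_zero.2 u.ne_zero) hu.ne h

theorem bridge_gen_unique {t u : ℝ≥0ˣ} (ht : (t : ℝ≥0) < 1) (hu : (u : ℝ≥0) < 1)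
    (h : Subgroup.zpowers t = Subgroup.zpowers u) : t = u := by
  obtain ⟨a, ha⟩ : t ∈ Subgroup.zpowers u := h ▸ Subgroup.mem_zpowers t
  obtain ⟨b, hb⟩ : u ∈ Subgroup.zpowers t := h.symm ▸ Subgroup.mem_zpowers u
  simp only at ha hb
  have h1 : a * b = 1 := by
    apply bridge_zpow_injective hu
    simp only [zpow_mul, ha, hb, zpow_one]
  rcases Int.eq_one_or_neg_one_of_mul_eq_one h1 with rfl | rfl
  · rw [← ha, zpow_one]
  · exfalso
    rw [← ha, zpow_neg_one, Units.val_inv_eq_inv_val] at ht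
    exact absurd ((one_lt_inv₀ (pos_iff_ne_zero.2 u.ne_zero)).2 hu) ht.not_gt

theorem unif_spec {H : Subgroup Gal(E/F)} (hH : IsOpen (H : Set Gal(E/F))) (W : Pl E) :
    (unif H W : ℝ≥0) < 1 ∧ valGrp H W = Subgroup.zpowers (unif H W) := by
  have := numberField_L hH
  obtain ⟨π, hπ⟩ := (W.prime (L H)).valuation_exists_uniformizer (L H)
  obtain ⟨t, -, ht⟩ := bridge_valGrp W hπ
  exact @Classical.epsilon_spec ℝ≥0ˣ
    (fun t => (t : ℝ≥0) < 1 ∧ valGrp H W = Subgroup.zpowers t) ⟨t, ht⟩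

theorem v_eq_unif_zpow {H : Subgroup Gal(E/F)} (hH : IsOpen (H : Set Gal(E/F))) [NumberField (L H)]
    (W : Pl E) {x : L H} (hx : x ≠ 0) :
    W.v (x : E) = (unif H W : ℝ≥0) ^ (- WithZero.log ((W.prime (L H)).valuation (L H) x)) := by
  obtain ⟨π, hπ⟩ := (W.prime (L H)).valuation_exists_uniformizer (L H)
  obtain ⟨t, ht0, ht1, ht2⟩ := bridge_valGrp W hπ
  obtain ⟨h1, h2⟩ := unif_spec hH W
  rw [bridge_gen_unique h1 ht1 (h2.symm.trans ht2), ht0]
  exact bridge_zpow W (L H) hπ hx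

theorem resCard_eq_absNorm {H : Subgroup Gal(E/F)} [NumberField (L H)] (W : Pl E) :
    resCard H W = Ideal.absNorm (W.prime (L H)).asIdeal := by
  let f : 𝓞 (L H) →+ E :=
    ((algebraMap (L H) E).comp (algebraMap (𝓞 (L H)) (L H))).toAddMonoidHom
  have hf : ∀ a, f a = ((algebraMap (𝓞 (L H)) (L H) a : L H) : E) := fun a => rfl
  have h1 : (W.prime (L H)).asIdeal.toAddSubgroup = (maxAdd H W).comap f := by
    ext a
    rw [AddSubgroup.mem_comap, hf]
    exact ⟨fun h => ⟨SetLike.coe_mem _, h⟩, fun h => h.2⟩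
  have h2 : intAdd H W = f.range ⊔ maxAdd H W := by
    apply le_antisymm
    · rintro x ⟨hx, hx1⟩
      have hx2 := (v_le_one_iff_prime W (L H) ⟨x, hx⟩).1 hx1
      obtain ⟨a, ha⟩ := (W.prime (L H)).exists_valuation_sub_lt_of_integer hx2 1
      rw [Units.val_one, ← bridge_v_lt_one_iff] at ha
      have e : x = f a - ((algebraMap (𝓞 (L H)) (L H) a - ⟨x, hx⟩ : L H) : E) := by
        rw [hf]
        push_cast
        ring
      rw [e]
      exact sub_mem (AddSubgroup.mem_sup_left ⟨a, rfl⟩)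
        (AddSubgroup.mem_sup_right ⟨SetLike.coe_mem _, ha⟩)
    · refine sup_le ?_ fun x hx => ⟨hx.1, hx.2.le⟩
      rintro _ ⟨a, rfl⟩
      exact ⟨SetLike.coe_mem _, bridge_v_int_le_one W (L H) a⟩
  rw [resCard, h2, AddSubgroup.relIndex_sup_right, ← AddSubgroup.index_comap, ← h1,
    Ideal.absNorm_apply]
  rfl

theorem isIntegral_of_v_le_one {x : E} (F : Type*) [Field F] [NumberField F] [Algebra F E]
    [IsGalois F E] (h : ∀ W : Pl E, W.v x ≤ 1) : IsIntegral ℤ x := by
  have := isAlgebraic_rat F E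
  have hx : IsIntegral F x := Algebra.IsIntegral.isIntegral x
  let K : IntermediateField F E := IntermediateField.adjoin F {x}
  have : FiniteDimensional F K := IntermediateField.adjoin.finiteDimensional hx
  have : NumberField K := NumberField.of_module_finite F K
  have hxK : x ∈ K := IntermediateField.mem_adjoin_simple_self F x
  obtain ⟨a, ha⟩ := HeightOneSpectrum.mem_integers_of_valuation_le_one (R := 𝓞 K) K ⟨x, hxK⟩
    fun 𝔭 => by
      obtain ⟨W, rfl⟩ := exists_pl_prime K 𝔭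
      exact (v_le_one_iff_prime W K ⟨x, hxK⟩).1 (h W)
  have h1 : ((algebraMap (𝓞 K) K a : K) : E) = x := congrArg Subtype.val ha
  rw [← h1]
  exact a.isIntegral_coe.map (K.val.restrictScalars ℤ)

/-- a generator `< 1` of the value group is the uniformiser value. -/
theorem unif_eq_of {H : Subgroup Gal(E/F)} (hH : IsOpen (H : Set Gal(E/F))) (W : Pl E) {t : ℝ≥0ˣ}
    (ht : (t : ℝ≥0) < 1) (h : valGrp H W = Subgroup.zpowers t) : unif H W = t :=
  bridge_gen_unique (unif_spec hH W).1 ht ((unif_spec hH W).2.symm.trans h)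

theorem unif_zpow_injective {H : Subgroup Gal(E/F)} (hH : IsOpen (H : Set Gal(E/F))) (W : Pl E) :
    Function.Injective fun n : ℤ => unif H W ^ n :=
  bridge_zpow_injective (unif_spec hH W).1

theorem exists_unif {H : Subgroup Gal(E/F)} (hH : IsOpen (H : Set Gal(E/F))) (W : Pl E) :
    ∃ x ∈ LU H, W.vU x = unif H W := by
  have h : unif H W ∈ valGrp H W := (unif_spec hH W).2 ▸ Subgroup.mem_zpowers _
  exact h

/-- elements of `L H` of value `< 1` have value `≤ unif`. -/
theorem v_le_unif {H : Subgroup Gal(E/F)} (hH : IsOpen (H : Set Gal(E/F))) (W : Pl E) {x : E}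
    (hx : x ∈ L H) (h1 : W.v x < 1) : W.v x ≤ unif H W := by
  obtain rfl | hx0 := eq_or_ne x 0
  · simp
  obtain ⟨hu, hv⟩ := unif_spec hH W
  have h : W.vU (Units.mk0 x hx0) ∈ valGrp H W := ⟨_, hx, rfl⟩
  rw [hv] at h
  obtain ⟨n, hn⟩ := h
  have hn' : (unif H W : ℝ≥0) ^ n = W.v x := by
    have := congrArg (Units.val : ℝ≥0ˣ → ℝ≥0) hn
    simpa using this
  have hu0 : 0 < (unif H W : ℝ≥0) := pos_iff_ne_zero.2 (unif H W).ne_zero
  rw [← hn'] at h1 ⊢
  have hpos : 0 < n := (zpow_lt_one_iff_right_of_lt_one₀ hu0 hu).1 h1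
  calc (unif H W : ℝ≥0) ^ n ≤ (unif H W : ℝ≥0) ^ (1 : ℤ) :=
        zpow_le_zpow_right_of_le_one₀ hu0 hu.le hpos
    _ = _ := zpow_one _

theorem valGrp_same {H : Subgroup Gal(E/F)} {W W' : Pl E} (h : Same H W W') :
    valGrp H W = valGrp H W' := by
  ext t
  constructor
  · rintro ⟨x, hx, rfl⟩
    exact ⟨x, hx, Units.ext (h.v_eq hx).symm⟩
  · rintro ⟨x, hx, rfl⟩
    exact ⟨x, hx, Units.ext (h.v_eq hx)⟩

theorem unif_same {H : Subgroup Gal(E/F)} {W W' : Pl E} (h : Same H W W') : unif H W = unif H W' := by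
  unfold unif
  rw [valGrp_same h]

theorem resCard_same {H : Subgroup Gal(E/F)} {W W' : Pl E} (h : Same H W W') :
    resCard H W = resCard H W' := by
  have h1 : intAdd H W = intAdd H W' := by
    ext x
    exact and_congr_right fun hx => by rw [h.v_eq hx]
  have h2 : maxAdd H W = maxAdd H W' := by
    ext x
    exact and_congr_right fun hx => by rw [h.v_eq hx]
  rw [resCard, resCard, h1, h2]

theorem bridge_smul_mem_L {H : Subgroup Gal(E/F)} {g : Gal(E/F)}
    (hg : ∀ x, x ∈ H ↔ g * x * g⁻¹ ∈ H) {x : E} : g⁻¹ x ∈ L H ↔ x ∈ L H := by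
  rw [mem_L, mem_L]
  constructor
  · intro h k hk
    have h1 : g⁻¹ * k * g ∈ H := (hg _).2 (by simpa [mul_assoc] using hk)
    have h2 := h _ h1
    simpa using h2
  · intro h k hk
    have h2 := h _ ((hg k).1 hk)
    have h3 : g (k (g⁻¹ x)) = x := h2
    apply g.injective
    rw [h3]
    simp

theorem unif_smul {H : Subgroup Gal(E/F)} {g : Gal(E/F)} (hg : ∀ x, x ∈ H ↔ g * x * g⁻¹ ∈ H)
    (W : Pl E) : unif H (g • W) = unif H W := by
  have h : valGrp H (g • W) = valGrp H W := by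
    ext t
    constructor
    · rintro ⟨x, hx, rfl⟩
      exact ⟨g⁻¹ • x, (bridge_smul_mem_L hg).2 hx, Units.ext rfl⟩
    · rintro ⟨x, hx, rfl⟩
      refine ⟨g • x, (bridge_smul_mem_L hg).1 ?_, Units.ext ?_⟩
      · have e : g⁻¹ ((g • x : Eˣ) : E) = x := by simp
        rw [e]
        exact hx
      · simp
  unfold unif
  rw [h]

theorem resCard_smul {H : Subgroup Gal(E/F)} {g : Gal(E/F)} (hg : ∀ x, x ∈ H ↔ g * x * g⁻¹ ∈ H)
    (W : Pl E) : resCard H (g • W) = resCard H W := by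
  let f : E →+ E := (g⁻¹ : Gal(E/F)).toRingEquiv.toRingHom.toAddMonoidHom
  have hf : Function.Surjective f := (g⁻¹ : Gal(E/F)).surjective
  have h1 : intAdd H (g • W) = (intAdd H W).comap f := by
    ext x
    exact and_congr_left fun _ => (bridge_smul_mem_L hg).symm
  have h2 : maxAdd H (g • W) = (maxAdd H W).comap f := by
    ext x
    exact and_congr_left fun _ => (bridge_smul_mem_L hg).symm
  rw [resCard, resCard, h1, h2, AddSubgroup.relIndex_comap,
    AddSubgroup.map_comap_eq_self_of_surjective hf]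

theorem bas_same {H : Subgroup Gal(E/F)} {W W' : Pl E} (h : Same H W W') : bas H W = bas H W' := by
  funext W''
  have h1 : Same H W W'' ↔ Same H W' W'' := ⟨fun h' => h.symm.trans h', fun h' => h.trans h'⟩
  simp only [bas, h1, unif_same h]

theorem smul_bas {H : Subgroup Gal(E/F)} {g : Gal(E/F)} (hg : ∀ x, x ∈ H ↔ g * x * g⁻¹ ∈ H)
    (W : Pl E) : g • bas H W = bas H (g • W) := by
  funext W'
  have h1 : Same H W (g⁻¹ • W') ↔ Same H (g • W) W' := by
    constructor
    · rintro ⟨k, hk, hk'⟩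
      refine ⟨g * k * g⁻¹, (hg k).1 hk, ?_⟩
      rw [mul_smul, mul_smul, inv_smul_smul, hk', smul_inv_smul]
    · rintro ⟨k, hk, hk'⟩
      refine ⟨g⁻¹ * k * g, (hg _).2 (by simpa [mul_assoc] using hk), ?_⟩
      rw [mul_smul, mul_smul, hk']
  rw [Dv.smul_apply]
  simp only [bas, h1, unif_smul hg]

end Crest.Agent.R018
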