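import Crest.Agent.R018.DivB

/-!
# R018 / Class

Finiteness of ray class groups.  `Ray_one_relIndex`: the map from nonzero fractional ideals of `L H` to `DivP H 1`,
`I ↦ (W ↦ unif H W ^ count (W.prime) I)`, is onto (primes go to `bas`), sends principal ideals to `dv`, and `ClassGroup (𝓞 (L H))`
is finite.  (Alternatively: every class contains an integral ideal of bounded norm / `ClassGroup.mk`.)
`rayU_relIndex`: `SU H {W | ¬ W.v π < 1}` (units at the places dividing `π`) maps to the finite group `(𝓞/M𝓞)ˣ`-like quotient: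
two such units congruent mod `π` at all `W ∣ π` differ by an element of `rayU`; finitely many classes since each
`intAdd H W / π` is finite (`resCard ≠ 0`, filtration by powers of the uniformiser) and there are finitely many orbits `W ∣ π`.
-/

set_option autoImplicit false
set_option linter.unusedSectionVars false

noncomputable section

namespace Crest.Agent.R018

open scoped NNReal Classical

variable {F E : Type*} [Field F] [NumberField F] [Field E] [CharZero E] [Algebra F E]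
  [IsGalois F E]
variable {H : Subgroup Gal(E/F)} {π : E}

@[to_additive class_addFin]
theorem class_fin {G ι : Type*} [Group G] [Finite ι] (A B : Subgroup G) (f : B → ι)
    (h : ∀ x y : B, f x = f y → (x : G)⁻¹ * y ∈ A) : A.relIndex B ≠ 0 := by
  have : Finite (B ⧸ A.subgroupOf B) := Finite.of_injective (fun q => f q.out) fun q q' e => by
    rw [← q.out_eq, ← q'.out_eq]
    exact QuotientGroup.eq.2 (h _ _ e)
  exact Subgroup.index_ne_zero_of_finite

theorem class_map {G G' : Type*} [Group G] [Group G'] (f : G →* G') {A B : Subgroup G}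
    (h : A.relIndex B ≠ 0) : (A.map f).relIndex (B.map f) ≠ 0 := by
  have : Finite (B ⧸ A.subgroupOf B) := Nat.finite_of_card_ne_zero h
  choose g hg hg' using fun a : B.map f => Subgroup.mem_map.1 a.2
  refine class_fin _ _ (fun a => (QuotientGroup.mk ⟨g a, hg a⟩ : B ⧸ A.subgroupOf B)) fun x y e => ?_
  have h1 : (g x)⁻¹ * g y ∈ A := (QuotientGroup.eq (s := A.subgroupOf B)).1 e
  exact ⟨_, h1, by simp [hg']⟩

open NumberField IsDedekindDomain FractionalIdeal nonZeroDivisors in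
theorem class_count {K : Type*} [Field K] [NumberField K] (v : HeightOneSpectrum (𝓞 K)) {x : K}
    (hx : x ≠ 0) : count K v (spanSingleton (𝓞 K)⁰ x) = -WithZero.log (v.valuation K x) := by
  obtain ⟨a, b, rfl⟩ := IsLocalization.exists_mk'_eq (𝓞 K)⁰ x
  have ha : a ≠ 0 := by rintro rfl; simp at hx
  rw [count_well_defined K v (spanSingleton_ne_zero_iff.2 hx) (a := b) (J := Ideal.span {a}) (by
    rw [coeIdeal_span_singleton, spanSingleton_mul_spanSingleton, IsFractionRing.mk'_eq_div,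
      div_eq_inv_mul]), v.valuation_of_mk', v.intValuation_if_neg ha,
    v.intValuation_if_neg (nonZeroDivisors.coe_ne_zero b), ← WithZero.exp_sub, WithZero.log_exp]
  ring

open NumberField IsDedekindDomain FractionalIdeal nonZeroDivisors in
/-- fractional ideals to divisors -/
def classPhi (H : Subgroup Gal(E/F)) [NumberField (L H)] :
    (FractionalIdeal (𝓞 (L H))⁰ (L H))ˣ →* Dv E where
  toFun I := fun W => unif H W ^ count (L H) (W.prime (L H)) (I : FractionalIdeal (𝓞 (L H))⁰ (L H))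
  map_one' := by funext W; simp [count_one]
  map_mul' I J := by
    funext W
    simp only [Units.val_mul, Dv.mul_apply, count_mul _ _ I.ne_zero J.ne_zero, zpow_add]

theorem rayU_one : rayU H (1 : E) = LU H := by
  ext x
  simp [mem_rayU]

theorem Ray_one_relIndex (hH : IsOpen (H : Set Gal(E/F))) : (Ray H 1).relIndex (DivP H 1) ≠ 0 := by
  have := numberField_L hH
  have h1 : DivP H 1 ≤ (classPhi H).range := by
    refine (Subgroup.closure_le _).2 ?_
    rintro _ ⟨W, -, rfl⟩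
    refine ⟨Units.mk0 _ (FractionalIdeal.coeIdeal_ne_zero.2 (W.prime (L H)).ne_bot), ?_⟩
    funext W'
    simp only [classPhi, MonoidHom.coe_mk, OneHom.coe_mk, Units.val_mk0, bas,
      FractionalIdeal.count_maximal, prime_eq_iff_same hH]
    split_ifs with h
    · rw [zpow_one, unif_same h]
    · rw [zpow_zero]
  choose g hg using fun a : DivP H 1 => h1 a.2
  refine class_fin _ _ (fun a => ClassGroup.mk (L H) (g a)) fun x y e => ?_
  have e' : ClassGroup.mk (L H) ((g x)⁻¹ * g y) = 1 := by rw [map_mul, map_inv, e, inv_mul_cancel]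
  obtain ⟨z, hz⟩ := (FractionalIdeal.isPrincipal_iff _).1 (ClassGroup.mk_eq_one_iff.1 e')
  have hz0 : z ≠ 0 := by
    rintro rfl
    exact ((g x)⁻¹ * g y).ne_zero (by rw [hz, FractionalIdeal.spanSingleton_zero])
  refine ⟨Units.mk0 (z : E) (by simpa using hz0), by rw [rayU_one]; exact z.2, ?_⟩
  rw [← hg, ← hg, ← map_inv, ← map_mul]
  ext W
  simp only [classPhi, MonoidHom.coe_mk, OneHom.coe_mk, hz, class_count _ hz0, dv_apply, Pl.coe_vU,
    Units.val_mk0, v_eq_unif_zpow hH W hz0, Units.val_zpow_eq_zpow_val]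

/-- closed balls of `L H` -/
def classBall (H : Subgroup Gal(E/F)) (W : Pl E) (t : ℝ≥0) : AddSubgroup E where
  carrier := {x | x ∈ L H ∧ W.v x ≤ t}
  zero_mem' := ⟨(L H).zero_mem, by simp⟩
  add_mem' ha hb := ⟨(L H).add_mem ha.1 hb.1, le_trans (W.v.map_add _ _) (max_le ha.2 hb.2)⟩
  neg_mem' ha := ⟨(L H).neg_mem ha.1, by rw [Valuation.map_neg]; exact ha.2⟩

theorem class_ball (hH : IsOpen (H : Set Gal(E/F))) (W : Pl E) {t : ℝ≥0} (ht : 0 < t) :
    (classBall H W t).relIndex (intAdd H W) ≠ 0 := by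
  obtain ⟨ϖ, hϖ, hv⟩ := exists_unif hH W
  have hv' : W.v (ϖ : E) = unif H W := by rw [← hv, Pl.coe_vU]
  have hu : (0 : ℝ≥0) < unif H W := pos_iff_ne_zero.2 (unif H W).ne_zero
  obtain ⟨f, -, -, hf⟩ := exists_resCard_eq_pow hH W
  have : Finite (intAdd H W ⧸ (maxAdd H W).addSubgroupOf (intAdd H W)) :=
    Nat.finite_of_card_ne_zero (show resCard H W ≠ 0 by rw [hf]; exact pow_ne_zero _ W.hp.ne_zero)
  have key : ∀ n : ℕ, (classBall H W (unif H W ^ n)).relIndex (intAdd H W) ≠ 0 := by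
    intro n
    induction n with
    | zero =>
      rw [pow_zero, show classBall H W 1 = intAdd H W from rfl, AddSubgroup.relIndex_self]
      exact one_ne_zero
    | succ n ih =>
      refine AddSubgroup.relIndex_ne_zero_trans ?_ ih
      have hn : (ϖ : E) ^ n ∈ L H := pow_mem (show (ϖ : E) ∈ L H from hϖ) n
      refine class_addFin _ _ (fun x => (QuotientAddGroup.mk ⟨(x : E) / (ϖ : E) ^ n, (L H).div_mem x.2.1 hn,
        by rw [map_div₀, map_pow, hv', div_le_one (pow_pos hu n)]; exact x.2.2⟩ :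
          intAdd H W ⧸ (maxAdd H W).addSubgroupOf (intAdd H W))) fun x y e => ?_
      obtain ⟨h1, h2⟩ := QuotientAddGroup.eq.1 e
      have h3 := v_le_unif hH W h1 h2
      refine ⟨(L H).add_mem ((L H).neg_mem x.2.1) y.2.1, ?_⟩
      have e1 : -(x : E) + y = (-((x : E) / (ϖ : E) ^ n) + (y : E) / (ϖ : E) ^ n) * (ϖ : E) ^ n := by
        field_simp
      rw [e1, map_mul, map_pow, hv', pow_succ']
      exact mul_le_mul_left h3 _
  obtain ⟨n, hn⟩ := exists_pow_lt_of_lt_one ht (unif_spec hH W).1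
  exact fun h => key n (AddSubgroup.relIndex_eq_zero_of_le_left (K := classBall H W t)
    (fun x hx => And.intro hx.1 (hx.2.trans hn.le)) h)

theorem class_reps (hH : IsOpen (H : Set Gal(E/F))) (hπ : π ∈ L H) (h0 : π ≠ 0) :
    ∃ s : Finset (Pl E), (∀ W ∈ s, ∀ W' ∈ s, Same H W W' → W = W') ∧
      ∀ W, W ∈ orbs H s ↔ W.v π < 1 := by
  have := isAlgebraic_rat F E
  obtain ⟨B, hB⟩ := finite_p_v_ne_one h0
  obtain ⟨s, h1, h2⟩ := exists_orbit_reps_set hH {W | W.v π < 1}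
    (fun W hW W' h => by rw [Set.mem_ofPred_eq, ← h.v_eq hπ]; exact hW) B
    (fun W hW => by by_contra h; exact absurd (hB W h) (ne_of_lt hW))
  exact ⟨s, h1, fun W => by rw [h2]; rfl⟩

/-- (LocFin) -/
theorem rayU_relIndex (hH : IsOpen (H : Set Gal(E/F))) (hπ : π ∈ L H) (h0 : π ≠ 0) :
    (rayU H π).relIndex (SU H {W | ¬ W.v π < 1}) ≠ 0 := by
  obtain ⟨s, hs, hs'⟩ := class_reps hH hπ h0
  have : ∀ W : s, Finite (intAdd H W ⧸ (classBall H W (W.1.v π)).addSubgroupOf (intAdd H W)) := fun W =>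
    Nat.finite_of_card_ne_zero (class_ball hH W.1 (by simpa [pos_iff_ne_zero] using h0))
  have hv : ∀ x : SU H {W | ¬ W.v π < 1}, ∀ W : Pl E, W.v π < 1 → W.v ((x : Eˣ) : E) = 1 := fun x W hW =>
    x.2.2 W (by simpa using hW)
  have hm : ∀ W ∈ s, W.v π < 1 := fun W hW => (hs' W).1 ⟨W, hW, Same.refl _ _⟩
  refine class_fin _ _ (fun x (W : s) => (QuotientAddGroup.mk ⟨((x : Eˣ) : E), x.2.1,
    (hv x W (hm W W.2)).le⟩ : intAdd H W ⧸ (classBall H W (W.1.v π)).addSubgroupOf (intAdd H W)))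
    fun x y e => ?_
  have hxy := (LU H).mul_mem ((LU H).inv_mem x.2.1) y.2.1
  refine ⟨hxy, fun W hW => ?_⟩
  obtain ⟨W', hW', hs⟩ := (hs' W).2 hW
  have h1 := (QuotientAddGroup.eq.1 (congrFun e ⟨W', hW'⟩)).2
  rw [← hs.v_eq hπ, ← hs.v_eq ((L H).sub_mem hxy (L H).one_mem)]
  have e1 : (((x : Eˣ)⁻¹ * y : Eˣ) : E) - 1 = ((x : Eˣ) : E)⁻¹ * (-((x : Eˣ) : E) + (y : Eˣ)) := by
    rw [Units.val_mul, Units.val_inv_eq_inv_val]; field_simp; ring
  rw [e1, map_mul, map_inv₀, hv x W' (hm W' hW'), inv_one, one_mul]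
  exact h1

/-- (RayFin): use `approx` to move a principal divisor generator, and the two previous results. -/
theorem Ray_relIndex (hH : IsOpen (H : Set Gal(E/F))) (hπ : π ∈ L H) (h0 : π ≠ 0) :
    (Ray H π).relIndex (DivP H π) ≠ 0 := by
  refine Subgroup.relIndex_ne_zero_trans (class_map dv (rayU_relIndex hH hπ h0)) fun h => ?_
  have h1 := Subgroup.relIndex_eq_zero_of_le_left (H := Ray H 1 ⊓ DivP H π) ?_ h
  · rw [Subgroup.inf_relIndex_right] at h1
    exact Ray_one_relIndex hH (Subgroup.relIndex_eq_zero_of_le_right DivP_le_one h1)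
  · rintro _ ⟨⟨x, hx, rfl⟩, hx'⟩
    refine ⟨x, ⟨hx.1, fun W hW => ?_⟩, rfl⟩
    have := ((mem_DivP_iff hH hπ).1 hx').2.2.1 W (by simpa using hW)
    simpa using congrArg Units.val this

theorem nIdx_ne_zero (hH : IsOpen (H : Set Gal(E/F))) (hπ : π ∈ L H) (h0 : π ≠ 0)
    (H' : Subgroup Gal(E/F)) : nIdx H H' π ≠ 0 := by
  exact fun h => Ray_relIndex hH hπ h0 (Subgroup.relIndex_eq_zero_of_le_left le_sup_left h)

/-- (LocFin') -/
theorem pw_sup_rayU_relIndex (hH : IsOpen (H : Set Gal(E/F))) (hπ : π ∈ L H) (h0 : π ≠ 0) {n : ℕ}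
    (hn : n ≠ 0) : (Pw (LU H) n ⊔ rayU H π).relIndex (LU H) ≠ 0 := by
  obtain ⟨s, hs, hs'⟩ := class_reps hH hπ h0
  have : NeZero n := ⟨hn⟩
  refine Subgroup.relIndex_ne_zero_trans
    (K := SU H {W | ¬ W.v π < 1} ⊔ (Pw (LU H) n ⊔ rayU H π)) ?_ ?_
  · rw [Subgroup.relIndex_sup_right]
    exact fun h => rayU_relIndex hH hπ h0 (Subgroup.relIndex_eq_zero_of_le_left le_sup_right h)
  refine class_fin _ _ (fun x (W : s) => ((expo H W (W.1.vU x) : ℤ) : ZMod n)) fun x y e => ?_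
  choose ϖ hϖ hv using fun W => exists_unif hH W
  have hk : ∀ W ∈ s, ∃ k : ℤ, W.vU ((x : Eˣ)⁻¹ * y) = (unif H W ^ k) ^ n := fun W hW => by
    obtain ⟨k, hk⟩ := (ZMod.intCast_eq_intCast_iff_dvd_sub _ _ _).1 (congrFun e ⟨W, hW⟩)
    refine ⟨k, ?_⟩
    rw [map_mul, map_inv, ← unif_zpow_expo hH (W := W) ⟨x, x.2, rfl⟩,
      ← unif_zpow_expo hH (W := W) ⟨y, y.2, rfl⟩, ← zpow_neg, ← zpow_add, neg_add_eq_sub, hk,
      ← zpow_natCast, ← zpow_mul, mul_comm]
  choose! k hk using hk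
  obtain ⟨z, hz, hz'⟩ := approx_mul hH s hs (fun W => ϖ W ^ k W)
    (fun W _ => LU_anti inf_le_right ((LU H).zpow_mem (hϖ W) _)) one_pos
  have hxy := (LU H).mul_mem ((LU H).inv_mem x.2) y.2
  have hq := (LU H).div_mem hxy ((LU H).pow_mem hz n)
  rw [← div_mul_cancel ((x : Eˣ)⁻¹ * y) (z ^ n)]
  refine Subgroup.mul_mem_sup ⟨hq, fun W hW => ?_⟩ (Subgroup.mem_sup_left ⟨z, hz, rfl⟩)
  obtain ⟨W', hW', h⟩ := (hs' W).2 (by simpa using hW)
  rw [← h.v_eq hq, ← Pl.coe_vU, Units.val_eq_one, map_div, hk W' hW', map_pow, ← div_pow]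
  have h1 := W'.v.map_one_add_of_lt (hz' W' hW')
  rw [add_sub_cancel, ← Pl.coe_vU, Units.val_eq_one, map_div, map_zpow, hv, div_eq_one] at h1
  rw [h1, div_self', one_pow]

/-- an exponent of the class group. -/
theorem exists_class_exp (hH : IsOpen (H : Set Gal(E/F))) :
    ∃ h : ℕ, h ≠ 0 ∧ ∀ a ∈ DivP H 1, ∃ x ∈ LU H, dv x = a ^ h := by
  refine ⟨_, Ray_one_relIndex hH, fun a ha => ?_⟩
  obtain ⟨x, hx, h⟩ := (Ray H 1).pow_relIndex_mem ha
  exact ⟨x, hx.1, h⟩

theorem exists_ray_pow (hH : IsOpen (H : Set Gal(E/F))) (hπ : π ∈ L H) (h0 : π ≠ 0) {a : Dv E}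
    (ha : a ∈ DivP H π) : ∃ c : ℕ, c ≠ 0 ∧ ∃ x ∈ rayU H π, dv x = a ^ c := by
  exact ⟨_, Ray_relIndex hH hπ h0, (Ray H π).pow_relIndex_mem ha⟩

/-- finitely many primes generate the class group. -/
theorem exists_class_gen (hH : IsOpen (H : Set Gal(E/F))) :
    ∃ P : Finset ℕ, ∀ a ∈ DivP H 1, ∃ x ∈ LU H, ∀ W : Pl E, W.p ∉ P → dv x W = a W := by
  have : Finite (DivP H 1 ⧸ (Ray H 1).subgroupOf (DivP H 1)) :=
    Nat.finite_of_card_ne_zero (Ray_one_relIndex hH)
  have := Fintype.ofFinite (DivP H 1 ⧸ (Ray H 1).subgroupOf (DivP H 1))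
  choose B hB using fun q : DivP H 1 ⧸ (Ray H 1).subgroupOf (DivP H 1) =>
    ((mem_DivP_iff hH (L H).one_mem).1 q.out.2).2.2.2
  refine ⟨Finset.univ.biUnion B, fun a ha => ?_⟩
  obtain ⟨x, hx, h⟩ := QuotientGroup.eq.1 (QuotientGroup.out_eq'
    (QuotientGroup.mk ⟨a, ha⟩ : DivP H 1 ⧸ (Ray H 1).subgroupOf (DivP H 1)))
  refine ⟨x, hx.1, fun W hW => ?_⟩
  rw [h]
  simp only [Subgroup.coe_subtype, Subgroup.coe_mul, Subgroup.coe_inv, Dv.mul_apply, Dv.inv_apply]
  rw [hB _ W fun h' => hW (Finset.mem_biUnion.2 ⟨_, Finset.mem_univ _, h'⟩), inv_one, one_mul]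

end Crest.Agent.R018
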