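import Crest.Agent.R018.SetupB

/-!
# R018 / Sep

`sep`: for fixed `h`, `x ↦ ∑ η_i x · λ_i h` vanishes on `H`; group by the character `η_i|H : H →* R` and use `linearIndependent_monoidHom`.
`neumann`: `Subgroup.exists_finiteIndex_of_leftCoset_cover` in the group `↥A` (cosets not meeting `A` can be dropped).
`exists_indep`: induction on `m` for every infinite `Z`: among `B + 1` elements `p_0..p_B` of `Z`, one `p_i` avoids `P p` for infinitely many `p ∈ Z`.
-/

set_option autoImplicit false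
set_option linter.unusedSectionVars false

noncomputable section

namespace Crest.Agent.R018

open scoped NNReal Classical


theorem sep {Γ R ι : Type*} [Group Γ] [CommRing R] [IsDomain R] {H H' : Subgroup Γ}
    (hn : ∀ x ∈ H, ∀ h ∈ H', x * h * x⁻¹ ∈ H') (s : Finset ι) (lam η : ι → Γ → R)
    (hη : ∀ i ∈ s, MHom H (η i)) (heig : ∀ i ∈ s, ∀ x ∈ H, ∀ h ∈ H', lam i (x * h * x⁻¹) = η i x * lam i h)
    (hsum : ∀ h ∈ H', ∑ i ∈ s, lam i h = 0) (η0 : Γ → R) :
    ∀ h ∈ H', ∑ i ∈ s with (∀ x ∈ H, η i x = η0 x), lam i h = 0 := by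
  intro h hh
  let φ : ι → (H →* R) := fun i => if hi : i ∈ s then
    { toFun := fun x => η i x
      map_one' := (hη i hi).1
      map_mul' := fun x y => (hη i hi).2 x x.2 y y.2 } else 1
  have hφ : ∀ i ∈ s, ∀ x : H, φ i x = η i x := by
    intro i hi x; simp only [φ, dif_pos hi]; rfl
  have key := linearIndependent_iff'.1 (linearIndependent_monoidHom H R) (s.image φ)
    (fun χ => ∑ i ∈ s with φ i = χ, lam i h) (by
      funext x
      rw [Finset.sum_apply, Pi.zero_apply, ← hsum _ (hn x x.2 h hh),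
        ← Finset.sum_fiberwise_of_maps_to (fun i hi => Finset.mem_image_of_mem φ hi)]
      refine Finset.sum_congr rfl fun χ _ => ?_
      rw [Pi.smul_apply, smul_eq_mul, Finset.sum_mul]
      refine Finset.sum_congr rfl fun i hi => ?_
      obtain ⟨hi', rfl⟩ := Finset.mem_filter.1 hi
      rw [heig i hi' x x.2 h hh, hφ i hi', mul_comm])
  by_cases he : (s.filter (fun i => ∀ x ∈ H, η i x = η0 x)).Nonempty
  · obtain ⟨i0, hi0⟩ := he
    obtain ⟨hi0, hi0'⟩ := Finset.mem_filter.1 hi0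
    rw [← key (φ i0) (Finset.mem_image_of_mem φ hi0)]
    refine Finset.sum_congr (Finset.filter_congr fun i hi => ⟨fun h1 => ?_, fun h1 x hx => ?_⟩)
      fun _ _ => rfl
    · ext x
      rw [hφ i hi, hφ i0 hi0, h1 x x.2, hi0' x x.2]
    · rw [← hi0' x hx, ← hφ i hi ⟨x, hx⟩, h1, hφ i0 hi0]
  · rw [Finset.not_nonempty_iff_eq_empty.1 he, Finset.sum_empty]

theorem neumann {M ι : Type*} [CommGroup M] (A : Subgroup M) (s : Finset ι) (c : ι → M)
    (Z : ι → Subgroup M) (h : ∀ y ∈ A, ∃ i ∈ s, c i * y ∈ Z i) : ∃ i ∈ s, (Z i).relIndex A ≠ 0 := by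
  let g : ι → A := fun i => if hi : ∃ y : A, c i * y ∈ Z i then hi.choose else 1
  have hg : ∀ i, (∃ y : A, c i * y ∈ Z i) → c i * g i ∈ Z i := by
    intro i hi; simp only [g, dif_pos hi]; exact hi.choose_spec
  obtain ⟨k, hk, hfin⟩ := Subgroup.exists_finiteIndex_of_leftCoset_cover
    (H := fun i => (Z i).subgroupOf A) (g := g) (s := s) (by
      refine Set.eq_univ_of_forall fun y => ?_
      obtain ⟨i, hi, hy⟩ := h y y.2
      refine Set.mem_iUnion₂.2 ⟨i, hi, ?_⟩
      rw [mem_leftCoset_iff]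
      change (((g i)⁻¹ * y : A) : M) ∈ Z i
      have := (Z i).mul_mem ((Z i).inv_mem (hg i ⟨y, hy⟩)) hy
      convert this using 1
      push_cast
      rw [mul_inv_rev, mul_assoc, inv_mul_cancel_left])
  exact ⟨k, hk, hfin.index_ne_zero⟩

theorem exists_finset_of_card_le {X : Type*} (P : X → Prop) (f : X → ℕ) (B : ℕ)
    (h : ∀ s : Finset X, (∀ x ∈ s, P x) → (∀ x ∈ s, ∀ y ∈ s, f x = f y → x = y) → s.card ≤ B) :
    ∃ T : Finset ℕ, T.card ≤ B ∧ ∀ x, P x → f x ∈ T := by
  have key : ∀ T : Finset ℕ, (∀ t ∈ T, ∃ x, P x ∧ f x = t) → T.card ≤ B := by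
    intro T hT
    choose g hg using hT
    have hinj : Function.Injective (fun t : T => g t.1 t.2) := by
      intro t t' e
      have := congrArg f e
      simp only [(hg _ _).2] at this
      exact Subtype.ext this
    have := h (T.attach.image fun t : T => g t.1 t.2) (by
      intro x hx
      obtain ⟨t, -, rfl⟩ := Finset.mem_image.1 hx
      exact (hg _ _).1) (by
      intro x hx y hy e
      obtain ⟨t, -, rfl⟩ := Finset.mem_image.1 hx
      obtain ⟨t', -, rfl⟩ := Finset.mem_image.1 hy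
      simp only [(hg _ _).2] at e
      rw [Subtype.ext e])
    rwa [Finset.card_image_of_injective _ hinj, Finset.card_attach] at this
  have hfin : {t | ∃ x, P x ∧ f x = t}.Finite := by
    by_contra hinf
    obtain ⟨T, hT, hc⟩ := Set.Infinite.exists_subset_card_eq hinf (B + 1)
    have := key T fun t ht => hT ht
    omega
  exact ⟨hfin.toFinset, key _ fun t ht => hfin.mem_toFinset.1 ht,
    fun x hx => hfin.mem_toFinset.2 ⟨x, hx, rfl⟩⟩

theorem exists_family {X : Type*} (P : X → Prop) (f : X → ℕ)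
    (h : ∀ T : Finset ℕ, ∃ x, P x ∧ f x ∉ T) (n : ℕ) :
    ∃ s : Finset X, s.card = n ∧ (∀ x ∈ s, P x) ∧ ∀ x ∈ s, ∀ y ∈ s, f x = f y → x = y := by
  induction n with
  | zero => exact ⟨∅, rfl, by simp, by simp⟩
  | succ n ih =>
    obtain ⟨s, hc, hP, hinj⟩ := ih
    obtain ⟨x, hx, hx'⟩ := h (s.image f)
    have hne : ∀ y ∈ s, f y ≠ f x := fun y hy e => hx' (e ▸ Finset.mem_image_of_mem f hy)
    refine ⟨insert x s, ?_, ?_, ?_⟩
    · rw [Finset.card_insert_of_notMem (fun hs => hne x hs rfl), hc]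
    · intro y hy
      rcases Finset.mem_insert.1 hy with rfl | hy
      exacts [hx, hP y hy]
    · intro y hy z hz e
      rcases Finset.mem_insert.1 hy with rfl | hy' <;> rcases Finset.mem_insert.1 hz with rfl | hz'
      · rfl
      · exact absurd e.symm (hne z hz')
      · exact absurd e (hne y hy')
      · exact hinj y hy' z hz' e

theorem exists_indep {Z : Set ℕ} (hZ : Z.Infinite) (P : ℕ → Finset ℕ) (B : ℕ)
    (hB : ∀ p ∈ Z, (P p).card ≤ B) (hP : ∀ p ∈ Z, p ∉ P p) (m : ℕ) :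
    ∃ s : Finset ℕ, s.card = m ∧ (∀ p ∈ s, p ∈ Z) ∧ ∀ p ∈ s, ∀ p' ∈ s, p ∉ P p' := by
  induction m generalizing Z with
  | zero => exact ⟨∅, rfl, by simp, by simp⟩
  | succ m ih =>
    have h0 : ∃ p0 ∈ Z, {p | p ∈ Z ∧ p0 ∉ P p}.Infinite := by
      by_contra hc
      push Not at hc
      obtain ⟨T, hT, hcard⟩ := hZ.exists_subset_card_eq (B + 1)
      have hfin : (⋃ p0 ∈ T, {p | p ∈ Z ∧ p0 ∉ P p}).Finite :=
        T.finite_toSet.biUnion fun p0 hp0 => hc p0 (hT hp0)
      obtain ⟨p, hp, hp'⟩ := (hZ.sdiff hfin).nonempty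
      have hsub : T ⊆ P p := by
        intro p0 hp0
        by_contra hn
        exact hp' (Set.mem_iUnion₂.2 ⟨p0, hp0, hp, hn⟩)
      have := (Finset.card_le_card hsub).trans (hB p hp)
      omega
    obtain ⟨p0, hp0, hinf⟩ := h0
    obtain ⟨s, hc, hs, hs'⟩ := ih (hinf.sdiff (insert p0 (P p0)).finite_toSet)
      (fun p hp => hB p hp.1.1) (fun p hp => hP p hp.1.1)
    have hn : ∀ p ∈ s, p ≠ p0 ∧ p ∉ P p0 := by
      intro p hp
      have := (hs p hp).2
      simpa using this
    refine ⟨insert p0 s, ?_, ?_, ?_⟩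
    · rw [Finset.card_insert_of_notMem (fun h => (hn p0 h).1 rfl), hc]
    · intro p hp
      rcases Finset.mem_insert.1 hp with rfl | hp
      exacts [hp0, (hs p hp).1.1]
    · intro p hp p' hp'
      rcases Finset.mem_insert.1 hp with rfl | hq <;> rcases Finset.mem_insert.1 hp' with rfl | hq'
      · exact hP _ hp0
      · exact (hs p' hq').1.2
      · exact (hn p hq).2
      · exact hs' p hq p' hq'

end Crest.Agent.R018
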