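import Crest.Agent.R018.WR
import Crest.Agent.R018.Sep

/-!
# R018 / Core

(Core) Apply `wr` to `λ = a ∘ α - μ` on `H'`.  The sum `∑_{t ∈ T} a (α (t h t⁻¹)) - ∑_{t ∈ T} μ (t h t⁻¹) = 0` consists of eigen-functions for the characters
`x ↦ ε (α (t x t⁻¹))` and `x ↦ η (t x t⁻¹)` of `H`; apply `sep` (index `T ⊕ T` or `T × Bool`) with `η0 = ε ∘ α`.  If no `t` has `η^t = ε ∘ α` with `μ ≠ 0` on `H'`, only the
first kind of terms remain; for those, genericity gives `t ∈ pre U`, so `α t ∈ Uε` and the term equals `a (α h)`.  As `1 ∈ T`, a positive multiple of `a ∘ α` vanishes on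
`H'`, so `a` vanishes on the open subgroup `img H'`, hence on `Uε` (`eq_zero_of_open`), contradiction.
-/

set_option autoImplicit false
set_option linter.unusedSectionVars false

noncomputable section

namespace Crest.Agent.R018

open scoped NNReal Classical

variable {Ω F E : Type*} [Field Ω] [CharZero Ω] [IsAlgClosed Ω] [IsGalois ℚ Ω]
  [Field F] [NumberField F] [Field E] [CharZero E] [Algebra F E] [IsGalois F E] [RadCl E]

namespace Setup
variable (S : Setup Ω F E)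

theorem core (n : ℕ) : ∃ B : ℕ, ∀ (U Uε : Subgroup Gal(E/F)) (H H' : Subgroup Gal(Ω/ℚ)) (l : ℕ)
    [Fact l.Prime] (ε a : Gal(E/F) → ℤ_[l]) (η μ : Gal(Ω/ℚ) → ℤ_[l]) (s : Finset (Pl Ω)),
    l ≠ 2 → H.Normal → H ≤ S.pre U → H'.Normal → IsOpen (H' : Set Gal(Ω/ℚ)) → H' ≤ H →
    H' ≤ S.pre Uε → HasI H' → H'.index ≤ n → Split H' l →
    MHom U ε → (∀ x, x ∈ Uε ↔ x ∈ U ∧ ε x = 1) → ZHom l Uε a →
    (∀ u ∈ U, ∀ x ∈ Uε, a (u * x * u⁻¹) = ε u * a x) → (∃ x ∈ Uε, a x ≠ 0) →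
    (∀ t : Gal(Ω/ℚ), (∀ h ∈ H, ε (S.α (t * h * t⁻¹)) = ε (S.α h)) → t ∈ S.pre U) →
    MHom H η → ZHom l H' μ → (∀ x ∈ H, ∀ h ∈ H', μ (x * h * x⁻¹) = η x * μ h) →
    B ≤ s.card → (∀ V ∈ s, ∀ V' ∈ s, V.p = V'.p → V = V') → (∀ V ∈ s, V.p ≠ l) →
    (∀ V ∈ s, ∀ d ∈ Dec ℚ V, d ∈ H' → a (S.α d) = μ d) →
    (∀ V ∈ s, ∀ t ∈ Dec ℚ V, t ∈ S.pre U → ε (S.α t) = 1) →
    ∃ t : Gal(Ω/ℚ), (∀ h ∈ H, η (t * h * t⁻¹) = ε (S.α h)) ∧ ∃ h ∈ H', μ h ≠ 0 := by
  obtain ⟨B, hB⟩ := wr Ω n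
  refine ⟨B, ?_⟩
  intro U Uε H H' l _ ε a η μ s hl hHn hHU hH'n hH'o hH'H hH'U hI hidx hspl hε hUε ha haeig hane hgen
    hη hμ hμeig hs hinj hpl hloc htriv
  by_contra hcon
  push Not at hcon
  obtain ⟨V, hV, T, h1T, hTD, hsum⟩ := hB H' hH'n hH'o hidx hI l hl hspl
    (fun g => a (S.α g) - μ g) ((S.zhom_comp hH'U ha).sub hμ) s hs hinj hpl
    (fun V hV d hd hd' => sub_eq_zero.2 (hloc V hV d hd hd'))
  have conj3 : ∀ t x h : Gal(Ω/ℚ),
      t * (x * h * x⁻¹) * t⁻¹ = (t * x * t⁻¹) * (t * h * t⁻¹) * (t * x * t⁻¹)⁻¹ := by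
    intro t x h; group
  have conj2 : ∀ t x y : Gal(Ω/ℚ), t * (x * y) * t⁻¹ = (t * x * t⁻¹) * (t * y * t⁻¹) := by
    intro t x y; group
  have aeig : ∀ x ∈ S.pre U, ∀ h ∈ H', a (S.α (x * h * x⁻¹)) = ε (S.α x) * a (S.α h) := by
    intro x hx h hh
    rw [S.map_conj hx.1 (hH'U hh).1]
    exact haeig _ hx.2 _ (hH'U hh).2
  have key := sep (H := H) (H' := H') (fun x _ h hh => hH'n.conj_mem h hh x)
    (T ×ˢ (Finset.univ : Finset Bool))
    (fun i h => if i.2 then a (S.α (i.1 * h * i.1⁻¹)) else -μ (i.1 * h * i.1⁻¹))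
    (fun i x => if i.2 then ε (S.α (i.1 * x * i.1⁻¹)) else η (i.1 * x * i.1⁻¹))
    (by
      rintro ⟨t, b⟩ _
      cases b
      · refine ⟨by simpa using hη.1, fun x hx y hy => ?_⟩
        simp only [Bool.false_eq_true, if_false]
        rw [conj2]
        exact hη.2 _ (hHn.conj_mem x hx t) _ (hHn.conj_mem y hy t)
      · refine ⟨by simpa [S.map_one] using hε.1, fun x hx y hy => ?_⟩
        simp only [if_true]
        have hx' := hHU (hHn.conj_mem x hx t)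
        have hy' := hHU (hHn.conj_mem y hy t)
        rw [conj2, S.mul _ hx'.1 _ hy'.1]
        exact hε.2 _ hx'.2 _ hy'.2)
    (by
      rintro ⟨t, b⟩ _ x hx h hh
      cases b
      · simp only [Bool.false_eq_true, if_false]
        rw [conj3, hμeig _ (hHn.conj_mem x hx t) _ (hH'n.conj_mem h hh t), mul_neg]
      · simp only [if_true]
        rw [conj3, aeig _ (hHU (hHn.conj_mem x hx t)) _ (hH'n.conj_mem h hh t)])
    (by
      intro h hh
      rw [Finset.sum_product, ← hsum h hh]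
      refine Finset.sum_congr rfl fun t _ => ?_
      simp [sub_eq_add_neg])
    (fun x => ε (S.α x))
  have hzero : ∀ h ∈ H', a (S.α h) = 0 := by
    intro h hh
    have k1 := key h hh
    rw [Finset.sum_congr rfl (g := fun i => if i.2 then a (S.α h) else 0), ← Finset.sum_filter,
      Finset.sum_const, nsmul_eq_mul, mul_eq_zero] at k1
    · rcases k1 with k1 | k1
      · exfalso
        rw [Nat.cast_eq_zero, Finset.card_eq_zero] at k1
        refine Finset.ne_empty_of_mem (a := ((1 : Gal(Ω/ℚ)), true)) ?_ k1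
        simp [h1T]
      · exact k1
    · rintro ⟨t, b⟩ hi
      rw [Finset.mem_filter, Finset.mem_product] at hi
      obtain ⟨⟨ht, -⟩, hi⟩ := hi
      cases b
      · simp only [Bool.false_eq_true, if_false] at hi ⊢
        rw [hcon t hi _ (hH'n.conj_mem h hh t), neg_zero]
      · simp only [if_true] at hi ⊢
        have htU := hgen t hi
        rw [aeig t htU h hh, htriv V hV t (hTD t ht) htU, one_mul]
  obtain ⟨x, hx, hx0⟩ := hane
  refine hx0 (eq_zero_of_open (S.isOpen_img hH'o) ha.1 ?_ x hx)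
  rintro _ _ ⟨h, hh, -, rfl⟩
  exact hzero h hh

end Setup

end Crest.Agent.R018
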