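import Crest.Agent.R018.Defs

/-!
# R018 / Plog

Existence of the logarithm-like map on `ℤ_[l]ˣ` (`l` odd).  For a unit `u`, `u^(l-1) ≡ 1 mod l`, and the kernel of
`(ZMod (l^(k+1)))ˣ → (ZMod l)ˣ` is cyclic of order `l^k` generated by `1+l`
(see `Mathlib/RingTheory/ZMod/UnitsCyclic.lean`: `ZMod.orderOf_one_add_prime`-type lemmas).  Let `c_k(u) : ZMod (l^k)` be the
exponent with `(1+l)^{c_k} ≡ u^(l-1) mod l^(k+1)`; these are compatible; take the limit
(`PadicInt.lift`, `PadicInt.ofIntSeq`, or completeness; `PadicInt.ext_of_toZModPow`).  `f (1+l) = l - 1`.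
-/

set_option autoImplicit false
set_option linter.unusedSectionVars false

noncomputable section

namespace Crest.Agent.R018

open scoped NNReal Classical

variable {l : ℕ} [Fact l.Prime]

theorem plog_compat (c : (k : ℕ) → ZMod (l ^ k))
    (hc : ∀ k, ZMod.castHom (pow_dvd_pow l (Nat.le_succ k)) (ZMod (l ^ k)) (c (k + 1)) = c k) :
    ∃ u : ℤ_[l], ∀ k, PadicInt.toZModPow k u = c k := by
  have hi : ∀ i, (l : ℤ) ^ i ∣ ((c (i + 1)).val : ℤ) - ((c i).val : ℤ) := by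
    intro i
    have h1 : (((c i).val : ℤ) : ZMod (l ^ i)) = (((c (i + 1)).val : ℤ) : ZMod (l ^ i)) := by
      rw [Int.cast_natCast, Int.cast_natCast, ZMod.natCast_zmod_val, ZMod.natCast_val, ← hc i,
        ZMod.castHom_apply]
    simpa using (ZMod.intCast_eq_intCast_iff_dvd_sub _ _ _).1 h1
  refine ⟨_, fun k => (PadicInt.toZModPow_ofIntSeq_of_pow_dvd_sub (fun i => ((c i).val : ℤ)) l hi k).trans ?_⟩
  simp

theorem plog_exists_exp (hl : l ≠ 2) (k : ℕ) {x : ZMod (l ^ (k + 1))} (hx : IsUnit x) :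
    ∃ n : ℕ, (1 + l : ZMod (l ^ (k + 1))) ^ n = x ^ (l - 1) := by
  have hp : l.Prime := Fact.out
  have := ZMod.isCyclic_units_of_prime_pow l hp hl (k + 1)
  have ho := ZMod.orderOf_one_add_prime hp hl k
  have hfin : IsOfFinOrder (1 + l : ZMod (l ^ (k + 1))) :=
    orderOf_pos_iff.1 (by rw [ho]; exact pow_pos hp.pos _)
  obtain ⟨g, hg⟩ := hfin.isUnit
  obtain ⟨w, rfl⟩ := hx
  have hog : orderOf g = l ^ k := by rw [← orderOf_units, hg, ho]
  have hcard : Nat.card (ZMod (l ^ (k + 1)))ˣ = l ^ k * (l - 1) := by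
    rw [Nat.card_eq_fintype_card, ZMod.card_units_eq_totient, Nat.totient_prime_pow_succ hp]
  have h1 : Subgroup.zpowers g = (powMonoidHom (l ^ k) : (ZMod (l ^ (k + 1)))ˣ →* _).ker := by
    refine Subgroup.eq_of_le_of_card_ge ?_ ?_
    · rw [Subgroup.zpowers_le, MonoidHom.mem_ker, powMonoidHom_apply, ← hog, pow_orderOf_eq_one]
    · rw [IsCyclic.card_powMonoidHom_ker, Nat.card_zpowers, hog]
      exact Nat.gcd_le_right _ (pow_pos hp.pos _)
  have h2 : w ^ (l - 1) ∈ Subgroup.zpowers g := by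
    rw [h1, MonoidHom.mem_ker, powMonoidHom_apply, ← pow_mul, mul_comm, ← hcard, pow_card_eq_one']
  obtain ⟨n, hn⟩ := (mem_powers_iff_mem_zpowers.2 h2 : w ^ (l - 1) ∈ Submonoid.powers g)
  refine ⟨n, ?_⟩
  rw [← hg, ← Units.val_pow_eq_pow_val, ← Units.val_pow_eq_pow_val]
  exact congrArg Units.val hn

theorem plog_pow_eq_iff (hl : l ≠ 2) (k a b : ℕ) :
    (1 + l : ZMod (l ^ (k + 1))) ^ a = (1 + l : ZMod (l ^ (k + 1))) ^ b ↔
      (a : ZMod (l ^ k)) = (b : ZMod (l ^ k)) := by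
  have hp : l.Prime := Fact.out
  have ho := ZMod.orderOf_one_add_prime hp hl k
  have hfin : IsOfFinOrder (1 + l : ZMod (l ^ (k + 1))) :=
    orderOf_pos_iff.1 (by rw [ho]; exact pow_pos hp.pos _)
  rw [hfin.pow_eq_pow_iff_modEq, ho, ZMod.natCast_eq_natCast_iff]

theorem plog_exists (hl : l ≠ 2) (u : ℤ_[l]) : ∃ z : ℤ_[l], IsUnit u → ∀ k n : ℕ,
    (PadicInt.toZModPow k z = n ↔
      (1 + l : ZMod (l ^ (k + 1))) ^ n = PadicInt.toZModPow (k + 1) u ^ (l - 1)) := by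
  by_cases hu : IsUnit u
  swap
  · exact ⟨0, fun h => absurd h hu⟩
  choose n hn using fun k => plog_exists_exp hl k (hu.map (PadicInt.toZModPow (k + 1)))
  obtain ⟨z, hz⟩ := plog_compat (l := l) (fun k => (n k : ZMod (l ^ k))) (fun k => by
    rw [map_natCast, ← plog_pow_eq_iff hl, hn k]
    have := congrArg (ZMod.castHom (pow_dvd_pow l (Nat.le_succ (k + 1))) (ZMod (l ^ (k + 1))))
      (hn (k + 1))
    rw [map_pow, map_pow, map_add, map_one, map_natCast, ZMod.castHom_apply,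
      PadicInt.cast_toZModPow _ _ (Nat.le_succ _)] at this
    exact this)
  refine ⟨z, fun _ k m => ?_⟩
  rw [hz k, ← plog_pow_eq_iff hl, hn k, eq_comm]

theorem plog_cast_pred_ne : ((l - 1 : ℕ) : ZMod l) ≠ 0 := by
  have hp : l.Prime := Fact.out
  rw [Ne, ZMod.natCast_eq_zero_iff]
  intro h
  have h1 := hp.two_le
  have := Nat.le_of_dvd (by omega) h
  omega

theorem plog_isUnit_iff (u : ℤ_[l]) : IsUnit u ↔ PadicInt.toZMod u ≠ 0 := by
  rw [Ne, ← RingHom.mem_ker, PadicInt.ker_toZMod, IsLocalRing.mem_maximalIdeal, mem_nonunits_iff,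
    not_not]

theorem exists_plogSpec (hl : l ≠ 2) : ∃ f, PlogSpec l f := by
  choose f hf using plog_exists hl
  have hu1 : IsUnit (1 + l : ℤ_[l]) := by
    rw [plog_isUnit_iff]
    simp
  refine ⟨f, fun u v hu hv => PadicInt.ext_of_toZModPow.1 fun k => ?_, fun u hu k => ?_, ?_⟩
  · obtain ⟨a, ha⟩ := ZMod.natCast_zmod_surjective (PadicInt.toZModPow k (f u))
    obtain ⟨b, hb⟩ := ZMod.natCast_zmod_surjective (PadicInt.toZModPow k (f v))
    rw [map_add, ← ha, ← hb, ← Nat.cast_add, hf _ (hu.mul hv), pow_add _ a b, (hf u hu k a).1 ha.symm,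
      (hf v hv k b).1 hb.symm, map_mul, mul_pow]
  · have := hf u hu k 0
    rw [Nat.cast_zero, pow_zero] at this
    rw [this, map_pow, eq_comm]
  · have : f (1 + l) = ((l - 1 : ℕ) : ℤ_[l]) := PadicInt.ext_of_toZModPow.1 fun k => by
      rw [map_natCast, hf _ hu1, map_add, map_one, map_natCast]
    rw [this, plog_isUnit_iff, map_natCast]
    exact plog_cast_pred_ne

theorem plog_spec (hl : l ≠ 2) : PlogSpec l (plog l) :=
  Classical.epsilon_spec (exists_plogSpec hl)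

/-- a compatible sequence has a limit in `ℤ_[l]` (valid for every prime `l`). -/
theorem exists_padic_of_compat (c : (k : ℕ) → ZMod (l ^ k))
    (hc : ∀ k, ZMod.castHom (pow_dvd_pow l (Nat.le_succ k)) (ZMod (l ^ k)) (c (k + 1)) = c k) :
    ∃ u : ℤ_[l], ∀ k, PadicInt.toZModPow k u = c k := by
  exact plog_compat c hc

/-- a root of unity of order dividing `l - 1` that is not `1` is not `1` modulo `l`. -/
theorem isUnit_sub_one_of_pow_eq_one {u : ℤ_[l]} (hu : u ^ (l - 1) = 1) (h1 : u ≠ 1) :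
    IsUnit (u - 1) := by
  rw [plog_isUnit_iff]
  intro h
  rw [map_sub, map_one, sub_eq_zero] at h
  have h2 := mul_geom_sum u (l - 1)
  rw [hu, sub_self, mul_eq_zero] at h2
  have h3 := congrArg PadicInt.toZMod (h2.resolve_left (sub_ne_zero.2 h1))
  rw [map_sum, map_zero] at h3
  simp only [map_pow, h, one_pow, Finset.sum_const, Finset.card_range, nsmul_eq_mul,
    mul_one] at h3
  exact plog_cast_pred_ne h3

/-- in `ZMod (l^k)`: `x^(l-1) = 1` and `x ≡ 1 mod l` force `x = 1`. -/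
theorem zmod_eq_one_of_pow_sub_one {k : ℕ} (hk : k ≠ 0) {x : ZMod (l ^ k)} (hx : x ^ (l - 1) = 1)
    (h1 : ZMod.castHom (dvd_pow_self l hk) (ZMod l) x = 1) : x = 1 := by
  have hp : l.Prime := Fact.out
  have h2 := mul_geom_sum x (l - 1)
  rw [hx, sub_self] at h2
  set s := ∑ i ∈ Finset.range (l - 1), x ^ i with hs
  have h3 : ZMod.castHom (dvd_pow_self l hk) (ZMod l) s = ((l - 1 : ℕ) : ZMod l) := by
    rw [hs, map_sum]
    simp only [map_pow, h1, one_pow, Finset.sum_const, Finset.card_range, nsmul_eq_mul, mul_one]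
  have h4 : IsUnit s := by
    obtain ⟨m, hm⟩ := ZMod.natCast_zmod_surjective s
    rw [← hm] at h3 ⊢
    rw [map_natCast] at h3
    rw [ZMod.isUnit_iff_coprime]
    refine Nat.Coprime.pow_right _ (Nat.Coprime.symm ((Nat.Prime.coprime_iff_not_dvd hp).2 fun h => ?_))
    exact plog_cast_pred_ne (h3.symm.trans ((ZMod.natCast_eq_zero_iff _ _).2 h))
  exact sub_eq_zero.1 (h4.mul_left_eq_zero.1 h2)

/-- (Chr) a character of `(ZMod l0)ˣ` with values in `ℤ_[l]` whose kernel is the group of `r`-th powers.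
Take a generator `γ` of `(ZMod l0)ˣ` and a primitive `r`-th root of unity `ω ∈ ℤ_[l]` (Hensel: `hensels_lemma` applied to
`X^r - 1` and a primitive `r`-th root mod `l`), `χ (γ^i) = ω^i`, `χ 0 = 0`. -/
theorem exists_chr {l0 r : ℕ} (hl0 : l0.Prime) (hr : r.Prime) (h0 : r ∣ l0 - 1) (h1 : r ∣ l - 1) :
    ∃ χ : ZMod l0 → ℤ_[l], χ 1 = 1 ∧ (∀ a b, χ (a * b) = χ a * χ b) ∧
      (∀ a, IsUnit a → χ a ^ r = 1) ∧ ∀ a, IsUnit a → (χ a = 1 ↔ ∃ w, a = w ^ r) := by
  have hp : l.Prime := Fact.out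
  have : Fact r.Prime := ⟨hr⟩
  have : Fact l0.Prime := ⟨hl0⟩
  obtain ⟨a0, ha0⟩ := exists_prime_orderOf_dvd_card (G := (ZMod l)ˣ) r
    (by rwa [ZMod.card_units])
  obtain ⟨a, ha⟩ := ZMod.ringHom_surjective (PadicInt.toZMod : ℤ_[l] →+* ZMod l) a0
  have hnorm : ∀ x : ℤ_[l], ‖x‖ < 1 ↔ PadicInt.toZMod x = 0 := fun x => by
    rw [← PadicInt.not_isUnit_iff, plog_isUnit_iff, not_not]
  have hr0 : (r : ZMod l) ≠ 0 := by
    rw [Ne, ZMod.natCast_eq_zero_iff]
    intro h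
    have h2 := hp.two_le
    have := Nat.le_of_dvd (by omega) (h.trans h1)
    omega
  have hd : ‖(Polynomial.derivative (Polynomial.X ^ r - 1 : Polynomial ℤ_[l])).aeval a‖ = 1 := by
    rw [← PadicInt.isUnit_iff, plog_isUnit_iff]
    simp [Polynomial.derivative_X_pow, ha, hr0]
  obtain ⟨z, hz, hza, -⟩ := hensels_lemma (F := (Polynomial.X ^ r - 1 : Polynomial ℤ_[l])) (a := a)
    (by
      rw [hd, one_pow, hnorm]
      simp only [map_sub, map_pow, Polynomial.aeval_X, map_one, ha]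
      rw [← Units.val_pow_eq_pow_val, ← ha0, pow_orderOf_eq_one, Units.val_one, sub_self])
  rw [hd, hnorm, map_sub, ha, sub_eq_zero] at hza
  have hz1 : z ^ r = 1 := by simpa [sub_eq_zero] using hz
  have hz2 : z ≠ 1 := by
    rintro rfl
    rw [map_one, eq_comm, Units.val_eq_one] at hza
    rw [hza, orderOf_one] at ha0
    exact hr.one_lt.ne ha0
  obtain ⟨ω, rfl⟩ : IsUnit z := IsUnit.of_pow_eq_one hz1 hr.ne_zero
  have hω : orderOf ω = r := by rw [← orderOf_units]; exact orderOf_eq_prime hz1 hz2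
  obtain ⟨γ, hγ⟩ := IsCyclic.exists_generator (α := (ZMod l0)ˣ)
  have hdv : orderOf ω ∣ orderOf γ := by
    rwa [hω, orderOf_eq_card_of_forall_mem_zpowers hγ, Nat.card_eq_fintype_card, ZMod.card_units]
  let φ : (ZMod l0)ˣ →* ℤ_[l]ˣ := monoidHomOfForallMemZpowers hγ hdv
  have hφ : φ γ = ω := monoidHomOfForallMemZpowers_apply_gen hγ hdv
  let χ : ZMod l0 → ℤ_[l] := fun a => if h : IsUnit a then φ h.unit else 0
  have hχ : ∀ w : (ZMod l0)ˣ, χ w = φ w := fun w => by simp [χ]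
  have hpow : ∀ w : (ZMod l0)ˣ, ∃ n : ℕ, γ ^ n = w := fun w =>
    (mem_powers_iff_mem_zpowers.2 (hγ w) : w ∈ Submonoid.powers γ)
  have hr1 : ∀ w : (ZMod l0)ˣ, φ w ^ r = 1 := fun w => by
    obtain ⟨n, rfl⟩ := hpow w
    rw [map_pow, hφ, ← pow_mul, mul_comm, pow_mul, ← hω, pow_orderOf_eq_one, one_pow]
  refine ⟨χ, ?_, fun x y => ?_, ?_, ?_⟩
  · simpa using hχ 1
  · by_cases hx : IsUnit x
    · by_cases hy : IsUnit y
      · obtain ⟨x, rfl⟩ := hx
        obtain ⟨y, rfl⟩ := hy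
        rw [← Units.val_mul, hχ, hχ, hχ, map_mul, Units.val_mul]
      · have : ¬ IsUnit (x * y) := fun h => hy (isUnit_of_mul_isUnit_right h)
        simp only [χ, dif_neg hy, dif_neg this, mul_zero]
    · have : ¬ IsUnit (x * y) := fun h => hx (isUnit_of_mul_isUnit_left h)
      simp only [χ, dif_neg hx, dif_neg this, zero_mul]
  · rintro _ ⟨w, rfl⟩
    rw [hχ, ← Units.val_pow_eq_pow_val, hr1, Units.val_one]
  · rintro _ ⟨w, rfl⟩
    rw [hχ, Units.val_eq_one]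
    constructor
    · intro h
      obtain ⟨n, rfl⟩ := hpow w
      rw [map_pow, hφ, ← orderOf_dvd_iff_pow_eq_one, hω] at h
      obtain ⟨m, rfl⟩ := h
      exact ⟨(γ ^ m : (ZMod l0)ˣ), by rw [← Units.val_pow_eq_pow_val, ← pow_mul, mul_comm]⟩
    · rintro ⟨y, hy⟩
      obtain ⟨y, rfl⟩ : IsUnit y := (isUnit_pow_iff hr.ne_zero).1 (hy ▸ w.isUnit)
      rw [← Units.val_pow_eq_pow_val, Units.val_inj] at hy
      rw [hy, map_pow, hr1]

end Crest.Agent.R018
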