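import Crest.Agent.R018.Top
import Crest.Agent.R018.Plog

/-!
# R018 / CycB

API of `cyc`, `kum`, `rt`, `sg`, `Cyc`, `lcyc`.  All from `IsPrimitiveRoot` (`eq_pow_of_pow_eq_one`, `pow_inj`,
`pow_eq_one_iff_dvd`); `Classical.epsilon_spec`.
-/

set_option autoImplicit false
set_option linter.unusedSectionVars false

noncomputable section

namespace Crest.Agent.R018

open scoped NNReal Classical

variable {F E : Type*} [Field F] [NumberField F] [Field E] [CharZero E] [Algebra F E]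
  [IsGalois F E] [RadCl E]

theorem cb_pow_val {N : ℕ} {x : E} (hx : x ^ N = 1) (a : ℕ) : x ^ (a : ZMod N).val = x ^ a := by
  rw [ZMod.val_natCast, ← pow_eq_pow_mod a hx]

theorem cb_pow_eq_iff {N : ℕ} (hN : N ≠ 0) {z : E} (hz : IsPrimitiveRoot z N) (a b : ℕ) :
    z ^ a = z ^ b ↔ (a : ZMod N) = b := by
  have : NeZero N := ⟨hN⟩
  constructor
  · intro h
    apply ZMod.val_injective
    refine hz.pow_inj (ZMod.val_lt _) (ZMod.val_lt _) ?_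
    rw [cb_pow_val hz.pow_eq_one, cb_pow_val hz.pow_eq_one, h]
  · intro h
    rw [← cb_pow_val hz.pow_eq_one a, h, cb_pow_val hz.pow_eq_one]

theorem cb_exists {N : ℕ} (hN : N ≠ 0) {x : E} (hx : x ^ N = 1) :
    ∃ a : ZMod N, x = zeta E N ^ a.val := by
  have : NeZero N := ⟨hN⟩
  obtain ⟨i, -, hi⟩ := (zeta_prim (E := E) hN).eq_pow_of_pow_eq_one hx
  exact ⟨i, by rw [cb_pow_val (zeta_prim hN).pow_eq_one, hi]⟩

theorem cb_cast_val {N : ℕ} (hN : N ≠ 0) (a : ZMod N) : ((a.val : ℕ) : ZMod N) = a := by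
  have : NeZero N := ⟨hN⟩
  exact ZMod.natCast_zmod_val a

theorem cb_sqrt {y : E} {g : Gal(E/F)} (hg : g y = y) :
    g (rt 2 y) = rt 2 y ∨ g (rt 2 y) = -rt 2 y := by
  rw [← sq_eq_sq_iff_eq_or_eq_neg, ← map_pow, rt_pow two_ne_zero, hg]

theorem cb_neg_ne {x : E} (hx : x ≠ 0) : -x ≠ x := fun h => hx (by
  have h2 : (2 : E) * x = 0 := by linear_combination -h
  exact (mul_eq_zero.1 h2).resolve_left two_ne_zero)

theorem cyc_zeta {N : ℕ} (hN : N ≠ 0) (g : Gal(E/F)) : g (zeta E N) = zeta E N ^ (cyc N g).val := by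
  refine @Classical.epsilon_spec (ZMod N) (fun a => g (zeta E N) = zeta E N ^ a.val)
    (cb_exists hN ?_)
  rw [← map_pow, (zeta_prim hN).pow_eq_one, map_one]

theorem cyc_spec {N : ℕ} (hN : N ≠ 0) (g : Gal(E/F)) {x : E} (hx : x ^ N = 1) :
    g x = x ^ (cyc N g).val := by
  obtain ⟨a, rfl⟩ := cb_exists hN hx
  rw [map_pow, cyc_zeta hN, ← pow_mul, ← pow_mul, mul_comm]

theorem cyc_eq_natCast_iff {N : ℕ} (hN : N ≠ 0) (g : Gal(E/F)) (a : ℕ) :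
    cyc N g = (a : ZMod N) ↔ g (zeta E N) = zeta E N ^ a := by
  rw [cyc_zeta hN, cb_pow_eq_iff hN (zeta_prim hN), cb_cast_val hN]

/-- `cyc` can be computed with any primitive root. -/
theorem cyc_eq_natCast_of_prim {N : ℕ} (hN : N ≠ 0) (g : Gal(E/F)) {z : E} (hz : IsPrimitiveRoot z N)
    (a : ℕ) : cyc N g = (a : ZMod N) ↔ g z = z ^ a := by
  rw [cyc_spec hN g hz.pow_eq_one, cb_pow_eq_iff hN hz, cb_cast_val hN]

theorem cyc_one {N : ℕ} (hN : N ≠ 0) : cyc N (1 : Gal(E/F)) = 1 := by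
  have := (cyc_eq_natCast_iff hN (1 : Gal(E/F)) 1).2 (by simp)
  simpa using this

theorem cyc_mul {N : ℕ} (hN : N ≠ 0) (g h : Gal(E/F)) : cyc N (g * h) = cyc N g * cyc N h := by
  have := (cyc_eq_natCast_iff hN (g * h) ((cyc N g).val * (cyc N h).val)).2 (by
    rw [AlgEquiv.mul_apply, cyc_zeta hN h, map_pow, cyc_zeta hN g, pow_mul])
  rwa [Nat.cast_mul, cb_cast_val hN, cb_cast_val hN] at this

theorem cyc_pow {N : ℕ} (hN : N ≠ 0) (g : Gal(E/F)) (n : ℕ) : cyc N (g ^ n) = cyc N g ^ n := by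
  induction n with
  | zero => rw [pow_zero, pow_zero, cyc_one hN]
  | succ n ih => rw [pow_succ, pow_succ, cyc_mul hN, ih]

theorem cyc_inv_mul {N : ℕ} (hN : N ≠ 0) (g : Gal(E/F)) : cyc N g⁻¹ * cyc N g = 1 := by
  rw [← cyc_mul hN, inv_mul_cancel, cyc_one hN]

theorem isUnit_cyc {N : ℕ} (hN : N ≠ 0) (g : Gal(E/F)) : IsUnit (cyc N g) := by
  exact IsUnit.of_mul_eq_one_right _ (cyc_inv_mul hN g)

theorem mem_FixMu_iff {N : ℕ} (hN : N ≠ 0) {g : Gal(E/F)} : g ∈ FixMu F E N ↔ cyc N g = 1 := by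
  have := cyc_eq_natCast_iff hN g 1
  rw [Nat.cast_one, pow_one] at this
  rw [mem_FixMu, this]

theorem fix_of_mem_FixMu {N : ℕ} (hN : N ≠ 0) {g : Gal(E/F)} (hg : g ∈ FixMu F E N) {x : E}
    (hx : x ^ N = 1) : g x = x := by
  have := cb_pow_val hx 1
  rw [Nat.cast_one, pow_one] at this
  rw [cyc_spec hN g hx, (mem_FixMu_iff hN).1 hg, this]

theorem cyc_cast {M N : ℕ} (h : M ∣ N) (hN : N ≠ 0) (g : Gal(E/F)) :
    ZMod.castHom h (ZMod M) (cyc N g) = cyc M g := by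
  have : NeZero N := ⟨hN⟩
  have hM : M ≠ 0 := ne_zero_of_dvd_ne_zero hN h
  have h1 : zeta E M ^ N = 1 := ((zeta_prim hM).pow_eq_one_iff_dvd N).2 h
  rw [(cyc_eq_natCast_iff hM g _).2 (cyc_spec hN g h1), ZMod.castHom_apply, ZMod.natCast_val]

theorem FixMu_anti {M N : ℕ} (h : M ∣ N) (hN : N ≠ 0) : FixMu F E N ≤ FixMu F E M := by
  intro g hg
  have hM : M ≠ 0 := ne_zero_of_dvd_ne_zero hN h
  exact fix_of_mem_FixMu hN hg (((zeta_prim hM).pow_eq_one_iff_dvd N).2 h)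

theorem FixMu_mul_of_coprime {M N : ℕ} (hM : M ≠ 0) (hN : N ≠ 0) (h : M.Coprime N) :
    FixMu F E (M * N) = FixMu F E M ⊓ FixMu F E N := by
  have hMN := mul_ne_zero hM hN
  refine le_antisymm (le_inf (FixMu_anti (dvd_mul_right M N) hMN)
    (FixMu_anti (dvd_mul_left N M) hMN)) fun g hg => ?_
  have hz := zeta_prim (E := E) hMN
  have hz0 := hz.ne_zero hMN
  have h1 : g (zeta E (M * N) ^ N) = zeta E (M * N) ^ N :=
    fix_of_mem_FixMu hM hg.1 (by rw [← pow_mul, mul_comm N M, hz.pow_eq_one])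
  have h2 : g (zeta E (M * N) ^ M) = zeta E (M * N) ^ M :=
    fix_of_mem_FixMu hN hg.2 (by rw [← pow_mul, hz.pow_eq_one])
  rw [map_pow] at h1 h2
  have h3 : (g (zeta E (M * N)) / zeta E (M * N)) ^ Nat.gcd M N = 1 :=
    pow_gcd_eq_one.2 ⟨by rw [div_pow, h2, div_self (pow_ne_zero _ hz0)],
      by rw [div_pow, h1, div_self (pow_ne_zero _ hz0)]⟩
  rw [h.gcd_eq_one, pow_one, div_eq_one_iff_eq hz0] at h3
  exact h3

theorem FixMu_normal {N : ℕ} (hN : N ≠ 0) : (FixMu F E N).Normal := by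
  refine ⟨fun g hg h => ?_⟩
  rw [mem_FixMu_iff hN] at hg ⊢
  rw [cyc_mul hN, cyc_mul hN, hg, mul_one, mul_comm, cyc_inv_mul hN]

theorem commutator_mem_FixMu {N : ℕ} (hN : N ≠ 0) (g h : Gal(E/F)) :
    g * h * g⁻¹ * h⁻¹ ∈ FixMu F E N := by
  rw [mem_FixMu_iff hN, cyc_mul hN, cyc_mul hN, cyc_mul hN]
  linear_combination (cyc N h⁻¹ * cyc N h) * cyc_inv_mul hN g + cyc_inv_mul hN h

theorem mem_FixMu_two (g : Gal(E/F)) : g ∈ FixMu F E 2 := by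
  rw [mem_FixMu, (zeta_prim (E := E) two_ne_zero).eq_neg_one_of_two_right, map_neg, map_one]

theorem pow_mem_FixMu_prime {l : ℕ} (hl : l.Prime) (g : Gal(E/F)) : g ^ (l - 1) ∈ FixMu F E l := by
  have : Fact l.Prime := ⟨hl⟩
  rw [mem_FixMu_iff hl.ne_zero, cyc_pow hl.ne_zero]
  exact ZMod.pow_card_sub_one_eq_one (isUnit_cyc hl.ne_zero g).ne_zero

theorem mem_FixMu_of_pow_prime {l : ℕ} (hl : l.Prime) {g : Gal(E/F)} (k : ℕ)
    (hg : g ^ l ^ k ∈ FixMu F E l) : g ∈ FixMu F E l := by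
  have : Fact l.Prime := ⟨hl⟩
  rw [mem_FixMu_iff hl.ne_zero] at hg ⊢
  rwa [cyc_pow hl.ne_zero, ZMod.pow_card_pow] at hg

theorem kum_spec {N : ℕ} (hN : N ≠ 0) {ρ : E} (hρ : ρ ≠ 0) {g : Gal(E/F)} (hg : g (ρ ^ N) = ρ ^ N) :
    g ρ = zeta E N ^ (kum N ρ g).val * ρ := by
  refine @Classical.epsilon_spec (ZMod N) (fun a => g ρ = zeta E N ^ a.val * ρ) ?_
  obtain ⟨a, ha⟩ := cb_exists hN (x := g ρ / ρ)
    (by rw [div_pow, ← map_pow, hg, div_self (pow_ne_zero _ hρ)])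
  exact ⟨a, by rw [← ha, div_mul_cancel₀ _ hρ]⟩

theorem kum_eq_of {N : ℕ} (hN : N ≠ 0) {ρ : E} (hρ : ρ ≠ 0) {g : Gal(E/F)} {a : ℕ}
    (h : g ρ = zeta E N ^ a * ρ) : kum N ρ g = (a : ZMod N) := by
  have hg : g (ρ ^ N) = ρ ^ N := by
    rw [map_pow, h, mul_pow, ← pow_mul, mul_comm a N, pow_mul, (zeta_prim hN).pow_eq_one, one_pow,
      one_mul]
  have h1 := mul_right_cancel₀ hρ ((kum_spec hN hρ hg).symm.trans h)
  rwa [cb_pow_eq_iff hN (zeta_prim hN), cb_cast_val hN] at h1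

theorem kum_eq_zero_iff {N : ℕ} (hN : N ≠ 0) {ρ : E} (hρ : ρ ≠ 0) {g : Gal(E/F)}
    (hg : g (ρ ^ N) = ρ ^ N) : kum N ρ g = 0 ↔ g ρ = ρ := by
  constructor
  · intro h
    rw [kum_spec hN hρ hg, h, ZMod.val_zero, pow_zero, one_mul]
  · intro h
    have := kum_eq_of hN hρ (g := g) (a := 0) (by rw [h, pow_zero, one_mul])
    simpa using this

/-- cocycle relation. -/
theorem kum_mul_right {N : ℕ} (hN : N ≠ 0) {ρ : E} (hρ : ρ ≠ 0) {g h : Gal(E/F)}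
    (hg : g (ρ ^ N) = ρ ^ N) (hh : h (ρ ^ N) = ρ ^ N) :
    kum N ρ (g * h) = kum N ρ g + cyc N g * kum N ρ h := by
  have := kum_eq_of hN hρ (g := g * h) (a := (kum N ρ g).val + (cyc N g).val * (kum N ρ h).val) (by
    rw [AlgEquiv.mul_apply, kum_spec hN hρ hh, map_mul, map_pow, cyc_zeta hN, kum_spec hN hρ hg,
      pow_add, pow_mul]
    ring)
  rwa [Nat.cast_add, Nat.cast_mul, cb_cast_val hN, cb_cast_val hN, cb_cast_val hN] at this

theorem kum_mul_left {N : ℕ} (hN : N ≠ 0) {ρ ρ' : E} (hρ : ρ ≠ 0) (hρ' : ρ' ≠ 0) {g : Gal(E/F)}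
    (hg : g (ρ ^ N) = ρ ^ N) (hg' : g (ρ' ^ N) = ρ' ^ N) :
    kum N (ρ * ρ') g = kum N ρ g + kum N ρ' g := by
  have := kum_eq_of hN (mul_ne_zero hρ hρ') (g := g) (a := (kum N ρ g).val + (kum N ρ' g).val) (by
    rw [map_mul, pow_add]
    conv_lhs => rw [kum_spec hN hρ hg, kum_spec hN hρ' hg']
    ring)
  rwa [Nat.cast_add, cb_cast_val hN, cb_cast_val hN] at this

theorem kum_zpow_left {N : ℕ} (hN : N ≠ 0) {ρ : E} (hρ : ρ ≠ 0) {g : Gal(E/F)}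
    (hg : g (ρ ^ N) = ρ ^ N) (n : ℤ) : kum N (ρ ^ n) g = n * kum N ρ g := by
  have hpow : ∀ m : ℕ, kum N (ρ ^ m) g = m * kum N ρ g := fun m => by
    have := kum_eq_of hN (pow_ne_zero m hρ) (g := g) (a := m * (kum N ρ g).val) (by
      rw [map_pow]
      conv_lhs => rw [kum_spec hN hρ hg]
      rw [mul_pow, ← pow_mul, mul_comm m])
    rwa [Nat.cast_mul, cb_cast_val hN] at this
  obtain ⟨m, rfl | rfl⟩ := n.eq_nat_or_neg
  · rw [zpow_natCast, hpow, Int.cast_natCast]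
  · have hm := pow_ne_zero m hρ
    have h1 : g ((ρ ^ m) ^ N) = (ρ ^ m) ^ N := by
      rw [← pow_mul, mul_comm m N, pow_mul, map_pow, hg]
    have h2 := kum_mul_left hN hm (inv_ne_zero hm) h1 (by rw [inv_pow, map_inv₀, h1])
    rw [mul_inv_cancel₀ hm, (kum_eq_zero_iff hN one_ne_zero (by simp)).2 (map_one g), hpow] at h2
    rw [zpow_neg, zpow_natCast, Int.cast_neg, Int.cast_natCast]
    linear_combination -h2

theorem kum_pow_left {N : ℕ} (hN : N ≠ 0) {ρ : E} (hρ : ρ ≠ 0) {g : Gal(E/F)}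
    (hg : g (ρ ^ N) = ρ ^ N) (n : ℕ) : kum N (ρ ^ n) g = n * kum N ρ g := by
  have := kum_zpow_left hN hρ hg (n : ℤ)
  rwa [zpow_natCast, Int.cast_natCast] at this

theorem kum_prod_left {N : ℕ} (hN : N ≠ 0) {ι : Type*} (s : Finset ι) {ρ : ι → E}
    (hρ : ∀ i ∈ s, ρ i ≠ 0) {g : Gal(E/F)} (hg : ∀ i ∈ s, g (ρ i ^ N) = ρ i ^ N) :
    kum N (∏ i ∈ s, ρ i) g = ∑ i ∈ s, kum N (ρ i) g := by
  induction s using Finset.induction_on with
  | empty => simpa using (kum_eq_zero_iff hN one_ne_zero (by simp)).2 (map_one g)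
  | insert i s hi ih =>
    have h1 : ∀ j ∈ s, ρ j ≠ 0 := fun j hj => hρ j (Finset.mem_insert_of_mem hj)
    have h2 : ∀ j ∈ s, g (ρ j ^ N) = ρ j ^ N := fun j hj => hg j (Finset.mem_insert_of_mem hj)
    rw [Finset.prod_insert hi, Finset.sum_insert hi, ← ih h1 h2]
    refine kum_mul_left hN (hρ i (Finset.mem_insert_self _ _)) (Finset.prod_ne_zero_iff.2 h1)
      (hg i (Finset.mem_insert_self _ _)) ?_
    rw [← Finset.prod_pow, map_prod]
    exact Finset.prod_congr rfl h2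

/-- conjugation formula (no condition on `cyc N g` is needed). -/
theorem kum_conj {N : ℕ} (hN : N ≠ 0) {ρ : E} (hρ : ρ ≠ 0) (t : Gal(E/F)) {g : Gal(E/F)}
    (hg : g ((t⁻¹ ρ) ^ N) = (t⁻¹ ρ) ^ N) :
    kum N ρ (t * g * t⁻¹) = cyc N t * kum N (t⁻¹ ρ) g := by
  have h0 : t⁻¹ ρ ≠ 0 := (map_ne_zero _).2 hρ
  have h1 : t (t⁻¹ ρ) = ρ := by rw [← AlgEquiv.mul_apply, mul_inv_cancel, AlgEquiv.one_apply]
  have := kum_eq_of hN hρ (g := t * g * t⁻¹) (a := (cyc N t).val * (kum N (t⁻¹ ρ) g).val) (by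
    rw [AlgEquiv.mul_apply, AlgEquiv.mul_apply]
    conv_lhs => rw [kum_spec hN h0 hg]
    rw [map_mul, map_pow, cyc_zeta hN, h1, pow_mul])
  rwa [Nat.cast_mul, cb_cast_val hN, cb_cast_val hN] at this

theorem kum_root_indep {N : ℕ} (hN : N ≠ 0) {ρ ρ' : E} (hρ : ρ ≠ 0) (h : ρ ^ N = ρ' ^ N)
    {g : Gal(E/F)} (hμ : g ∈ FixMu F E N) (hg : g (ρ ^ N) = ρ ^ N) : kum N ρ g = kum N ρ' g := by
  have hρ' : ρ' ≠ 0 := fun h0 => pow_ne_zero N hρ (by rw [h, h0, zero_pow hN])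
  have hu : g (ρ' / ρ) = ρ' / ρ :=
    fix_of_mem_FixMu hN hμ (by rw [div_pow, ← h, div_self (pow_ne_zero _ hρ)])
  have := kum_eq_of hN hρ' (g := g) (a := (kum N ρ g).val) (by
    conv_lhs => rw [← div_mul_cancel₀ ρ' hρ, map_mul, hu, kum_spec hN hρ hg]
    field_simp)
  rw [this, cb_cast_val hN]

theorem fix_pow_iff_dvd_kum {M N : ℕ} (hM : M ≠ 0) (hN : N ≠ 0) {ρ : E} (hρ : ρ ≠ 0) {g : Gal(E/F)}
    (hg : g (ρ ^ (M * N)) = ρ ^ (M * N)) : g (ρ ^ M) = ρ ^ M ↔ N ∣ (kum (M * N) ρ g).val := by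
  have hMN := mul_ne_zero hM hN
  rw [map_pow]
  conv_lhs => rw [kum_spec hMN hρ hg]
  rw [mul_pow, mul_eq_right₀ (pow_ne_zero _ hρ), ← pow_mul,
    (zeta_prim hMN).pow_eq_one_iff_dvd, mul_comm _ M, Nat.mul_dvd_mul_iff_left (Nat.pos_of_ne_zero hM)]

theorem fix_root_iff {N : ℕ} (hN : N ≠ 0) {ρ ρ' : E} (h : ρ ^ N = ρ' ^ N) {g : Gal(E/F)}
    (hμ : g ∈ FixMu F E N) : g ρ = ρ ↔ g ρ' = ρ' := by
  by_cases hρ : ρ = 0
  · have hρ' : ρ' = 0 := by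
      rw [hρ, zero_pow hN] at h
      exact pow_eq_zero_iff hN |>.1 h.symm
    rw [hρ, hρ']
  · have hρ' : ρ' ≠ 0 := fun h0 => pow_ne_zero N hρ (by rw [h, h0, zero_pow hN])
    have hu : g (ρ' / ρ) = ρ' / ρ :=
      fix_of_mem_FixMu hN hμ (by rw [div_pow, ← h, div_self (pow_ne_zero _ hρ)])
    have e : g ρ' = ρ' / ρ * g ρ := by
      conv_lhs => rw [← div_mul_cancel₀ ρ' hρ, map_mul, hu]
    rw [e]
    constructor
    · intro h1
      rw [h1, div_mul_cancel₀ _ hρ]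
    · intro h1
      refine mul_left_cancel₀ (div_ne_zero hρ' hρ) ?_
      rw [h1, div_mul_cancel₀ _ hρ]

theorem rt_ne_zero {N : ℕ} (hN : N ≠ 0) {y : E} (hy : y ≠ 0) : rt N y ≠ 0 := by
  intro h
  have := rt_pow hN y
  rw [h, zero_pow hN] at this
  exact hy this.symm

theorem locZ_kum (N : ℕ) (hN : N ≠ 0) {ρ : E} (hρ : ρ ≠ 0) (H : Subgroup Gal(E/F)) :
    LocZ H (kum N ρ) := by
  refine ⟨stab F ρ, isOpen_stab ρ, fun g _ hg => ?_⟩
  have := kum_eq_of hN hρ (g := g) (a := 0) (by rw [mem_stab.1 hg, pow_zero, one_mul])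
  simpa using this

theorem chom_kum {N : ℕ} (hN : N ≠ 0) {ρ : E} (hρ : ρ ≠ 0) {H : Subgroup Gal(E/F)}
    (hH : H ≤ FixMu F E N) (hy : ρ ^ N ∈ L H) : CHom H (kum N ρ) := by
  refine ⟨fun g hg h hh => ?_, locZ_kum N hN hρ H⟩
  rw [kum_mul_right hN hρ (mem_L.1 hy g hg) (mem_L.1 hy h hh), (mem_FixMu_iff hN).1 (hH hg),
    one_mul]

theorem sg_mul_right (R : Type*) [Ring R] {y : E} {g h : Gal(E/F)} (hy : y ≠ 0) (hg : g y = y)
    (hh : h y = y) : sg R y (g * h) = sg R y g * sg R y h := by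
  have hr := cb_neg_ne (rt_ne_zero two_ne_zero hy)
  simp only [sg, AlgEquiv.mul_apply]
  rcases cb_sqrt hg with h1 | h1 <;> rcases cb_sqrt hh with h2 | h2 <;> simp [h1, h2, hr]

theorem sg_mul_left (R : Type*) [Ring R] {y y' : E} {g : Gal(E/F)} (hy : y ≠ 0) (hy' : y' ≠ 0)
    (hg : g y = y) (hg' : g y' = y') : sg R (y * y') g = sg R y g * sg R y' g := by
  have hr0 := rt_ne_zero two_ne_zero hy
  have hr0' := rt_ne_zero two_ne_zero hy'
  have hr := cb_neg_ne hr0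
  have hr' := cb_neg_ne hr0'
  have hrr := cb_neg_ne (mul_ne_zero hr0 hr0')
  have e := fix_root_iff two_ne_zero (ρ := rt 2 (y * y')) (ρ' := rt 2 y * rt 2 y')
    (by rw [mul_pow, rt_pow two_ne_zero, rt_pow two_ne_zero, rt_pow two_ne_zero])
    (mem_FixMu_two g)
  simp only [sg, e, map_mul]
  rcases cb_sqrt hg with h1 | h1 <;> rcases cb_sqrt hg' with h2 | h2 <;>
    simp [h1, h2, hr, hr', hrr]

theorem Cyc_spec (l : ℕ) [Fact l.Prime] (g : Gal(E/F)) (k : ℕ) :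
    PadicInt.toZModPow k (Cyc l g) = cyc (l ^ k) g := by
  exact @Classical.epsilon_spec ℤ_[l] (fun u => ∀ k : ℕ, PadicInt.toZModPow k u = cyc (l ^ k) g)
    (exists_padic_of_compat (fun k => cyc (l ^ k) g) fun k =>
      cyc_cast _ (pow_ne_zero _ (Fact.out : l.Prime).ne_zero) g) k

theorem Cyc_mul (l : ℕ) [Fact l.Prime] (g h : Gal(E/F)) : Cyc l (g * h) = Cyc l g * Cyc l h := by
  refine PadicInt.ext_of_toZModPow.1 fun k => ?_
  rw [map_mul, Cyc_spec, Cyc_spec, Cyc_spec, cyc_mul (pow_ne_zero _ (Fact.out : l.Prime).ne_zero)]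

theorem isUnit_Cyc (l : ℕ) [Fact l.Prime] (g : Gal(E/F)) : IsUnit (Cyc l g) := by
  refine IsUnit.of_mul_eq_one_right (Cyc l g⁻¹) (PadicInt.ext_of_toZModPow.1 fun k => ?_)
  rw [map_mul, Cyc_spec, Cyc_spec, map_one,
    cyc_inv_mul (pow_ne_zero _ (Fact.out : l.Prime).ne_zero)]

theorem lcyc_mul {l : ℕ} [Fact l.Prime] (hl : l ≠ 2) (g h : Gal(E/F)) :
    lcyc l (g * h) = lcyc l g + lcyc l h := by
  rw [lcyc, Cyc_mul, (plog_spec hl).1 _ _ (isUnit_Cyc l g) (isUnit_Cyc l h)]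
  rfl

theorem toZModPow_lcyc_eq_zero_iff {l : ℕ} [Fact l.Prime] (hl : l ≠ 2) (g : Gal(E/F)) (k : ℕ) :
    PadicInt.toZModPow k (lcyc l g) = 0 ↔ cyc (l ^ (k + 1)) g ^ (l - 1) = 1 := by
  rw [lcyc, (plog_spec hl).2.1 _ (isUnit_Cyc l g), map_pow, Cyc_spec]

theorem zhom_lcyc {l : ℕ} [Fact l.Prime] (hl : l ≠ 2) (H : Subgroup Gal(E/F)) :
    ZHom l H (lcyc l) := by
  refine ⟨fun g _ h _ => lcyc_mul hl g h, fun k => ⟨FixMu F E (l ^ (k + 1)), isOpen_FixMu _,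
    fun g _ hg => ?_⟩⟩
  rw [mem_FixMu_iff (pow_ne_zero _ (Fact.out : l.Prime).ne_zero)] at hg
  exact (toZModPow_lcyc_eq_zero_iff hl g k).2 (by rw [hg, one_pow])

theorem mem_FixMu_pow_of_lcyc {l : ℕ} [Fact l.Prime] (hl : l ≠ 2) {g : Gal(E/F)}
    (hg : g ∈ FixMu F E l) (h0 : lcyc l g = 0) (k : ℕ) : g ∈ FixMu F E (l ^ k) := by
  have hl0 := (Fact.out : l.Prime).ne_zero
  refine FixMu_anti (pow_dvd_pow l (Nat.le_succ k)) (pow_ne_zero _ hl0) ?_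
  rw [mem_FixMu_iff (pow_ne_zero _ hl0)]
  refine zmod_eq_one_of_pow_sub_one (Nat.succ_ne_zero k)
    ((toZModPow_lcyc_eq_zero_iff hl g k).1 (by rw [h0, map_zero])) ?_
  rw [cyc_cast _ (pow_ne_zero _ hl0), (mem_FixMu_iff hl0).1 hg]

section cross
variable {F' E' : Type*} [Field F'] [NumberField F'] [Field E'] [CharZero E'] [Algebra F' E']
  [IsGalois F' E'] [RadCl E']

theorem lcyc_eq_of_cyc_eq {l : ℕ} [Fact l.Prime] {g : Gal(E/F)} {g' : Gal(E'/F')}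
    (h : ∀ k, cyc (l ^ k) g = cyc (l ^ k) g') : lcyc l g = lcyc l g' := by
  have : Cyc l g = Cyc l g' := PadicInt.ext_of_toZModPow.1 fun k => by rw [Cyc_spec, Cyc_spec, h]
  rw [lcyc, lcyc, this]

theorem cyc_pow_eq_of_lcyc_eq {l : ℕ} [Fact l.Prime] (hl : l ≠ 2) {g : Gal(E/F)} {g' : Gal(E'/F')}
    (h : lcyc l g = lcyc l g') (k : ℕ) : cyc (l ^ k) g ^ (l - 1) = cyc (l ^ k) g' ^ (l - 1) := by
  obtain ⟨v, hv⟩ := (isUnit_Cyc l g').exists_right_inv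
  have hvu : IsUnit v := IsUnit.of_mul_eq_one_right _ hv
  have h1 : plog l 1 = 0 := by
    have := (plog_spec hl).1 1 1 isUnit_one isUnit_one
    rw [mul_one] at this
    linear_combination -this
  have h2 : plog l (Cyc l g * v) = 0 := by
    rw [(plog_spec hl).1 _ _ (isUnit_Cyc l g) hvu, ← h1, ← hv,
      (plog_spec hl).1 _ _ (isUnit_Cyc l g') hvu]
    exact congrArg (· + plog l v) h
  have h3 : (Cyc l g * v) ^ (l - 1) = 1 := by
    refine PadicInt.ext_of_toZModPow.1 fun j => ?_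
    cases j with
    | zero =>
      have : Subsingleton (ZMod (l ^ 0)) := by rw [pow_zero]; infer_instance
      exact Subsingleton.elim _ _
    | succ j =>
      rw [map_one]
      exact ((plog_spec hl).2.1 _ ((isUnit_Cyc l g).mul hvu) j).1 (by rw [h2, map_zero])
  have h4 : Cyc l g ^ (l - 1) = Cyc l g' ^ (l - 1) := by
    calc Cyc l g ^ (l - 1) = Cyc l g ^ (l - 1) * (Cyc l g' * v) ^ (l - 1) := by
          rw [hv, one_pow, mul_one]
      _ = (Cyc l g * v) ^ (l - 1) * Cyc l g' ^ (l - 1) := by rw [mul_pow, mul_pow]; ring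
      _ = _ := by rw [h3, one_mul]
  rw [← Cyc_spec, ← Cyc_spec, ← map_pow, ← map_pow, h4]

end cross

end Crest.Agent.R018
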