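import Crest.Agent.R018.Trans

/-!
# R018 / Ram

Finitely many primes ramify.  `exists_ine_le`: let `N` be the normal core, `θ` an integral primitive element of `L N / F`,
`δ = ∏_{tθ ≠ θ} (tθ - θ) ≠ 0`; if `W.v δ = 1` then `τ ∈ Ine W` fixes `θ`, hence `L N`, hence lies in `N`.
`exists_unif_eq_p`: primes not dividing the discriminant of the number field `L H` are unramified
(`NumberField.not_dvd_discr_iff_...` in `Mathlib/NumberTheory/NumberField/Discriminant/Different.lean`, or: `θ` an integral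
primitive element over `ℚ` with minimal polynomial `f`, `f'(θ) 𝓞 ⊆ ℤ[θ]`; if `W.v (f' θ) = 1` and `x ∈ 𝓞`, ... ).
-/

set_option autoImplicit false
set_option linter.unusedSectionVars false

noncomputable section

namespace Crest.Agent.R018

open scoped NNReal Classical

variable {F E : Type*} [Field F] [NumberField F] [Field E] [CharZero E] [Algebra F E]
  [IsGalois F E]

theorem ram_finset (T : Finset E) [Algebra.IsAlgebraic ℚ E] :
    ∃ B : Finset ℕ, ∀ W : Pl E, W.p ∉ B → ∀ z ∈ T, z ≠ 0 → W.v z = 1 := by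
  have h : ∀ z : E, ∃ B : Finset ℕ, ∀ W : Pl E, W.p ∉ B → z ≠ 0 → W.v z = 1 := by
    intro z
    by_cases hz : z = 0
    · exact ⟨∅, fun W _ h => absurd hz h⟩
    · obtain ⟨B, hB⟩ := finite_p_v_ne_one hz
      exact ⟨B, fun W hW _ => hB W hW⟩
  choose B hB using h
  refine ⟨T.biUnion B, fun W hW z hz hz0 => hB z W (fun h => hW ?_) hz0⟩
  exact Finset.mem_biUnion.2 ⟨z, hz, h⟩

open NumberField IsDedekindDomain in
theorem ram_valuation {K : Type*} [Field K] [NumberField K] (𝔭 : HeightOneSpectrum (𝓞 K))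
    {p : ℕ} (hp : p.Prime) (hmem : (p : 𝓞 K) ∈ 𝔭.asIdeal) (hd : ¬ (p : ℤ) ∣ discr K) :
    𝔭.valuation K (p : K) = WithZero.exp (-1 : ℤ) := by
  have hp' : Prime (p : ℤ) := Nat.prime_iff_prime_int.1 hp
  have hmem' : ((p : ℤ) : 𝓞 K) ∈ 𝔭.asIdeal := by simpa using hmem
  have hP := 𝔭.isPrime
  have hunr : Algebra.IsUnramifiedAt ℤ 𝔭.asIdeal :=
    (not_dvd_discr_iff_forall_mem K (𝓞 K) hp').1 hd 𝔭.asIdeal hP hmem'
  have hlo : 𝔭.asIdeal.LiesOver (Ideal.span {(p : ℤ)}) :=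
    (Ideal.liesOver_span_iff hP.ne_top hp').2 hmem'
  have hmap : (Ideal.span {(p : ℤ)}).map (algebraMap ℤ (𝓞 K)) = Ideal.span {(p : 𝓞 K)} := by
    rw [Ideal.map_span, Set.image_singleton]; simp
  have hp0 : (p : 𝓞 K) ≠ 0 := by exact_mod_cast hp.ne_zero
  have h1 := Ideal.ramificationIdx_eq_one 𝔭.asIdeal ℤ
  rw [Ideal.IsDedekindDomain.ramificationIdx_eq_multiplicity (Ideal.span {(p : ℤ)}) 𝔭.asIdeal
    (by rw [hmap]; simpa using hp.ne_zero), hmap] at h1
  have h2 := 𝔭.intValuation_eq_exp_neg_multiplicity hp0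
  rw [h1] at h2
  have h3 := 𝔭.valuation_of_algebraMap (K := K) (p : 𝓞 K)
  rw [h2] at h3
  simpa using h3

theorem exists_ine_le {H : Subgroup Gal(E/F)} (hH : IsOpen (H : Set Gal(E/F))) :
    ∃ B : Finset ℕ, ∀ W : Pl E, W.p ∉ B → Ine F W ≤ H := by
  have := isAlgebraic_rat F E
  obtain ⟨s, hs⟩ := (isOpen_iff_finset H).1 hH
  obtain ⟨B, hB⟩ := ram_finset (s ∪ s.biUnion fun x =>
    ((minpoly F x).aroots E).toFinset.image fun y => y - x)
  refine ⟨B, fun W hW g hg => hs g fun x hx => ?_⟩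
  by_contra hne
  have hx0 : x ≠ 0 := by rintro rfl; exact hne (map_zero g)
  have h1 : W.v x = 1 := hB W hW x (Finset.mem_union_left _ hx) hx0
  have h2 := hg.2 x h1.le
  have hint : IsIntegral F x := Algebra.IsIntegral.isIntegral x
  have h3 : W.v (g x - x) = 1 := by
    refine hB W hW _ (Finset.mem_union_right _ (Finset.mem_biUnion.2 ⟨x, hx,
      Finset.mem_image.2 ⟨g x, ?_, rfl⟩⟩)) (sub_ne_zero.2 hne)
    rw [Multiset.mem_toFinset, Polynomial.mem_aroots]
    refine ⟨minpoly.ne_zero hint, ?_⟩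
    rw [Polynomial.aeval_algHom_apply, minpoly.aeval, map_zero]
  rw [h3] at h2
  exact lt_irrefl _ h2

theorem exists_unif_eq_p {H : Subgroup Gal(E/F)} (hH : IsOpen (H : Set Gal(E/F))) :
    ∃ B : Finset ℕ, ∀ W : Pl E, W.p ∉ B → (unif H W : ℝ≥0) = W.v (W.p : E) := by
  have := numberField_L hH
  refine ⟨(NumberField.discr (L H)).natAbs.primeFactors, fun W hW => ?_⟩
  have hd : ¬ (W.p : ℤ) ∣ NumberField.discr (L H) := by
    intro h
    apply hW
    rw [Nat.mem_primeFactors]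
    exact ⟨W.hp, Int.natCast_dvd.1 h, Int.natAbs_ne_zero.2 (NumberField.discr_ne_zero _)⟩
  have hmem : ((W.p : ℕ) : NumberField.RingOfIntegers (L H)) ∈ (W.prime (L H)).asIdeal := by
    rw [Pl.mem_prime]
    simpa using W.v_p_lt_one
  have h1 := ram_valuation (W.prime (L H)) W.hp hmem hd
  have hp0 : ((W.p : ℕ) : L H) ≠ 0 := by exact_mod_cast W.hp.ne_zero
  have h2 := v_eq_unif_zpow hH W hp0
  rw [h1] at h2
  simpa using h2.symm

end Crest.Agent.R018
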