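import Crest.Agent.R018.Tower
import Crest.Agent.R018.Ram

/-!
# R018 / CycSurj

(Cyc) For `m` prime to a finite set of primes, `cyc m` maps `H` onto `(ZMod m)ˣ`.
Either: `L H` and `ℚ(ζ_m)` have coprime discriminants so are linearly disjoint (`NumberField.linearDisjoint_of_isGalois_isCoprime_discr`,
`IsCyclotomicExtension` discriminant lemmas), giving `[L H (ζ_m) : L H] = φ(m)`, i.e. `(H ⊓ FixMu m).relIndex H = φ m`, and `cyc m` embeds
`H / (H ⊓ FixMu m)` in `(ZMod m)ˣ`;  or by inertia: for `m = p^a m'`, `p ∉ B` (`exists_unif_eq_p`), `v (1 - ζ_{p^a})^{φ(p^a)} = v p`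
forces (`unif_eq_pow_ine`) `[Ine ⊓ H : Ine ⊓ H ⊓ FixMu (p^a)] ≥ φ(p^a)`, and `Ine ≤ FixMu m'`; induct on the prime factors.
`exists_ine_move_root`: if `Ine ⊓ H` fixed `ρ = p^{1/r}` then `v ρ ∈ valGrp H W` (`vU_mem_valGrp_of_ine`), so `r ∣ e ≤ deg H < r`.
-/

set_option autoImplicit false
set_option linter.unusedSectionVars false

noncomputable section

namespace Crest.Agent.R018

open scoped NNReal Classical

variable {F E : Type*} [Field F] [NumberField F] [Field E] [CharZero E] [Algebra F E]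
  [IsGalois F E] [RadCl E]

omit [CharZero E] [RadCl E] in
theorem cs_v_root (W : Pl E) {n : ℕ} (hn : n ≠ 0) {z : E} (hz : z ^ n = 1) : W.v z = 1 := by
  have h : W.v z ^ n = 1 := by rw [← map_pow, hz, map_one]
  exact (pow_eq_one_iff_of_nonneg zero_le hn).1 h

omit [CharZero E] [RadCl E] in
theorem cs_v_one_sub_pow_le (W : Pl E) {z : E} (hz : W.v z ≤ 1) (i : ℕ) :
    W.v (1 - z ^ i) ≤ W.v (1 - z) := by
  induction i with
  | zero => simp
  | succ i ih =>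
    have e : 1 - z ^ (i + 1) = (1 - z) + z * (1 - z ^ i) := by ring
    rw [e]
    refine le_trans (W.v.map_add _ _) (max_le le_rfl ?_)
    rw [map_mul]
    exact le_trans (mul_le_of_le_one_left zero_le hz) ih

omit [CharZero E] [RadCl E] in
theorem cs_v_one_sub_prim (W : Pl E) (a : ℕ) {z : E} (hz : IsPrimitiveRoot z (W.p ^ (a + 1))) :
    W.v (1 - z) ^ Nat.totient (W.p ^ (a + 1)) = W.v (W.p : E) := by
  have : Fact W.p.Prime := ⟨W.hp⟩
  have hq : 0 < W.p ^ (a + 1) := pow_pos W.hp.pos _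
  have : NeZero (W.p ^ (a + 1)) := ⟨hq.ne'⟩
  have h1 := Polynomial.eval_one_cyclotomic_prime_pow (R := E) (p := W.p) a
  rw [Polynomial.cyclotomic_eq_prod_X_sub_primitiveRoots hz, Polynomial.eval_prod] at h1
  rw [← h1, map_prod, ← hz.card_primitiveRoots, ← Finset.prod_const]
  refine Finset.prod_congr rfl fun μ hμ => ?_
  have hμ' : IsPrimitiveRoot μ (W.p ^ (a + 1)) := (mem_primitiveRoots hq).1 hμ
  simp only [Polynomial.eval_sub, Polynomial.eval_X, Polynomial.eval_C]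
  obtain ⟨i, -, hi⟩ := hz.eq_pow_of_pow_eq_one hμ'.pow_eq_one
  obtain ⟨j, -, hj⟩ := hμ'.eq_pow_of_pow_eq_one hz.pow_eq_one
  refine le_antisymm ?_ ?_
  · conv_lhs => rw [← hj]
    exact cs_v_one_sub_pow_le W (cs_v_root W hq.ne' hμ'.pow_eq_one).le j
  · conv_lhs => rw [← hi]
    exact cs_v_one_sub_pow_le W (cs_v_root W hq.ne' hz.pow_eq_one).le i

/-- if `v x ^ k = unif ^ e` with `v x` in the value group then `k ∣ e`. -/
theorem cs_dvd {H : Subgroup Gal(E/F)} (hH : IsOpen (H : Set Gal(E/F))) (W : Pl E) {x : Eˣ}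
    (hx : W.vU x ∈ valGrp H W) {k e : ℕ} (h : W.v (x : E) ^ k = (unif H W : ℝ≥0) ^ e) : k ∣ e := by
  rw [(unif_spec hH W).2] at hx
  obtain ⟨n, hn⟩ := Subgroup.mem_zpowers_iff.1 hx
  have h1 : unif H W ^ (n * k) = unif H W ^ (e : ℤ) := by
    rw [zpow_mul, hn, zpow_natCast, zpow_natCast]
    ext1
    simpa using h
  have h2 : n * k = e := unif_zpow_injective hH W h1
  exact Int.natCast_dvd_natCast.1 ⟨n, by rw [← h2, mul_comm]⟩

/-- the cyclotomic character as a homomorphism to the units. -/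
def csU (F E : Type*) [Field F] [NumberField F] [Field E] [CharZero E] [Algebra F E]
    [IsGalois F E] [RadCl E] {N : ℕ} (hN : N ≠ 0) : Gal(E/F) →* (ZMod N)ˣ :=
  MonoidHom.toHomUnits { toFun := cyc N, map_one' := cyc_one hN, map_mul' := cyc_mul hN }

theorem csU_coe {N : ℕ} (hN : N ≠ 0) (g : Gal(E/F)) : (csU F E hN g : ZMod N) = cyc N g := rfl

theorem csU_ker {N : ℕ} (hN : N ≠ 0) : (csU F E hN).ker = FixMu F E N := by
  ext g
  rw [MonoidHom.mem_ker, mem_FixMu_iff hN, ← csU_coe hN, Units.val_eq_one]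

theorem cs_prime_pow {H : Subgroup Gal(E/F)} (hH : IsOpen (H : Set Gal(E/F))) (W : Pl E)
    (hW : (unif H W : ℝ≥0) = W.v (W.p : E)) (a : ℕ) (u : ZMod (W.p ^ (a + 1))) (hu : IsUnit u) :
    ∃ τ ∈ Ine F W, τ ∈ H ∧ cyc (W.p ^ (a + 1)) τ = u := by
  have hq : W.p ^ (a + 1) ≠ 0 := (pow_pos W.hp.pos _).ne'
  have : NeZero (W.p ^ (a + 1)) := ⟨hq⟩
  set q := W.p ^ (a + 1) with hqdef
  have hH' : IsOpen ((H ⊓ FixMu F E q : Subgroup Gal(E/F)) : Set Gal(E/F)) :=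
    isOpen_inf hH (isOpen_FixMu q)
  have he := unif_eq_pow_ine hH' inf_le_left W
  have hidx : (Ine F W ⊓ (H ⊓ FixMu F E q)).relIndex (Ine F W ⊓ H) =
      (FixMu F E q).relIndex (Ine F W ⊓ H) := by
    rw [← inf_assoc, inf_comm, Subgroup.inf_relIndex_right]
  rw [hidx] at he
  have hz := zeta_prim (E := E) hq
  have hz1 : 1 - zeta E q ≠ 0 := by
    intro h
    have h1 : zeta E q = 1 := (sub_eq_zero.1 h).symm
    exact hz.ne_one (Nat.one_lt_pow (Nat.succ_ne_zero a) W.hp.one_lt) h1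
  have hx : W.vU (Units.mk0 _ hz1) ∈ valGrp (H ⊓ FixMu F E q) W := by
    refine Subgroup.mem_map_of_mem _ (mem_LU.2 (mem_L.2 fun g hg => ?_))
    simp [mem_FixMu.1 hg.2]
  have hdvd : Nat.totient q ∣ (FixMu F E q).relIndex (Ine F W ⊓ H) := by
    refine cs_dvd hH' W hx ?_
    rw [Units.val_mk0, cs_v_one_sub_prim W a hz, ← hW, he, Units.val_pow_eq_pow_val]
  have hle := Nat.le_of_dvd
    (Nat.pos_of_ne_zero (relIndex_ne_zero_of_isOpen (isOpen_FixMu q) (Ine F W ⊓ H))) hdvd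
  rw [← csU_ker hq, Subgroup.relIndex_ker, ← ZMod.card_units_eq_totient, ← Nat.card_eq_fintype_card]
    at hle
  have htop := Subgroup.eq_top_of_le_card _ hle
  have : hu.unit ∈ (Ine F W ⊓ H).map (csU F E hq) := by rw [htop]; trivial
  obtain ⟨τ, hτ, hτu⟩ := this
  exact ⟨τ, hτ.1, hτ.2, by rw [← csU_coe hq, hτu]; rfl⟩

theorem cs_crt {M N : ℕ} (h : M.Coprime N) (hMN : M * N ≠ 0) {x y : ZMod (M * N)}
    (h1 : ZMod.castHom (dvd_mul_right M N) (ZMod M) x = ZMod.castHom (dvd_mul_right M N) (ZMod M) y)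
    (h2 : ZMod.castHom (dvd_mul_left N M) (ZMod N) x = ZMod.castHom (dvd_mul_left N M) (ZMod N) y) :
    x = y := by
  have : NeZero (M * N) := ⟨hMN⟩
  obtain ⟨a, rfl⟩ := ZMod.natCast_zmod_surjective x
  obtain ⟨b, rfl⟩ := ZMod.natCast_zmod_surjective y
  simp only [map_natCast, ZMod.natCast_eq_natCast_iff] at h1 h2 ⊢
  exact (Nat.modEq_and_modEq_iff_modEq_mul h).1 ⟨h1, h2⟩

theorem cs_fix_rt {W : Pl E} {r : ℕ} (hr : r.Prime) (hWr : W.p ≠ r) {τ : Gal(E/F)} (hτ : τ ∈ Ine F W)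
    {p : ℕ} (hp : p.Prime) (hne : p ≠ W.p) : τ (rt r (p : E)) = rt r (p : E) := by
  have h1 : ¬ W.p ∣ r := fun h => hWr ((Nat.prime_dvd_prime_iff_eq W.hp hr).1 h)
  have h2 : ¬ W.p ∣ p := fun h => hne ((Nat.prime_dvd_prime_iff_eq W.hp hp).1 h).symm
  refine Ine_fix_of_pow h1 hτ ?_ (by rw [rt_pow hr.ne_zero, map_natCast])
  have h : W.v (rt r (p : E)) ^ r = 1 := by
    rw [← map_pow, rt_pow hr.ne_zero, W.v_natCast_eq_one h2]
  exact (pow_eq_one_iff_of_nonneg zero_le hr.ne_zero).1 h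

theorem exists_cyc_surj {H : Subgroup Gal(E/F)} (hH : IsOpen (H : Set Gal(E/F))) :
    ∃ B : Finset ℕ, ∀ m : ℕ, m ≠ 0 → (∀ p : ℕ, p.Prime → p ∣ m → p ∉ B) →
      ∀ u : ZMod m, IsUnit u → ∃ h ∈ H, cyc m h = u := by
  obtain ⟨B, hB⟩ := exists_unif_eq_p hH
  have := isAlgebraic_rat F E
  refine ⟨B, fun m => ?_⟩
  induction m using Nat.recOnPrimePow with
  | zero => intro h; exact absurd rfl h
  | one => intro _ _ u _; exact ⟨1, H.one_mem, Subsingleton.elim _ _⟩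
  | prime_pow_mul m p n hp hpm hn ih =>
    intro hm hPB u hu
    have hm0 : m ≠ 0 := right_ne_zero_of_mul hm
    obtain ⟨a, rfl⟩ := Nat.exists_eq_succ_of_ne_zero hn.ne'
    obtain ⟨W, rfl⟩ := exists_pl E hp
    have hq : W.p ^ (a + 1) ≠ 0 := left_ne_zero_of_mul hm
    obtain ⟨h', hh', hc'⟩ := ih hm0 (fun l hl hlm => hPB l hl (hlm.mul_left _))
      (ZMod.castHom (dvd_mul_left m _) (ZMod m) u) (hu.map _)
    have hWB : W.p ∉ B := hPB _ hp ((dvd_pow_self _ (Nat.succ_ne_zero a)).mul_right _)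
    obtain ⟨τ, hτ, hτH, hcτ⟩ := cs_prime_pow hH W (hB W hWB) a
      (ZMod.castHom (dvd_mul_right _ m) (ZMod (W.p ^ (a + 1))) u * cyc (W.p ^ (a + 1)) h'⁻¹)
      ((hu.map _).mul (isUnit_cyc hq _))
    refine ⟨τ * h', H.mul_mem hτH hh', cs_crt
      (((Nat.Prime.coprime_iff_not_dvd hp).2 hpm).pow_left _) hm ?_ ?_⟩
    · rw [cyc_cast _ hm, cyc_mul hq, hcτ, mul_assoc, cyc_inv_mul hq, mul_one]
    · rw [cyc_cast _ hm, cyc_mul hm0, (mem_FixMu_iff hm0).1 (Ine_le_FixMu hpm hτ), one_mul, hc']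

theorem exists_ine_move_root {H : Subgroup Gal(E/F)} (hH : IsOpen (H : Set Gal(E/F))) (W : Pl E)
    {r : ℕ} (hr : r.Prime) (hdeg : deg H < r) :
    ∃ τ ∈ Ine F W, τ ∈ H ∧ τ (rt r (W.p : E)) ≠ rt r (W.p : E) := by
  by_contra hcon
  push Not at hcon
  have hρ : rt r (W.p : E) ≠ 0 := rt_ne_zero hr.ne_zero (by exact_mod_cast W.hp.ne_zero)
  have hx : W.vU (Units.mk0 _ hρ) ∈ valGrp H W :=
    vU_mem_valGrp_of_ine hH W (mem_L.2 fun g hg => hcon g hg.1 hg.2)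
  obtain ⟨e, he0, he, hpe⟩ := exists_unif_pow_eq hH W
  have hd : r ∣ e := cs_dvd hH W hx (by rw [Units.val_mk0, ← map_pow, rt_pow hr.ne_zero, hpe])
  have := Nat.le_of_dvd he0 hd
  omega

/-- (KumInd) an element of `H ⊓ FixMu r` moving the `r`-th roots of the primes in `P` and fixing those of the primes in `Q`
(product of inertia elements; `kum r (rt r p)` is additive on `FixMu r`, inertia at `p` fixes `rt r p'` by `Ine_fix_of_pow`). -/
theorem exists_move_roots {H : Subgroup Gal(E/F)} (hH : IsOpen (H : Set Gal(E/F))) {r : ℕ}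
    (hr : r.Prime) (hdeg : deg H < r) (P Q : Finset ℕ) (hP : ∀ p ∈ P, p.Prime ∧ p ≠ r)
    (hQ : ∀ p ∈ Q, p.Prime ∧ p ∉ P) :
    ∃ g ∈ H, g ∈ FixMu F E r ∧ (∀ p ∈ P, g (rt r (p : E)) ≠ rt r (p : E)) ∧
      ∀ p ∈ Q, g (rt r (p : E)) = rt r (p : E) := by
  have := isAlgebraic_rat F E
  induction P using Finset.induction_on generalizing Q with
  | empty => exact ⟨1, H.one_mem, (FixMu F E r).one_mem, by simp, fun _ _ => rfl⟩
  | insert p P hpP ih =>
    have hp := hP p (Finset.mem_insert_self _ _)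
    obtain ⟨g, hgH, hgμ, hgP, hgQ⟩ := ih (insert p Q)
      (fun l hl => hP l (Finset.mem_insert_of_mem hl)) (fun l hl => by
        rcases Finset.mem_insert.1 hl with rfl | hl
        · exact ⟨hp.1, hpP⟩
        · exact ⟨(hQ l hl).1, fun h => (hQ l hl).2 (Finset.mem_insert_of_mem h)⟩)
    obtain ⟨W, rfl⟩ := exists_pl E hp.1
    obtain ⟨τ, hτ, hτH, hmove⟩ := exists_ine_move_root hH W hr hdeg
    have h1 : ¬ W.p ∣ r := fun h => hp.2 ((Nat.prime_dvd_prime_iff_eq W.hp hr).1 h)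
    refine ⟨g * τ, H.mul_mem hgH hτH, (FixMu F E r).mul_mem hgμ (Ine_le_FixMu h1 hτ), ?_, ?_⟩
    · intro l hl
      rw [AlgEquiv.mul_apply]
      rcases Finset.mem_insert.1 hl with rfl | hl'
      · intro h
        exact hmove (g.injective (h.trans (hgQ _ (Finset.mem_insert_self _ _)).symm))
      · rw [cs_fix_rt hr hp.2 hτ (hP l hl).1 (fun h => hpP (h ▸ hl'))]
        exact hgP l hl'
    · intro l hl
      rw [AlgEquiv.mul_apply, cs_fix_rt hr hp.2 hτ (hQ l hl).1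
        (fun h => (hQ l hl).2 (h ▸ Finset.mem_insert_self _ _))]
      exact hgQ l (Finset.mem_insert_of_mem hl)

end Crest.Agent.R018
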