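import Mathlib

/-!
# Row 18 (Uchida's Hom-conjecture): definitions.

See `Plan.lean` for the whole proof.  Everything is phrased inside an *ambient* `(F, E)`:
`F` a number field, `E / F` Galois (infinite), `G = E ≃ₐ[F] E`; number fields are fixed fields
`L H` of open subgroups `H ≤ G`; places are normalised real valuations of `E`;
divisors are functions on places of `E` (multiplicative notation).
-/

set_option autoImplicit false

noncomputable section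

namespace Crest.Agent.R018

open scoped NNReal Classical

/-- radically closed: all `n`-th roots and primitive roots of unity exist. -/
class RadCl (E : Type*) [Field E] : Prop where
  root : ∀ n : ℕ, n ≠ 0 → ∀ x : E, ∃ y : E, y ^ n = x
  prim : ∀ n : ℕ, n ≠ 0 → ∃ z : E, IsPrimitiveRoot z n

instance instRadClOfIsAlgClosed (E : Type*) [Field E] [CharZero E] [IsAlgClosed E] : RadCl E where
  root n hn x := IsAlgClosed.exists_pow_nat_eq x (Nat.pos_of_ne_zero hn)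
  prim n hn := by
    have : NeZero (n : E) := ⟨by exact_mod_cast hn⟩
    have : NeZero n := ⟨hn⟩
    exact HasEnoughRootsOfUnity.exists_primitiveRoot E n

/-- A finite place of `E`: a real valuation normalised by `v p = 1/p`. -/
structure Pl (E : Type*) [Field E] where
  v : Valuation E ℝ≥0
  p : ℕ
  hp : p.Prime
  vp : v (p : E) = (p : ℝ≥0)⁻¹

section general
variable {E : Type*} [Field E]

theorem Pl.ext' {W W' : Pl E} (hv : ∀ x, W.v x = W'.v x) (hp : W.p = W'.p) : W = W' := by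
  obtain ⟨v, p, _, _⟩ := W
  obtain ⟨v', p', _, _⟩ := W'
  have h1 : v = v' := Valuation.ext hv
  simp only at hp
  subst h1; subst hp; rfl

/-- pull back of a place along a field embedding. -/
def Pl.comap {E' : Type*} [Field E'] (V : Pl E) (ι : E' →+* E) : Pl E' where
  v := V.v.comap ι
  p := V.p
  hp := V.hp
  vp := by simp [Valuation.comap_apply, V.vp]

@[simp] theorem Pl.comap_v {E' : Type*} [Field E'] (V : Pl E) (ι : E' →+* E) (x : E') :
    (V.comap ι).v x = V.v (ι x) := rfl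
@[simp] theorem Pl.comap_p {E' : Type*} [Field E'] (V : Pl E) (ι : E' →+* E) :
    (V.comap ι).p = V.p := rfl

/-- the valuation on units. -/
def Pl.vU (W : Pl E) : Eˣ →* ℝ≥0ˣ := Units.map W.v.toMonoidWithZeroHom.toMonoidHom

@[simp] theorem Pl.coe_vU (W : Pl E) (x : Eˣ) : ((W.vU x : ℝ≥0ˣ) : ℝ≥0) = W.v (x : E) := rfl

/-- chosen primitive `N`-th root of unity. -/
def zeta (E : Type*) [Field E] (N : ℕ) : E :=
  @Classical.epsilon E ⟨1⟩ (fun z => IsPrimitiveRoot z N)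

/-- chosen `N`-th root. -/
def rt (N : ℕ) (y : E) : E := @Classical.epsilon E ⟨1⟩ (fun z => z ^ N = y)

theorem zeta_prim [RadCl E] {N : ℕ} (hN : N ≠ 0) : IsPrimitiveRoot (zeta E N) N :=
  @Classical.epsilon_spec E (fun z => IsPrimitiveRoot z N) (RadCl.prim N hN)

theorem rt_pow [RadCl E] {N : ℕ} (hN : N ≠ 0) (y : E) : rt N y ^ N = y :=
  @Classical.epsilon_spec E (fun z => z ^ N = y) (RadCl.root N hN y)

/-- Divisors: functions on places (multiplicative). -/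
def Dv (E : Type*) [Field E] : Type _ := Pl E → ℝ≥0ˣ

instance : CommGroup (Dv E) := inferInstanceAs (CommGroup (Pl E → ℝ≥0ˣ))

@[simp] theorem Dv.mul_apply (a b : Dv E) (W : Pl E) : (a * b) W = a W * b W := rfl
@[simp] theorem Dv.one_apply (W : Pl E) : (1 : Dv E) W = 1 := rfl
@[simp] theorem Dv.inv_apply (a : Dv E) (W : Pl E) : (a⁻¹) W = (a W)⁻¹ := rfl
@[simp] theorem Dv.div_apply (a b : Dv E) (W : Pl E) : (a / b) W = a W / b W := rfl
@[simp] theorem Dv.pow_apply (a : Dv E) (n : ℕ) (W : Pl E) : (a ^ n) W = a W ^ n := rfl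
@[simp] theorem Dv.zpow_apply (a : Dv E) (n : ℤ) (W : Pl E) : (a ^ n) W = a W ^ n := rfl
theorem Dv.prod_apply {ι : Type*} (s : Finset ι) (f : ι → Dv E) (W : Pl E) :
    (∏ i ∈ s, f i) W = ∏ i ∈ s, f i W := Finset.prod_apply W s f
@[ext] theorem Dv.ext {a b : Dv E} (h : ∀ W, a W = b W) : a = b := funext h

/-- principal divisor. -/
def dv : Eˣ →* Dv E where
  toFun x := fun W => W.vU x
  map_one' := by ext W; simp
  map_mul' x y := by ext W; simp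

@[simp] theorem dv_apply (x : Eˣ) (W : Pl E) : dv x W = W.vU x := rfl

/-- the prime-to-`π` part of a divisor. -/
def cut (π : E) : Dv E →* Dv E where
  toFun a := fun W => if W.v π < 1 then 1 else a W
  map_one' := by funext W; simp
  map_mul' a b := by
    funext W
    change (if W.v π < 1 then 1 else a W * b W) =
      (if W.v π < 1 then 1 else a W) * (if W.v π < 1 then 1 else b W)
    split_ifs <;> simp

theorem cut_apply (π : E) (a : Dv E) (W : Pl E) : cut π a W = if W.v π < 1 then 1 else a W := rfl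

end general

/-- `l`-adic logarithm-like homomorphism on units of `ℤ_[l]` (morally `log (u^(l-1)) / log (1+l)`). -/
def PlogSpec (l : ℕ) [Fact l.Prime] (f : ℤ_[l] → ℤ_[l]) : Prop :=
  (∀ u v : ℤ_[l], IsUnit u → IsUnit v → f (u * v) = f u + f v) ∧
  (∀ u : ℤ_[l], IsUnit u → ∀ k : ℕ,
    (PadicInt.toZModPow k (f u) = 0 ↔ PadicInt.toZModPow (k + 1) (u ^ (l - 1)) = 1)) ∧
  IsUnit (f (1 + l))

def plog (l : ℕ) [Fact l.Prime] : ℤ_[l] → ℤ_[l] :=
  Classical.epsilon (PlogSpec l)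

section ambient
variable {F E : Type*} [Field F] [Field E] [Algebra F E]

instance : MulAction (E ≃ₐ[F] E) (Pl E) where
  smul g W := W.comap (g.symm : E →+* E)
  one_smul _ := Pl.ext' (fun _ => rfl) rfl
  mul_smul _ _ _ := Pl.ext' (fun _ => rfl) rfl

@[simp] theorem Pl.smul_v (g : E ≃ₐ[F] E) (W : Pl E) (x : E) : (g • W).v x = W.v (g⁻¹ x) := rfl
@[simp] theorem Pl.smul_p (g : E ≃ₐ[F] E) (W : Pl E) : (g • W).p = W.p := rfl

instance : MulDistribMulAction (E ≃ₐ[F] E) (Dv E) where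
  smul g a := fun W => a (g⁻¹ • W)
  one_smul a := by funext W; change a ((1 : E ≃ₐ[F] E)⁻¹ • W) = a W; simp
  mul_smul g h a := by
    funext W; change a ((g * h)⁻¹ • W) = a (h⁻¹ • g⁻¹ • W); rw [mul_inv_rev, mul_smul]
  smul_mul _ _ _ := rfl
  smul_one _ := rfl

@[simp] theorem Dv.smul_apply (g : E ≃ₐ[F] E) (a : Dv E) (W : Pl E) :
    (g • a) W = a (g⁻¹ • W) := rfl

@[simp] theorem coe_smul_units (g : E ≃ₐ[F] E) (x : Eˣ) : ((g • x : Eˣ) : E) = g (x : E) := rfl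

theorem dv_smul (g : E ≃ₐ[F] E) (x : Eˣ) : dv (g • x) = g • dv x := by
  ext W; simp

variable (F) in
/-- decomposition group. -/
def Dec (W : Pl E) : Subgroup (E ≃ₐ[F] E) := MulAction.stabilizer (E ≃ₐ[F] E) W

theorem mem_Dec {W : Pl E} {g : E ≃ₐ[F] E} : g ∈ Dec F W ↔ g • W = W := Iff.rfl

theorem mem_Dec_iff {W : Pl E} {g : E ≃ₐ[F] E} : g ∈ Dec F W ↔ ∀ x, W.v (g x) = W.v x := by
  constructor
  · intro h x
    have h' : g • W = W := h
    have := congrArg (fun V : Pl E => V.v (g x)) h'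
    simpa using this.symm
  · intro h
    refine Pl.ext' (fun x => ?_) rfl
    have := h (g⁻¹ x)
    simpa using this.symm

variable (F) in
/-- inertia group. -/
def Ine (W : Pl E) : Subgroup (E ≃ₐ[F] E) where
  carrier := {g | g ∈ Dec F W ∧ ∀ x, W.v x ≤ 1 → W.v (g x - x) < 1}
  one_mem' := ⟨(Dec F W).one_mem, fun x _ => by simp⟩
  mul_mem' := by
    rintro g h ⟨hg, hg'⟩ ⟨hh, hh'⟩
    refine ⟨(Dec F W).mul_mem hg hh, fun x hx => ?_⟩
    have e : (g * h) x - x = (g (h x) - h x) + (h x - x) := by simp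
    rw [e]
    exact lt_of_le_of_lt (W.v.map_add _ _)
      (max_lt (hg' _ (by rw [mem_Dec_iff.1 hh]; exact hx)) (hh' _ hx))
  inv_mem' := by
    rintro g ⟨hg, hg'⟩
    refine ⟨(Dec F W).inv_mem hg, fun x hx => ?_⟩
    have h1 := hg' (g⁻¹ x) (by rw [mem_Dec_iff.1 ((Dec F W).inv_mem hg)]; exact hx)
    have e : g⁻¹ x - x = -(g (g⁻¹ x) - g⁻¹ x) := by simp
    rw [e, Valuation.map_neg]; exact h1

theorem mem_Ine {W : Pl E} {g : E ≃ₐ[F] E} :
    g ∈ Ine F W ↔ g ∈ Dec F W ∧ ∀ x, W.v x ≤ 1 → W.v (g x - x) < 1 := Iff.rfl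

theorem Ine_le_Dec (W : Pl E) : Ine F W ≤ Dec F W := fun _ h => h.1

theorem mem_Dec_smul {W : Pl E} {g d : E ≃ₐ[F] E} : d ∈ Dec F (g • W) ↔ g⁻¹ * d * g ∈ Dec F W := by
  rw [mem_Dec, mem_Dec, mul_smul, mul_smul, inv_smul_eq_iff]

theorem mem_Ine_smul {W : Pl E} {g d : E ≃ₐ[F] E} : d ∈ Ine F (g • W) ↔ g⁻¹ * d * g ∈ Ine F W := by
  rw [mem_Ine, mem_Ine, mem_Dec_smul]
  refine and_congr_right fun _ => ⟨fun h x hx => ?_, fun h x hx => ?_⟩
  · have := h (g x) (by simpa using hx)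
    simpa using this
  · have := h (g⁻¹ x) (by simpa using hx)
    simpa using this

theorem conj_mem_Ine {W : Pl E} {g d : E ≃ₐ[F] E} (hg : g ∈ Dec F W) (hd : d ∈ Ine F W) :
    g * d * g⁻¹ ∈ Ine F W := by
  have h : g⁻¹ • W = W := (Dec F W).inv_mem hg
  have := (mem_Ine_smul (W := W) (g := g⁻¹) (d := d)).1 (by rw [h]; exact hd)
  simpa using this

/-- fixed field. -/
abbrev L (H : Subgroup (E ≃ₐ[F] E)) : IntermediateField F E := IntermediateField.fixedField H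

theorem mem_L {H : Subgroup (E ≃ₐ[F] E)} {x : E} : x ∈ L H ↔ ∀ g ∈ H, g x = x :=
  IntermediateField.mem_fixedField_iff H x

/-- multiplicative group of the fixed field. -/
def LU (H : Subgroup (E ≃ₐ[F] E)) : Subgroup Eˣ where
  carrier := {x | (x : E) ∈ L H}
  one_mem' := (L H).one_mem
  mul_mem' ha hb := (L H).mul_mem ha hb
  inv_mem' := by
    intro x hx
    change ((x⁻¹ : Eˣ) : E) ∈ L H
    rw [Units.val_inv_eq_inv_val]; exact (L H).inv_mem hx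

theorem mem_LU {H : Subgroup (E ≃ₐ[F] E)} {x : Eˣ} : x ∈ LU H ↔ (x : E) ∈ L H := Iff.rfl

variable (F) in
/-- stabiliser of an element. -/
def stab (x : E) : Subgroup (E ≃ₐ[F] E) := MulAction.stabilizer (E ≃ₐ[F] E) x

theorem mem_stab {x : E} {g : E ≃ₐ[F] E} : g ∈ stab F x ↔ g x = x := Iff.rfl

variable (F E) in
/-- the subgroup fixing all `N`-th roots of unity. -/
def FixMu (N : ℕ) : Subgroup (E ≃ₐ[F] E) := stab F (zeta E N)

theorem mem_FixMu {N : ℕ} {g : E ≃ₐ[F] E} : g ∈ FixMu F E N ↔ g (zeta E N) = zeta E N := Iff.rfl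

/-- `H` fixes `√-1`. -/
def HasI (H : Subgroup (E ≃ₐ[F] E)) : Prop := H ≤ FixMu F E 4

/-- absolute degree `[L H : ℚ]` (for open `H`). -/
def deg [CharZero F] (H : Subgroup (E ≃ₐ[F] E)) : ℕ := H.index * Module.finrank ℚ F

/-- same place of `L H`. -/
def Same (H : Subgroup (E ≃ₐ[F] E)) (W W' : Pl E) : Prop := ∃ h ∈ H, h • W = W'

theorem Same.refl (H : Subgroup (E ≃ₐ[F] E)) (W : Pl E) : Same H W W := ⟨1, H.one_mem, one_smul _ _⟩

theorem Same.symm {H : Subgroup (E ≃ₐ[F] E)} {W W' : Pl E} (h : Same H W W') : Same H W' W := by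
  obtain ⟨g, hg, rfl⟩ := h
  exact ⟨g⁻¹, H.inv_mem hg, inv_smul_smul _ _⟩

theorem Same.trans {H : Subgroup (E ≃ₐ[F] E)} {W W' W'' : Pl E} (h : Same H W W')
    (h' : Same H W' W'') : Same H W W'' := by
  obtain ⟨g, hg, rfl⟩ := h
  obtain ⟨g', hg', rfl⟩ := h'
  exact ⟨g' * g, H.mul_mem hg' hg, mul_smul _ _ _⟩

theorem Same.mono {H H' : Subgroup (E ≃ₐ[F] E)} {W W' : Pl E} (hle : H' ≤ H) (h : Same H' W W') :
    Same H W W' := by
  obtain ⟨g, hg, rfl⟩ := h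
  exact ⟨g, hle hg, rfl⟩

theorem Same.p_eq {H : Subgroup (E ≃ₐ[F] E)} {W W' : Pl E} (h : Same H W W') : W.p = W'.p := by
  obtain ⟨g, _, rfl⟩ := h; rfl

theorem Same.v_eq {H : Subgroup (E ≃ₐ[F] E)} {W W' : Pl E} (h : Same H W W') {x : E}
    (hx : x ∈ L H) : W.v x = W'.v x := by
  obtain ⟨g, hg, rfl⟩ := h
  rw [Pl.smul_v, mem_L.1 hx _ (H.inv_mem hg)]

theorem L_anti {H H' : Subgroup (E ≃ₐ[F] E)} (hle : H' ≤ H) : L H ≤ L H' :=
  fun _ hx => mem_L.2 fun g hg => mem_L.1 hx g (hle hg)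

theorem LU_anti {H H' : Subgroup (E ≃ₐ[F] E)} (hle : H' ≤ H) : LU H ≤ LU H' :=
  fun _ hx => L_anti hle hx

theorem mem_LU_iff_smul {H : Subgroup (E ≃ₐ[F] E)} {x : Eˣ} : x ∈ LU H ↔ ∀ g ∈ H, g • x = x := by
  rw [mem_LU, mem_L]
  exact forall₂_congr fun g _ => ⟨fun h => Units.ext h, fun h => congrArg Units.val h⟩

/-- union of the `H`-orbits of the members of `s`. -/
def orbs (H : Subgroup (E ≃ₐ[F] E)) (s : Finset (Pl E)) : Set (Pl E) := {W | ∃ W' ∈ s, Same H W' W}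

/-- mod `N` cyclotomic character. -/
def cyc (N : ℕ) (g : E ≃ₐ[F] E) : ZMod N :=
  @Classical.epsilon (ZMod N) ⟨1⟩ (fun a => g (zeta E N) = zeta E N ^ a.val)

/-- Kummer cocycle of a root `ρ`: `g ρ = ζ_N ^ (kum N ρ g) * ρ`. -/
def kum (N : ℕ) (ρ : E) (g : E ≃ₐ[F] E) : ZMod N :=
  @Classical.epsilon (ZMod N) ⟨0⟩ (fun a => g ρ = zeta E N ^ a.val * ρ)

/-- `l`-adic cyclotomic character. -/
def Cyc (l : ℕ) [Fact l.Prime] (g : E ≃ₐ[F] E) : ℤ_[l] :=
  @Classical.epsilon ℤ_[l] ⟨1⟩ (fun u => ∀ k : ℕ, PadicInt.toZModPow k u = cyc (l ^ k) g)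

/-- additive `l`-adic cyclotomic character. -/
def lcyc (l : ℕ) [Fact l.Prime] (g : E ≃ₐ[F] E) : ℤ_[l] := plog l (Cyc l g)

/-- the sign character of `√y` (values `±1` in any ring `R`). -/
def sg (R : Type*) [Ring R] (y : E) (g : E ≃ₐ[F] E) : R :=
  if g (rt 2 y) = rt 2 y then 1 else -1

/-- value group of `L H` at `W`. -/
def valGrp (H : Subgroup (E ≃ₐ[F] E)) (W : Pl E) : Subgroup ℝ≥0ˣ := (LU H).map W.vU

/-- value of a uniformiser of `L H` at `W`. -/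
def unif (H : Subgroup (E ≃ₐ[F] E)) (W : Pl E) : ℝ≥0ˣ :=
  @Classical.epsilon ℝ≥0ˣ ⟨1⟩ (fun t => (t : ℝ≥0) < 1 ∧ valGrp H W = Subgroup.zpowers t)

/-- the prime divisor of `L H` below `W`. -/
def bas (H : Subgroup (E ≃ₐ[F] E)) (W : Pl E) : Dv E :=
  fun W' => if Same H W W' then unif H W else 1

/-- divisors of `L H` prime to `π` (`W ∣ π` means `W.v π < 1`; `DivP H 1` = all divisors). -/
def DivP (H : Subgroup (E ≃ₐ[F] E)) (π : E) : Subgroup (Dv E) :=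
  Subgroup.closure {a | ∃ W : Pl E, ¬ W.v π < 1 ∧ a = bas H W}

/-- elements of `L H` congruent to `1` modulo `π`. -/
def rayU (H : Subgroup (E ≃ₐ[F] E)) (π : E) : Subgroup Eˣ where
  carrier := {x | x ∈ LU H ∧ ∀ W : Pl E, W.v π < 1 → W.v ((x : E) - 1) ≤ W.v π}
  one_mem' := ⟨(LU H).one_mem, fun W _ => by simp⟩
  mul_mem' := by
    rintro x y ⟨hx, hx'⟩ ⟨hy, hy'⟩
    refine ⟨(LU H).mul_mem hx hy, fun W hW => ?_⟩
    have e : ((x * y : Eˣ) : E) - 1 = (x - 1) * (y - 1) + ((x - 1) + (y - 1)) := by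
      push_cast; ring
    rw [e]
    refine le_trans (W.v.map_add _ _) (max_le ?_ (le_trans (W.v.map_add _ _)
      (max_le (hx' W hW) (hy' W hW))))
    rw [map_mul]
    calc W.v (x - 1) * W.v (y - 1) ≤ W.v π * 1 :=
          mul_le_mul' (hx' W hW) (le_trans (hy' W hW) hW.le)
      _ = W.v π := mul_one _
  inv_mem' := by
    rintro x ⟨hx, hx'⟩
    refine ⟨(LU H).inv_mem hx, fun W hW => ?_⟩
    have h1 : W.v (x : E) = 1 := by
      have := W.v.map_one_add_of_lt (lt_of_le_of_lt (hx' W hW) hW)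
      simpa using this
    have e : ((x⁻¹ : Eˣ) : E) - 1 = -(((x : E) - 1) * ((x : E))⁻¹) := by
      rw [Units.val_inv_eq_inv_val]; field_simp; ring
    rw [e, Valuation.map_neg, map_mul, map_inv₀, h1, inv_one, mul_one]
    exact hx' W hW

theorem mem_rayU {H : Subgroup (E ≃ₐ[F] E)} {π : E} {x : Eˣ} :
    x ∈ rayU H π ↔ x ∈ LU H ∧ ∀ W : Pl E, W.v π < 1 → W.v ((x : E) - 1) ≤ W.v π := Iff.rfl

/-- principal ray divisors. -/
def Ray (H : Subgroup (E ≃ₐ[F] E)) (π : E) : Subgroup (Dv E) := (rayU H π).map dv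

/-- `S`-units of `L H` (`SU H ∅` = global units). -/
def SU (H : Subgroup (E ≃ₐ[F] E)) (S : Set (Pl E)) : Subgroup Eˣ where
  carrier := {x | x ∈ LU H ∧ ∀ W : Pl E, W ∉ S → W.v (x : E) = 1}
  one_mem' := ⟨(LU H).one_mem, fun W _ => by simp⟩
  mul_mem' := by
    rintro x y ⟨hx, hx'⟩ ⟨hy, hy'⟩
    exact ⟨(LU H).mul_mem hx hy, fun W hW => by simp [hx' W hW, hy' W hW]⟩
  inv_mem' := by
    rintro x ⟨hx, hx'⟩
    exact ⟨(LU H).inv_mem hx, fun W hW => by simp [hx' W hW]⟩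

theorem mem_SU {H : Subgroup (E ≃ₐ[F] E)} {S : Set (Pl E)} {x : Eˣ} :
    x ∈ SU H S ↔ x ∈ LU H ∧ ∀ W : Pl E, W ∉ S → W.v (x : E) = 1 := Iff.rfl

/-- the subgroup of `n`-th powers of elements of `X`. -/
abbrev Pw {M : Type*} [CommGroup M] (X : Subgroup M) (n : ℕ) : Subgroup M :=
  X.map (powMonoidHom n)

/-- norm from `H'`-invariants to `H`-invariants in a `G`-module `M` (`Eˣ` or `Dv E`). -/
def nm (M : Type*) [CommGroup M] [MulDistribMulAction (E ≃ₐ[F] E) M]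
    (H H' : Subgroup (E ≃ₐ[F] E)) : M →* M :=
  ∏ᶠ q : H ⧸ H'.subgroupOf H, MulDistribMulAction.toMonoidHom M ((q.out : H) : E ≃ₐ[F] E)

/-- norm subgroup of divisors. -/
def NDiv (H H' : Subgroup (E ≃ₐ[F] E)) (π : E) : Subgroup (Dv E) :=
  (DivP H' π).map (nm (Dv E) H H')

/-- norm index `(I(π) : P_π N)`. -/
def nIdx (H H' : Subgroup (E ≃ₐ[F] E)) (π : E) : ℕ :=
  (Ray H π ⊔ NDiv H H' π).relIndex (DivP H π)

/-- `L H' / L H` is unramified at the places not dividing `π`. -/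
def Unram (H H' : Subgroup (E ≃ₐ[F] E)) (π : E) : Prop :=
  ∀ W : Pl E, ¬ W.v π < 1 → Ine F W ⊓ H ≤ H'

/-- valuation ring of `L H` at `W` (additive group). -/
def intAdd (H : Subgroup (E ≃ₐ[F] E)) (W : Pl E) : AddSubgroup E where
  carrier := {x | x ∈ L H ∧ W.v x ≤ 1}
  zero_mem' := ⟨(L H).zero_mem, by simp⟩
  add_mem' ha hb := ⟨(L H).add_mem ha.1 hb.1, le_trans (W.v.map_add _ _) (max_le ha.2 hb.2)⟩
  neg_mem' ha := ⟨(L H).neg_mem ha.1, by rw [Valuation.map_neg]; exact ha.2⟩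

/-- its maximal ideal (additive group). -/
def maxAdd (H : Subgroup (E ≃ₐ[F] E)) (W : Pl E) : AddSubgroup E where
  carrier := {x | x ∈ L H ∧ W.v x < 1}
  zero_mem' := ⟨(L H).zero_mem, by simp⟩
  add_mem' ha hb := ⟨(L H).add_mem ha.1 hb.1, lt_of_le_of_lt (W.v.map_add _ _) (max_lt ha.2 hb.2)⟩
  neg_mem' ha := ⟨(L H).neg_mem ha.1, by rw [Valuation.map_neg]; exact ha.2⟩

/-- cardinality of the residue field of `L H` at `W`. -/
def resCard (H : Subgroup (E ≃ₐ[F] E)) (W : Pl E) : ℕ :=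
  (maxAdd H W).relIndex (intAdd H W)

/-- `φ` is a Frobenius element at `W` in `H`. -/
def IsFrob (H : Subgroup (E ≃ₐ[F] E)) (W : Pl E) (φ : E ≃ₐ[F] E) : Prop :=
  φ ∈ H ∧ φ ∈ Dec F W ∧ ∀ x, W.v x ≤ 1 → W.v (φ x - x ^ resCard H W) < 1

/-- a chosen Frobenius element. -/
def frob (H : Subgroup (E ≃ₐ[F] E)) (W : Pl E) : E ≃ₐ[F] E :=
  @Classical.epsilon (E ≃ₐ[F] E) ⟨1⟩ (IsFrob H W)

/-- exponent of a value with respect to the uniformiser. -/
def expo (H : Subgroup (E ≃ₐ[F] E)) (W : Pl E) (t : ℝ≥0ˣ) : ℤ :=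
  @Classical.epsilon ℤ ⟨0⟩ (fun n => unif H W ^ n = t)

/-- Artin map composed with an additive character `χ` of `H`. -/
def art {A : Type*} [AddCommGroup A] (H : Subgroup (E ≃ₐ[F] E))
    (χ : (E ≃ₐ[F] E) → A) (a : Dv E) : A :=
  ∑ᶠ O : MulAction.orbitRel.Quotient H (Pl E),
    expo H O.out (a O.out) • χ (frob H O.out)

/-- `H / H'` is cyclic of order `n`, generated by `σ`, and `H'` is open. -/
structure CycExt (H H' : Subgroup (E ≃ₐ[F] E)) (σ : E ≃ₐ[F] E) (n : ℕ) : Prop where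
  isOpen : IsOpen (H' : Set (E ≃ₐ[F] E))
  le : H' ≤ H
  normal : ∀ h ∈ H, ∀ x ∈ H', h * x * h⁻¹ ∈ H'
  mem : σ ∈ H
  idx : H'.relIndex H = n
  gen : ∀ h ∈ H, ∃ i : ℕ, (σ ^ i)⁻¹ * h ∈ H'

/-- every place above `l` has its decomposition group in `H`. -/
def Split (H : Subgroup (E ≃ₐ[F] E)) (l : ℕ) : Prop := ∀ V : Pl E, V.p = l → Dec F V ≤ H

end ambient

section homs
variable {Γ : Type*} [Group Γ]

/-- additive on `H`. -/
def AHom {A : Type*} [Add A] (H : Subgroup Γ) (f : Γ → A) : Prop :=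
  ∀ x ∈ H, ∀ y ∈ H, f (x * y) = f x + f y

/-- multiplicative on `H`, with `f 1 = 1`. -/
def MHom {A : Type*} [Monoid A] (H : Subgroup Γ) (f : Γ → A) : Prop :=
  f 1 = 1 ∧ ∀ x ∈ H, ∀ y ∈ H, f (x * y) = f x * f y

variable [TopologicalSpace Γ]

/-- vanishes on the trace on `H` of an open subgroup. -/
def LocZ {A : Type*} [Zero A] (H : Subgroup Γ) (f : Γ → A) : Prop :=
  ∃ N : Subgroup Γ, IsOpen (N : Set Γ) ∧ ∀ x ∈ H, x ∈ N → f x = 0

/-- continuous additive character of `H` with discrete values. -/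
def CHom {A : Type*} [Add A] [Zero A] (H : Subgroup Γ) (f : Γ → A) : Prop := AHom H f ∧ LocZ H f

/-- continuous additive character of `H` with values in `ℤ_[l]`. -/
def ZHom (l : ℕ) [Fact l.Prime] (H : Subgroup Γ) (f : Γ → ℤ_[l]) : Prop :=
  AHom H f ∧ ∀ k : ℕ, LocZ H (fun x => PadicInt.toZModPow k (f x))

end homs

section herbrand
variable {M : Type*} [CommGroup M]

/-- `f, g` preserve `X` and compose to the trivial map on `X`. -/
def HPair (f g : M →* M) (X : Subgroup M) : Prop :=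
  (∀ x ∈ X, f x ∈ X) ∧ (∀ x ∈ X, g x ∈ X) ∧ (∀ x ∈ X, f (g x) = 1) ∧ (∀ x ∈ X, g (f x) = 1)

/-- `[ker f ∩ X : g X]` (zero when infinite). -/
def hq (f g : M →* M) (X : Subgroup M) : ℕ := (X.map g).relIndex (X ⊓ f.ker)

variable {Γ : Type*} [Group Γ] [MulDistribMulAction Γ M]

variable (M) in
/-- `x ↦ σ x / x`. -/
def dl (σ : Γ) : M →* M := MulDistribMulAction.toMonoidHom M σ / MonoidHom.id M

variable (M) in
/-- `x ↦ ∏_{i<n} σ^i x`. -/
def nr (σ : Γ) (n : ℕ) : M →* M :=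
  ∏ i ∈ Finset.range n, MulDistribMulAction.toMonoidHom M (σ ^ i)

@[simp] theorem dl_apply (σ : Γ) (x : M) : dl M σ x = σ • x / x := rfl

theorem nr_apply (σ : Γ) (n : ℕ) (x : M) : nr M σ n x = ∏ i ∈ Finset.range n, σ ^ i • x := by
  simp [nr]

end herbrand

/-- The data of the theorem: a partial homomorphism `α : G0 → Gal(E/F)`, `G0` open in `Gal(Ω/ℚ)`,
continuous with open image. -/
structure Setup (Ω F E : Type*) [Field Ω] [CharZero Ω] [Field F] [Field E] [Algebra F E] where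
  G0 : Subgroup (Ω ≃ₐ[ℚ] Ω)
  open0 : IsOpen (G0 : Set (Ω ≃ₐ[ℚ] Ω))
  α : (Ω ≃ₐ[ℚ] Ω) → (E ≃ₐ[F] E)
  mul : ∀ g ∈ G0, ∀ h ∈ G0, α (g * h) = α g * α h
  pre_open : ∀ U : Subgroup (E ≃ₐ[F] E), IsOpen (U : Set (E ≃ₐ[F] E)) →
    IsOpen {g | g ∈ G0 ∧ α g ∈ U}
  img_open : IsOpen (α '' (G0 : Set (Ω ≃ₐ[ℚ] Ω)))

section setup
variable {Ω F E : Type*} [Field Ω] [CharZero Ω] [Field F] [Field E] [Algebra F E]

namespace Setup
variable (S : Setup Ω F E)

theorem map_one : S.α 1 = 1 := by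
  have := S.mul 1 S.G0.one_mem 1 S.G0.one_mem
  simpa using this

theorem map_inv {g : Ω ≃ₐ[ℚ] Ω} (hg : g ∈ S.G0) : S.α g⁻¹ = (S.α g)⁻¹ := by
  have := S.mul g hg g⁻¹ (S.G0.inv_mem hg)
  rw [mul_inv_cancel, S.map_one] at this
  exact (eq_inv_of_mul_eq_one_right this.symm)

/-- the bundled homomorphism. -/
def hom : S.G0 →* (E ≃ₐ[F] E) where
  toFun g := S.α g
  map_one' := S.map_one
  map_mul' g h := S.mul g g.2 h h.2

theorem map_pow {g : Ω ≃ₐ[ℚ] Ω} (hg : g ∈ S.G0) (n : ℕ) : S.α (g ^ n) = S.α g ^ n :=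
  S.hom.map_pow ⟨g, hg⟩ n

theorem map_conj {g h : Ω ≃ₐ[ℚ] Ω} (hg : g ∈ S.G0) (hh : h ∈ S.G0) :
    S.α (g * h * g⁻¹) = S.α g * S.α h * (S.α g)⁻¹ := by
  rw [S.mul _ (S.G0.mul_mem hg hh) _ (S.G0.inv_mem hg), S.mul _ hg _ hh, S.map_inv hg]

/-- preimage of a subgroup. -/
def pre (U : Subgroup (E ≃ₐ[F] E)) : Subgroup (Ω ≃ₐ[ℚ] Ω) where
  carrier := {g | g ∈ S.G0 ∧ S.α g ∈ U}
  one_mem' := ⟨S.G0.one_mem, by rw [S.map_one]; exact U.one_mem⟩
  mul_mem' ha hb := ⟨S.G0.mul_mem ha.1 hb.1, by rw [S.mul _ ha.1 _ hb.1]; exact U.mul_mem ha.2 hb.2⟩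
  inv_mem' ha := ⟨S.G0.inv_mem ha.1, by rw [S.map_inv ha.1]; exact U.inv_mem ha.2⟩

theorem mem_pre {U : Subgroup (E ≃ₐ[F] E)} {g : Ω ≃ₐ[ℚ] Ω} :
    g ∈ S.pre U ↔ g ∈ S.G0 ∧ S.α g ∈ U := Iff.rfl

theorem isOpen_pre {U : Subgroup (E ≃ₐ[F] E)} (hU : IsOpen (U : Set (E ≃ₐ[F] E))) :
    IsOpen (S.pre U : Set (Ω ≃ₐ[ℚ] Ω)) := S.pre_open U hU

/-- image of (the trace on `G0` of) a subgroup. -/
def img (H : Subgroup (Ω ≃ₐ[ℚ] Ω)) : Subgroup (E ≃ₐ[F] E) where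
  carrier := {u | ∃ h, h ∈ H ∧ h ∈ S.G0 ∧ S.α h = u}
  one_mem' := ⟨1, H.one_mem, S.G0.one_mem, S.map_one⟩
  mul_mem' := by
    rintro _ _ ⟨a, ha, ha', rfl⟩ ⟨b, hb, hb', rfl⟩
    exact ⟨a * b, H.mul_mem ha hb, S.G0.mul_mem ha' hb', S.mul _ ha' _ hb'⟩
  inv_mem' := by
    rintro _ ⟨a, ha, ha', rfl⟩
    exact ⟨a⁻¹, H.inv_mem ha, S.G0.inv_mem ha', S.map_inv ha'⟩

theorem mem_img {H : Subgroup (Ω ≃ₐ[ℚ] Ω)} {u : E ≃ₐ[F] E} :
    u ∈ S.img H ↔ ∃ h, h ∈ H ∧ h ∈ S.G0 ∧ S.α h = u := Iff.rfl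

/-- `α` maps the decomposition group of `V` into that of `W`. -/
def Rel (V : Pl Ω) (W : Pl E) : Prop := ∀ d ∈ Dec ℚ V, d ∈ S.G0 → S.α d ∈ Dec F W

/-- `α (I_V)` has non-trivial `l`-part. -/
def Tl (l : ℕ) (V : Pl Ω) : Prop :=
  V.p ≠ l ∧ ∃ U : Subgroup (E ≃ₐ[F] E), U.Normal ∧ IsOpen (U : Set (E ≃ₐ[F] E)) ∧
    ∃ σ ∈ Ine ℚ V, σ ∈ S.G0 ∧ S.α σ ∉ U ∧ S.α σ ^ l ∈ U

/-- `W` is not hit by the `l`-adic local correspondence. -/
def Exc (l : ℕ) (W : Pl E) : Prop := ¬ ∃ V : Pl Ω, S.Tl l V ∧ S.Rel V W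

/-- `Γ_H = α (D_V ∩ H)`. -/
def Gam (V : Pl Ω) (H : Subgroup (Ω ≃ₐ[ℚ] Ω)) : Subgroup (E ≃ₐ[F] E) := S.img (Dec ℚ V ⊓ H)

/-- `H` is small: open, inside `G0`, and `H`, `α H` fix `μ_l` (and `α H` fixes `√-1`). -/
def Small (l : ℕ) (H : Subgroup (Ω ≃ₐ[ℚ] Ω)) : Prop :=
  IsOpen (H : Set (Ω ≃ₐ[ℚ] Ω)) ∧ H ≤ FixMu ℚ Ω l ∧ H ≤ S.pre (FixMu F E l ⊓ FixMu F E 4)

/-- admissible data: the Kummer character of `y` pulls back ramified at `V`. -/
def AdmD (l : ℕ) (V : Pl Ω) (H : Subgroup (Ω ≃ₐ[ℚ] Ω)) (y : E) (σ : Ω ≃ₐ[ℚ] Ω) : Prop :=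
  y ≠ 0 ∧ y ∈ L (S.Gam V H) ∧ σ ∈ Ine ℚ V ∧ σ ∈ H ∧ S.α σ (rt l y) ≠ rt l y

/-- admissible subgroup. -/
def Adm (l : ℕ) (V : Pl Ω) (H : Subgroup (Ω ≃ₐ[ℚ] Ω)) : Prop :=
  S.Small l H ∧ ∃ y σ, S.AdmD l V H y σ

/-- `D_W ∩ Γ_H` has a non-trivial continuous character of order `l`. -/
def Orb (l : ℕ) (V : Pl Ω) (H : Subgroup (Ω ≃ₐ[ℚ] Ω)) (W : Pl E) : Prop :=
  ∃ κ : (E ≃ₐ[F] E) → ZMod l, CHom (Dec F W ⊓ S.Gam V H) κ ∧
    ∃ γ ∈ Dec F W ⊓ S.Gam V H, κ γ ≠ 0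

/-- `G0` contains every `s` whose conjugation action is invisible to `α` near `1`. -/
def Maxl : Prop :=
  ∀ s : Ω ≃ₐ[ℚ] Ω, (∃ H0 : Subgroup (Ω ≃ₐ[ℚ] Ω), IsOpen (H0 : Set (Ω ≃ₐ[ℚ] Ω)) ∧ H0 ≤ S.G0 ∧
    ∀ h ∈ H0, s * h * s⁻¹ ∈ S.G0 ∧ S.α (s * h * s⁻¹) = S.α h) → s ∈ S.G0

/-- compatibility with the `l`-adic cyclotomic character (up to finite order). -/
def Psi (l : ℕ) [Fact l.Prime] : Prop := ∀ g ∈ S.G0, lcyc l (S.α g) = lcyc l g

/-- `y` is generic for `(U, H)`. -/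
def Gen (U : Subgroup (E ≃ₐ[F] E)) (H : Subgroup (Ω ≃ₐ[ℚ] Ω)) (y : E) : Prop :=
  (∃ u ∈ U, u (rt 2 y) ≠ rt 2 y) ∧
  ∀ t : Ω ≃ₐ[ℚ] Ω, (∀ h ∈ H, (S.α (t * h * t⁻¹) (rt 2 y) = rt 2 y ↔ S.α h (rt 2 y) = rt 2 y)) →
    t ∈ S.pre U

/-- the standing assumptions on the pair `(U, H)` in the global steps: non-generic elements of
`L U` lie in finitely many subgroups of infinite index. -/
structure Good [CharZero F] (U : Subgroup (E ≃ₐ[F] E)) (H : Subgroup (Ω ≃ₐ[ℚ] Ω)) : Prop where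
  normalU : U.Normal
  openU : IsOpen (U : Set (E ≃ₐ[F] E))
  hasIU : HasI U
  degU : 6 ≤ deg U
  normalH : H.Normal
  openH : IsOpen (H : Set (Ω ≃ₐ[ℚ] Ω))
  hasIH : HasI H
  le : H ≤ S.pre U
  cover : ∃ s : Finset (Subgroup Eˣ), (∀ Z ∈ s, Z.relIndex (LU U) = 0) ∧
    ∀ y ∈ LU U, (∀ Z ∈ s, y ∉ Z) → S.Gen U H (y : E)

end Setup

end setup

/-- pull-back of automorphisms along an embedding `ι : E → Ω`: `ι ∘ pb ι g = g ∘ ι`. -/
def pb (F : Type*) {Ω E : Type*} [Field Ω] [CharZero Ω] [Field F] [Field E]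
    [Algebra F E] (ι : E →+* Ω) (g : Ω ≃ₐ[ℚ] Ω) : E ≃ₐ[F] E :=
  @Classical.epsilon (E ≃ₐ[F] E) ⟨1⟩ (fun γ => ∀ x, ι (γ x) = g (ι x))

/-- the subgroup of `Gal(Ω/ℚ)` fixing `ι (L U)` pointwise. -/
def fixI {F Ω E : Type*} [Field Ω] [CharZero Ω] [Field F] [Field E] [Algebra F E]
    (ι : E →+* Ω) (U : Subgroup (E ≃ₐ[F] E)) : Subgroup (Ω ≃ₐ[ℚ] Ω) where
  carrier := {g | ∀ x ∈ L U, g (ι x) = ι x}
  one_mem' := fun _ _ => rfl
  mul_mem' := by
    intro a b ha hb x hx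
    simp [AlgEquiv.mul_apply, hb x hx, ha x hx]
  inv_mem' := by
    intro a ha x hx
    have := ha x hx
    rw [AlgEquiv.aut_inv, AlgEquiv.symm_apply_eq]; exact this.symm

theorem mem_fixI {F Ω E : Type*} [Field Ω] [CharZero Ω] [Field F] [Field E] [Algebra F E]
    {ι : E →+* Ω} {U : Subgroup (E ≃ₐ[F] E)} {g : Ω ≃ₐ[ℚ] Ω} :
    g ∈ fixI ι U ↔ ∀ x ∈ L U, g (ι x) = ι x := Iff.rfl

section prime
variable {E : Type*} [Field E]

theorem Pl.v_natCast_le_one (W : Pl E) (n : ℕ) : W.v (n : E) ≤ 1 := by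
  induction n with
  | zero => simp
  | succ n ih =>
    push_cast
    exact le_trans (W.v.map_add _ _) (max_le ih (by simp))

theorem Pl.v_intCast_le_one (W : Pl E) (n : ℤ) : W.v (n : E) ≤ 1 := by
  obtain ⟨m, rfl | rfl⟩ := n.eq_nat_or_neg
  · simpa using W.v_natCast_le_one m
  · simpa using W.v_natCast_le_one m

theorem Pl.v_p_lt_one (W : Pl E) : W.v (W.p : E) < 1 := by
  rw [W.vp]
  exact inv_lt_one_of_one_lt₀ (by exact_mod_cast W.hp.one_lt)

theorem Pl.v_p_pos (W : Pl E) : 0 < W.v (W.p : E) := by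
  rw [W.vp]
  exact inv_pos.2 (by exact_mod_cast W.hp.pos)

theorem Pl.v_le_one_of_isIntegral (W : Pl E) {x : E} (hx : IsIntegral ℤ x) : W.v x ≤ 1 := by
  have h : x ∈ W.v.integer := by
    have hint : IsIntegral W.v.integer x := by
      obtain ⟨f, hf, hfx⟩ := hx
      let φ : ℤ →+* W.v.integer := Int.castRingHom _
      refine ⟨f.map φ, hf.map φ, ?_⟩
      rw [Polynomial.eval₂_map]
      have : (algebraMap W.v.integer E).comp φ = algebraMap ℤ E := RingHom.ext_int _ _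
      rw [this]; exact hfx
    exact (Valuation.integer.integers W.v).mem_of_integral hint
  exact h

/-- integers prime to the residue characteristic are units. -/
theorem Pl.v_natCast_eq_one (W : Pl E) {n : ℕ} (hn : ¬ W.p ∣ n) : W.v (n : E) = 1 := by
  refine le_antisymm (W.v_natCast_le_one n) (not_lt.1 fun h => ?_)
  have hc : Nat.Coprime W.p n := (Nat.Prime.coprime_iff_not_dvd W.hp).2 hn
  obtain ⟨a, b, hab⟩ := Nat.isCoprime_iff_coprime.2 hc
  have h1 : (a : E) * (W.p : E) + (b : E) * (n : E) = 1 := by exact_mod_cast congrArg (Int.cast : ℤ → E) hab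
  have h2 : W.v ((a : E) * (W.p : E) + (b : E) * (n : E)) < 1 := by
    refine lt_of_le_of_lt (W.v.map_add _ _) (max_lt ?_ ?_)
    · rw [map_mul]; exact mul_lt_one_of_nonneg_of_lt_one_right (W.v_intCast_le_one a) (by simp) W.v_p_lt_one
    · rw [map_mul]; exact mul_lt_one_of_nonneg_of_lt_one_right (W.v_intCast_le_one b) (by simp) h
  rw [h1] at h2; simp at h2

theorem Pl.v_natCast_lt_one_iff (W : Pl E) {n : ℕ} : W.v (n : E) < 1 ↔ W.p ∣ n := by
  constructor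
  · intro h; by_contra hn; rw [W.v_natCast_eq_one hn] at h; exact lt_irrefl _ h
  · rintro ⟨m, rfl⟩
    push_cast; rw [map_mul]
    exact mul_lt_one_of_nonneg_of_lt_one_left (by simp) W.v_p_lt_one (W.v_natCast_le_one m)

/-- a place is determined by its valuation. -/
theorem Pl.ext_v {W W' : Pl E} (hv : ∀ x, W.v x = W'.v x) : W = W' := by
  refine Pl.ext' hv ?_
  have : W'.v (W.p : E) < 1 := by rw [← hv]; exact W.v_p_lt_one
  exact ((Nat.prime_dvd_prime_iff_eq W'.hp W.hp).1 (W'.v_natCast_lt_one_iff.1 this)).symm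

open NumberField IsDedekindDomain in
/-- The prime of the number field `K ⊆ E` below the place `W`. -/
def Pl.prime {F : Type*} [Field F] [Algebra F E] (W : Pl E)
    (K : IntermediateField F E) [NumberField K] : HeightOneSpectrum (𝓞 K) where
  asIdeal :=
    { carrier := {x | W.v ((x : K) : E) < 1}
      zero_mem' := by simp
      add_mem' := by
        intro a b ha hb
        change W.v (((a + b : 𝓞 K) : K) : E) < 1
        push_cast
        exact lt_of_le_of_lt (W.v.map_add _ _) (max_lt ha hb)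
      smul_mem' := by
        intro c x hx
        change W.v (((c * x : 𝓞 K) : K) : E) < 1
        push_cast
        rw [map_mul]
        refine mul_lt_one_of_nonneg_of_lt_one_right ?_ (by simp) hx
        exact W.v_le_one_of_isIntegral (c.isIntegral_coe.map (K.val.restrictScalars ℤ)) }
  isPrime := by
    constructor
    · intro h
      have : (1 : 𝓞 K) ∈ (⊤ : Ideal (𝓞 K)) := trivial
      rw [← h] at this
      change W.v (((1 : 𝓞 K) : K) : E) < 1 at this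
      simp at this
    · intro x y hxy
      change W.v (((x * y : 𝓞 K) : K) : E) < 1 at hxy
      push_cast at hxy
      rw [map_mul] at hxy
      have hx := W.v_le_one_of_isIntegral (x.isIntegral_coe.map (K.val.restrictScalars ℤ))
      have hy := W.v_le_one_of_isIntegral (y.isIntegral_coe.map (K.val.restrictScalars ℤ))
      by_contra hc
      push Not at hc
      have h1 : W.v ((x : K) : E) = 1 := le_antisymm hx (not_lt.1 hc.1)
      have h2 : W.v ((y : K) : E) = 1 := le_antisymm hy (not_lt.1 hc.2)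
      rw [h1, h2] at hxy; simp at hxy
  ne_bot := by
    intro h
    have : ((W.p : ℕ) : 𝓞 K) ∈ (⊥ : Ideal (𝓞 K)) := by
      rw [← h]
      change W.v ((((W.p : ℕ) : 𝓞 K) : K) : E) < 1
      simpa using W.v_p_lt_one
    rw [Ideal.mem_bot] at this
    exact W.hp.ne_zero (by exact_mod_cast this)

open NumberField in
theorem Pl.mem_prime {F : Type*} [Field F] [Algebra F E] (W : Pl E)
    (K : IntermediateField F E) [NumberField K] (x : 𝓞 K) :
    x ∈ (W.prime K).asIdeal ↔ W.v ((x : K) : E) < 1 := Iff.rfl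

end prime

end Crest.Agent.R018
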