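import Crest.Agent.R018.PlEx

/-!
# R018 / DetDiv

(A) `det_div`: work in the valuation ring `O = v.integer`.  `∏_c (1 + λ y)^{e} = ∑_{j ∈ (C → Fin T)} (∏ (λ y s c)^{j c}) (∏ choose (e t c) (j c)) + λ^T (..)`, so
`M = A B + λ^T R` with `A : ι × J`, `|J| = T^{card C}`, entries in `O`.  Expand the determinant multilinearly in the rows (`Matrix.det_add`-like:
`MultilinearMap.map_add_univ`, `Finset.piecewise`): terms with more than `|J|` rows from `A B` vanish (dependent rows), the others are divisible by `λ^{T (card ι - |J|)}`.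
(L) `liouville`: `K0 = ℚ(a_j)` a number field of degree `δ`, `A ≥ 1` bounds all `|φ (a j)|`, `φ : K0 → ℂ`; `Δ = det` is an algebraic integer of `K0`, `N = Algebra.norm ℚ Δ`
is a nonzero integer with `|N| = ∏ |φ Δ| ≤ (..)^δ` (`Algebra.norm_eq_prod_embeddings`), `N / Δ` is integral so `W.v N ≤ W.v Δ ≤ p^{-t}`, hence `p^t ∣ N`.
-/

set_option autoImplicit false
set_option linter.unusedSectionVars false

noncomputable section

namespace Crest.Agent.R018

open scoped NNReal Classical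


theorem dd_trunc {K : Type*} [Field K] (v : Valuation K ℝ≥0) {lam : K} (hlam : v lam ≤ 1) {y : K}
    (hy : v y ≤ 1) (n T : ℕ) :
    v ((1 + lam * y) ^ n - ∑ j : Fin T, (lam * y) ^ (j : ℕ) * (n.choose j : K)) ≤ v lam ^ T := by
  have hnat : ∀ m : ℕ, v (m : K) ≤ 1 := by
    intro m
    induction m with
    | zero => simp
    | succ m ih => push_cast; exact v.map_add_le ih (by simp)
  have h1 : (1 + lam * y) ^ n = ∑ j ∈ Finset.range (T + (n + 1)), (lam * y) ^ j * (n.choose j : K) := by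
    rw [add_comm 1, add_pow]
    simp only [one_pow, mul_one]
    refine Finset.sum_subset (fun j hj => ?_) (fun j _ hj => ?_)
    · simp only [Finset.mem_range] at hj ⊢; omega
    · simp only [Finset.mem_range, not_lt] at hj
      rw [Nat.choose_eq_zero_of_lt (by omega)]; simp
  rw [h1, Finset.sum_range_add, Fin.sum_univ_eq_sum_range (fun j => (lam * y) ^ j * (n.choose j : K)) T,
    add_sub_cancel_left]
  refine v.map_sum_le fun j _ => ?_
  rw [v.map_mul, v.map_pow, v.map_mul, mul_pow, pow_add]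
  have h2 : v lam ^ j ≤ 1 := pow_le_one₀ zero_le hlam
  have h3 : v y ^ (T + j) ≤ 1 := pow_le_one₀ zero_le hy
  calc v lam ^ T * v lam ^ j * v y ^ (T + j) * v ((n.choose (T + j) : ℕ) : K)
      ≤ v lam ^ T * 1 * 1 * 1 := by gcongr; exact hnat _
    _ = v lam ^ T := by simp

theorem dd_prod_le {K : Type*} [Field K] (v : Valuation K ℝ≥0) {C : Type*} (s : Finset C) (a : C → K)
    (ha : ∀ c, v (a c) ≤ 1) : v (∏ c ∈ s, a c) ≤ 1 := by
  rw [map_prod]
  exact Finset.prod_le_one' fun c _ => ha c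

theorem dd_prod_sub {K : Type*} [Field K] (v : Valuation K ℝ≥0) {C : Type*} (s : Finset C) (a b : C → K)
    (ha : ∀ c, v (a c) ≤ 1) (hb : ∀ c, v (b c) ≤ 1) {ε : ℝ≥0} (hab : ∀ c, v (a c - b c) ≤ ε) :
    v (∏ c ∈ s, a c - ∏ c ∈ s, b c) ≤ ε := by
  induction s using Finset.induction_on with
  | empty => simp
  | insert c s hc ih =>
    rw [Finset.prod_insert hc, Finset.prod_insert hc]
    have : a c * ∏ c ∈ s, a c - b c * ∏ c ∈ s, b c =
        (a c - b c) * ∏ c ∈ s, a c + b c * (∏ c ∈ s, a c - ∏ c ∈ s, b c) := by ring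
    rw [this]
    refine v.map_add_le ?_ ?_
    · rw [v.map_mul]
      calc v (a c - b c) * v (∏ c ∈ s, a c) ≤ ε * 1 := by
            gcongr
            · exact hab c
            · exact dd_prod_le v s a ha
        _ = ε := mul_one _
    · rw [v.map_mul]
      calc v (b c) * v (∏ c ∈ s, a c - ∏ c ∈ s, b c) ≤ 1 * ε := by
            gcongr
            exact hb c
        _ = ε := one_mul _

theorem dd_det_le {K : Type*} [Field K] (v : Valuation K ℝ≥0) {ι : Type*} [Fintype ι] [DecidableEq ι]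
    (N : Matrix ι ι K) (r : ι → ℝ≥0) (hN : ∀ s t, v (N s t) ≤ r s) : v N.det ≤ ∏ s, r s := by
  rw [← Matrix.det_transpose, Matrix.det_apply']
  refine v.map_sum_le fun σ _ => ?_
  rw [v.map_mul, map_prod]
  have h1 : v (((Equiv.Perm.sign σ : ℤˣ) : ℤ) : K) = 1 := by
    rcases Int.units_eq_one_or (Equiv.Perm.sign σ) with h | h <;> simp [h]
  rw [h1, one_mul]
  exact Finset.prod_le_prod' fun s _ => hN s (σ s)

theorem dd_det_zero {K : Type*} [Field K] {ι J : Type*} [Fintype ι] [DecidableEq ι] [Fintype J]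
    (N : Matrix ι ι K) (S : Finset ι) (B : J → ι → K)
    (hN : ∀ s ∈ S, N s ∈ Submodule.span K (Set.range B)) (hS : Fintype.card J < S.card) :
    N.det = 0 := by
  by_contra h
  have hli : LinearIndependent K N.row := Matrix.linearIndependent_rows_of_det_ne_zero h
  have hli2 : LinearIndependent K (fun s : S => N.row s) := hli.comp _ Subtype.val_injective
  have h2 := linearIndependent_le_span_aux' _ hli2 (Set.range B) (by
    rintro _ ⟨s, rfl⟩
    exact hN s s.2)
  have h3 : Fintype.card (Set.range B) ≤ Fintype.card J := Fintype.card_range_le B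
  simp only [Fintype.card_coe] at h2
  omega

theorem lv_pow_le {E : Type*} [Field E] (W : Pl E) {n t : ℕ} (hn : n ≠ 0)
    (h : W.v (n : E) ≤ W.v (W.p : E) ^ t) : W.p ^ t ≤ n := by
  obtain ⟨k, m, hm, rfl⟩ := Nat.exists_eq_pow_mul_and_not_dvd hn W.p W.hp.ne_one
  have h1 : W.v ((W.p ^ k * m : ℕ) : E) = W.v (W.p : E) ^ k := by
    push_cast
    rw [W.v.map_mul, W.v.map_pow, W.v_natCast_eq_one hm, mul_one]
  rw [h1] at h
  have htk : t ≤ k := (pow_le_pow_iff_right_of_lt_one₀ W.v_p_pos W.v_p_lt_one).1 h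
  have hm0 : 0 < m := Nat.pos_of_ne_zero (by rintro rfl; exact hm (dvd_zero _))
  calc W.p ^ t ≤ W.p ^ k := Nat.pow_le_pow_right W.hp.pos htk
    _ ≤ W.p ^ k * m := Nat.le_mul_of_pos_right _ hm0

theorem lv_norm_det_le {κ : Type*} [Fintype κ] [DecidableEq κ] (N : Matrix κ κ ℂ) {B : ℝ}
    (hN : ∀ s u, ‖N s u‖ ≤ B) : ‖N.det‖ ≤ ((Fintype.card κ).factorial : ℝ) * B ^ Fintype.card κ := by
  rw [Matrix.det_apply']
  refine (norm_sum_le _ _).trans ?_
  have : ∀ σ : Equiv.Perm κ, ‖(((Equiv.Perm.sign σ : ℤˣ) : ℤ) : ℂ) * ∏ i, N (σ i) i‖ ≤ B ^ Fintype.card κ := by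
    intro σ
    have h1 : ‖(((Equiv.Perm.sign σ : ℤˣ) : ℤ) : ℂ)‖ = 1 := by
      rcases Int.units_eq_one_or (Equiv.Perm.sign σ) with h | h <;> simp [h]
    rw [norm_mul, h1, one_mul, norm_prod]
    calc ∏ i, ‖N (σ i) i‖ ≤ ∏ _i : κ, B :=
          Finset.prod_le_prod (fun i _ => norm_nonneg _) fun i _ => hN _ _
      _ = B ^ Fintype.card κ := by simp
  refine (Finset.sum_le_sum fun σ _ => this σ).trans ?_
  simp [Fintype.card_perm]

theorem det_div {K : Type*} [Field K] (v : Valuation K ℝ≥0) {lam : K} (hlam : v lam ≤ 1)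
    {ι C : Type*} [Fintype ι] [DecidableEq ι] [Fintype C] (y : ι → C → K) (hy : ∀ s c, v (y s c) ≤ 1)
    (e : ι → C → ℕ) (T : ℕ) (M : Matrix ι ι K)
    (hM : ∀ s t, v (M s t - ∏ c, (1 + lam * y s c) ^ e t c) ≤ v lam ^ T) :
    v M.det ≤ v lam ^ (T * (Fintype.card ι - T ^ Fintype.card C)) := by
  have hnat : ∀ m : ℕ, v (m : K) ≤ 1 := by
    intro m
    induction m with
    | zero => simp
    | succ m ih => push_cast; exact v.map_add_le ih (by simp)
  have hly : ∀ s c, v (lam * y s c) ≤ 1 := fun s c => by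
    rw [v.map_mul]; exact mul_le_one' hlam (hy s c)
  set P : ι → ι → K := fun s t =>
    ∏ c, ∑ j : Fin T, (lam * y s c) ^ (j : ℕ) * ((e t c).choose j : K) with hP
  set B : (C → Fin T) → ι → K := fun j t => ∏ c, ((e t c).choose (j c) : K) with hB
  have htr : ∀ s t c, v (∑ j : Fin T, (lam * y s c) ^ (j : ℕ) * ((e t c).choose j : K)) ≤ 1 := by
    intro s t c
    refine v.map_sum_le fun j _ => ?_
    rw [v.map_mul, v.map_pow]
    exact mul_le_one' (pow_le_one₀ zero_le (hly s c)) (hnat _)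
  have hP1 : ∀ s t, v (P s t) ≤ 1 := fun s t => dd_prod_le v _ _ (htr s t)
  have hPs : ∀ s, P s ∈ Submodule.span K (Set.range B) := by
    intro s
    have : P s = ∑ j : C → Fin T, (∏ c, (lam * y s c) ^ (j c : ℕ)) • B j := by
      funext t
      simp only [hP, hB, Finset.sum_apply, Pi.smul_apply, smul_eq_mul]
      rw [Finset.prod_univ_sum]
      simp only [Fintype.piFinset_univ, Finset.prod_mul_distrib]
    rw [this]
    exact Submodule.sum_mem _ fun j _ => Submodule.smul_mem _ _ (Submodule.subset_span ⟨j, rfl⟩)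
  set R : ι → ι → K := fun s t => M s t - P s t with hR
  have hR1 : ∀ s t, v (R s t) ≤ v lam ^ T := by
    intro s t
    have : R s t = (M s t - ∏ c, (1 + lam * y s c) ^ e t c) + (∏ c, (1 + lam * y s c) ^ e t c - P s t) := by
      simp only [hR]; ring
    rw [this]
    refine v.map_add_le (hM s t) (dd_prod_sub v _ _ _ (fun c => ?_) (htr s t) fun c => ?_)
    · rw [v.map_pow]
      exact pow_le_one₀ zero_le (v.map_add_le (by simp) (hly s c))
    · exact dd_trunc v hlam (hy s c) _ _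
  have hM' : M = P + R := by
    funext s t; simp [hR]
  have hdet : M.det = ∑ S : Finset ι, Matrix.det (S.piecewise P R) := by
    have := (Matrix.detRowAlternating (n := ι) (R := K)).toMultilinearMap.map_add_univ P R
    rw [hM']
    exact this
  rw [hdet]
  refine v.map_sum_le fun S _ => ?_
  by_cases hS : Fintype.card (C → Fin T) < S.card
  · rw [dd_det_zero (S.piecewise P R) S B (fun s hs => by
      rw [Finset.piecewise_eq_of_mem _ _ _ hs]; exact hPs s) hS]
    simp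
  · refine (dd_det_le v (S.piecewise P R) (fun s => if s ∈ S then 1 else v lam ^ T) fun s t => ?_).trans ?_
    · by_cases hs : s ∈ S
      · rw [Finset.piecewise_eq_of_mem _ _ _ hs, if_pos hs]; exact hP1 s t
      · rw [Finset.piecewise_eq_of_notMem _ _ _ hs, if_neg hs]; exact hR1 s t
    · rw [Finset.prod_ite]
      simp only [Finset.prod_const_one, one_mul, Finset.prod_const]
      rw [← pow_mul]
      refine pow_le_pow_of_le_one zero_le hlam (Nat.mul_le_mul_left _ ?_)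
      have h1 : (Finset.univ.filter fun s => s ∉ S) = Sᶜ := by ext; simp
      rw [h1, Finset.card_compl]
      simp only [Fintype.card_pi, Fintype.card_fin, Finset.prod_const, Finset.card_univ, not_lt] at hS
      omega

theorem liouville {E : Type*} [Field E] [CharZero E] (W : Pl E) {ι : Type*} [Fintype ι] (a : ι → E)
    (ha : ∀ j, IsIntegral ℤ (a j)) :
    ∃ (δ : ℕ) (A : ℝ), 1 ≤ A ∧ ∀ (κ : Type) [Fintype κ] [DecidableEq κ] (e : κ → κ → ι → ℕ) (R t : ℕ),
      (∀ s u, ∑ j, e s u j ≤ R) → (Matrix.of fun s u => ∏ j, a j ^ e s u j).det ≠ 0 →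
      W.v (Matrix.of fun s u => ∏ j, a j ^ e s u j).det ≤ W.v (W.p : E) ^ t →
      (W.p : ℝ) ^ t ≤ (((Fintype.card κ).factorial : ℝ) * A ^ (R * Fintype.card κ)) ^ δ := by
  set K0 : IntermediateField ℚ E := IntermediateField.adjoin ℚ (Set.range a) with hK0
  have hfin : FiniteDimensional ℚ K0 := by
    have : Finite (Set.range a) := Set.finite_range a
    refine IntermediateField.finiteDimensional_adjoin ?_
    rintro _ ⟨j, rfl⟩
    exact (ha j).tower_top
  have : NumberField K0 := ⟨⟩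
  have hmem : ∀ j, a j ∈ K0 := fun j => IntermediateField.subset_adjoin _ _ ⟨j, rfl⟩
  have hint : ∀ j, IsIntegral ℤ (⟨a j, hmem j⟩ : K0) := fun j =>
    (isIntegral_algHom_iff (K0.val.toRingHom.toIntAlgHom) Subtype.val_injective).1 (ha j)
  set b : ι → NumberField.RingOfIntegers K0 := fun j => ⟨⟨a j, hmem j⟩, hint j⟩ with hb
  set ψ : NumberField.RingOfIntegers K0 →+* E :=
    K0.val.toRingHom.comp (algebraMap (NumberField.RingOfIntegers K0) K0) with hψ
  have hψb : ∀ j, ψ (b j) = a j := fun j => rfl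
  set A : ℝ := 1 + ∑ φ : K0 →ₐ[ℚ] ℂ, ∑ j, ‖φ (b j)‖ with hA
  have hA0 : 0 ≤ ∑ φ : K0 →ₐ[ℚ] ℂ, ∑ j, ‖φ (b j)‖ :=
    Finset.sum_nonneg fun φ _ => Finset.sum_nonneg fun j _ => norm_nonneg _
  have hA1 : 1 ≤ A := by rw [hA]; linarith
  have hAb : ∀ (φ : K0 →ₐ[ℚ] ℂ) j, ‖φ (b j)‖ ≤ A := by
    intro φ j
    have h1 : ‖φ (b j)‖ ≤ ∑ j, ‖φ (b j)‖ :=
      Finset.single_le_sum (f := fun j => ‖φ (b j)‖) (fun j _ => norm_nonneg _) (Finset.mem_univ j)
    have h2 : ∑ j, ‖φ (b j)‖ ≤ ∑ φ : K0 →ₐ[ℚ] ℂ, ∑ j, ‖φ (b j)‖ :=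
      Finset.single_le_sum (f := fun φ : K0 →ₐ[ℚ] ℂ => ∑ j, ‖φ (b j)‖)
        (fun φ _ => Finset.sum_nonneg fun j _ => norm_nonneg _) (Finset.mem_univ φ)
    rw [hA]; linarith
  refine ⟨Fintype.card (K0 →ₐ[ℚ] ℂ), A, hA1, ?_⟩
  intro κ _ _ e R t he h0 hv
  set Δ : NumberField.RingOfIntegers K0 := (Matrix.of fun s u => ∏ j, b j ^ e s u j).det with hΔ
  have hψΔ : ψ Δ = (Matrix.of fun s u => ∏ j, a j ^ e s u j).det := by
    rw [hΔ, RingHom.map_det]
    congr 1
    ext s u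
    simp [map_prod, map_pow, hψb]
  have hΔ0 : Δ ≠ 0 := by
    intro h; rw [h, map_zero] at hψΔ; exact h0 hψΔ.symm
  set n : ℕ := (Algebra.norm ℤ Δ).natAbs with hn
  have hn0 : n ≠ 0 := by
    rw [hn, Int.natAbs_ne_zero]
    exact Algebra.norm_ne_zero_iff.2 hΔ0
  have hmemI : (n : NumberField.RingOfIntegers K0) ∈ Ideal.span {Δ} := by
    rw [hn, ← Ideal.absNorm_span_singleton]
    exact Ideal.absNorm_mem _
  obtain ⟨c, hc⟩ := Ideal.mem_span_singleton'.1 hmemI
  have hvn : W.v (n : E) ≤ W.v (W.p : E) ^ t := by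
    have h1 : (n : E) = ψ c * ψ Δ := by rw [← map_mul, hc, map_natCast]
    have h2 : W.v (ψ c) ≤ 1 := W.v_le_one_of_isIntegral
      ((isIntegral_algHom_iff (K0.val.toRingHom.toIntAlgHom) Subtype.val_injective).2 c.isIntegral_coe)
    rw [h1, W.v.map_mul, hψΔ]
    calc W.v (ψ c) * W.v (Matrix.of fun s u => ∏ j, a j ^ e s u j).det ≤ 1 * W.v (W.p : E) ^ t := by
          gcongr
      _ = _ := one_mul _
  have h1 : (W.p : ℝ) ^ t ≤ n := by exact_mod_cast lv_pow_le W hn0 hvn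
  refine h1.trans ?_
  have h2 : (n : ℝ) = ∏ φ : K0 →ₐ[ℚ] ℂ, ‖φ (Δ : K0)‖ := by
    rw [← norm_prod, ← Algebra.norm_eq_prod_embeddings ℚ ℂ (Δ : K0), ← Algebra.coe_norm_int, hn]
    simp
  rw [h2]
  have h3 : ∀ φ : K0 →ₐ[ℚ] ℂ, ‖φ (Δ : K0)‖ ≤
      ((Fintype.card κ).factorial : ℝ) * A ^ (R * Fintype.card κ) := by
    intro φ
    set χ : NumberField.RingOfIntegers K0 →+* ℂ :=
      φ.toRingHom.comp (algebraMap (NumberField.RingOfIntegers K0) K0) with hχ
    have h4 : φ (Δ : K0) = χ Δ := rfl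
    rw [h4, hΔ, RingHom.map_det, pow_mul]
    refine lv_norm_det_le _ fun s u => ?_
    have h5 : (χ.mapMatrix (Matrix.of fun s u => ∏ j, b j ^ e s u j)) s u = ∏ j, φ (b j) ^ e s u j := by
      simp only [RingHom.mapMatrix_apply, Matrix.map_apply, Matrix.of_apply, map_prod, map_pow]
      rfl
    rw [h5, norm_prod]
    calc ∏ j, ‖φ (b j) ^ e s u j‖ ≤ ∏ j, A ^ e s u j := by
          refine Finset.prod_le_prod (fun j _ => norm_nonneg _) fun j _ => ?_
          rw [norm_pow]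
          exact pow_le_pow_left₀ (norm_nonneg _) (hAb φ j) _
      _ = A ^ ∑ j, e s u j := Finset.prod_pow_eq_pow_sum _ _ _
      _ ≤ A ^ R := pow_le_pow_right₀ hA1 (he s u)
  calc ∏ φ : K0 →ₐ[ℚ] ℂ, ‖φ (Δ : K0)‖
      ≤ ∏ _φ : K0 →ₐ[ℚ] ℂ, ((Fintype.card κ).factorial : ℝ) * A ^ (R * Fintype.card κ) :=
        Finset.prod_le_prod (fun φ _ => norm_nonneg _) fun φ _ => h3 φ
    _ = _ := by simp

end Crest.Agent.R018
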