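import Crest.Agent.R018.Tower

/-!
# R018 / DivB

Basic properties of the divisor groups `DivP`.  `mem_DivP_iff`: (→) closure induction; (←) induction on a finite set of orbit
representatives of the support (`exists_orbit_reps_set`), `a = ∏ bas H W ^ n_W`.
-/

set_option autoImplicit false
set_option linter.unusedSectionVars false

noncomputable section

namespace Crest.Agent.R018

open scoped NNReal Classical

variable {F E : Type*} [Field F] [NumberField F] [Field E] [CharZero E] [Algebra F E]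
  [IsGalois F E]
variable {H H' : Subgroup Gal(E/F)} {π : E}

theorem bas_mem_DivP {W : Pl E} (hW : ¬ W.v π < 1) : bas H W ∈ DivP H π :=
  Subgroup.subset_closure ⟨W, hW, rfl⟩

theorem smul_of_mem_DivP {a : Dv E} (ha : a ∈ DivP H π) {h : Gal(E/F)} (hh : h ∈ H) : h • a = a := by
  induction ha using Subgroup.closure_induction with
  | mem a ha =>
    obtain ⟨W, -, rfl⟩ := ha
    rw [smul_bas (fun x => by rw [H.mul_mem_cancel_right (H.inv_mem hh), H.mul_mem_cancel_left hh])]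
    exact (bas_same ⟨h, hh, rfl⟩).symm
  | one => exact smul_one _
  | mul a b _ _ ha hb => rw [smul_mul', ha, hb]
  | inv a _ ha => rw [smul_inv', ha]

theorem divb_unif_zpow_expo (hH : IsOpen (H : Set Gal(E/F))) {W : Pl E} {t : ℝ≥0ˣ}
    (ht : t ∈ valGrp H W) : unif H W ^ expo H W t = t := by
  rw [(unif_spec hH W).2] at ht
  exact @Classical.epsilon_spec ℤ (fun n => unif H W ^ n = t) ht

theorem divb_same {a : Dv E} (ha : ∀ h ∈ H, h • a = a) {W W' : Pl E} (h : Same H W W') :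
    a W = a W' := by
  obtain ⟨g, hg, rfl⟩ := h
  conv_rhs => rw [← ha g hg]
  rw [Dv.smul_apply, inv_smul_smul]

theorem divb_eq_prod (hH : IsOpen (H : Set Gal(E/F))) {a : Dv E} (ha : ∀ h ∈ H, h • a = a)
    (hv : ∀ W, a W ∈ valGrp H W) (s : Finset (Pl E))
    (hs : ∀ W ∈ s, ∀ W' ∈ s, Same H W W' → W = W')
    (hsupp : ∀ W, W ∉ orbs H s → a W = 1) : a = ∏ W ∈ s, bas H W ^ expo H W (a W) := by
  refine Dv.ext fun V => ?_
  rw [Dv.prod_apply]
  by_cases hV : V ∈ orbs H s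
  · obtain ⟨W, hW, hWV⟩ := hV
    rw [Finset.prod_eq_single_of_mem W hW]
    · rw [Dv.zpow_apply, bas, if_pos hWV, divb_unif_zpow_expo hH (hv W), divb_same ha hWV]
    · intro W' hW' hne
      rw [Dv.zpow_apply, bas, if_neg fun h => hne (hs _ hW' _ hW (h.trans hWV.symm)), one_zpow]
  · rw [hsupp V hV, eq_comm]
    refine Finset.prod_eq_one fun W hW => ?_
    rw [Dv.zpow_apply, bas, if_neg fun h => hV ⟨W, hW, h⟩, one_zpow]

theorem divb_eq_one (hπ : π ∈ L H) {a : Dv E} (ha : a ∈ DivP H π) {V : Pl E} (hV : V.v π < 1) :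
    a V = 1 := by
  induction ha using Subgroup.closure_induction with
  | mem a ha =>
    obtain ⟨W, hW, rfl⟩ := ha
    rw [bas, if_neg fun h => hW (by rw [h.v_eq hπ]; exact hV)]
  | one => rfl
  | mul a b _ _ ha hb => rw [Dv.mul_apply, ha, hb, mul_one]
  | inv a _ ha => rw [Dv.inv_apply, ha, inv_one]

theorem mem_DivP_iff (hH : IsOpen (H : Set Gal(E/F))) (hπ : π ∈ L H) {a : Dv E} :
    a ∈ DivP H π ↔ (∀ h ∈ H, h • a = a) ∧ (∀ W, a W ∈ valGrp H W) ∧ (∀ W, W.v π < 1 → a W = 1) ∧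
      ∃ B : Finset ℕ, ∀ W, W.p ∉ B → a W = 1 := by
  constructor
  · intro ha
    refine ⟨fun h hh => smul_of_mem_DivP ha hh, fun V => ?_, fun V hV => divb_eq_one hπ ha hV, ?_⟩
    · induction ha using Subgroup.closure_induction with
      | mem a ha =>
        obtain ⟨W, -, rfl⟩ := ha
        rw [bas]
        split_ifs with h
        · rw [← valGrp_same h, (unif_spec hH W).2]; exact Subgroup.mem_zpowers _
        · exact one_mem _
      | one => exact one_mem _
      | mul a b _ _ ha hb => exact mul_mem ha hb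
      | inv a _ ha => exact inv_mem ha
    · induction ha using Subgroup.closure_induction with
      | mem a ha =>
        obtain ⟨W, -, rfl⟩ := ha
        refine ⟨{W.p}, fun V hV => ?_⟩
        rw [bas, if_neg fun h => hV (by rw [h.p_eq]; exact Finset.mem_singleton_self _)]
      | one => exact ⟨∅, fun _ _ => rfl⟩
      | mul a b _ _ ha hb =>
        obtain ⟨A, hA⟩ := ha
        obtain ⟨B, hB⟩ := hb
        refine ⟨A ∪ B, fun V hV => ?_⟩
        rw [Finset.mem_union, not_or] at hV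
        rw [Dv.mul_apply, hA V hV.1, hB V hV.2, mul_one]
      | inv a _ ha =>
        obtain ⟨A, hA⟩ := ha
        exact ⟨A, fun V hV => by rw [Dv.inv_apply, hA V hV, inv_one]⟩
  · rintro ⟨h1, h2, h3, B, hB⟩
    obtain ⟨s, hs, hS⟩ := exists_orbit_reps_set hH {W | a W ≠ 1}
      (fun W hW W' h => by rwa [Set.mem_ofPred_eq, ← divb_same h1 h]) B
      (fun W hW => of_not_not fun h => hW (hB W h))
    rw [divb_eq_prod hH h1 h2 s hs fun W hW => of_not_not (by rwa [hS] at hW)]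
    refine prod_mem fun W hW => zpow_mem (bas_mem_DivP fun h => ?_) _
    have : W ∈ orbs H s := ⟨W, hW, Same.refl _ _⟩
    rw [hS] at this
    exact this (h3 W h)

/-- explicit form of a divisor supported on finitely many given orbits. -/
theorem eq_prod_bas (hH : IsOpen (H : Set Gal(E/F))) {a : Dv E} (ha : a ∈ DivP H 1)
    (s : Finset (Pl E)) (hs : ∀ W ∈ s, ∀ W' ∈ s, Same H W W' → W = W')
    (hsupp : ∀ W, W ∉ orbs H s → a W = 1) : a = ∏ W ∈ s, bas H W ^ expo H W (a W) := by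
  have h := (mem_DivP_iff hH (one_mem _)).1 ha
  exact divb_eq_prod hH h.1 h.2.1 s hs hsupp

theorem unif_zpow_expo (hH : IsOpen (H : Set Gal(E/F))) {W : Pl E} {t : ℝ≥0ˣ} (ht : t ∈ valGrp H W) :
    unif H W ^ expo H W t = t := by
  exact divb_unif_zpow_expo hH ht

theorem expo_zpow (hH : IsOpen (H : Set Gal(E/F))) (W : Pl E) (n : ℤ) :
    expo H W (unif H W ^ n) = n := by
  refine unif_zpow_injective hH W (unif_zpow_expo hH ?_)
  rw [(unif_spec hH W).2]
  exact Subgroup.zpow_mem_zpowers _ _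

theorem DivP_le_one : DivP H π ≤ DivP H 1 := by
  refine Subgroup.closure_mono ?_
  rintro _ ⟨W, -, rfl⟩
  exact ⟨W, by simp, rfl⟩

theorem DivP_mono {π' : E} (h : ∀ W : Pl E, W.v π < 1 → W.v π' < 1) : DivP H π' ≤ DivP H π := by
  refine Subgroup.closure_mono ?_
  rintro _ ⟨W, hW, rfl⟩
  exact ⟨W, fun h' => hW (h W h'), rfl⟩

theorem DivP_pow {N : ℕ} (hN : N ≠ 0) : DivP H (π ^ N) = DivP H π := by
  simp only [DivP, map_pow, pow_lt_one_iff_of_nonneg zero_le hN]

theorem DivP_le_of_le (hH' : IsOpen (H' : Set Gal(E/F))) (hle : H' ≤ H) (hπ : π ∈ L H) :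
    DivP H π ≤ DivP H' π := by
  intro a ha
  obtain ⟨h1, h2, h3, h4⟩ := (mem_DivP_iff (Subgroup.isOpen_mono hle hH') hπ).1 ha
  exact (mem_DivP_iff hH' (L_anti hle hπ)).2 ⟨fun h hh => h1 h (hle hh),
    fun W => Subgroup.map_mono (LU_anti hle) (h2 W), h3, h4⟩

theorem divb_dv_mem (hH : IsOpen (H : Set Gal(E/F))) (hπ : π ∈ L H) {x : Eˣ} (hx : x ∈ LU H)
    (hu : ∀ W : Pl E, W.v π < 1 → W.v (x : E) = 1) : dv x ∈ DivP H π := by
  have := isAlgebraic_rat F E
  obtain ⟨B, hB⟩ := finite_p_v_ne_one x.ne_zero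
  exact (mem_DivP_iff hH hπ).2 ⟨fun h hh => by rw [← dv_smul, mem_LU_iff_smul.1 hx h hh],
    fun W => ⟨x, hx, rfl⟩, fun W hW => Units.ext (hu W hW), B, fun W hW => Units.ext (hB W hW)⟩

theorem dv_mem_DivP_one (hH : IsOpen (H : Set Gal(E/F))) {x : Eˣ} (hx : x ∈ LU H) :
    dv x ∈ DivP H 1 := by
  exact divb_dv_mem hH (one_mem _) hx fun W hW => by simp at hW

theorem dv_mem_DivP (hH : IsOpen (H : Set Gal(E/F))) (hπ : π ∈ L H) {x : Eˣ} (hx : x ∈ LU H)
    (hu : ∀ W : Pl E, W.v π < 1 → W.v (x : E) = 1) : dv x ∈ DivP H π := by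
  exact divb_dv_mem hH hπ hx hu

theorem v_eq_one_of_mem_rayU {x : Eˣ} (hx : x ∈ rayU H π) {W : Pl E} (hW : W.v π < 1) :
    W.v (x : E) = 1 := by
  simpa using W.v.map_one_add_of_lt (lt_of_le_of_lt (hx.2 W hW) hW)

theorem Ray_le_DivP (hH : IsOpen (H : Set Gal(E/F))) (hπ : π ∈ L H) : Ray H π ≤ DivP H π := by
  rintro _ ⟨x, hx, rfl⟩
  exact dv_mem_DivP hH hπ hx.1 fun W hW => v_eq_one_of_mem_rayU hx hW

theorem cut_mem_DivP (hH : IsOpen (H : Set Gal(E/F))) (hπ : π ∈ L H) {a : Dv E} (ha : a ∈ DivP H 1) :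
    cut π a ∈ DivP H π := by
  obtain ⟨h1, h2, -, B, hB⟩ := (mem_DivP_iff hH (one_mem _)).1 ha
  refine (mem_DivP_iff hH hπ).2 ⟨fun h hh => by rw [← cut_smul (mem_L.1 hπ h hh), h1 h hh],
    fun W => ?_, fun W hW => if_pos hW, B, fun W hW => ?_⟩
  · rw [cut_apply]
    split_ifs
    · exact one_mem _
    · exact h2 W
  · rw [cut_apply, hB W hW, ite_self]

theorem cut_of_mem_DivP (hπ : π ∈ L H) {a : Dv E} (ha : a ∈ DivP H π) : cut π a = a := by
  refine Dv.ext fun W => ?_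
  rw [cut_apply]
  split_ifs with h
  · exact (divb_eq_one hπ ha h).symm
  · rfl

theorem smul_mem_DivP {g : Gal(E/F)} (hg : ∀ x, x ∈ H ↔ g * x * g⁻¹ ∈ H) (hπ : g π = π) {a : Dv E}
    (ha : a ∈ DivP H π) : g • a ∈ DivP H π := by
  induction ha using Subgroup.closure_induction with
  | mem a ha =>
    obtain ⟨W, hW, rfl⟩ := ha
    rw [smul_bas hg]
    refine bas_mem_DivP ?_
    rw [Pl.smul_v, ← hπ]
    simpa using hW
  | one => rw [smul_one]; exact one_mem _
  | mul a b _ _ ha hb => rw [smul_mul']; exact mul_mem ha hb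
  | inv a _ ha => rw [smul_inv']; exact inv_mem ha

theorem NDiv_le_DivP (hH' : IsOpen (H' : Set Gal(E/F))) (hle : H' ≤ H) :
    NDiv H H' π ≤ DivP H π := by
  rw [NDiv, Subgroup.map_le_iff_le_comap, DivP, Subgroup.closure_le]
  rintro _ ⟨W, hW, rfl⟩
  obtain ⟨f, -, -, hf⟩ := nm_bas hH' hle W
  change nm (Dv E) H H' (bas H' W) ∈ DivP H π
  rw [hf]
  exact pow_mem (bas_mem_DivP hW) _

theorem pow_mem_NDiv (hH' : IsOpen (H' : Set Gal(E/F))) (hle : H' ≤ H) (hπ : π ∈ L H) {a : Dv E}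
    (ha : a ∈ DivP H π) : a ^ H'.relIndex H ∈ NDiv H H' π := by
  exact ⟨a, DivP_le_of_le hH' hle hπ ha,
    nm_of_fixed (relIndex_ne_zero_of_isOpen hH' H) fun g hg => smul_of_mem_DivP ha hg⟩

/-- unramified: invariant divisors come from below. -/
theorem mem_DivP_of_unram (hH' : IsOpen (H' : Set Gal(E/F))) (hle : H' ≤ H) (hπ : π ∈ L H)
    (hu : Unram H H' π) {a : Dv E} (ha : a ∈ DivP H' π) (hfix : ∀ h ∈ H, h • a = a) :
    a ∈ DivP H π := by
  have hH := Subgroup.isOpen_mono hle hH'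
  obtain ⟨-, h2, h3, h4⟩ := (mem_DivP_iff hH' (L_anti hle hπ)).1 ha
  refine (mem_DivP_iff hH hπ).2 ⟨hfix, fun W => ?_, h3, h4⟩
  by_cases hW : W.v π < 1
  · rw [h3 W hW]; exact one_mem _
  · rw [(unif_spec hH W).2, ← (unif_eq_iff_ine_le hH' hle W).2 (hu W hW), ← (unif_spec hH' W).2]
    exact h2 W

theorem dv_eq_one_iff {x : Eˣ} : dv x = 1 ↔ ∀ W : Pl E, W.v (x : E) = 1 := by
  exact ⟨fun h W => congrArg Units.val (congrFun h W), fun h => Dv.ext fun W => Units.ext (h W)⟩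

end Crest.Agent.R018
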