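import Crest.Agent.R018.Herb

/-!
# R018 / EigB

(EigB) `|X / (X^N · T X)| ≤ C N^s` for `T x = δ x / x^u`: modulo `X^N · T X` every `δ^i a_j` is a power of `a_j`, so the image of the closure `Y` is generated by
`s` elements of order dividing `N`, and has index `≤ C`.  `X / X^N` is finite (`Y` is finitely generated as `δ^n` acts trivially), and on a finite group
`|ker T| = |coker T|`.
-/

set_option autoImplicit false
set_option linter.unusedSectionVars false

noncomputable section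

namespace Crest.Agent.R018

open scoped NNReal Classical

variable {M Γ : Type*} [CommGroup M] [Group Γ] [MulDistribMulAction Γ M]

theorem eigB_closure_card {B : Type*} [CommGroup B] {N : ℕ} (hN : N ≠ 0) (hB : ∀ b : B, b ^ N = 1)
    (S : Set B) [Finite S] :
    Nat.card (Subgroup.closure S) ≠ 0 ∧ Nat.card (Subgroup.closure S) ≤ N ^ Nat.card S := by
  have h1 : Nat.card (Subgroup.closure S) ∣ N ^ Group.rank (Subgroup.closure S) :=
    card_dvd_exponent_pow_rank' _ (fun g => Subtype.ext (hB g))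
  have h2 := Subgroup.rank_closure_finite_le_nat_card S
  have h3 : N ^ Group.rank (Subgroup.closure S) ≠ 0 := pow_ne_zero _ hN
  exact ⟨ne_zero_of_dvd_ne_zero h3 h1, (Nat.le_of_dvd (Nat.pos_of_ne_zero h3) h1).trans
    (Nat.pow_le_pow_right (Nat.pos_of_ne_zero hN) h2)⟩

theorem eigB_card_le {A B : Type*} [Group A] [Group B] (φ : A →* B)
    (hφ : Function.Surjective φ) {Y : Subgroup A} (hY : Y.index ≠ 0) {Z : Subgroup B}
    (hZ : Y.map φ ≤ Z) (hZ0 : Nat.card Z ≠ 0) :
    Nat.card B ≠ 0 ∧ Nat.card B ≤ Y.index * Nat.card Z := by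
  have h1 : Z.index ∣ Y.index :=
    (Subgroup.index_dvd_of_le hZ).trans (Subgroup.index_map_dvd Y hφ)
  have h2 := Z.index_mul_card
  rw [← h2]
  exact ⟨mul_ne_zero (ne_zero_of_dvd_ne_zero hY h1) hZ0,
    Nat.mul_le_mul_right _ (Nat.le_of_dvd (Nat.pos_of_ne_zero hY) h1)⟩

theorem eigB_ker_card {Q : Type*} [CommGroup Q] [Finite Q] (T : Q →* Q) :
    Nat.card T.ker = Nat.card (Q ⧸ T.range) := by
  have h1 := T.ker.card_mul_index
  have h2 := T.range.index_mul_card
  rw [Subgroup.index_ker] at h1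
  have h3 : 0 < Nat.card T.range := Nat.card_pos
  exact Nat.eq_of_mul_eq_mul_right h3 (h1.trans h2.symm)

theorem eigB_map_le {B : Type*} [Group B] {X : Subgroup M} (φ : X →* B) (S : Set M)
    (Z : Subgroup B) (hS : ∀ s ∈ S, ∃ h : s ∈ X, φ ⟨s, h⟩ ∈ Z) :
    ((Subgroup.closure S).subgroupOf X).map φ ≤ Z := by
  have h1 : Subgroup.closure S ≤ (Z.comap φ).map X.subtype := by
    rw [Subgroup.closure_le]
    intro s hs
    obtain ⟨h, h'⟩ := hS s hs
    exact ⟨⟨s, h⟩, h', rfl⟩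
  rintro _ ⟨x, hx, rfl⟩
  obtain ⟨y, hy, e⟩ := h1 hx
  have : y = x := Subtype.ext e
  rw [← this]
  exact hy

theorem eigB {X : Subgroup M} {δ : Γ} {n : ℕ} (hn : n ≠ 0) (hX : ∀ x ∈ X, δ • x ∈ X)
    (hδ : ∀ x ∈ X, δ ^ n • x = x) {ι : Type*} [Fintype ι] (a : ι → M) (ha : ∀ j, a j ∈ X)
    (hi : (Subgroup.closure {x | ∃ j, ∃ i : ℕ, x = δ ^ i • a j}).relIndex X ≠ 0)
    {N : ℕ} (hN : N ≠ 0) (u : ℕ) (t : Finset M)
    (ht : ∀ x ∈ t, x ∈ X ∧ ∃ w ∈ X, δ • x = x ^ u * w ^ N)
    (hd : ∀ x ∈ t, ∀ x' ∈ t, ∀ w ∈ X, x = x' * w ^ N → x = x') :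
    t.card ≤ (Subgroup.closure {x | ∃ j, ∃ i : ℕ, x = δ ^ i • a j}).relIndex X *
      N ^ Fintype.card ι := by
  set S : Set M := {x | ∃ j, ∃ i : ℕ, x = δ ^ i • a j} with hS
  have hXi : ∀ (i : ℕ), ∀ x ∈ X, δ ^ i • x ∈ X := by
    intro i x hx
    induction i with
    | zero => simpa using hx
    | succ i ih => rw [pow_succ', mul_smul]; exact hX _ ih
  -- the operator
  let D : X →* X :=
    ((MulDistribMulAction.toMonoidHom M δ).comp X.subtype).codRestrict X (fun x => hX _ x.2)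
  let T : X →* X := D / powMonoidHom u
  have hT : ∀ x : X, ((T x : X) : M) = δ • (x : M) / (x : M) ^ u := fun x => rfl
  let P : Subgroup X := (powMonoidHom N : X →* X).range
  have hP : P ≤ P.comap T := by
    rintro _ ⟨w, rfl⟩
    exact ⟨T w, (map_pow T w N).symm⟩
  let π : X →* X ⧸ P := QuotientGroup.mk' P
  have hπ : Function.Surjective π := QuotientGroup.mk'_surjective P
  let T' : X ⧸ P →* X ⧸ P := QuotientGroup.map P P T hP
  have hT' : ∀ x, T' (π x) = π (T x) := fun x => rfl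
  have hQ : ∀ b : X ⧸ P, b ^ N = 1 := by
    intro b
    obtain ⟨x, rfl⟩ := hπ b
    rw [← map_pow]
    exact (QuotientGroup.eq_one_iff _).2 ⟨x, rfl⟩
  -- `X / X^N` is finite
  have hfin : Finite (X ⧸ P) := by
    let c : ι × Fin n → X ⧸ P := fun p => π ⟨δ ^ (p.2 : ℕ) • a p.1, hXi _ _ (ha _)⟩
    refine Nat.finite_of_card_ne_zero (eigB_card_le π hπ hi (Z := Subgroup.closure (Set.range c))
      (eigB_map_le π S _ ?_) (eigB_closure_card hN hQ _).1).1
    rintro _ ⟨j, i, rfl⟩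
    refine ⟨hXi _ _ (ha _), Subgroup.subset_closure
      ⟨(j, ⟨i % n, Nat.mod_lt _ (Nat.pos_of_ne_zero hn)⟩), ?_⟩⟩
    have e : δ ^ (i % n) • a j = δ ^ i • a j := by
      conv_rhs => rw [← Nat.mod_add_div i n, pow_add, mul_smul]
      congr 1
      generalize i / n = k
      induction k with
      | zero => simp
      | succ k ih => rw [Nat.mul_succ, pow_add, mul_smul, hδ _ (ha j), ← ih]
    simp only [c, e]
  -- the cokernel
  let φ : X →* (X ⧸ P) ⧸ T'.range := (QuotientGroup.mk' T'.range).comp π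
  have hφ : Function.Surjective φ := (QuotientGroup.mk'_surjective _).comp hπ
  have hφD : ∀ x : X, φ (D x) = φ x ^ u := by
    intro x
    have h1 : φ (T x) = 1 := (QuotientGroup.eq_one_iff _).2 ⟨π x, hT' x⟩
    have h2 : T x = D x / x ^ u := rfl
    rw [h2, map_div, map_pow, div_eq_one] at h1
    exact h1
  have hR : ∀ b : (X ⧸ P) ⧸ T'.range, b ^ N = 1 := by
    intro b
    obtain ⟨x, rfl⟩ := QuotientGroup.mk'_surjective T'.range b
    rw [← map_pow, hQ, map_one]
  let c : ι → (X ⧸ P) ⧸ T'.range := fun j => φ ⟨a j, ha j⟩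
  obtain ⟨h1, h2⟩ := eigB_closure_card hN hR (Set.range c)
  have h0 : ∀ s ∈ S, ∃ h : s ∈ X, φ ⟨s, h⟩ ∈ Subgroup.closure (Set.range c) := by
    rintro _ ⟨j, i, rfl⟩
    refine ⟨hXi _ _ (ha _), ?_⟩
    induction i with
    | zero =>
      refine Subgroup.subset_closure ⟨j, ?_⟩
      simp only [c, pow_zero, one_smul]
    | succ i ih =>
      have e0 : δ ^ (i + 1) • a j = δ • δ ^ i • a j := by rw [pow_succ', mul_smul]
      have e : (⟨δ ^ (i + 1) • a j, hXi _ _ (ha _)⟩ : X) = D ⟨δ ^ i • a j, hXi _ _ (ha _)⟩ :=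
        Subtype.ext e0
      rw [e, hφD]
      exact Subgroup.pow_mem _ ih _
  have h3 := (eigB_card_le φ hφ hi (eigB_map_le φ S _ h0) h1).2
  have h4 : Nat.card (Set.range c) ≤ Fintype.card ι := by
    rw [← Nat.card_eq_fintype_card]
    exact Nat.card_le_card_of_surjective _ Set.rangeFactorization_surjective
  have h5 : t.card ≤ Nat.card T'.ker := by
    let f : t → T'.ker := fun x => ⟨π ⟨x.1, (ht _ x.2).1⟩, by
      obtain ⟨hx, w, hw, e⟩ := ht _ x.2
      rw [MonoidHom.mem_ker, hT']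
      refine (QuotientGroup.eq_one_iff _).2 ⟨⟨w, hw⟩, Subtype.ext ?_⟩
      rw [hT]
      change w ^ N = δ • (x : M) / (x : M) ^ u
      rw [e, mul_div_cancel_left]⟩
    have hf : Function.Injective f := by
      intro x y hxy
      have e : π ⟨y.1, (ht _ y.2).1⟩ = π ⟨x.1, (ht _ x.2).1⟩ := (congrArg Subtype.val hxy).symm
      obtain ⟨w, hw⟩ := QuotientGroup.eq.1 e
      refine Subtype.ext (hd _ x.2 _ y.2 w w.2 ?_)
      have e' : (w : M) ^ N = (y : M)⁻¹ * x := congrArg Subtype.val hw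
      rw [e', mul_inv_cancel_left]
    have := Nat.card_le_card_of_injective f hf
    simpa using this
  rw [eigB_ker_card] at h5
  refine h5.trans (h3.trans (Nat.mul_le_mul_left _ (h2.trans ?_)))
  exact Nat.pow_le_pow_right (Nat.pos_of_ne_zero hN) h4

end Crest.Agent.R018
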