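import Crest.Agent.R018.Trans
import Crest.Agent.R018.CycB

/-!
# R018 / Emb

Embeddings `ι : E → Ω` and the pull-back `pb F ι`.  `pb_spec`: `g` fixes `ι(F)`; make `Ω` an `F`-algebra through `ι`; since `E/F` is normal,
`g ∘ ι` and `ι` have the same image (`AlgHom.fieldRange_of_normal`, `AlgHom.restrictNormal'`, or roots of minimal polynomials).
`exists_pb_eq`: extend `ι γ ι⁻¹` to `Ω` (`AlgEquiv.liftNormal` or `IsAlgClosed.lift` + `Algebra.IsAlgebraic.algHom_bijective`).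
Note `fixI ι ⊤` is the subgroup fixing `ι(F)` (`mem_L_top`).
-/

set_option autoImplicit false
set_option linter.unusedSectionVars false

noncomputable section

namespace Crest.Agent.R018

open scoped NNReal Classical

variable {Ω F E : Type*} [Field Ω] [CharZero Ω] [IsAlgClosed Ω] [IsGalois ℚ Ω]
  [Field F] [NumberField F] [Field E] [CharZero E] [Algebra F E] [IsGalois F E]

theorem emb_exists_of_agree (ι ι' : E →+* Ω)
    (h : ∀ a : F, ι' (algebraMap F E a) = ι (algebraMap F E a)) :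
    ∃ γ : Gal(E/F), ∀ x, ι' x = ι (γ x) := by
  let _ : Algebra E Ω := ι.toAlgebra
  let _ : Algebra F Ω := (ι.comp (algebraMap F E)).toAlgebra
  have : IsScalarTower F E Ω := IsScalarTower.of_algebraMap_eq fun _ => rfl
  let φ : E →ₐ[F] Ω := { ι' with commutes' := h }
  exact ⟨φ.restrictNormal' E, fun x => (φ.restrictNormal_commutes E x).symm⟩

theorem emb_mem_L (U : Subgroup Gal(E/F)) (a : F) : algebraMap F E a ∈ L U :=
  (L U).algebraMap_mem a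

variable (F E Ω) in
include F in
theorem exists_emb : Nonempty (E →+* Ω) := by
  have := isAlgebraic_rat F E
  exact ⟨(IsAlgClosed.lift : E →ₐ[ℚ] Ω).toRingHom⟩

variable (F) in
include F in
theorem exists_aut_of_emb (ι ι' : E →+* Ω) : ∃ s : Gal(Ω/ℚ), ∀ x, ι' x = s (ι x) := by
  let _ : Algebra E Ω := ι.toAlgebra
  have : IsScalarTower ℚ E Ω := IsScalarTower.of_algebraMap_eq fun q => by
    simp [RingHom.algebraMap_toAlgebra]
  have : Algebra.IsAlgebraic E Ω := Algebra.IsAlgebraic.tower_top (K := ℚ) E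
  obtain ⟨φ, hφ⟩ := IsAlgClosed.surjective_domRestrict_of_isAlgebraic (K := ℚ) (L := E)
    (M := Ω) (E := Ω) ι'.toRatAlgHom
  exact ⟨AlgEquiv.ofBijective φ (Algebra.IsAlgebraic.algHom_bijective φ),
    fun x => (DFunLike.congr_fun hφ x).symm⟩

theorem isOpen_fixI (ι : E →+* Ω) {U : Subgroup Gal(E/F)} (hU : IsOpen (U : Set Gal(E/F))) :
    IsOpen (fixI ι U : Set Gal(Ω/ℚ)) := by
  have := numberField_L hU
  obtain ⟨t, ht⟩ := Module.Finite.fg_top (R := ℚ) (M := L U)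
  refine (isOpen_iff_finset _).2 ⟨t.image fun x : L U => ι x, fun g hg x hx => ?_⟩
  have h1 : (⟨x, hx⟩ : L U) ∈ Submodule.span ℚ (t : Set (L U)) := ht ▸ Submodule.mem_top
  have key : ∀ y : L U, y ∈ Submodule.span ℚ (t : Set (L U)) → g (ι y) = ι y := by
    intro y hy
    induction hy using Submodule.span_induction with
    | mem y hy => exact hg _ (Finset.mem_image_of_mem _ hy)
    | zero => simp
    | add y z _ _ hy hz => simp [hy, hz]
    | smul q y _ hy => simp [Rat.smul_def, hy]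
  exact key _ h1

theorem fixI_mono (ι : E →+* Ω) {U U' : Subgroup Gal(E/F)} (h : U' ≤ U) : fixI ι U' ≤ fixI ι U := by
  exact fun g hg x hx => hg x (L_anti h hx)

theorem pb_spec (ι : E →+* Ω) {g : Gal(Ω/ℚ)} (hg : g ∈ fixI ι (⊤ : Subgroup Gal(E/F))) (x : E) :
    ι (pb F ι g x) = g (ι x) := by
  obtain ⟨γ, hγ⟩ := emb_exists_of_agree (F := F) ι ((g : Ω →+* Ω).comp ι)
    fun a => hg _ (emb_mem_L _ a)
  exact @Classical.epsilon_spec Gal(E/F) (fun γ => ∀ x, ι (γ x) = g (ι x))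
    ⟨γ, fun x => (hγ x).symm⟩ x

theorem pb_mul (ι : E →+* Ω) {g h : Gal(Ω/ℚ)} (hg : g ∈ fixI ι (⊤ : Subgroup Gal(E/F)))
    (hh : h ∈ fixI ι (⊤ : Subgroup Gal(E/F))) : pb F ι (g * h) = pb F ι g * pb F ι h := by
  ext x
  apply ι.injective
  rw [pb_spec ι (mul_mem hg hh), AlgEquiv.mul_apply, AlgEquiv.mul_apply, pb_spec ι hg,
    pb_spec ι hh]

theorem exists_pb_eq (ι : E →+* Ω) (γ : Gal(E/F)) :
    ∃ g ∈ fixI ι (⊤ : Subgroup Gal(E/F)), pb F ι g = γ := by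
  obtain ⟨g, hg⟩ := exists_aut_of_emb F ι (ι.comp (γ : E →+* E))
  have h1 : g ∈ fixI ι (⊤ : Subgroup Gal(E/F)) := fun x hx => by
    rw [← hg]
    exact congrArg ι (mem_L.1 hx γ (Subgroup.mem_top _))
  refine ⟨g, h1, ?_⟩
  ext x
  apply ι.injective
  rw [pb_spec ι h1, ← hg]
  rfl

theorem mem_fixI_iff_pb (ι : E →+* Ω) {U : Subgroup Gal(E/F)} (hU : IsClosed (U : Set Gal(E/F)))
    {g : Gal(Ω/ℚ)} : g ∈ fixI ι U ↔ g ∈ fixI ι (⊤ : Subgroup Gal(E/F)) ∧ pb F ι g ∈ U := by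
  constructor
  · intro hg
    have h1 := fixI_mono ι le_top hg
    refine ⟨h1, mem_of_fix_L hU fun x hx => ι.injective ?_⟩
    rw [pb_spec ι h1, hg x hx]
  · rintro ⟨h1, h2⟩ x hx
    rw [← pb_spec ι h1, mem_L.1 hx _ h2]

/-- `pb` as a `Setup`. -/
theorem exists_setup_pb (ι : E →+* Ω) :
    ∃ S : Setup Ω F E, S.G0 = fixI ι (⊤ : Subgroup Gal(E/F)) ∧ S.α = pb F ι := by
  refine ⟨⟨fixI ι (⊤ : Subgroup Gal(E/F)), isOpen_fixI ι isOpen_univ, pb F ι,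
    fun g hg h hh => pb_mul ι hg hh, fun U hU => ?_, ?_⟩, rfl, rfl⟩
  · convert isOpen_fixI ι hU using 1
    ext g
    exact (mem_fixI_iff_pb ι (isClosed_of_isOpen hU)).symm
  · convert isOpen_univ
    refine Set.eq_univ_of_forall fun γ => ?_
    obtain ⟨g, hg, h⟩ := exists_pb_eq ι γ
    exact ⟨g, hg, h⟩

theorem pb_mem_Dec (ι : E →+* Ω) (V : Pl Ω) {d : Gal(Ω/ℚ)} (hd : d ∈ Dec ℚ V)
    (hd' : d ∈ fixI ι (⊤ : Subgroup Gal(E/F))) : pb F ι d ∈ Dec F (V.comap ι) := by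
  refine mem_Dec_iff.2 fun x => ?_
  rw [Pl.comap_v, Pl.comap_v, pb_spec ι hd', mem_Dec_iff.1 hd]

theorem cyc_pb [RadCl E] (ι : E →+* Ω) {N : ℕ} (hN : N ≠ 0) {g : Gal(Ω/ℚ)}
    (hg : g ∈ fixI ι (⊤ : Subgroup Gal(E/F))) : cyc N (pb F ι g) = cyc N g := by
  have : NeZero N := ⟨hN⟩
  rw [← ZMod.natCast_zmod_val (cyc N g), cyc_eq_natCast_iff hN]
  apply ι.injective
  rw [pb_spec ι hg, map_pow]
  refine cyc_spec hN g ?_
  rw [← map_pow, (zeta_prim hN).pow_eq_one, map_one]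

variable (F) in
include F in
theorem exists_emb_comap (V : Pl Ω) (W : Pl E) (h : V.p = W.p) : ∃ ι : E →+* Ω, V.comap ι = W := by
  obtain ⟨ι₀⟩ := exists_emb (Ω := Ω) (F := F) (E := E)
  obtain ⟨V₀, hV₀⟩ := exists_pl_extend ι₀ W
  obtain ⟨g, hg⟩ := exists_smul_eq_of_p_eq (V := V) (V' := V₀) (by rw [h, ← hV₀]; rfl)
  refine ⟨((g⁻¹ : Gal(Ω/ℚ)) : Ω →+* Ω).comp ι₀, Pl.ext' (fun x => ?_) h⟩
  rw [← hV₀, ← hg]
  rfl

/-- embeddings that agree on `L U` give conjugate pull-backs. -/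
theorem exists_pb_conj {U : Subgroup Gal(E/F)} (hU : IsClosed (U : Set Gal(E/F))) {ι ι' : E →+* Ω}
    (h : ∀ x ∈ L U, ι' x = ι x) : ∃ u ∈ U, (∀ x, ι' x = ι (u x)) ∧
      ∀ g ∈ fixI ι (⊤ : Subgroup Gal(E/F)), pb F ι' g = u⁻¹ * pb F ι g * u := by
  obtain ⟨u, hu⟩ := emb_exists_of_agree (F := F) ι ι' fun a => h _ (emb_mem_L _ a)
  refine ⟨u, mem_of_fix_L hU fun x hx => ι.injective ?_, hu, fun g hg => ?_⟩
  · rw [← hu, h x hx]
  · have hg' : g ∈ fixI ι' (⊤ : Subgroup Gal(E/F)) := fun x hx => by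
      rw [h x (L_anti le_top hx)]; exact hg x hx
    ext x
    apply ι'.injective
    rw [pb_spec ι' hg', hu, hu, ← pb_spec ι hg]
    simp

variable (Ω) in
/-- finitely many restrictions to `L U`. -/
theorem exists_finset_emb {U : Subgroup Gal(E/F)} (hU : IsOpen (U : Set Gal(E/F))) :
    ∃ s : Finset (E →+* Ω), ∀ ι : E →+* Ω, ∃ ι' ∈ s, ∀ x ∈ L U, ι x = ι' x := by
  have := numberField_L hU
  let r : (E →+* Ω) → (L U →+* Ω) := fun ι => ι.comp (L U).subtype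
  refine ⟨Finset.univ.image fun ψ : Set.range r => ψ.2.choose, fun ι => ?_⟩
  refine ⟨_, Finset.mem_image_of_mem _ (Finset.mem_univ (⟨r ι, ι, rfl⟩ : Set.range r)),
    fun x hx => ?_⟩
  exact (DFunLike.congr_fun (⟨r ι, ι, rfl⟩ : Set.range r).2.choose_spec ⟨x, hx⟩).symm

variable (Ω) in
/-- a normal open subgroup fixing all images of `L U`. -/
theorem exists_normal_le_fixI {U : Subgroup Gal(E/F)} (hU : IsOpen (U : Set Gal(E/F))) :
    ∃ H : Subgroup Gal(Ω/ℚ), H.Normal ∧ IsOpen (H : Set Gal(Ω/ℚ)) ∧ ∀ ι : E →+* Ω, H ≤ fixI ι U := by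
  obtain ⟨s, hs⟩ := exists_finset_emb Ω hU
  refine ⟨⨅ ι : E →+* Ω, fixI ι U, ⟨fun g hg t => ?_⟩, ?_, fun ι => iInf_le _ ι⟩
  · rw [Subgroup.mem_iInf] at hg ⊢
    intro ι x hx
    have h1 : g (t⁻¹ (ι x)) = t⁻¹ (ι x) := hg (((t⁻¹ : Gal(Ω/ℚ)) : Ω →+* Ω).comp ι) x hx
    rw [AlgEquiv.mul_apply, AlgEquiv.mul_apply, h1]
    simp
  · have e : ((⨅ ι : E →+* Ω, fixI ι U : Subgroup Gal(Ω/ℚ)) : Set Gal(Ω/ℚ)) =
        ⋂ ι ∈ s, (fixI ι U : Set Gal(Ω/ℚ)) := by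
      ext g
      simp only [SetLike.mem_coe, Subgroup.mem_iInf, Set.mem_iInter]
      refine ⟨fun h ι _ => h ι, fun h ι x hx => ?_⟩
      obtain ⟨ι', h1, h2⟩ := hs ι
      rw [h2 x hx]
      exact h ι' h1 x hx
    rw [e]
    exact isOpen_biInter_finset fun ι _ => isOpen_fixI ι hU

end Crest.Agent.R018
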