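import Crest.Agent.R018.Class

/-!
# R018 / Mono

Formal properties of the norm index.  `nIdx_mono`: `DivP H π' → DivP H π / (Ray π ⊔ NDiv π)` is onto (given `a`, `approx_mul` yields `x ∈ rayU H π` with
`dv x W = a W` at the places dividing `π'` but not `π`) and kills `Ray π' ⊔ NDiv π'`.  `nIdx_trans`: `nm H H'` maps `DivP H' π / (Ray ⊔ NDiv H' H'')` onto
`(Ray ⊔ NDiv H H') / (Ray ⊔ NDiv H H'')` (`nm_trans`, `dv_nm`, `nm_mem_rayU`).  `nIdx_le_of_coprime`: `Q = DivP H π / (Ray ⊔ NDiv H H')` is killed by `[H : H']`,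
and `nm H H2 a = a^{[H:H2]}` for `a ∈ DivP H π ≤ DivP H2 π`, so `nm H H2` maps `DivP H2 π` onto `Q`; it kills `Ray H2 π` and
`NDiv H2 (H2 ⊓ H') π` (`nm H (H2 ⊓ H') = nm H H' ∘ nm H' (H2 ⊓ H')`).
-/

set_option autoImplicit false
set_option linter.unusedSectionVars false

noncomputable section

namespace Crest.Agent.R018

open scoped NNReal Classical

variable {F E : Type*} [Field F] [NumberField F] [Field E] [CharZero E] [Algebra F E]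
  [IsGalois F E]
variable {H H' H'' : Subgroup Gal(E/F)} {π π' : E}

theorem mono_relIndex_le {G G' : Type*} [Group G] [Group G'] (f : G →* G') {A B : Subgroup G}
    {A' B' : Subgroup G'} (hA : A.relIndex B ≠ 0) (h1 : ∀ x ∈ A, f x ∈ A')
    (h2 : ∀ y ∈ B', ∃ x ∈ B, (f x)⁻¹ * y ∈ A') : A'.relIndex B' ≤ A.relIndex B := by
  have : Finite (B ⧸ A.subgroupOf B) := Nat.finite_of_card_ne_zero hA
  choose g hg hg' using fun y : B' => h2 y y.2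
  refine Nat.card_le_card_of_injective
    (fun q : B' ⧸ A'.subgroupOf B' => (QuotientGroup.mk ⟨g q.out, hg _⟩ : B ⧸ A.subgroupOf B))
    fun q q' e => ?_
  have e1 : (g q.out)⁻¹ * g q'.out ∈ A := (QuotientGroup.eq (s := A.subgroupOf B)).1 e
  rw [← q.out_eq, ← q'.out_eq]
  refine QuotientGroup.eq.2 ?_
  have e2 := A'.mul_mem (A'.mul_mem (A'.inv_mem (hg' q.out)) (h1 _ e1)) (hg' q'.out)
  change ((q.out : G'))⁻¹ * (q'.out : G') ∈ A'
  convert e2 using 1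
  simp [mul_assoc]

theorem mono_nm_mem {H1 : Subgroup Gal(E/F)} (hH' : IsOpen (H' : Set Gal(E/F)))
    (hle : H' ≤ H) (hH1 : IsOpen (H1 : Set Gal(E/F))) (hle1 : H1 ≤ H) (hπ' : π' ∈ L H)
    (h : ∀ W : Pl E, W.v π < 1 → W.v π' ≤ W.v π) {a : Dv E}
    (ha : a ∈ Ray H1 π' ⊔ NDiv H1 (H1 ⊓ H') π') : nm (Dv E) H H1 a ∈ Ray H π ⊔ NDiv H H' π := by
  obtain ⟨_, ⟨x, hx, rfl⟩, _, ⟨b, hb, rfl⟩, rfl⟩ := Subgroup.mem_sup.1 ha
  have hi := relIndex_ne_zero_of_isOpen hH1 H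
  have ho := isOpen_inf hH1 hH'
  have hi' := relIndex_ne_zero_of_isOpen ho H
  have hfix : ∀ g ∈ H1 ⊓ H', g • b = b := fun g hg => smul_of_mem_DivP hb hg
  rw [map_mul]
  refine Subgroup.mul_mem_sup ⟨nm Eˣ H H1 x, rayU_mono h le_rfl (nm_mem_rayU hi hπ' hx),
    dv_nm hi x⟩ ⟨nm (Dv E) H' (H1 ⊓ H') b, ?_, ?_⟩
  · exact DivP_mono (fun W hW => (h W hW).trans_lt hW)
      (NDiv_le_DivP ho inf_le_right ⟨b, hb, rfl⟩)
  · rw [nm_trans inf_le_right hle hi' hfix, nm_trans inf_le_left hle1 hi' hfix]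

theorem mono_eps (s : Finset (Pl E)) (h0 : π ≠ 0) :
    ∃ ε : ℝ≥0, 0 < ε ∧ ε ≤ 1 ∧ ∀ W ∈ s, ε ≤ W.v π := by
  induction s using Finset.induction_on with
  | empty => exact ⟨1, one_pos, le_rfl, by simp⟩
  | insert V s _ ih =>
    obtain ⟨ε, h1, h2, h3⟩ := ih
    refine ⟨min ε (V.v π), lt_min h1 ((Valuation.pos_iff _).2 h0), (min_le_left _ _).trans h2,
      fun W hW => ?_⟩
    rcases Finset.mem_insert.1 hW with rfl | hW
    · exact min_le_right _ _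
    · exact (min_le_left _ _).trans (h3 W hW)

theorem nIdx_mono (hH' : IsOpen (H' : Set Gal(E/F))) (hle : H' ≤ H) (hπ : π ∈ L H) (hπ' : π' ∈ L H)
    (h0 : π ≠ 0) (h0' : π' ≠ 0) (h : ∀ W : Pl E, W.v π < 1 → W.v π' ≤ W.v π) :
    nIdx H H' π ≤ nIdx H H' π' := by
  have hH := Subgroup.isOpen_mono hle hH'
  have hlt : ∀ W : Pl E, W.v π < 1 → W.v π' < 1 := fun W hW => (h W hW).trans_lt hW
  refine mono_relIndex_le (MonoidHom.id _) (nIdx_ne_zero hH hπ' h0' H') (fun x hx => ?_)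
    fun y hy => ?_
  · exact sup_le_sup (Subgroup.map_mono (rayU_mono h le_rfl)) (Subgroup.map_mono (DivP_mono hlt)) hx
  obtain ⟨s, hs, hs'⟩ := class_reps hH hπ' h0'
  obtain ⟨y1, y2, y3, y4⟩ := (mem_DivP_iff hH hπ).1 hy
  have ha : ∀ W : Pl E, ∃ a ∈ LU H, W.vU a = y W ∧ (W.v π < 1 → a = 1) := fun W => by
    by_cases hW : W.v π < 1
    · exact ⟨1, one_mem _, by rw [map_one, y3 W hW], fun _ => rfl⟩
    · obtain ⟨a, ha, ha'⟩ := y2 W
      exact ⟨a, ha, ha', fun h' => absurd h' hW⟩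
  choose a ha ha' ha'' using ha
  obtain ⟨ε, e1, e2, e3⟩ := mono_eps s h0
  obtain ⟨x, hx, hx'⟩ := approx_mul hH s hs a (fun W _ => LU_anti inf_le_right (ha W)) e1
  have hxr : x ∈ rayU H π := by
    refine ⟨hx, fun W hW => ?_⟩
    obtain ⟨W', hW', hsame⟩ := (hs' W).2 (hlt W hW)
    have h1 := hx' W' hW'
    rw [ha'' W' (by rwa [hsame.v_eq hπ]), div_one] at h1
    rw [← hsame.v_eq hπ, ← hsame.v_eq ((L H).sub_mem hx (L H).one_mem)]
    exact h1.le.trans (e3 W' hW')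
  have hm : y / dv x ∈ DivP H π := div_mem hy (Ray_le_DivP hH hπ ⟨x, hxr, rfl⟩)
  obtain ⟨z1, z2, -, z4⟩ := (mem_DivP_iff hH hπ).1 hm
  refine ⟨y / dv x, (mem_DivP_iff hH hπ').2 ⟨z1, z2, fun W hW => ?_, z4⟩,
    Subgroup.mem_sup_left ⟨x, hxr, by simp⟩⟩
  obtain ⟨W', hW', hsame⟩ := (hs' W).2 hW
  rw [← divb_same z1 hsame]
  have h1 := W'.v.map_one_add_of_lt ((hx' W' hW').trans_le e2)
  rw [add_sub_cancel, ← Pl.coe_vU, Units.val_eq_one, map_div, ha', div_eq_one] at h1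
  rw [Dv.div_apply, dv_apply, h1, div_self']

theorem nIdx_trans (hH'' : IsOpen (H'' : Set Gal(E/F))) (h1 : H'' ≤ H') (h2 : H' ≤ H) (hπ : π ∈ L H)
    (h0 : π ≠ 0) : nIdx H H'' π ≤ nIdx H H' π * nIdx H' H'' π := by
  have hH' := Subgroup.isOpen_mono h1 hH''
  have hH := Subgroup.isOpen_mono h2 hH'
  have hi := relIndex_ne_zero_of_isOpen hH'' H
  have hA : Ray H π ⊔ NDiv H H'' π ≤ Ray H π ⊔ NDiv H H' π := by
    refine sup_le_sup_left ?_ _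
    rintro _ ⟨b, hb, rfl⟩
    exact ⟨nm (Dv E) H' H'' b, NDiv_le_DivP hH'' h1 ⟨b, hb, rfl⟩,
      nm_trans h1 h2 hi fun g hg => smul_of_mem_DivP hb hg⟩
  have hB : Ray H π ⊔ NDiv H H' π ≤ DivP H π := sup_le (Ray_le_DivP hH hπ) (NDiv_le_DivP hH' h2)
  rw [nIdx, ← Subgroup.relIndex_mul_relIndex _ _ _ hA hB, mul_comm]
  refine Nat.mul_le_mul_left _ (mono_relIndex_le (nm (Dv E) H H')
    (nIdx_ne_zero hH' (L_anti h2 hπ) h0 H'') (fun x hx => ?_) fun y hy => ?_)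
  · refine mono_nm_mem hH'' (h1.trans h2) hH' h2 hπ (fun _ _ => le_rfl) ?_
    rwa [inf_eq_right.2 h1]
  · obtain ⟨r, hr, _, ⟨b, hb, rfl⟩, rfl⟩ := Subgroup.mem_sup.1 hy
    exact ⟨b, hb, Subgroup.mem_sup_left (by simpa [mul_comm r] using hr)⟩

theorem nIdx_le_of_coprime {H2 : Subgroup Gal(E/F)} (hH' : IsOpen (H' : Set Gal(E/F))) (hle : H' ≤ H)
    (hH2 : IsOpen (H2 : Set Gal(E/F))) (hle2 : H2 ≤ H)
    (hc : (H2.relIndex H).Coprime (H'.relIndex H)) (hπ : π ∈ L H) (h0 : π ≠ 0) :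
    nIdx H H' π ≤ nIdx H2 (H2 ⊓ H') π := by
  refine mono_relIndex_le (nm (Dv E) H H2) (nIdx_ne_zero hH2 (L_anti hle2 hπ) h0 _)
    (fun x hx => mono_nm_mem hH' hle hH2 hle2 hπ (fun _ _ => le_rfl) hx) fun y hy => ?_
  obtain ⟨u, v, huv⟩ := Nat.isCoprime_iff_coprime.2 hc
  refine ⟨y ^ u, zpow_mem (DivP_le_of_le hH2 hle2 hπ hy) u, Subgroup.mem_sup_right ?_⟩
  have e : (nm (Dv E) H H2 (y ^ u))⁻¹ * y = (y ^ H'.relIndex H) ^ v := by
    rw [map_zpow, nm_of_fixed (relIndex_ne_zero_of_isOpen hH2 H)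
      (fun g hg => smul_of_mem_DivP hy hg), inv_mul_eq_iff_eq_mul, ← zpow_natCast, ← zpow_natCast,
      ← zpow_mul, ← zpow_mul, ← zpow_add, mul_comm _ u, mul_comm _ v, huv, zpow_one]
  rw [e]
  exact zpow_mem (pow_mem_NDiv hH' hle hπ hy) v

theorem nIdx_self (hH : IsOpen (H : Set Gal(E/F))) : nIdx H H π = 1 := by
  refine Subgroup.relIndex_eq_one.2 fun a ha => Subgroup.mem_sup_right ⟨a, ha, ?_⟩
  rw [nm_of_fixed (relIndex_ne_zero_of_isOpen hH H) (fun g hg => smul_of_mem_DivP ha hg),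
    Subgroup.relIndex_self, pow_one]

/-- pushing norm-ray classes down along `nm H H1`. -/
theorem nm_mem_ray_sup_ndiv {H1 : Subgroup Gal(E/F)} (hH' : IsOpen (H' : Set Gal(E/F))) (hle : H' ≤ H)
    (hH1 : IsOpen (H1 : Set Gal(E/F))) (hle1 : H1 ≤ H) (hπ' : π' ∈ L H)
    (h : ∀ W : Pl E, W.v π < 1 → W.v π' ≤ W.v π) {a : Dv E}
    (ha : a ∈ Ray H1 π' ⊔ NDiv H1 (H1 ⊓ H') π') : nm (Dv E) H H1 a ∈ Ray H π ⊔ NDiv H H' π := by
  exact mono_nm_mem hH' hle hH1 hle1 hπ' h ha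

end Crest.Agent.R018
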