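import Crest.Agent.R018.SIK
import Crest.Agent.R018.Mono

/-!
# R018 / SI

Second inequality for cyclic extensions of odd prime-power degree, and the Hasse norm theorem for everywhere unramified extensions of prime degree.
Degree `l`: `H2 = H ⊓ FixMu l` has index dividing `l - 1` (`cyc l` embeds `H/H2` in `(ZMod l)ˣ`), `σ^{l-1}`-type element generates: use `CycExt.restrict` with
`s = σ^{(l-1)^2}`-like power (`(l-1)^2 ≡ 1 mod l`), `nIdx_le_of_coprime`, `nIdx_mono` with `M = M0 M1`, `M1` from `exists_nat_v_le`, `si_kummer`.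
Degree `l^k`: induction with `CycExt.exists_mid`, `nIdx_trans`.  `hasse0`: `fi_core` with `π = 1`, `X = LU H'` (`rayU_one`, `h90_cyc`): `l d ≤ nIdx ≤ l` so `d = 1`.
-/

set_option autoImplicit false
set_option linter.unusedSectionVars false

noncomputable section

namespace Crest.Agent.R018

open scoped NNReal Classical

variable {F E : Type*} [Field F] [NumberField F] [Field E] [CharZero E] [Algebra F E]
  [IsGalois F E] [RadCl E]
variable {H H' : Subgroup Gal(E/F)} {σ : Gal(E/F)} {n : ℕ} {π : E}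

/-- the index of `H ⊓ FixMu l` in `H` divides `l - 1`. -/
theorem si_relIndex_dvd {l : ℕ} (hl : l.Prime) (H : Subgroup Gal(E/F)) :
    (H ⊓ FixMu F E l).relIndex H ∣ l - 1 := by
  have : Fact l.Prime := ⟨hl⟩
  let c0 : Gal(E/F) →* ZMod l :=
    { toFun := cyc l, map_one' := cyc_one hl.ne_zero, map_mul' := cyc_mul hl.ne_zero }
  let c : Gal(E/F) →* (ZMod l)ˣ := c0.toHomUnits
  have hker : FixMu F E l = c.ker := by
    ext g
    rw [mem_FixMu_iff hl.ne_zero, MonoidHom.mem_ker, Units.ext_iff]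
    rfl
  rw [Subgroup.inf_relIndex_left, hker, Subgroup.relIndex_ker]
  have h1 := Subgroup.card_subgroup_dvd_card (H.map c)
  rwa [Nat.card_eq_fintype_card (α := (ZMod l)ˣ), ZMod.card_units l] at h1

theorem si_prime {l : ℕ} (h : CycExt H H' σ l) (hi : HasI H) (hl : l.Prime) (hl2 : l ≠ 2)
    (hπ : π ∈ L H) (h0 : π ≠ 0) : nIdx H H' π ≤ l := by
  have hH2 : IsOpen ((H ⊓ FixMu F E l : Subgroup Gal(E/F)) : Set Gal(E/F)) :=
    isOpen_inf h.isOpen_top (isOpen_FixMu l)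
  have hc : ((H ⊓ FixMu F E l).relIndex H).Coprime (H'.relIndex H) := by
    rw [h.idx]
    refine Nat.Coprime.coprime_dvd_left (si_relIndex_dvd hl H) ?_
    have h1 : l = (l - 1) + 1 := (Nat.sub_add_cancel hl.one_le).symm
    conv_rhs => rw [h1]
    simp
  refine (nIdx_le_of_coprime h.isOpen h.le hH2 inf_le_left hc hπ h0).trans ?_
  have hs : (σ ^ (l - 1)) ^ (l - 1) ∈ H ⊓ FixMu F E l :=
    ⟨H.pow_mem (H.pow_mem h.mem _) _, pow_mem_FixMu_prime hl _⟩
  have hs' : σ⁻¹ * (σ ^ (l - 1)) ^ (l - 1) ∈ H' := by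
    obtain ⟨m, rfl⟩ := Nat.exists_eq_add_of_le' hl.two_le
    have e : (m + 2 - 1) * (m + 2 - 1) = (m + 2) * m + 1 := by
      rw [show m + 2 - 1 = m + 1 from rfl]
      ring
    rw [← pow_mul, e, pow_succ', inv_mul_cancel_left]
    exact (h.pow_mem_iff _).2 (dvd_mul_right _ _)
  have h2 := h.restrict inf_le_left hH2 hs hs'
  obtain ⟨M0, hM0, hM⟩ := si_kummer h2 (le_trans inf_le_left hi) hl hl2 inf_le_right
  have : Algebra.IsAlgebraic ℚ E := isAlgebraic_rat F E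
  obtain ⟨M1, hM1, hv⟩ := exists_nat_v_le h0
  refine le_trans ?_ (hM (M0 * M1) (mul_ne_zero hM0 hM1) (dvd_mul_right _ _))
  refine nIdx_mono h2.isOpen h2.le (L_anti inf_le_left hπ) (natCast_mem _ _) h0
    (by exact_mod_cast mul_ne_zero hM0 hM1) (fun W _ => ?_)
  rw [Nat.cast_mul, map_mul]
  calc W.v (M0 : E) * W.v (M1 : E) ≤ 1 * W.v π := mul_le_mul' (W.v_natCast_le_one M0) (hv W)
    _ = W.v π := one_mul _

theorem si {l k : ℕ} (h : CycExt H H' σ (l ^ k)) (hi : HasI H) (hl : l.Prime) (hl2 : l ≠ 2)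
    (hπ : π ∈ L H) (h0 : π ≠ 0) : nIdx H H' π ≤ l ^ k := by
  induction k generalizing H σ with
  | zero =>
    have h1 : H' = H := le_antisymm h.le (Subgroup.relIndex_eq_one.1 (by rw [h.idx, pow_zero]))
    rw [h1, nIdx_self h.isOpen_top, pow_zero]
  | succ k ih =>
    obtain ⟨H1, h1, h2⟩ := h.exists_mid (a := l) (b := l ^ k) (pow_succ' l k)
    refine (nIdx_trans h.isOpen h2.le h1.le hπ h0).trans ?_
    rw [pow_succ']
    exact Nat.mul_le_mul (si_prime h1 hi hl hl2 hπ h0)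
      (ih h2 (le_trans h1.le hi) (L_anti h1.le hπ))

theorem hasse0 {l : ℕ} (h : CycExt H H' σ l) (hi : HasI H) (hl : l.Prime) (hl2 : l ≠ 2)
    (hu : Unram H H' 1) {y : Eˣ} (hy : y ∈ LU H) (hN : dv y ∈ NDiv H H' 1) :
    ∃ z ∈ LU H', y = nr Eˣ σ l z := by
  have hσ : ∀ x ∈ LU H', σ • x ∈ LU H' := fun x hx =>
    mem_LU_iff_smul.2 (h.smul_fixed (mem_LU_iff_smul.1 hx) h.mem)
  obtain ⟨h1, h2⟩ := fi_core h hi (L H).one_mem one_ne_zero hu (LU H') (N := 1) one_ne_zero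
    (by rw [one_pow, rayU_one]) (by rw [rayU_one]) hσ (fun x hx h1 => h90_cyc h hx h1)
  have h3 : (LU H' ⊓ LU H).map dv = Ray H (1 : E) := by
    rw [inf_of_le_right (LU_anti h.le), Ray, rayU_one]
  rw [h3] at h2
  have h4 := h2.trans (si_prime h hi hl hl2 (L H).one_mem one_ne_zero)
  have h5 : ((LU H').map (nr Eˣ σ l)).relIndex (LU H' ⊓ LU H ⊓ (NDiv H H' 1).comap dv) = 1 := by
    refine le_antisymm ?_ (Nat.pos_of_ne_zero h1)
    exact Nat.le_of_mul_le_mul_left (by rwa [mul_one]) hl.pos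
  obtain ⟨z, hz, hzy⟩ := Subgroup.relIndex_eq_one.1 h5 (x := y) ⟨⟨LU_anti h.le hy, hy⟩, hN⟩
  exact ⟨z, hz, hzy.symm⟩

end Crest.Agent.R018
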