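import Crest.Agent.R018.Rig
import Crest.Agent.R018.SI

/-!
# R018 / ExOrb

Suppose no `γ ∈ Dec W ⊓ Γ` moves `ρ = rt l y` (`Γ = Gam V H`).  Let `k ≥ 1` be maximal with `Γ ≤ FixMu (l^k)` (`exists_not_le_FixMu`), `ζ = zeta E (l^k)`,
`U0 = stab y ⊓ FixMu (l^k) ⊓ FixMu 4 ⊇ Γ` open.  `exists_ine_le` for `U0 ⊓ stab ρ` gives `B`; `exists_orbit_reps_finset` gives representatives `W_i` above `B`;
`Z = {u τ u⁻¹ | u ∈ U0, τ ∈ Ine W_i ⊓ U0, (u τ u⁻¹) ρ ≠ ρ}` is compact and misses `Γ`; `exists_open_sep` gives `U`, replace it by `U ⊓ U0`.  Then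
`CycExt U (U ⊓ stab ρ) (α σ) l` (`cycExt_stab`) is unramified everywhere, `dv ζ = 1`, so `hasse0` gives `ζ = ∏ (α σ)^i z`, and `rig` gives `ζ = y^j c^l`, `c ∈ L Γ`.
With `ζ'^l = ζ`: `ζ' = ρ^j c ζ_l^i`; `α σ` fixes `ζ'` (`inFix`), `c`, `ζ_l`, so `l ∣ j`, so `ζ' ∈ L Γ` and `Γ ≤ FixMu (l^{k+1})`, contradiction.
-/

set_option autoImplicit false
set_option linter.unusedSectionVars false

noncomputable section

namespace Crest.Agent.R018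

open scoped NNReal Classical

variable {Ω F E : Type*} [Field Ω] [CharZero Ω] [IsAlgClosed Ω] [IsGalois ℚ Ω]
  [Field F] [NumberField F] [Field E] [CharZero E] [Algebra F E] [IsGalois F E] [RadCl E]

theorem exorb_step {P : ℕ → Prop} (h0 : P 0) {n : ℕ} (hn : ¬ P n) : ∃ k, P k ∧ ¬ P (k + 1) := by
  induction n with
  | zero => exact (hn h0).elim
  | succ n ih =>
    by_cases h : P n
    · exact ⟨n, h, hn⟩
    · exact ih h

/-- an open subgroup between `Γ` and `U0` in which inertia fixes `ρ` -/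
theorem exorb_unram {Γ U0 : Subgroup Gal(E/F)} (hΓ : IsClosed (Γ : Set Gal(E/F)))
    (hU0 : IsOpen (U0 : Set Gal(E/F))) (hle : Γ ≤ U0) {ρ : E}
    (h : ∀ W : Pl E, ∀ γ ∈ Dec F W ⊓ Γ, γ ρ = ρ) :
    ∃ U : Subgroup Gal(E/F), IsOpen (U : Set Gal(E/F)) ∧ Γ ≤ U ∧ U ≤ U0 ∧
      Unram U (U ⊓ stab F ρ) 1 := by
  obtain ⟨B, hB⟩ := exists_ine_le (isOpen_stab (F := F) ρ)
  obtain ⟨s, -, -, -, hs⟩ := exists_orbit_reps_finset hU0 B
  let c : Gal(E/F) × Gal(E/F) → Gal(E/F) := fun q => q.1 * q.2 * q.1⁻¹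
  have hc : Continuous c := by fun_prop
  have hZ : IsCompact ((⋃ W ∈ s, c '' (Set.univ ×ˢ (Ine F W : Set Gal(E/F)))) ∩
      {g : Gal(E/F) | g ρ ≠ ρ}) := by
    refine IsCompact.inter_right (s.isCompact_biUnion fun W _ => ?_)
      (top_isClosed ρ fun x => x ≠ ρ)
    exact (isCompact_univ.prod (isClosed_Ine W).isCompact).image hc
  obtain ⟨U, hU, hΓU, hUZ⟩ := exists_open_sep hΓ hZ (by
    rintro z ⟨hz, hz'⟩ hzΓ
    simp only [Set.mem_iUnion] at hz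
    obtain ⟨W, -, ⟨u, τ⟩, ⟨-, hτ⟩, rfl⟩ := hz
    refine hz' (h (u • W) _ ⟨Ine_le_Dec _ (mem_Ine_smul.2 ?_), hzΓ⟩)
    have e : u⁻¹ * c (u, τ) * u = τ := by simp only [c]; group
    rw [e]
    exact hτ)
  refine ⟨U ⊓ U0, isOpen_inf hU hU0, le_inf hΓU hle, inf_le_right, fun W _ τ hτ => ⟨hτ.2, ?_⟩⟩
  by_cases hW : W.p ∈ B
  · obtain ⟨W', hW', u, -, rfl⟩ := hs W hW
    by_contra hne
    refine hUZ τ ⟨?_, hne⟩ hτ.2.1
    simp only [Set.mem_iUnion]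
    refine ⟨W', hW', (u, u⁻¹ * τ * u), ⟨trivial, mem_Ine_smul.1 hτ.1⟩, ?_⟩
    simp only [c]
    group
  · exact hB W hW hτ.1

namespace Setup
variable (S : Setup Ω F E)

theorem exOrb {l : ℕ} (hl : l.Prime) (hl2 : l ≠ 2) {V : Pl Ω} (hV : V.p ≠ l) {H : Subgroup Gal(Ω/ℚ)}
    (hH : S.Small l H) {y : E} {σ : Gal(Ω/ℚ)} (hA : S.AdmD l V H y σ) :
    ∃ W : Pl E, ∃ γ ∈ Dec F W ⊓ S.Gam V H, γ (rt l y) ≠ rt l y := by
  have : Fact l.Prime := ⟨hl⟩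
  by_contra hcon
  push Not at hcon
  have hl0 := hl.ne_zero
  obtain ⟨hy0, hyΓ, hσI, hσH, hmove⟩ := id hA
  have hσ0 : σ ∈ S.G0 := (hH.2.2 hσH).1
  have hΓμ : S.Gam V H ≤ FixMu F E l ⊓ FixMu F E 4 := by
    rintro _ ⟨h, hh, -, rfl⟩
    exact (hH.2.2 hh.2).2
  have hsΓ : S.α σ ∈ S.Gam V H := ⟨σ, ⟨Ine_le_Dec _ hσI, hσH⟩, hσ0, rfl⟩
  have hρ : rt l y ^ l = y := rt_pow hl0 y
  have hρ0 : rt l y ≠ 0 := fun h => hy0 (by rw [← hρ, h, zero_pow hl0])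
  obtain ⟨n, hn⟩ := S.exists_not_le_FixMu hl hl2 hV ⟨hH, y, σ, hA⟩
  obtain ⟨k, hk, hk'⟩ := exorb_step (P := fun k => S.Gam V H ≤ FixMu F E (l ^ k)) (by
    intro g _
    have h1 : zeta E (l ^ 0) = 1 := by
      rw [pow_zero]
      simpa using (zeta_prim (E := E) (N := 1) one_ne_zero).pow_eq_one
    rw [mem_FixMu, h1, _root_.map_one]) hn
  have hz1 : (zeta E (l ^ (k + 1)) ^ l) ^ l ^ k = 1 := by
    rw [← pow_mul, ← pow_succ']
    exact (zeta_prim (pow_ne_zero _ hl0)).pow_eq_one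
  have hz0 : zeta E (l ^ (k + 1)) ^ l ≠ 0 := fun h => by
    rw [h, zero_pow (pow_ne_zero _ hl0)] at hz1
    exact zero_ne_one hz1
  obtain ⟨U, hU, hΓU, hU0, hun⟩ := exorb_unram (S.isClosed_Gam V (H.isClosed_of_isOpen hH.1))
    (U0 := stab F y ⊓ FixMu F E (l ^ k) ⊓ (FixMu F E l ⊓ FixMu F E 4))
    (isOpen_inf (isOpen_inf (isOpen_stab _) (isOpen_FixMu _))
      (isOpen_inf (isOpen_FixMu _) (isOpen_FixMu _)))
    (le_inf (le_inf (fun g hg => mem_L.1 hyΓ g hg) hk) hΓμ) hcon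
  have hcyc := cycExt_stab hU hl (fun g hg => (hU0 hg).2.1) (ρ := rt l y)
    (by rw [hρ]; exact mem_L.2 fun g hg => (hU0 hg).1.1) (hΓU hsΓ) hmove
  have hdv : dv (Units.mk0 _ hz0) = (1 : Dv E) := by
    refine Dv.ext fun W => Units.ext ?_
    have h1 : W.v (zeta E (l ^ (k + 1)) ^ l) ^ l ^ k = 1 := by
      rw [← _root_.map_pow, hz1, _root_.map_one]
    exact (pow_eq_one_iff_of_nonneg zero_le (pow_ne_zero k hl0)).1 h1
  obtain ⟨z, hz, hzn⟩ := hasse0 hcyc (fun g hg => (hU0 hg).2.2) hl hl2 hun (y := Units.mk0 _ hz0)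
    (mem_L.2 fun g hg => fix_of_mem_FixMu (pow_ne_zero _ hl0) (hU0 hg).1.2 hz1)
    (by rw [hdv]; exact Subgroup.one_mem _)
  obtain ⟨j, c, hc, hjc⟩ := S.rig hl hl2 hV hH hA z.ne_zero
    (L_anti (inf_le_inf_right _ hΓU) hz)
  have e : zeta E (l ^ (k + 1)) ^ l = (rt l y ^ j * c) ^ l := by
    have h1 := congrArg Units.val hzn
    rw [nr_apply, Units.coe_prod] at h1
    simp only [coe_smul_units, Units.val_mk0] at h1
    rw [h1, hjc, mul_pow, ← pow_mul, mul_comm j l, pow_mul, hρ]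
  have hc0 : c ≠ 0 := fun h => hz0 (by rw [e, h, mul_zero, zero_pow hl0])
  have hfix : ∀ g ∈ S.Gam V H, g (rt l y ^ l) = rt l y ^ l := fun g hg => by
    rw [hρ]; exact mem_L.1 hyΓ g hg
  have hfix' : ∀ g ∈ S.Gam V H, g ((rt l y ^ j) ^ l) = (rt l y ^ j) ^ l := fun g hg => by
    rw [← pow_mul, mul_comm, pow_mul, _root_.map_pow, hfix g hg]
  have key : ∀ g ∈ S.Gam V H, g ∈ FixMu F E (l ^ (k + 1)) ↔ (j : ZMod l) * kum l (rt l y) g = 0 := by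
    intro g hg
    rw [mem_FixMu, fix_root_iff hl0 e (hΓμ hg).1, map_mul, mem_L.1 hc g hg, mul_left_inj' hc0,
      ← kum_eq_zero_iff hl0 (pow_ne_zero j hρ0) (hfix' g hg), kum_pow_left hl0 hρ0 (hfix g hg)]
  have hj := (key _ hsΓ).1 (S.inFix hl hl2 hV hσI hσ0 (hΓμ hsΓ).1 _)
  have hj0 : (j : ZMod l) = 0 := (mul_eq_zero.1 hj).resolve_right fun h =>
    hmove ((kum_eq_zero_iff hl0 hρ0 (hfix _ hsΓ)).1 h)
  exact hk' fun g hg => (key g hg).2 (by rw [hj0, zero_mul])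

end Setup

end Crest.Agent.R018
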