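import Crest.Agent.R018.OrbMono

/-!
# R018 / LL1

(LL1) Fix an admissible `H0` and `W0 ∈ Orb H0` (`exOrb`, `orb_of_move`).  For admissible `H ≤ H0`, `C H = {γ ∈ Gam H0 | γ • W0 ∈ Orb H}` is nonempty (`orbMono`, `oneOrb`), closed
(`= Gam H0 ∩ Gam H · γ_H · Dec W0`, a product of compact sets) and the family is directed (`admEx`, `orbMono`); a point of the intersection gives `W` with `Orb H W` for all
admissible `H ≤ H0`, hence for all admissible `H`.  Uniqueness of such `W` (`eq_of_forall_orb`): `W' = γ_H • W` with `γ_H ∈ Gam H`, `H ≤ pre (stab x)`-like, so the valuations agree.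
For `g ∈ Dec V ⊓ G0`, conjugation by `g` preserves admissibility and `Orb (g H g⁻¹) (α g • W) ↔ Orb H W`, so `α g • W = W`.
If `Rel V W` then `Gam H ≤ Dec W`, so `Orb H W` for every admissible `H` (`orb_of_move`).
-/

set_option autoImplicit false
set_option linter.unusedSectionVars false

noncomputable section

namespace Crest.Agent.R018

open scoped NNReal Classical

variable {Ω F E : Type*} [Field Ω] [CharZero Ω] [IsAlgClosed Ω] [IsGalois ℚ Ω]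
  [Field F] [NumberField F] [Field E] [CharZero E] [Algebra F E] [IsGalois F E] [RadCl E]

namespace Setup
variable (S : Setup Ω F E)

theorem ll1_exists_orb {l : ℕ} (hl : l.Prime) (hl2 : l ≠ 2) {V : Pl Ω} (hV : V.p ≠ l)
    {H : Subgroup Gal(Ω/ℚ)} (hA : S.Adm l V H) : ∃ W : Pl E, S.Orb l V H W := by
  obtain ⟨hH, y, σ, hD⟩ := hA
  obtain ⟨W, γ, hγ, hm⟩ := S.exOrb hl hl2 hV hH hD
  exact ⟨W, S.orb_of_move hl hH hD.1 hD.2.1 hγ hm⟩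

theorem ll1_isClosed {l : ℕ} (hl : l.Prime) (hl2 : l ≠ 2) {V : Pl Ω} (hV : V.p ≠ l)
    {H : Subgroup Gal(Ω/ℚ)} (hA : S.Adm l V H) (W0 : Pl E) :
    IsClosed {γ : Gal(E/F) | S.Orb l V H (γ • W0)} := by
  obtain ⟨W1, h1⟩ := S.ll1_exists_orb hl hl2 hV hA
  have hG : IsClosed (S.Gam V H : Set Gal(E/F)) := S.isClosed_Gam V (isClosed_of_isOpen hA.1.1)
  have hc : IsClosed {q : Gal(E/F) × Gal(E/F) | q.1 ∈ S.Gam V H ∧ (q.2⁻¹ * q.1) • W1 = W0} :=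
    (hG.preimage continuous_fst).inter
      ((isClosed_smul_eq W1 W0).preimage (continuous_snd.inv.mul continuous_fst))
  have e : {γ : Gal(E/F) | S.Orb l V H (γ • W0)} = Prod.snd ''
      {q : Gal(E/F) × Gal(E/F) | q.1 ∈ S.Gam V H ∧ (q.2⁻¹ * q.1) • W1 = W0} := by
    ext γ
    constructor
    · intro h
      obtain ⟨u, hu, hu'⟩ := S.oneOrb hl hl2 hV hA h1 h
      exact ⟨(u, γ), ⟨hu, by rw [mul_smul, hu', inv_smul_smul]⟩, rfl⟩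
    · rintro ⟨⟨u, γ'⟩, ⟨hu, hu'⟩, rfl⟩
      refine S.orb_of_same ⟨u, hu, ?_⟩ h1
      rw [mul_smul, inv_smul_eq_iff] at hu'
      exact hu'
  rw [e]
  exact (hc.isCompact.image continuous_snd).isClosed

theorem ll1_gam_conj {V : Pl Ω} {H H' : Subgroup Gal(Ω/ℚ)} {t : Gal(Ω/ℚ)} (ht : t ∈ Dec ℚ V)
    (ht' : t ∈ S.G0) (hH : ∀ h, h ∈ H' ↔ t⁻¹ * h * t ∈ H) (δ : Gal(E/F)) :
    δ ∈ S.Gam V H' ↔ (S.α t)⁻¹ * δ * S.α t ∈ S.Gam V H := by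
  constructor
  · rintro ⟨h, ⟨h1, h2⟩, h3, rfl⟩
    refine ⟨t⁻¹ * h * t, ⟨(Dec ℚ V).mul_mem ((Dec ℚ V).mul_mem ((Dec ℚ V).inv_mem ht) h1) ht,
      (hH h).1 h2⟩,
      mul_mem (mul_mem (inv_mem ht') h3) ht', ?_⟩
    have := S.map_conj (inv_mem ht') h3
    rwa [inv_inv, S.map_inv ht', inv_inv] at this
  · rintro ⟨h, ⟨h1, h2⟩, h3, h4⟩
    refine ⟨t * h * t⁻¹, ⟨(Dec ℚ V).mul_mem ((Dec ℚ V).mul_mem ht h1) ((Dec ℚ V).inv_mem ht),
      (hH _).2 ?_⟩,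
      mul_mem (mul_mem ht' h3) (inv_mem ht'), ?_⟩
    · simpa [mul_assoc] using h2
    · rw [S.map_conj ht' h3, h4]
      group

theorem ll1_adm_conj {l : ℕ} (hl : l.Prime) {V : Pl Ω} {H H' : Subgroup Gal(Ω/ℚ)} {t : Gal(Ω/ℚ)}
    (ht : t ∈ Dec ℚ V) (ht' : t ∈ S.G0) (hH : ∀ h, h ∈ H' ↔ t⁻¹ * h * t ∈ H)
    (ho : IsOpen (H' : Set Gal(Ω/ℚ))) (hA : S.Adm l V H) : S.Adm l V H' := by
  obtain ⟨⟨-, hs1, hs2⟩, y, σ, hy0, hy, hσ, hσ', hm⟩ := hA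
  have hl0 : l ≠ 0 := hl.ne_zero
  have e : ∀ h : Gal(Ω/ℚ), h = t * (t⁻¹ * h * t) * t⁻¹ := fun h => by group
  have hs2' : H' ≤ S.pre (FixMu F E l ⊓ FixMu F E 4) := by
    intro h hh
    obtain ⟨a1, a2, a3⟩ := hs2 ((hH h).1 hh)
    rw [e h]
    refine ⟨mul_mem (mul_mem ht' a1) (inv_mem ht'), ?_⟩
    rw [S.map_conj ht' a1]
    exact ⟨(FixMu_normal hl0).conj_mem _ a2 _, (FixMu_normal (by norm_num)).conj_mem _ a3 _⟩
  have hσH : t * σ * t⁻¹ ∈ H' := (hH _).2 (by simpa [mul_assoc] using hσ')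
  refine ⟨⟨ho, fun h hh => ?_, hs2'⟩, S.α t y, t * σ * t⁻¹, (map_ne_zero _).2 hy0,
    mem_L.2 fun γ hγ => ?_, conj_mem_Ine ht hσ, hσH, ?_⟩
  · rw [e h]
    exact (FixMu_normal hl0).conj_mem _ (hs1 ((hH h).1 hh)) _
  · have h1 := mem_L.1 hy _ ((S.ll1_gam_conj ht ht' hH γ).1 hγ)
    have h2 := congrArg (S.α t) h1
    simpa using h2
  · have h1 : rt l (S.α t y) ^ l = (S.α t (rt l y)) ^ l := by
      rw [rt_pow hl0, ← _root_.map_pow, rt_pow hl0]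
    rw [Ne, fix_root_iff hl0 h1 (hs2' hσH).2.1, S.map_conj ht' (hs2 hσ').1]
    intro h2
    refine hm ((S.α t).injective ?_)
    simpa using h2

theorem ll1_orb_conj {l : ℕ} {V : Pl Ω} {H H' : Subgroup Gal(Ω/ℚ)} {u : Gal(E/F)}
    (h : ∀ δ, δ ∈ S.Gam V H' ↔ u⁻¹ * δ * u ∈ S.Gam V H) {W : Pl E} (hW : S.Orb l V H W) :
    S.Orb l V H' (u • W) := by
  obtain ⟨κ, ⟨hκ, N, hN, hN'⟩, γ, hγ, hγ'⟩ := hW
  have hm : ∀ δ, δ ∈ Dec F (u • W) ⊓ S.Gam V H' ↔ u⁻¹ * δ * u ∈ Dec F W ⊓ S.Gam V H := fun δ => by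
    rw [Subgroup.mem_inf, Subgroup.mem_inf, mem_Dec_smul, h]
  refine ⟨fun δ => κ (u⁻¹ * δ * u), ⟨fun x hx y hy => ?_,
    N.comap (MulAut.conj u⁻¹).toMonoidHom, isOpen_conj hN u, fun x hx hxN => ?_⟩,
    u * γ * u⁻¹, (hm _).2 (by simpa [mul_assoc] using hγ), by simpa [mul_assoc] using hγ'⟩
  · have e : u⁻¹ * (x * y) * u = (u⁻¹ * x * u) * (u⁻¹ * y * u) := by group
    change κ (u⁻¹ * (x * y) * u) = _
    rw [e]
    exact hκ _ ((hm x).1 hx) _ ((hm y).1 hy)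
  · exact hN' _ ((hm x).1 hx) (by simpa using hxN)

theorem eq_of_forall_orb {l : ℕ} (hl : l.Prime) (hl2 : l ≠ 2) {V : Pl Ω} (hT : S.Tl l V) {W W' : Pl E}
    (hW : ∀ H, S.Adm l V H → S.Orb l V H W) (hW' : ∀ H, S.Adm l V H → S.Orb l V H W') : W = W' := by
  refine Pl.ext_v fun x => ?_
  obtain ⟨H, hle, hA⟩ := S.admEx hl hl2 hT (S.isOpen_pre (isOpen_stab (F := F) x))
  refine (S.oneOrb hl hl2 hT.1 hA (hW H hA) (hW' H hA)).v_eq (mem_L.2 fun g hg => ?_)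
  exact S.img_le_of_le_pre (inf_le_right.trans hle) hg

theorem exists_forall_orb {l : ℕ} (hl : l.Prime) (hl2 : l ≠ 2) {V : Pl Ω} (hT : S.Tl l V) :
    ∃ W : Pl E, ∀ H, S.Adm l V H → S.Orb l V H W := by
  obtain ⟨H0, -, hA0⟩ := S.admEx hl hl2 hT (H := ⊤) isOpen_univ
  obtain ⟨W0, hW0⟩ := S.ll1_exists_orb hl hl2 hT.1 hA0
  obtain ⟨γ, hγ⟩ := exists_forall_normal (F := ℚ) (E := Ω) (X := Gal(E/F))
    (fun N => {γ | ∀ H, S.Adm l V H → N ≤ H → S.Orb l V H (γ • W0)})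
    (fun N _ _ => by
      simp only [Set.ofPred_forall]
      exact isClosed_iInter fun H => isClosed_iInter fun hA => isClosed_iInter fun _ =>
        S.ll1_isClosed hl hl2 hT.1 hA W0)
    (fun N _ hN => by
      obtain ⟨H3, hle, hA3⟩ := S.admEx hl hl2 hT (isOpen_inf hN hA0.1.1)
      obtain ⟨W3, hW3⟩ := S.ll1_exists_orb hl hl2 hT.1 hA3
      obtain ⟨γ, -, rfl⟩ := S.oneOrb hl hl2 hT.1 hA0 hW0
        (S.orbMono hl hl2 hT.1 hA0 hA3 (hle.trans inf_le_right) hW3)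
      exact ⟨γ, fun H hA hNH =>
        S.orbMono hl hl2 hT.1 hA hA3 ((hle.trans inf_le_left).trans hNH) hW3⟩)
    (fun N N' hle γ hγ H hA hNH => hγ H hA (hle.trans hNH))
  exact ⟨γ • W0, fun H hA => hγ H.normalCore inferInstance (isOpen_normalCore hA.1.1) H hA
    H.normalCore_le⟩

theorem ll1 {l : ℕ} (hl : l.Prime) (hl2 : l ≠ 2) {V : Pl Ω} (hT : S.Tl l V) : ∃ W : Pl E, S.Rel V W := by
  obtain ⟨W, hW⟩ := S.exists_forall_orb hl hl2 hT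
  refine ⟨W, fun t ht ht' => ?_⟩
  refine S.eq_of_forall_orb hl hl2 hT (fun H hA => ?_) hW
  have hA' : S.Adm l V (H.comap (MulAut.conj t⁻¹⁻¹).toMonoidHom) :=
    S.ll1_adm_conj hl (inv_mem ht) (inv_mem ht') (fun h => by simp) (isOpen_conj hA.1.1 t⁻¹) hA
  exact S.ll1_orb_conj (S.ll1_gam_conj ht ht' fun h => by simp [mul_assoc]) (hW _ hA')

theorem ll1_unique {l : ℕ} (hl : l.Prime) (hl2 : l ≠ 2) {V : Pl Ω} (hT : S.Tl l V) {W W' : Pl E}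
    (hW : S.Rel V W) (hW' : S.Rel V W') : W = W' := by
  have key : ∀ {W : Pl E}, S.Rel V W → ∀ H, S.Adm l V H → S.Orb l V H W := by
    rintro W hW H ⟨hH, y, σ, hy0, hy, hσ, hσ', hm⟩
    have h0 : σ ∈ S.G0 := (hH.2.2 hσ').1
    exact S.orb_of_move hl hH hy0 hy ⟨hW σ hσ.1 h0, σ, ⟨hσ.1, hσ'⟩, h0, rfl⟩ hm
  exact S.eq_of_forall_orb hl hl2 hT (key hW) (key hW')

end Setup

end Crest.Agent.R018
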