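import Crest.Agent.R018.AdmEx

/-!
# R018 / LL2

`ll0`: if `κ (α τ) ≠ 0`, let `U'` be open normal inside `U` and killed by `κ`, `n` the order of `α τ` mod `U'`; `l ∣ n`; `σ = τ^{n/l}` witnesses `Tl`.
`ll2`: `frob_cyc` with `lcyc_ine`.
`ll3`: `J = Ine V ⊓ pre (FixMu l)`; `α J ≤ FixMu (l^K)` (`inFix`); `κ_K τ = kum (l^K) ρ_K (α τ)`, `ρ_K^{l^K} = p = W.p` (fixed by all of `Gal(E/F)`); `tame_conj` and `kum_conj`,
`kum_root_indep` give `(cyc (α d) - cyc d) κ_K τ = 0`.  There are `τ ∈ J`, `k0` with `α τ` moving the `l^{k0}`-th roots of `p`: take `(y, σ)` from `admEx`, `x = α σ ∈ Dec W`;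
`y^b = p^a u` with `W.v u = 1` (`Pl.rat_val`), `b = l^j b'`; if `x` fixed `rt (l^{j+1}) p`, then since `x` fixes `rt (l^{j+1}) u` (`frob_cyc` on
`stab y ⊓ FixMu (l^{j+1})`, `Ine_fix_of_pow`), it would fix `(rt l y)^{b'}`, hence `rt l y`.  With `K = k + k0`, `l^{k0} ∤ κ_K τ` (`fix_pow_iff_dvd_kum`), so
`cyc (α d) ≡ cyc d mod l^k` (`cyc_cast`).
-/

set_option autoImplicit false
set_option linter.unusedSectionVars false

noncomputable section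

namespace Crest.Agent.R018

open scoped NNReal Classical

variable {Ω F E : Type*} [Field Ω] [CharZero Ω] [IsAlgClosed Ω] [IsGalois ℚ Ω]
  [Field F] [NumberField F] [Field E] [CharZero E] [Algebra F E] [IsGalois F E] [RadCl E]

namespace Setup
variable (S : Setup Ω F E)

theorem ll0 {l : ℕ} (hl : l.Prime) {V : Pl Ω} (hV : V.p ≠ l) (hT : ¬ S.Tl l V) {U : Subgroup Gal(E/F)}
    (hU : IsOpen (U : Set Gal(E/F))) {k : ℕ} {κ : Gal(E/F) → ZMod (l ^ k)} (hκ : CHom U κ) :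
    ∀ τ ∈ Ine ℚ V, τ ∈ S.pre U → κ (S.α τ) = 0 := by
  intro τ hτ hτU
  by_contra hne
  obtain ⟨N, hN, hN0⟩ := hκ.2
  have hopen := isOpen_normalCore (isOpen_inf hU hN)
  have : (U ⊓ N).normalCore.FiniteIndex := ⟨index_ne_zero_of_isOpen hopen⟩
  have hpow : ∀ m : ℕ, S.α τ ^ m ∈ (U ⊓ N).normalCore ↔
      orderOf (QuotientGroup.mk (S.α τ) : Gal(E/F) ⧸ (U ⊓ N).normalCore) ∣ m := fun m => by
    rw [orderOf_dvd_iff_pow_eq_one, ← QuotientGroup.mk_pow, QuotientGroup.eq_one_iff]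
  have hpos : 0 < orderOf (QuotientGroup.mk (S.α τ) : Gal(E/F) ⧸ (U ⊓ N).normalCore) :=
    orderOf_pos _
  generalize orderOf (QuotientGroup.mk (S.α τ) : Gal(E/F) ⧸ (U ⊓ N).normalCore) = n at hpow hpos
  have h1 := (U ⊓ N).normalCore_le ((hpow n).2 dvd_rfl)
  have h2 := hN0 _ h1.1 h1.2
  rw [hκ.1.map_pow hτU.2, nsmul_eq_mul] at h2
  have h3 : l ∣ n := by
    by_contra h
    have hu : IsUnit (n : ZMod (l ^ k)) := (ZMod.isUnit_iff_coprime _ _).2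
      (Nat.Coprime.pow_right _ ((Nat.Prime.coprime_iff_not_dvd hl).2 h).symm)
    exact hne (hu.mul_right_eq_zero.1 h2)
  obtain ⟨m, rfl⟩ := h3
  have hm : 0 < m := Nat.pos_of_mul_pos_left hpos
  refine hT ⟨hV, (U ⊓ N).normalCore, inferInstance, hopen, τ ^ m, pow_mem hτ m, pow_mem hτU.1 m,
    ?_, ?_⟩
  · rw [S.map_pow hτU.1, hpow]
    intro h
    have := Nat.le_of_dvd hm h
    have := hl.one_lt
    nlinarith
  · rw [S.map_pow hτU.1, ← pow_mul, hpow, mul_comm]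

theorem ll2 {l : ℕ} (hl : l.Prime) (hl2 : l ≠ 2) {V : Pl Ω} (hV : V.p ≠ l) {W : Pl E} (hW : W.p ≠ l)
    (hR : S.Rel V W) {U : Subgroup Gal(E/F)} (hU : IsOpen (U : Set Gal(E/F))) {k : ℕ}
    {κ : Gal(E/F) → ZMod (l ^ k)} (hκ : CHom U κ) (hu : ∀ τ ∈ Ine F W, τ ∈ U → κ τ = 0) :
    ∀ τ ∈ Ine ℚ V, τ ∈ S.pre U → κ (S.α τ) = 0 := by
  have : Fact l.Prime := ⟨hl⟩
  intro τ hτ hτ'
  exact frob_cyc hl2 hU hW (hκ.mono inf_le_right) hu (hR τ (Ine_le_Dec V hτ) hτ'.1) hτ'.2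
    (S.lcyc_ine hl2 hV hτ hτ'.1)

theorem ll2_not_dvd {p l : ℕ} (hp : p.Prime) (hl : l.Prime) (h : p ≠ l) (k : ℕ) : ¬ p ∣ l ^ k :=
  fun hd => h ((Nat.prime_dvd_prime_iff_eq hp hl).1 (hp.dvd_of_dvd_pow hd))

theorem ll2_dvd {l : ℕ} (hl : l.Prime) {k k0 e c : ℕ} (h : l ^ k * l ^ k0 ∣ e * c)
    (hc : ¬ l ^ k0 ∣ c) : l ^ k ∣ e := by
  have hc0 : c ≠ 0 := fun h0 => hc (h0 ▸ dvd_zero _)
  obtain ⟨i, c', hc', rfl⟩ := Nat.exists_eq_pow_mul_and_not_dvd hc0 l hl.ne_one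
  have hi : i ≤ k0 := by
    by_contra hi
    exact hc ((pow_dvd_pow l (not_le.1 hi).le).trans (dvd_mul_right _ _))
  have h1 : l ^ k * l ^ i ∣ e * l ^ i * c' := by
    rw [mul_assoc]
    exact (mul_dvd_mul_left _ (pow_dvd_pow l hi)).trans h
  have h2 : (l ^ k * l ^ i).Coprime c' := by
    rw [← pow_add]
    exact Nat.Coprime.pow_left _ ((Nat.Prime.coprime_iff_not_dvd hl).2 hc')
  exact Nat.dvd_of_mul_dvd_mul_right (pow_pos hl.pos i) (h2.dvd_of_dvd_mul_right h1)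

theorem ll2_move {l : ℕ} (hl : l.Prime) (hl2 : l ≠ 2) {V : Pl Ω} (hT : S.Tl l V) {W : Pl E}
    (hW : W.p ≠ l) (hR : S.Rel V W) : ∃ τ ∈ Ine ℚ V, τ ∈ S.G0 ∧ S.α τ ∈ FixMu F E l ∧
      ∃ k0 : ℕ, S.α τ (rt (l ^ k0) (W.p : E)) ≠ rt (l ^ k0) (W.p : E) := by
  have : Fact l.Prime := ⟨hl⟩
  have := isAlgebraic_rat F E
  obtain ⟨H, -, hs, y, σ, hy0, hyL, hσI, hσH, hmove⟩ :=
    S.admEx hl hl2 hT (H := ⊤) (by simp)
  have hσ0 : σ ∈ S.G0 := (hs.2.2 hσH).1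
  have hσμ : S.α σ ∈ FixMu F E l := (hs.2.2 hσH).2.1
  have hxD : S.α σ ∈ Dec F W := hR σ (Ine_le_Dec V hσI) hσ0
  have hxy : S.α σ y = y := mem_L.1 hyL _ ⟨σ, ⟨Ine_le_Dec V hσI, hσH⟩, hσ0, rfl⟩
  obtain ⟨b, hb, a, hab⟩ := W.rat_val hy0
  obtain ⟨j, b', hb', rfl⟩ := Nat.exists_eq_pow_mul_and_not_dvd hb.ne' l hl.ne_one
  refine ⟨σ, hσI, hσ0, hσμ, j + 1, fun hfix => hmove ?_⟩
  have hN : l ^ (j + 1) ≠ 0 := pow_ne_zero _ hl.ne_zero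
  have hp0 : (W.p : E) ≠ 0 := by exact_mod_cast W.hp.ne_zero
  have hxμ : S.α σ ∈ FixMu F E (l ^ (j + 1)) := S.inFix hl hl2 hT.1 hσI hσ0 hσμ _
  obtain ⟨u, hu⟩ : ∃ u : E, u = y ^ (l ^ j * b') / (W.p : E) ^ a := ⟨_, rfl⟩
  have hu0 : u ≠ 0 := by
    rw [hu]
    exact div_ne_zero (pow_ne_zero _ hy0) (zpow_ne_zero _ hp0)
  have hvu : W.v u = 1 := by
    rw [hu, map_div₀, _root_.map_pow, map_zpow₀, hab]
    exact div_self (zpow_ne_zero _ W.v_p_pos.ne')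
  have hfu : ∀ g : Gal(E/F), g y = y → g u = u := fun g hg => by
    rw [hu, map_div₀, _root_.map_pow, map_zpow₀, map_natCast, hg]
  have hρ := rt_pow hN u
  have hρ0 : rt (l ^ (j + 1)) u ≠ 0 := rt_ne_zero hN hu0
  have hvρ : W.v (rt (l ^ (j + 1)) u) = 1 := by
    have : W.v (rt (l ^ (j + 1)) u) ^ l ^ (j + 1) = 1 := by rw [← _root_.map_pow, hρ, hvu]
    exact (pow_eq_one_iff_of_nonneg (zero_le) hN).1 this
  have h0 : kum (l ^ (j + 1)) (rt (l ^ (j + 1)) u) (S.α σ) = 0 := by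
    refine frob_cyc hl2 (U := stab F y ⊓ FixMu F E (l ^ (j + 1)))
      (isOpen_inf (isOpen_stab y) (isOpen_FixMu _)) hW
      (chom_kum hN hρ0 (fun g hg => hg.2.2) ?_) (fun τ hτ hτ' => ?_) hxD ⟨hxy, hxμ⟩
      (S.lcyc_ine hl2 hT.1 hσI hσ0)
    · rw [hρ]
      exact mem_L.2 fun g hg => hfu g hg.2.1
    · have h1 : τ (rt (l ^ (j + 1)) u ^ l ^ (j + 1)) = rt (l ^ (j + 1)) u ^ l ^ (j + 1) := by
        rw [hρ]
        exact hfu τ hτ'.1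
      exact (kum_eq_zero_iff hN hρ0 h1).2
        (Ine_fix_of_pow (ll2_not_dvd W.hp hl hW _) hτ hvρ h1)
  rw [kum_eq_zero_iff hN hρ0 (by rw [hρ]; exact hfu _ hxy)] at h0
  have h1 : (rt (l ^ (j + 1)) (W.p : E) ^ a * rt (l ^ (j + 1)) u) ^ l ^ (j + 1) =
      (rt l y ^ b') ^ l ^ (j + 1) := by
    rw [mul_pow, hρ, ← zpow_natCast, ← zpow_mul, mul_comm a, zpow_mul, zpow_natCast, rt_pow hN,
      ← pow_mul, show b' * l ^ (j + 1) = l * (l ^ j * b') by ring, pow_mul, rt_pow hl.ne_zero, hu]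
    exact mul_div_cancel₀ _ (zpow_ne_zero _ hp0)
  have h2 : S.α σ (rt l y ^ b') = rt l y ^ b' :=
    (fix_root_iff hN h1 hxμ).1 (by rw [map_mul, map_zpow₀, hfix, h0])
  have hr0 : rt l y ≠ 0 := rt_ne_zero hl.ne_zero hy0
  have h3 : (S.α σ (rt l y) / rt l y) ^ b' = 1 := by
    rw [div_pow, ← _root_.map_pow, h2, div_self (pow_ne_zero _ hr0)]
  have h4 : (S.α σ (rt l y) / rt l y) ^ l = 1 := by
    rw [div_pow, ← _root_.map_pow, rt_pow hl.ne_zero, hxy, div_self hy0]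
  have h5 : orderOf (S.α σ (rt l y) / rt l y) ∣ Nat.gcd l b' :=
    Nat.dvd_gcd (orderOf_dvd_of_pow_eq_one h4) (orderOf_dvd_of_pow_eq_one h3)
  rw [((Nat.Prime.coprime_iff_not_dvd hl).2 hb').gcd_eq_one, Nat.dvd_one, orderOf_eq_one_iff] at h5
  exact (div_eq_one_iff_eq hr0).1 h5

theorem ll3 {l : ℕ} (hl : l.Prime) (hl2 : l ≠ 2) {V : Pl Ω} (hT : S.Tl l V) {W : Pl E} (hW : W.p ≠ l)
    (hR : S.Rel V W) (k : ℕ) {d : Gal(Ω/ℚ)} (hd : d ∈ Dec ℚ V) (hd' : d ∈ S.G0) :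
    cyc (l ^ k) (S.α d) = cyc (l ^ k) d := by
  obtain ⟨τ, hτ, hτ0, hτμ, k0, hmove⟩ := S.ll2_move hl hl2 hT hW hR
  have hM : l ^ k ≠ 0 := pow_ne_zero _ hl.ne_zero
  have hM0 : l ^ k0 ≠ 0 := pow_ne_zero _ hl.ne_zero
  have hN : l ^ k * l ^ k0 ≠ 0 := mul_ne_zero hM hM0
  have : NeZero (l ^ k * l ^ k0) := ⟨hN⟩
  have hp0 : (W.p : E) ≠ 0 := by exact_mod_cast W.hp.ne_zero
  have hρ := rt_pow hN (W.p : E)
  have hρ0 : rt (l ^ k * l ^ k0) (W.p : E) ≠ 0 := rt_ne_zero hN hp0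
  generalize rt (l ^ k * l ^ k0) (W.p : E) = ρ at hρ hρ0
  have hJ : Ine ℚ V ⊓ S.pre (FixMu F E l) ≤ S.pre (FixMu F E (l ^ k * l ^ k0)) := fun g hg =>
    ⟨hg.2.1, by rw [← pow_add]; exact S.inFix hl hl2 hT.1 hg.1 hg.2.1 hg.2.2 _⟩
  have hκ := S.chom_comp hJ (chom_kum hN hρ0 le_rfl (by rw [hρ]; exact natCast_mem _ _))
  have hτJ : τ ∈ Ine ℚ V ⊓ S.pre (FixMu F E l) := ⟨hτ, hτ0, hτμ⟩
  have h1 := tame_conj (by rw [← pow_add]; exact ll2_not_dvd V.hp hl hT.1 _) inf_le_left hκ hd hτJ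
    ⟨conj_mem_Ine hd hτ, S.G0.mul_mem (S.G0.mul_mem hd' hτ0) (S.G0.inv_mem hd'), by
      rw [S.map_conj hd' hτ0]
      exact (FixMu_normal hl.ne_zero).conj_mem _ hτμ _⟩
  have e1 : ((S.α d)⁻¹ ρ) ^ (l ^ k * l ^ k0) = (W.p : E) := by rw [← _root_.map_pow, hρ, map_natCast]
  have e2 : S.α τ (ρ ^ (l ^ k * l ^ k0)) = ρ ^ (l ^ k * l ^ k0) := by rw [hρ, map_natCast]
  rw [S.map_conj hd' hτ0, kum_conj hN hρ0 _ (by rw [e1, map_natCast]),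
    ← kum_root_indep hN hρ0 (hρ.trans e1.symm) (hJ hτJ).2 e2, ← sub_eq_zero, ← sub_mul] at h1
  have h2 : ¬ l ^ k0 ∣ (kum (l ^ k * l ^ k0) ρ (S.α τ)).val := by
    rw [← fix_pow_iff_dvd_kum hM hM0 hρ0 e2,
      fix_root_iff hM0 (ρ' := rt (l ^ k0) (W.p : E)) (by rw [← pow_mul, hρ, rt_pow hM0])
        (S.inFix hl hl2 hT.1 hτ hτ0 hτμ _)]
    exact hmove
  have h3 : l ^ k * l ^ k0 ∣ (cyc (l ^ k * l ^ k0) (S.α d) - cyc (l ^ k * l ^ k0) d).val *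
      (kum (l ^ k * l ^ k0) ρ (S.α τ)).val := by
    rw [← ZMod.natCast_eq_zero_iff, Nat.cast_mul, ZMod.natCast_zmod_val, ZMod.natCast_zmod_val, h1]
  have h4 := ll2_dvd hl h3 h2
  rw [← sub_eq_zero, ← cyc_cast (dvd_mul_right (l ^ k) (l ^ k0)) hN,
    ← cyc_cast (dvd_mul_right (l ^ k) (l ^ k0)) hN, ← map_sub, ZMod.castHom_apply,
    ZMod.cast_eq_val, ZMod.natCast_eq_zero_iff]
  exact h4

theorem ll3_one {l : ℕ} (hl : l.Prime) (hl2 : l ≠ 2) {V : Pl Ω} (hT : S.Tl l V) {W : Pl E} (hW : W.p ≠ l)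
    (hR : S.Rel V W) {d : Gal(Ω/ℚ)} (hd : d ∈ Dec ℚ V) (hd' : d ∈ S.G0) :
    cyc l (S.α d) = cyc l d := by
  have := S.ll3 hl hl2 hT hW hR 1 hd hd'
  rwa [pow_one] at this

end Setup

end Crest.Agent.R018
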