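import Crest.Agent.R018.Nm

/-!
# R018 / H90

Hilbert 90 for continuous cocycles on an arbitrary subgroup `J`, and Kummer theory.
Proof of `h90`: take `N0 ≤ N` open normal, a finite set `s` of representatives of `J / (J ⊓ N0)`, and the resolvent
`b θ = ∑_{t ∈ s} c t * t θ` for `θ ∈ L N0`.  For `g ∈ J`: `g (b θ) = (c g)⁻¹ * b θ` (`g t = t' n`, `c (t' n) = c t'`).
The restrictions of the `t ∈ s` to `L N0` are distinct (`mem_of_fix_L`), hence linearly independent
(`linearIndependent_monoidHom`), so `b θ ≠ 0` for some `θ`; take the inverse.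
-/

set_option autoImplicit false
set_option linter.unusedSectionVars false

noncomputable section

namespace Crest.Agent.R018

open scoped NNReal Classical

variable {F E : Type*} [Field F] [NumberField F] [Field E] [CharZero E] [Algebra F E]
  [IsGalois F E]

theorem h90 (J : Subgroup Gal(E/F)) (c : Gal(E/F) → Eˣ)
    (hc : ∀ g ∈ J, ∀ h ∈ J, c (g * h) = c g * g • c h)
    (N : Subgroup Gal(E/F)) (hN : IsOpen (N : Set Gal(E/F))) (h1 : ∀ g ∈ J, g ∈ N → c g = 1) :
    ∃ b : Eˣ, ∀ g ∈ J, c g = g • b / b := by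
  set N0 := N.normalCore with hN0
  have hopen : IsOpen (N0 : Set Gal(E/F)) := isOpen_normalCore hN
  have hle : N0 ≤ N := N.normalCore_le
  obtain ⟨s, hs1, hsJ, hrep, -⟩ := exists_reps (H' := N0) (H := J) (relIndex_ne_zero_of_isOpen hopen J)
  have huniq : ∀ t ∈ s, ∀ t' ∈ s, t⁻¹ * t' ∈ N0 → t = t' := by
    intro t ht t' ht' h
    exact (hrep t' (hsJ t' ht')).unique ⟨ht, h⟩ ⟨ht', by simp⟩
  -- a non-zero resolvent
  obtain ⟨θ, hθ⟩ : ∃ θ : L N0, ∑ t ∈ s, (c t : E) * t θ ≠ 0 := by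
    by_contra hall
    push Not at hall
    let φ : s → (L N0 →* E) := fun t => ((t : Gal(E/F)) : E →* E).comp ((L N0).val : L N0 →* E)
    have hφ : Function.Injective φ := by
      intro t t' htt
      refine Subtype.ext (huniq _ t.2 _ t'.2 (mem_of_fix_L (isClosed_of_isOpen hopen) fun x hx => ?_))
      have h : (t : Gal(E/F)) x = (t' : Gal(E/F)) x := DFunLike.congr_fun htt ⟨x, hx⟩
      rw [AlgEquiv.mul_apply, ← h]
      exact (t : Gal(E/F)).symm_apply_apply x
    have hli := (linearIndependent_monoidHom (L N0) E).comp φ hφ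
    have h0 := linearIndependent_iff'.1 hli Finset.univ (fun t => (c t : E)) (by
      funext θ
      rw [Finset.sum_apply, Pi.zero_apply, ← hall θ, ← Finset.sum_coe_sort s]
      rfl) ⟨1, hs1⟩ (Finset.mem_univ _)
    exact (c 1).ne_zero h0
  have hcos : ∀ t ∈ J, ∀ t' ∈ J, t⁻¹ * t' ∈ N0 → (c t : E) * t θ = (c t' : E) * t' θ := by
    intro t ht t' ht' h
    have hJ : t⁻¹ * t' ∈ J := J.mul_mem (J.inv_mem ht) ht'
    have e1 := hc t ht _ hJ
    rw [mul_inv_cancel_left, h1 _ hJ (hle h), smul_one, mul_one] at e1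
    have e2 : t ((t⁻¹ * t') θ) = t' θ := by rw [← AlgEquiv.mul_apply, mul_inv_cancel_left]
    rw [e1, ← e2, mem_L.1 θ.2 _ h]
  choose! r hr using fun h hh => (hrep h hh).exists
  have key : ∀ g ∈ J, (c g : E) * g (∑ t ∈ s, (c t : E) * t θ) = ∑ t ∈ s, (c t : E) * t θ := by
    intro g hg
    have hg' := J.inv_mem hg
    have hback : ∀ g ∈ J, ∀ t ∈ s, r (g⁻¹ * r (g * t)) = t := by
      intro g hg t ht
      have h2 := hr _ (J.mul_mem hg (hsJ t ht))
      have h3 := hr _ (J.mul_mem (J.inv_mem hg) (hsJ _ h2.1))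
      refine huniq _ h3.1 _ ht ?_
      have := N0.mul_mem h3.2 h2.2
      simpa [mul_assoc] using this
    rw [map_sum, Finset.mul_sum]
    refine Finset.sum_nbij' (fun t => r (g * t)) (fun t => r (g⁻¹ * t)) (fun t ht => ?_) (fun t ht => ?_)
      (fun t ht => hback g hg t ht) (fun t ht => ?_) (fun t ht => ?_)
    · exact (hr _ (J.mul_mem hg (hsJ t ht))).1
    · exact (hr _ (J.mul_mem hg' (hsJ t ht))).1
    · have := hback g⁻¹ hg' t ht
      rwa [inv_inv] at this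
    · have h2 := hr _ (J.mul_mem hg (hsJ t ht))
      rw [hcos _ (hsJ _ h2.1) _ (J.mul_mem hg (hsJ t ht)) h2.2, hc g hg t (hsJ t ht), map_mul,
        Units.val_mul, coe_smul_units, AlgEquiv.mul_apply, mul_assoc]
  refine ⟨(Units.mk0 _ hθ)⁻¹, fun g hg => ?_⟩
  rw [smul_inv', div_inv_eq_mul, eq_inv_mul_iff_mul_eq, mul_comm]
  exact Units.ext (key g hg)

/-- cocycles with values in `μ_N` (use `c g = ζ ^ (f g).val`, shrink the open subgroup). -/
theorem h90_mu [RadCl E] {N : ℕ} (hN : N ≠ 0) (J : Subgroup Gal(E/F)) (f : Gal(E/F) → ZMod N)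
    (hf : ∀ g ∈ J, ∀ h ∈ J, f (g * h) = f g + cyc N g * f h) (hz : LocZ J f) :
    ∃ ρ : E, ρ ≠ 0 ∧ ρ ^ N ∈ L J ∧ ∀ g ∈ J, kum N ρ g = f g := by
  have : NeZero N := ⟨hN⟩
  have hζ := zeta_prim (E := E) hN
  have hζ0 : zeta E N ≠ 0 := hζ.ne_zero hN
  have hpow : ∀ a b : ℕ, (a : ZMod N) = b → zeta E N ^ a = zeta E N ^ b := by
    intro a b hab
    rw [pow_eq_pow_mod a hζ.pow_eq_one, pow_eq_pow_mod b hζ.pow_eq_one,
      (ZMod.natCast_eq_natCast_iff' a b N).1 hab]
  obtain ⟨U, hU, hU'⟩ := hz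
  obtain ⟨b, hb⟩ := h90 J (fun g => Units.mk0 _ hζ0 ^ (f g).val) (fun g hg h hh => Units.ext (by
    rw [Units.val_mul, coe_smul_units, Units.val_pow_eq_pow_val, Units.val_pow_eq_pow_val,
      Units.val_pow_eq_pow_val, Units.val_mk0, map_pow, cyc_zeta hN, ← pow_mul, ← pow_add]
    refine hpow _ _ ?_
    rw [hf g hg h hh]
    simp)) U hU (fun g hg hgU => by rw [hU' g hg hgU, ZMod.val_zero, pow_zero])
  have hb' : ∀ g ∈ J, g (b : E) = zeta E N ^ (f g).val * b := by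
    intro g hg
    have := congrArg Units.val (eq_div_iff_mul_eq'.1 (hb g hg))
    simpa using this.symm
  refine ⟨b, b.ne_zero, mem_L.2 fun g hg => ?_, fun g hg => ?_⟩
  · rw [map_pow, hb' g hg, mul_pow, ← pow_mul, mul_comm _ N, pow_mul, hζ.pow_eq_one, one_pow, one_mul]
  · rw [kum_eq_of hN b.ne_zero (hb' g hg), ZMod.natCast_zmod_val]

/-- Kummer theory. -/
theorem kummer [RadCl E] {N : ℕ} (hN : N ≠ 0) {J : Subgroup Gal(E/F)} (hJ : J ≤ FixMu F E N)
    {f : Gal(E/F) → ZMod N} (hf : CHom J f) :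
    ∃ ρ : E, ρ ≠ 0 ∧ ρ ^ N ∈ L J ∧ ∀ g ∈ J, kum N ρ g = f g := by
  refine h90_mu hN J f (fun g hg h hh => ?_) hf.2
  rw [(mem_FixMu_iff hN).1 (hJ hg), one_mul, hf.1 g hg h hh]

/-- classical Hilbert 90 (`c (σ^i h') = ∏_{j<i} σ^j x`). -/
theorem h90_cyc {H H' : Subgroup Gal(E/F)} {σ : Gal(E/F)} {n : ℕ} (h : CycExt H H' σ n) {x : Eˣ}
    (hx : x ∈ LU H') (h1 : nr Eˣ σ n x = 1) : ∃ z ∈ LU H', x = σ • z / z := by
  have : NeZero n := ⟨h.ne_zero⟩
  obtain ⟨χ, ⟨hχ, -⟩, hσ, hker⟩ := h.exists_chi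
  have hx' : ∀ g ∈ H', g • x = x := mem_LU_iff_smul.1 hx
  let P : ℕ → Eˣ := fun i => ∏ j ∈ Finset.range i, σ ^ j • x
  have hPn : P n = 1 := by rw [← h1, nr_apply]
  have hPadd : ∀ i k, P (i + k) = P i * σ ^ i • P k := by
    intro i k
    simp only [P]
    rw [Finset.prod_range_add, Finset.smul_prod']
    congr 1
    refine Finset.prod_congr rfl fun j _ => ?_
    rw [pow_add, mul_smul]
  have hPper : ∀ i k, P (i + n * k) = P i := by
    intro i k
    induction k with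
    | zero => simp
    | succ k ih => rw [mul_add, mul_one, ← add_assoc, hPadd, hPn, smul_one, mul_one, ih]
  have hPmod : ∀ a b : ℕ, (a : ZMod n) = b → P a = P b := by
    intro a b hab
    rw [← Nat.mod_add_div a n, ← Nat.mod_add_div b n, hPper, hPper, (ZMod.natCast_eq_natCast_iff' a b n).1 hab]
  have hPfix : ∀ i, ∀ g ∈ H', g • P i = P i := by
    intro i g hg
    simp only [P]
    rw [Finset.smul_prod']
    exact Finset.prod_congr rfl fun j _ => h.smul_fixed hx' (H.pow_mem h.mem j) g hg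
  have hχpow : ∀ i : ℕ, χ (σ ^ i) = i := by
    intro i
    induction i with
    | zero => rw [pow_zero, Nat.cast_zero]; exact (hker 1 H.one_mem).2 H'.one_mem
    | succ i ih => rw [pow_succ, hχ _ (H.pow_mem h.mem i) _ h.mem, ih, hσ, Nat.cast_succ]
  have hact : ∀ g ∈ H, ∀ i, g • P i = σ ^ (χ g).val • P i := by
    intro g hg i
    have hm : (σ ^ (χ g).val)⁻¹ * g ∈ H := H.mul_mem (H.inv_mem (H.pow_mem h.mem _)) hg
    have e := hχ _ (H.pow_mem h.mem (χ g).val) _ hm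
    rw [mul_inv_cancel_left, hχpow, ZMod.natCast_zmod_val, left_eq_add] at e
    conv_rhs => rw [← hPfix i _ ((hker _ hm).1 e), ← mul_smul, mul_inv_cancel_left]
  obtain ⟨b, hb⟩ := h90 H (fun g => P (χ g).val) (fun g hg g' hg' => by
    rw [hact g hg, ← hPadd]
    refine hPmod _ _ ?_
    rw [hχ g hg g' hg']
    simp) H' h.isOpen (fun g hg hg' => by rw [(hker g hg).2 hg', ZMod.val_zero]; simp [P])
  refine ⟨b, mem_LU_iff_smul.2 fun g hg => ?_, ?_⟩
  · have e := hb g (h.le hg)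
    rw [(hker g (h.le hg)).2 hg, ZMod.val_zero] at e
    have e2 : P 0 = 1 := by simp [P]
    rw [e2] at e
    exact div_eq_one.1 e.symm
  · rw [← hb σ h.mem, hPmod (χ σ).val 1 (by rw [ZMod.natCast_zmod_val, hσ, Nat.cast_one])]
    simp only [P, Finset.prod_range_one, pow_zero, one_smul]

end Crest.Agent.R018
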