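import Crest.Agent.R018.Bridge
import Crest.Agent.R018.Nm

/-!
# R018 / UnitA

(Unit) Structure of the units of `K = L H'` as a module over the cyclic group `H / H'`, `k = L H ∋ √-1`.
`SU H' ∅` is the image of `(𝓞 K)ˣ` (`isIntegral_of_v_le_one`, `Pl.v_le_one_of_isIntegral`).  `K` is totally complex with
`n r` infinite places (`r = deg H / 2`, `deg H' = n deg H`), `σ` permutes them freely (if `σ^i` fixes the place of `φ : K → ℂ` then
`φ σ^i = φ` or `conj φ`; the latter is impossible as `σ^i` fixes `√-1`), so there are `r` orbits `w_j`.  Choose units `u_j` with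
`w (u_j) < 1` for all `w ≠ w_j` (`NumberField.Units.dirichletUnitTheorem.exists_unit`).  The family `σ^i u_j` is indexed by the infinite
places; the matrix of `log w (σ^i u_j)` has negative off-diagonal entries and zero row sums (product formula,
`NumberField.Units.sum_mult_mul_log`), so it has rank `n r - 1` (`rank_neg_offdiag`) `= Units.rank K`.  Hence the closure has finite index
(log-embedding has finite kernel `torsion`; compare ranks), and the relation module `R ≤ ℤ^{r n}` has rank one (it is not of rank `0` since the unit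
rank is `n r - 1`).  The `r` units `∏_i σ^i u_j` lie in `k`, whose unit rank is `r - 1`, so there is a nonzero relation constant in `i`;
as `R` is torsion free of rank one (infinite cyclic), all relations are constant in `i`, and `R = ℤ κ`.
-/

set_option autoImplicit false
set_option linter.unusedSectionVars false

noncomputable section

namespace Crest.Agent.R018

open scoped NNReal Classical

variable {F E : Type*} [Field F] [NumberField F] [Field E] [CharZero E] [Algebra F E]
  [IsGalois F E] [RadCl E]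
variable {H H' : Subgroup Gal(E/F)} {σ : Gal(E/F)} {n : ℕ} {π : E}

theorem ua_sign {X : Type*} [Fintype X] [DecidableEq X] (A : X → X → ℝ)
    (hneg : ∀ x y, x ≠ y → A x y < 0) (hsum : ∀ x, ∑ y, A x y = 0) (c : X → ℝ)
    (hc : ∀ y, ∑ x, c x * A x y = 0) : (∀ x, 0 < c x) ∨ ∀ x, c x ≤ 0 := by
  by_contra hcon
  push Not at hcon
  obtain ⟨⟨x1, h1⟩, x2, h2⟩ := hcon
  set P : Finset X := Finset.univ.filter fun x => 0 < c x with hP
  have hmem : ∀ x, x ∈ P ↔ 0 < c x := fun x => by simp [hP]
  have h0 : ∑ x, c x * ∑ y ∈ P, A x y = 0 := by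
    simp_rw [Finset.mul_sum]
    rw [Finset.sum_comm]
    exact Finset.sum_eq_zero fun y _ => hc y
  have hin : ∀ x, 0 < c x → 0 < ∑ y ∈ P, A x y := by
    intro x hx
    have h3 := hsum x
    rw [← Finset.sum_add_sum_compl P] at h3
    have h4 : ∑ y ∈ Pᶜ, A x y < 0 := by
      refine Finset.sum_neg (fun y hy => hneg x y ?_) ⟨x1, ?_⟩
      · rintro rfl
        exact (Finset.mem_compl.1 hy) ((hmem x).2 hx)
      · exact Finset.mem_compl.2 fun h => absurd ((hmem x1).1 h) (not_lt.2 h1)
    linarith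
  have hpos : 0 < ∑ x, c x * ∑ y ∈ P, A x y := by
    refine Finset.sum_pos' (fun x _ => ?_) ⟨x2, Finset.mem_univ _, mul_pos h2 (hin x2 h2)⟩
    rcases lt_or_ge 0 (c x) with hx | hx
    · exact (mul_pos hx (hin x hx)).le
    · refine mul_nonneg_of_nonpos_of_nonpos hx (Finset.sum_nonpos fun y hy => (hneg x y ?_).le)
      rintro rfl
      exact absurd ((hmem x).1 hy) (not_lt.2 hx)
  exact hpos.ne' h0

/-- Minkowski's lemma: any `|X| - 1` rows are independent. -/
theorem rank_neg_offdiag {X : Type*} [Fintype X] [DecidableEq X] (A : X → X → ℝ)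
    (hneg : ∀ x y, x ≠ y → A x y < 0) (hsum : ∀ x, ∑ y, A x y = 0) (x0 : X) (c : X → ℝ)
    (hc0 : c x0 = 0) (hc : ∀ y, ∑ x, c x * A x y = 0) : c = 0 := by
  funext x
  rcases ua_sign A hneg hsum c hc with h1 | h1
  · exact absurd hc0 (h1 x0).ne'
  · rcases ua_sign A hneg hsum (-c) (fun y => by
      simp only [Pi.neg_apply, neg_mul, Finset.sum_neg_distrib, hc y, neg_zero]) with h2 | h2
    · have := h2 x0
      rw [Pi.neg_apply, hc0, neg_zero] at this
      exact absurd this (lt_irrefl _)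
    · exact le_antisymm (h1 x) (by simpa using h2 x)

/-- orbits of a free action of a finite cyclic group. -/
theorem ua_orbits {X : Type*} [Fintype X] (ρ : Equiv.Perm X) {n r : ℕ} (hn : n ≠ 0)
    (h1 : ρ ^ n = 1) (hfree : ∀ (x : X) (i : ℕ), (ρ ^ i) x = x → n ∣ i)
    (hcard : Fintype.card X = r * n) :
    ∃ w : Fin r → X, Function.Bijective fun p : Fin r × Fin n => (ρ ^ (p.2 : ℕ)) (w p.1) := by
  let Q := Quotient (Equiv.Perm.SameCycle.setoid ρ)
  have hb : Function.Bijective fun p : Q × Fin n => (ρ ^ (p.2 : ℕ)) p.1.out := by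
    constructor
    · rintro ⟨q, i⟩ ⟨q', i'⟩ h
      simp only at h
      have hq : q = q' := by
        rw [← q.out_eq, ← q'.out_eq]
        refine Quotient.sound ?_
        change ρ.SameCycle q.out q'.out
        have a1 : ρ.SameCycle q.out ((ρ ^ (i : ℕ)) q.out) := ⟨(i : ℕ), by rw [zpow_natCast]⟩
        have a2 : ρ.SameCycle q'.out ((ρ ^ (i' : ℕ)) q'.out) := ⟨(i' : ℕ), by rw [zpow_natCast]⟩
        exact a1.trans (h ▸ a2.symm)
      subst hq
      have key : ∀ a b : Fin n, a ≤ b → (ρ ^ (a : ℕ)) q.out = (ρ ^ (b : ℕ)) q.out → a = b := by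
        intro a b hab e
        obtain ⟨d, hd⟩ := Nat.exists_eq_add_of_le (show (a : ℕ) ≤ b from hab)
        rw [hd, pow_add, Equiv.Perm.mul_apply] at e
        have h2 := hfree _ d ((ρ ^ (a : ℕ)).injective e).symm
        have h3 : d = 0 := Nat.eq_zero_of_dvd_of_lt h2 (by have := b.2; omega)
        exact Fin.ext (by omega)
      rcases le_total i i' with hi | hi
      · rw [key i i' hi h]
      · rw [key i' i hi h.symm]
    · intro x
      have hx : ρ.SameCycle (Quotient.mk (Equiv.Perm.SameCycle.setoid ρ) x).out x :=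
        Quotient.mk_out (s := Equiv.Perm.SameCycle.setoid ρ) x
      obtain ⟨i, -, hi⟩ := hx.exists_pow_eq'
      refine ⟨(Quotient.mk _ x, ⟨i % n, Nat.mod_lt _ (Nat.pos_of_ne_zero hn)⟩), ?_⟩
      simp only
      rw [← pow_eq_pow_mod i h1, hi]
  have : Fintype Q := Fintype.ofFinite Q
  have hc := Fintype.card_of_bijective hb
  rw [Fintype.card_prod, Fintype.card_fin, hcard] at hc
  let e : Q ≃ Fin r := Fintype.equivFinOfCardEq (Nat.eq_of_mul_eq_mul_right (Nat.pos_of_ne_zero hn) hc)
  exact ⟨fun j => (e.symm j).out, hb.comp (e.symm.prodCongr (Equiv.refl (Fin n))).bijective⟩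

/-- `m + 1` elements of a group of rank `m` all of whose relations have a sign. -/
theorem ua_group {U ι : Type*} [CommGroup U] [Module.Finite ℤ (Additive U)] [Fintype ι]
    (hr : Module.finrank ℤ (Additive U) + 1 = Fintype.card ι) (v : ι → U)
    (hsign : ∀ c : ι → ℤ, ∏ p, v p ^ c p = 1 → (∀ p, 0 < c p) ∨ ∀ p, c p ≤ 0) :
    (Subgroup.closure (Set.range v)).index ≠ 0 ∧
      (∀ c : ι → ℤ, ∏ p, v p ^ c p = 1 → ∑ p, c p = 0 → c = 0) ∧
      ∃ κ : ι → ℤ, κ ≠ 0 ∧ ∀ c : ι → ℤ, (∏ p, v p ^ c p = 1 ↔ ∃ t : ℤ, c = t • κ) := by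
  obtain ⟨p0⟩ : Nonempty ι := Fintype.card_pos_iff.1 (by omega)
  let b : ι → Additive U := fun p => Additive.ofMul (v p)
  let Φ : (ι → ℤ) →ₗ[ℤ] Additive U := Fintype.linearCombination ℤ b
  have hΦ : ∀ c : ι → ℤ, ∏ p, v p ^ c p = 1 ↔ Φ c = 0 := fun c => by
    rw [← ofMul_eq_zero, ofMul_prod]
    simp only [ofMul_zpow, Φ, Fintype.linearCombination_apply, b]
  have hs : ∀ c : ι → ℤ, Φ c = 0 → (∀ p, 0 < c p) ∨ (∀ p, c p < 0) ∨ c = 0 := by
    intro c hc
    rcases hsign c ((hΦ c).2 hc) with h1 | h1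
    · exact Or.inl h1
    · rcases hsign (-c) ((hΦ _).2 (by rw [map_neg, hc, neg_zero])) with h2 | h2
      · exact Or.inr (Or.inl fun p => by simpa using h2 p)
      · exact Or.inr (Or.inr (funext fun p => le_antisymm (h1 p) (by simpa using h2 p)))
  have hz : ∀ c : ι → ℤ, Φ c = 0 → c p0 = 0 → c = 0 := by
    intro c hc h0
    rcases hs c hc with h1 | h1 | h1
    · exact absurd h0 (h1 p0).ne'
    · exact absurd h0 (h1 p0).ne
    · exact h1
  refine ⟨?_, fun c hc h0 => ?_, ?_⟩
  · have hli : LinearIndependent ℤ (fun p : {p // p ≠ p0} => b p) := by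
      rw [Fintype.linearIndependent_iff]
      intro g hg p
      let c : ι → ℤ := fun q => if h : q ≠ p0 then g ⟨q, h⟩ else 0
      have hc0 : c p0 = 0 := by simp [c]
      have hc : Φ c = 0 := by
        rw [Fintype.linearCombination_apply, Fintype.sum_eq_add_sum_subtype_ne _ p0, hc0, zero_smul,
          zero_add, ← hg]
        exact Finset.sum_congr rfl fun q _ => by simp only [c, dif_pos q.2]
      have := congrFun (hz c hc hc0) p
      simpa only [c, dif_pos p.2, Pi.zero_apply] using this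
    let N : Submodule ℤ (Additive U) := Submodule.span ℤ (Set.range b)
    have h1 : Fintype.card {p // p ≠ p0} ≤ Module.finrank ℤ N := by
      rw [← finrank_span_eq_card hli]
      exact Submodule.finrank_mono (Submodule.span_mono (by rintro _ ⟨p, rfl⟩; exact ⟨p, rfl⟩))
    rw [Fintype.card_subtype_compl, Fintype.card_subtype_eq] at h1
    have h2 := Submodule.finrank_quotient_add_finrank N
    have h3 : Finite (Additive U ⧸ N) :=
      Module.finite_of_fg_torsion _ (Module.finrank_eq_zero_iff_isTorsion.1 (by omega))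
    have h4 : (Subgroup.closure (Set.range v)).toAddSubgroup = N.toAddSubgroup := by
      rw [Subgroup.toAddSubgroup_closure, Submodule.span_int_eq_addSubgroupClosure]
      rfl
    rw [← Subgroup.index_toAddSubgroup, h4]
    exact @AddSubgroup.index_ne_zero_of_finite _ _ _ h3
  · have : Nonempty ι := ⟨p0⟩
    rcases hs c ((hΦ c).1 hc) with h1 | h1 | h1
    · exact absurd h0 (Finset.sum_pos (fun p _ => h1 p) Finset.univ_nonempty).ne'
    · exact absurd h0 (Finset.sum_neg (fun p _ => h1 p) Finset.univ_nonempty).ne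
    · exact h1
  · obtain ⟨a, ha⟩ := Int.subgroup_cyclic
      ((LinearMap.ker Φ).toAddSubgroup.map (Pi.evalAddMonoidHom (fun _ : ι => ℤ) p0))
    obtain ⟨κ, hκ, hκa⟩ : a ∈ (LinearMap.ker Φ).toAddSubgroup.map
        (Pi.evalAddMonoidHom (fun _ : ι => ℤ) p0) := by
      rw [ha]; exact AddSubgroup.subset_closure rfl
    have hκ' : Φ κ = 0 := hκ
    have hκa' : κ p0 = a := hκa
    have hall : ∀ c : ι → ℤ, Φ c = 0 → ∃ t : ℤ, c = t • κ := by
      intro c hc
      have : c p0 ∈ AddSubgroup.closure {a} := ha ▸ ⟨c, hc, rfl⟩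
      obtain ⟨t, ht⟩ := AddSubgroup.mem_closure_singleton.1 this
      refine ⟨t, sub_eq_zero.1 (hz _ ?_ ?_)⟩
      · rw [map_sub, map_smul, hc, hκ', smul_zero, sub_zero]
      · rw [Pi.sub_apply, Pi.smul_apply, hκa', ht, sub_self]
    refine ⟨κ, fun h0 => ?_, fun c => ⟨fun hc => hall c ((hΦ c).1 hc), ?_⟩⟩
    · have hli : LinearIndependent ℤ b := by
        rw [Fintype.linearIndependent_iff]
        intro g hg p
        obtain ⟨t, ht⟩ := hall g hg
        rw [ht, h0, smul_zero, Pi.zero_apply]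
      have := hli.fintype_card_le_finrank
      omega
    · rintro ⟨t, rfl⟩
      rw [hΦ, map_smul, hκ', smul_zero]

open NumberField in
/-- Minkowski units for an automorphism permuting the infinite places freely. -/
theorem ua_field {k K : Type*} [Field k] [Field K] [NumberField K] [Algebra k K] (s : K ≃ₐ[k] K)
    {n r : ℕ} (hn : n ≠ 0) (h1 : s ^ n = 1)
    (hfree : ∀ (w : InfinitePlace K) (i : ℕ), s ^ i • w = w → n ∣ i)
    (hcard : Fintype.card (InfinitePlace K) = r * n) :
    ∃ (u : Fin r → (𝓞 K)ˣ) (v : Fin r × Fin n → (𝓞 K)ˣ),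
      (∀ p, (v p : K) = (s ^ (p.2 : ℕ)) (u p.1 : K)) ∧ (Subgroup.closure (Set.range v)).index ≠ 0 ∧
      ∃ κ : Fin r → ℤ, κ ≠ 0 ∧ ∀ c : Fin r × Fin n → ℤ,
        (∏ p, v p ^ c p = 1 ↔ ∃ t : ℤ, ∀ p, c p = t * κ p.1) := by
  let ρ : Equiv.Perm (InfinitePlace K) := MulAction.toPermHom (K ≃ₐ[k] K) (InfinitePlace K) s
  have hρ : ∀ (i : ℕ) (w : InfinitePlace K), (ρ ^ i) w = s ^ i • w := fun i w => by
    rw [← map_pow]; rfl
  obtain ⟨w, hw⟩ := ua_orbits ρ hn (by rw [← map_pow, h1, map_one])
    (fun x i h => hfree x i (by rw [← hρ, h])) hcard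
  simp only [hρ] at hw
  choose u hu using fun j => Units.dirichletUnitTheorem.exists_unit K (w j)
  let T : (K ≃ₐ[k] K) → (𝓞 K)ˣ →* (𝓞 K)ˣ := fun g =>
    Units.map (RingOfIntegers.mapRingHom (g : K →+* K)).toMonoidHom
  have hT : ∀ g x, ((T g x : (𝓞 K)ˣ) : K) = g (x : K) := fun _ _ => rfl
  let v : Fin r × Fin n → (𝓞 K)ˣ := fun p => T (s ^ (p.2 : ℕ)) (u p.1)
  let lg : InfinitePlace K → Additive (𝓞 K)ˣ →+ ℝ := fun y =>
    { toFun := fun x => y.mult * Real.log (y (x.toMul : K))
      map_zero' := by simp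
      map_add' := fun a b => by
        rw [toMul_add, Units.coe_mul, map_mul, Real.log_mul (Units.pos_at_place _ _).ne'
          (Units.pos_at_place _ _).ne', mul_add] }
  have hlg : ∀ y (x : (𝓞 K)ˣ), lg y (Additive.ofMul x) = y.mult * Real.log (y (x : K)) :=
    fun _ _ => rfl
  obtain ⟨g1, g2, κ, hκ0, hκ⟩ := ua_group (U := (𝓞 K)ˣ) (ι := Fin r × Fin n) (by
      rw [Units.finrank_eq, Units.rank, Fintype.card_prod, Fintype.card_fin, Fintype.card_fin,
        ← hcard]
      have := Fintype.card_pos (α := InfinitePlace K)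
      omega) v (by
      intro c hc
      have := ua_sign (fun p q : Fin r × Fin n => lg (s ^ (q.2 : ℕ) • w q.1) (Additive.ofMul (v p)))
        (fun p q hpq => ?_) (fun p => ?_) (fun p => (c p : ℝ)) fun q => ?_
      · simpa using this
      · rw [hlg]
        refine mul_neg_of_pos_of_neg (by exact_mod_cast InfinitePlace.mult_pos) ?_
        have h2 := hu p.1 ((s ^ (p.2 : ℕ))⁻¹ • s ^ (q.2 : ℕ) • w q.1) fun h0 =>
          hpq (hw.1 (inv_smul_eq_iff.1 h0).symm)
        exact h2
      · rw [hw.sum_comp (fun y => lg y (Additive.ofMul (v p)))]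
        exact Units.sum_mult_mul_log (v p)
      · have h3 := congrArg (fun x => lg (s ^ (q.2 : ℕ) • w q.1) (Additive.ofMul x)) hc
        simp only [ofMul_prod, ofMul_zpow, map_sum, map_zsmul, ofMul_one, map_zero,
          zsmul_eq_mul] at h3
        exact h3)
  obtain ⟨m, rfl⟩ := Nat.exists_eq_succ_of_ne_zero hn
  let sh : Fin r × Fin (m + 1) ≃ Fin r × Fin (m + 1) := (Equiv.refl _).prodCongr (Equiv.addRight 1)
  have hsh : ∀ p, v (sh p) = T s (v p) := by
    rintro ⟨j, i⟩
    apply Units.coe_injective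
    change (s ^ ((i + 1 : Fin (m + 1)) : ℕ)) (u j : K) = s ((s ^ (i : ℕ)) (u j : K))
    rw [Fin.val_add, ← pow_eq_pow_mod _ h1, pow_add, Fin.val_one', ← pow_eq_pow_mod _ h1, pow_one,
      ← pow_succ, pow_succ', AlgEquiv.mul_apply]
  have hκrel : ∏ p, v p ^ κ p = 1 := (hκ κ).2 ⟨1, (one_smul _ _).symm⟩
  have hinv : ∀ p, κ (sh p) = κ p := by
    have h2 : ∏ p, v p ^ κ (sh.symm p) = 1 := by
      rw [← sh.prod_comp]
      simp only [Equiv.symm_apply_apply, hsh, ← map_zpow]
      rw [← map_prod, hκrel, map_one]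
    have h3 := g2 (fun p => κ p - κ (sh.symm p)) (by
      simp only [zpow_sub, Finset.prod_mul_distrib, Finset.prod_inv_distrib, hκrel, h2, inv_one,
        mul_one]) (by rw [Finset.sum_sub_distrib, sh.symm.sum_comp, sub_self])
    intro p
    have := congrFun h3 (sh p)
    rw [Equiv.symm_apply_apply] at this
    exact sub_eq_zero.1 this
  have hconst : ∀ j i, κ (j, i) = κ (j, 0) := by
    intro j i
    induction i using Fin.induction with
    | zero => rfl
    | succ i ih => rw [← ih, ← hinv (j, i.castSucc), ← Fin.coeSucc_eq_succ]; rfl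
  refine ⟨u, v, fun p => rfl, g1, fun j => κ (j, 0), fun h0 => hκ0 ?_, fun c => ?_⟩
  · funext ⟨j, i⟩
    rw [hconst]
    exact congrFun h0 j
  · rw [hκ]
    refine exists_congr fun t => ⟨fun h p => ?_, fun h => funext fun p => ?_⟩
    · rw [h]; exact congrArg (t * ·) (hconst p.1 p.2)
    · rw [h]; exact (congrArg (t * ·) (hconst p.1 p.2)).symm

/-- restriction of an element normalising `H'` to `L H'`. -/
def uaRes (h : CycExt H H' σ n) : L H' ≃ₐ[F] L H' where
  toFun x := ⟨σ x, mem_L.2 fun g hg => by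
    have := mem_L.1 x.2 _ (h.normal _ (H.inv_mem h.mem) g hg)
    rw [inv_inv, AlgEquiv.mul_apply, AlgEquiv.mul_apply, AlgEquiv.aut_inv,
      AlgEquiv.symm_apply_eq] at this
    exact this⟩
  invFun x := ⟨σ⁻¹ x, mem_L.2 fun g hg => by
    have := mem_L.1 x.2 _ (h.normal _ h.mem g hg)
    rw [AlgEquiv.mul_apply, AlgEquiv.mul_apply] at this
    exact σ.injective (by rw [this]; simp)⟩
  left_inv x := Subtype.ext (by simp)
  right_inv x := Subtype.ext (by simp)
  map_mul' x y := Subtype.ext (by simp)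
  map_add' x y := Subtype.ext (by simp)
  commutes' a := Subtype.ext (σ.commutes a)

theorem uaRes_pow (h : CycExt H H' σ n) (i : ℕ) (x : L H') :
    (((uaRes h ^ i) x : L H') : E) = (σ ^ i) (x : E) := by
  induction i with
  | zero => rfl
  | succ i ih => rw [pow_succ', pow_succ', AlgEquiv.mul_apply, AlgEquiv.mul_apply, ← ih]; rfl

open NumberField in
/-- units of the ring of integers of an intermediate field as units of `E`. -/
def uaIota (K : IntermediateField F E) : (𝓞 K)ˣ →* Eˣ :=
  Units.map ((algebraMap K E).comp (algebraMap (𝓞 K) K)).toMonoidHom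

open NumberField in
theorem uaIota_coe (K : IntermediateField F E) (x : (𝓞 K)ˣ) :
    ((uaIota K x : Eˣ) : E) = ((x : K) : E) := rfl

theorem uaIota_injective (K : IntermediateField F E) : Function.Injective (uaIota K) := by
  intro x y hxy
  apply NumberField.Units.coe_injective
  exact Subtype.ext (congrArg Units.val hxy)

open NumberField in
theorem uaIota_range (H' : Subgroup Gal(E/F)) : Subgroup.map (uaIota (L H')) ⊤ = SU H' ∅ := by
  ext x
  constructor
  · rintro ⟨y, -, rfl⟩
    refine ⟨(y : L H').2, fun W _ => ?_⟩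
    have hle : ∀ z : (𝓞 (L H'))ˣ, W.v (uaIota (L H') z : E) ≤ 1 := fun z =>
      W.v_le_one_of_isIntegral ((z : 𝓞 (L H')).isIntegral_coe.map ((L H').val.restrictScalars ℤ))
    have h1 : W.v (uaIota (L H') y : E) * W.v (uaIota (L H') y⁻¹ : E) = 1 := by
      rw [← map_mul, ← Units.val_mul, ← map_mul, mul_inv_cancel, map_one, Units.val_one, map_one]
    exact (bridge_le_one_iff (by rw [mul_comm]; exact h1) (hle y)).1 (hle y⁻¹)
  · intro hx
    have hint : ∀ z : Eˣ, (hz : z ∈ SU H' ∅) → IsIntegral ℤ (⟨z, hz.1⟩ : L H') := fun z hz =>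
      (isIntegral_algHom_iff ((L H').val.restrictScalars ℤ) (L H').val.injective).1
        (isIntegral_of_v_le_one F fun W => (hz.2 W (Set.notMem_empty W)).le)
    have hx' := (SU H' ∅).inv_mem hx
    refine ⟨⟨⟨_, hint x hx⟩, ⟨_, hint x⁻¹ hx'⟩, ?_, ?_⟩, trivial, Units.ext rfl⟩
    · exact RingOfIntegers.ext (Subtype.ext x.mul_inv)
    · exact RingOfIntegers.ext (Subtype.ext x.inv_mul)

theorem exists_units (h : CycExt H H' σ n) (hi : HasI H) :
    ∃ u : Fin (deg H / 2) → Eˣ, (∀ j, u j ∈ SU H' ∅) ∧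
      (Subgroup.closure {x | ∃ j, ∃ i : ℕ, x = σ ^ i • u j}).relIndex (SU H' ∅) ≠ 0 ∧
      ∃ κ : Fin (deg H / 2) → ℤ, κ ≠ 0 ∧ ∀ c : Fin (deg H / 2) → Fin n → ℤ,
        (∏ j, ∏ i : Fin n, (σ ^ (i : ℕ) • u j) ^ c j i = 1 ↔ ∃ t : ℤ, ∀ j i, c j i = t * κ j) := by
  have := numberField_L h.isOpen
  have hz := zeta_prim (E := E) (N := 4) (by norm_num)
  have hzH : ∀ g ∈ H, g (zeta E 4) = zeta E 4 := fun g hg => hi hg
  let z : L H' := ⟨zeta E 4, mem_L.2 fun g hg => hzH g (h.le hg)⟩
  have hz' : IsPrimitiveRoot z 4 :=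
    IsPrimitiveRoot.of_map_of_injective (f := (L H').val) hz (L H').val.injective
  have hreal := NumberField.InfinitePlace.IsPrimitiveRoot.nrRealPlaces_eq_zero_of_two_lt (by norm_num) hz'
  have hcard : Fintype.card (NumberField.InfinitePlace (L H')) = deg H / 2 * n := by
    have h1 := NumberField.InfinitePlace.card_add_two_mul_card_eq_rank (L H')
    obtain ⟨r, hr⟩ := two_dvd_deg h.isOpen_top hi
    rw [finrank_rat_L h.isOpen, deg_eq_mul h.le, h.idx, hreal, hr] at h1
    rw [NumberField.InfinitePlace.card_eq_nrRealPlaces_add_nrComplexPlaces, hreal, hr,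
      Nat.mul_div_cancel_left _ two_pos]
    nlinarith
  have hfix : ∀ i : ℕ, uaRes h ^ i = 1 ↔ n ∣ i := by
    intro i
    rw [← h.pow_mem_iff]
    constructor
    · intro h0
      refine mem_of_fix_L (isClosed_of_isOpen h.isOpen) fun x hx => ?_
      have := uaRes_pow h i ⟨x, hx⟩
      rw [h0] at this
      exact this.symm
    · intro h0
      ext x
      rw [uaRes_pow]
      exact mem_L.1 x.2 _ h0
  obtain ⟨u, v, hv, hidx, κ, hκ0, hκ⟩ := ua_field (uaRes h) h.ne_zero ((hfix n).2 dvd_rfl) (by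
    intro w i hw
    rw [← hfix]
    rw [← NumberField.InfinitePlace.mk_embedding w, NumberField.InfinitePlace.smul_mk,
      NumberField.InfinitePlace.mk_eq_iff] at hw
    rcases hw with hw | hw
    · rw [← inv_eq_one]
      ext x
      exact congrArg Subtype.val (w.embedding.injective (RingHom.congr_fun hw x))
    · exfalso
      have h1 : (uaRes h ^ i) z = z := Subtype.ext (by
        rw [uaRes_pow]; exact hzH _ (H.pow_mem h.mem i))
      have h2 : (uaRes h ^ i).symm z = z := by rw [AlgEquiv.symm_apply_eq, h1]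
      have h3 : (starRingEnd ℂ) (w.embedding ((uaRes h ^ i).symm z)) = w.embedding z :=
        RingHom.congr_fun hw z
      rw [h2] at h3
      have h4 : z ^ 2 = -1 := (hz'.pow (by norm_num) (show 4 = 2 * 2 from rfl)).eq_neg_one_of_two_right
      have h5 : w.embedding z ^ 2 = -1 := by rw [← map_pow, h4, map_neg, map_one]
      obtain ⟨a, ha⟩ := Complex.conj_eq_iff_real.1 h3
      rw [ha] at h5
      have h6 : a ^ 2 = -1 := by exact_mod_cast h5
      nlinarith) hcard
  have hv' : ∀ p : Fin (deg H / 2) × Fin n,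
      σ ^ (p.2 : ℕ) • uaIota (L H') (u p.1) = uaIota (L H') (v p) := fun p => Units.ext (by
    rw [coe_smul_units, uaIota_coe, uaIota_coe, hv, uaRes_pow])
  refine ⟨fun j => uaIota (L H') (u j), fun j => ?_, fun h0 => hidx ?_, κ, hκ0, fun c => ?_⟩
  · rw [← uaIota_range]; exact ⟨u j, trivial, rfl⟩
  · rw [← Subgroup.relIndex_top_right,
      ← Subgroup.relIndex_map_map_of_injective _ _ (uaIota_injective (L H')), uaIota_range]
    refine Subgroup.relIndex_eq_zero_of_le_left ?_ h0
    rw [MonoidHom.map_closure]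
    refine Subgroup.closure_mono ?_
    rintro _ ⟨_, ⟨p, rfl⟩, rfl⟩
    exact ⟨p.1, p.2, (hv' p).symm⟩
  · have h1 := hκ fun p => c p.1 p.2
    rw [← (uaIota_injective (L H')).eq_iff, map_one, map_prod, Fintype.prod_prod_type] at h1
    simp only [map_zpow, ← hv', Prod.forall] at h1
    exact h1

end Crest.Agent.R018
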