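import Crest.Agent.R018.EigB
import Crest.Agent.R018.UnitA
import Crest.Agent.R018.Class
import Crest.Agent.R018.H90

/-!
# R018 / Sel

(SelB) `N = l^k`.  For `f ∈ s`, `h90_mu` on `H'` gives `ρ_f`, `z_f = ρ_f^N ∈ LU H'`, `f = kum N ρ_f` on `H'`.  For `W.p ∉ P`, `ρ_f` is fixed by `Ine W ⊓ H'` so
`W.vU ρ_f ∈ valGrp H' W` (`vU_mem_valGrp_of_ine`): with `M = ∏_{p ∈ P} p` (primes only), `b_f = cut M (dv ρ_f) ∈ DivP H' M`.  Eigen relation: from the cocycle identity,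
`f (δ⁻¹ h δ) = ψ(δ)⁻¹ (f h + f δ (cyc h - 1))` for `h ∈ H'`, and `kum_conj`; hence `δ ρ_f = ρ_f^u ζ^j w` with `w ∈ L H'`, `u = (cyc δ / ψ δ).val`, so
`δ z_f = z_f^u w^N`.  Group the `f` by the class of `b_f` in the finite group `DivP H' M / cut M (dv (LU H'))` (order `≤ h'` = index of `Ray H' 1`); inside a class fix `f_0`;
`z_f / z_{f_0} = x_f y^N` with `x_f ∈ X = SU H' {W | W.p ∈ P}`; the `x_f` are eigen in `X` and pairwise inequivalent mod `X^N` (else `f = f'` on `H' ⊓ FixMu N`).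
`exists_sunit_gens` and `eigB` finish.  `finHom`: a hom is determined by its restriction to `H1 = H ⊓ FixMu (l^k) ⊓ FixMu 4` and its values on coset representatives.
-/

set_option autoImplicit false
set_option linter.unusedSectionVars false

noncomputable section

namespace Crest.Agent.R018

open scoped NNReal Classical

variable {F E : Type*} [Field F] [NumberField F] [Field E] [CharZero E] [Algebra F E]
  [IsGalois F E] [RadCl E]
variable {H H' : Subgroup Gal(E/F)} {σ : Gal(E/F)} {n : ℕ} {π : E}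

theorem sel_count {G ι : Type*} [Group G] (A B : Subgroup G) (hi : A.relIndex B ≠ 0) (s : Finset ι)
    (b : ι → G) (hb : ∀ i ∈ s, b i ∈ B) (m : ℕ)
    (h : ∀ t ⊆ s, (∀ i ∈ t, ∀ j ∈ t, (b i)⁻¹ * b j ∈ A) → t.card ≤ m) :
    s.card ≤ A.relIndex B * m := by
  haveI : Finite (B ⧸ A.subgroupOf B) := Nat.finite_of_card_ne_zero hi
  letI : Fintype (B ⧸ A.subgroupOf B) := Fintype.ofFinite _
  let c : ι → B ⧸ A.subgroupOf B := fun i =>
    if hi : b i ∈ B then ((⟨b i, hi⟩ : B) : B ⧸ A.subgroupOf B) else ((1 : B) : B ⧸ A.subgroupOf B)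
  have key := Finset.card_le_mul_card_image_of_maps_to (s := s) (t := Finset.univ) (f := c)
    (fun _ _ => Finset.mem_univ _) m (fun q _ => by
      refine h _ (Finset.filter_subset _ _) fun i hi j hj => ?_
      rw [Finset.mem_filter] at hi hj
      have e : c i = c j := hi.2.trans hj.2.symm
      simp only [c, dif_pos (hb i hi.1), dif_pos (hb j hj.1)] at e
      exact Subgroup.mem_subgroupOf.1 (QuotientGroup.eq.1 e))
  have e : (Finset.univ : Finset (B ⧸ A.subgroupOf B)).card = A.relIndex B := by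
    rw [Finset.card_univ, ← Nat.card_eq_fintype_card]; rfl
  rw [e, mul_comm] at key
  exact key

theorem sel_conj_iff (h : CycExt H H' σ n) {g : Gal(E/F)} (hg : g ∈ H) (x : Gal(E/F)) :
    x ∈ H' ↔ g * x * g⁻¹ ∈ H' := by
  refine ⟨h.normal g hg x, fun hx => ?_⟩
  have := h.normal g⁻¹ (H.inv_mem hg) _ hx
  simpa [mul_assoc] using this

theorem sel_smul_mem_LU (h : CycExt H H' σ n) {g : Gal(E/F)} (hg : g ∈ H) {x : Eˣ}
    (hx : x ∈ LU H') : g • x ∈ LU H' :=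
  mem_LU_iff_smul.2 (h.smul_fixed (mem_LU_iff_smul.1 hx) hg)

theorem sel_smul_mem_SU (h : CycExt H H' σ n) {g : Gal(E/F)} (hg : g ∈ H) (P : Finset ℕ) {x : Eˣ}
    (hx : x ∈ SU H' {W : Pl E | W.p ∈ P}) : g • x ∈ SU H' {W : Pl E | W.p ∈ P} := by
  refine ⟨sel_smul_mem_LU h hg hx.1, fun W hW => ?_⟩
  have := hx.2 (g⁻¹ • W) hW
  simpa using this

/-- `P`-units are generated up to finite index by the conjugates of `≤ deg H (|P| + 1)` elements: the `u_j` of `exists_units` and, for each `H`-orbit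
above `P`, an `x` with `dv x = bas H' W ^ h`. -/
theorem exists_sunit_gens (h : CycExt H H' σ n) (hi : HasI H) (P : Finset ℕ) :
    ∃ (s : ℕ) (a : Fin s → Eˣ), s ≤ deg H * (P.card + 1) ∧ (∀ j, a j ∈ SU H' {W : Pl E | W.p ∈ P}) ∧
      (Subgroup.closure {x | ∃ j, ∃ i : ℕ, x = σ ^ i • a j}).relIndex (SU H' {W : Pl E | W.p ∈ P}) ≠ 0 := by
  obtain ⟨u, hu, hui, -⟩ := exists_units h hi
  obtain ⟨t, htc, htp, -, hto⟩ := exists_orbit_reps_finset h.isOpen_top P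
  obtain ⟨t', -, htp', hti', hto'⟩ := exists_orbit_reps_finset h.isOpen P
  obtain ⟨c, hc0, hc⟩ := exists_class_exp h.isOpen
  have hx : ∀ W : Pl E, ∃ x ∈ LU H', dv x = bas H' W ^ c := fun W =>
    hc _ (bas_mem_DivP (by simp))
  choose x hxL hxd using hx
  have hxS : ∀ W : Pl E, W.p ∈ P → x W ∈ SU H' {W : Pl E | W.p ∈ P} := by
    intro W hW
    refine ⟨hxL W, fun W' hW' => ?_⟩
    have e := congrFun (hxd W) W'
    have hne : ¬ Same H' W W' := fun hs => hW' (by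
      change W'.p ∈ P
      rw [← hs.p_eq]; exact hW)
    have e2 : bas H' W W' = 1 := if_neg hne
    rw [dv_apply, Dv.pow_apply, e2, one_pow] at e
    have := congrArg Units.val e
    simpa using this
  let a : Fin (deg H / 2 + t.card) → Eˣ := Fin.append u fun j => x (t.equivFin.symm j)
  set X := SU H' {W : Pl E | W.p ∈ P} with hX
  set A := Subgroup.closure {x | ∃ j, ∃ i : ℕ, x = σ ^ i • a j} with hA
  have ha : ∀ j, a j ∈ X := by
    intro j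
    refine Fin.addCases (fun j => ?_) (fun j => ?_) j
    · simp only [a, Fin.append_left]
      exact ⟨(hu j).1, fun W _ => (hu j).2 W (Set.notMem_empty W)⟩
    · simp only [a, Fin.append_right]
      exact hxS _ (htp _ (t.equivFin.symm j).2)
  have hAX : A ≤ X := by
    rw [hA, Subgroup.closure_le]
    rintro _ ⟨j, i, rfl⟩
    exact sel_smul_mem_SU h (H.pow_mem h.mem i) P (ha j)
  have hUA : Subgroup.closure {x | ∃ j, ∃ i : ℕ, x = σ ^ i • u j} ≤ A := by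
    refine Subgroup.closure_mono ?_
    rintro _ ⟨j, i, rfl⟩
    exact ⟨Fin.castAdd _ j, i, by simp only [a, Fin.append_left]⟩
  have hBX : SU H' ∅ ≤ X := fun y hy => ⟨hy.1, fun W _ => hy.2 W (Set.notMem_empty W)⟩
  have hy : ∀ W' : Pl E, W'.p ∈ P → ∃ y ∈ A, dv y = bas H' W' ^ c := by
    intro W' hW'
    obtain ⟨W, hW, g, hg, rfl⟩ := hto W' hW'
    obtain ⟨i, hi⟩ := h.gen g hg
    refine ⟨σ ^ i • x W, Subgroup.subset_closure ⟨Fin.natAdd _ (t.equivFin ⟨W, hW⟩), i, ?_⟩, ?_⟩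
    · simp only [a, Fin.append_right, Equiv.symm_apply_apply]
    · rw [dv_smul, hxd, smul_pow', smul_bas (sel_conj_iff h (H.pow_mem h.mem i))]
      have e : g • W = σ ^ i • (((σ ^ i)⁻¹ * g) • W) := by
        rw [← mul_smul, mul_inv_cancel_left]
      rw [e, ← smul_bas (sel_conj_iff h (H.pow_mem h.mem i)),
        ← smul_bas (sel_conj_iff h (H.pow_mem h.mem i)), bas_same ⟨_, hi, rfl⟩]
  have hy' : ∀ W' : Pl E, ∃ y ∈ A, W'.p ∈ P → dv y = bas H' W' ^ c := by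
    intro W'
    by_cases hW' : W'.p ∈ P
    · obtain ⟨y, h1, h2⟩ := hy W' hW'
      exact ⟨y, h1, fun _ => h2⟩
    · exact ⟨1, A.one_mem, fun h => absurd h hW'⟩
  choose y hyA hyd using hy'
  have hprod : ∀ z ∈ X, dv z = ∏ W ∈ t', bas H' W ^ expo H' W (dv z W) := by
    intro z hz
    refine eq_prod_bas h.isOpen (dv_mem_DivP_one h.isOpen hz.1) t' hti' fun W hW => ?_
    have := hz.2 W fun hp => hW (hto' W hp)
    exact Units.ext (by simpa using this)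
  haveI : NeZero c := ⟨hc0⟩
  have h1 : (A ⊔ SU H' ∅).relIndex X ≠ 0 := by
    refine class_fin _ _ (fun z : X => fun W : t' => ((expo H' W (dv (z : Eˣ) W) : ℤ) : ZMod c))
      fun z z' hzz => ?_
    have hd : ∀ W : Pl E, ∃ m : ℤ, W ∈ t' →
        expo H' W (dv (z' : Eˣ) W) - expo H' W (dv (z : Eˣ) W) = c * m := by
      intro W
      by_cases hW : W ∈ t'
      · have := congrFun hzz ⟨W, hW⟩
        obtain ⟨m, hm⟩ := (ZMod.intCast_eq_intCast_iff_dvd_sub _ _ _).1 this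
        exact ⟨m, fun _ => hm⟩
      · exact ⟨0, fun h => absurd h hW⟩
    choose m hm using hd
    have hq : (∏ W ∈ t', y W ^ m W) ∈ A :=
      Subgroup.prod_mem _ fun W _ => A.zpow_mem (hyA W) _
    have hdv : dv ((z : Eˣ)⁻¹ * (z' : Eˣ)) = dv (∏ W ∈ t', y W ^ m W) := by
      rw [map_mul, map_inv, hprod z z.2, hprod z' z'.2, map_prod, ← Finset.prod_inv_distrib,
        ← Finset.prod_mul_distrib]
      refine Finset.prod_congr rfl fun W hW => ?_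
      rw [map_zpow, hyd W (htp' W hW), ← zpow_natCast, ← zpow_mul, ← hm W hW, ← zpow_neg, ← zpow_add]
      congr 1; ring
    have hun : (∏ W ∈ t', y W ^ m W)⁻¹ * ((z : Eˣ)⁻¹ * (z' : Eˣ)) ∈ SU H' ∅ := by
      refine ⟨(LU H').mul_mem ((LU H').inv_mem (hAX hq).1)
        ((LU H').mul_mem ((LU H').inv_mem z.2.1) z'.2.1), fun W _ => ?_⟩
      refine dv_eq_one_iff.1 ?_ W
      rw [map_mul, map_inv, hdv, inv_mul_cancel]
    have e : (z : Eˣ)⁻¹ * (z' : Eˣ) =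
        (∏ W ∈ t', y W ^ m W) * ((∏ W ∈ t', y W ^ m W)⁻¹ * ((z : Eˣ)⁻¹ * (z' : Eˣ))) := by
      rw [mul_inv_cancel_left]
    rw [e]
    exact Subgroup.mul_mem_sup hq hun
  have h2 : A.relIndex (A ⊔ SU H' ∅) ≠ 0 := by
    rw [Subgroup.relIndex_sup_left]
    exact ne_zero_of_dvd_ne_zero hui (Subgroup.relIndex_dvd_of_le_left _ hUA)
  refine ⟨_, a, ?_, ha, ?_⟩
  · have := Nat.div_le_self (deg H) 2
    rw [mul_add, mul_one]; omega
  · rw [← Subgroup.relIndex_mul_relIndex A (A ⊔ SU H' ∅) X le_sup_left (sup_le hAX hBX)]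
    exact mul_ne_zero h2 h1

theorem sel_v_eq_one {Γ : Type*} [Field Γ] (W : Pl Γ) {N : ℕ} (hN : N ≠ 0) {x : Γ}
    (hx : W.v x ^ N = 1) : W.v x = 1 :=
  (pow_eq_one_iff_of_nonneg (by simp) hN).1 hx

theorem sel_v_zeta (W : Pl E) {N : ℕ} (hN : N ≠ 0) : W.v (zeta E N) = 1 :=
  sel_v_eq_one W hN (by rw [← map_pow, (zeta_prim hN).pow_eq_one, map_one])

theorem sel_kum_zeta {N : ℕ} (hN : N ≠ 0) (g : Gal(E/F)) :
    kum N (zeta E N) g = cyc N g - 1 := by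
  have hz : zeta E N ≠ 0 := (zeta_prim hN).ne_zero hN
  have h1 : g (zeta E N ^ N) = zeta E N ^ N := by rw [(zeta_prim hN).pow_eq_one, map_one]
  have h2 := kum_spec hN hz h1
  rw [cyc_zeta hN, ← pow_succ, cb_pow_eq_iff hN (zeta_prim hN)] at h2
  push_cast at h2
  rw [cb_cast_val hN, cb_cast_val hN] at h2
  rw [h2]; ring

theorem sel_fix_div {N : ℕ} (hN : N ≠ 0) {ρ ρ' : E} (hρ : ρ ≠ 0) (hρ' : ρ' ≠ 0) {g : Gal(E/F)}
    (hg : g (ρ ^ N) = ρ ^ N) (hg' : g (ρ' ^ N) = ρ' ^ N) (h : kum N ρ g = kum N ρ' g) :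
    g (ρ / ρ') = ρ / ρ' := by
  have hz : zeta E N ≠ 0 := (zeta_prim hN).ne_zero hN
  rw [map_div₀, kum_spec hN hρ hg, kum_spec hN hρ' hg', h]
  field_simp

/-- the eigen relation. -/
theorem sel_eigen (h : CycExt H H' σ n) {N : ℕ} (hN : N ≠ 0) {ψ f : Gal(E/F) → ZMod N}
    (hψ : MHom H ψ) (hψc : ∀ x ∈ H', ψ x = cyc N x)
    (hf : ∀ g ∈ H, ∀ g' ∈ H, f (g * g') = f g + ψ g * f g') {ρ : Eˣ} (hρ : ρ ^ N ∈ LU H')
    (hk : ∀ g ∈ H', kum N (ρ : E) g = f g) :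
    ∃ w ∈ LU H', σ • ρ ^ N = (ρ ^ N) ^ (cyc N σ * ψ σ⁻¹).val * w ^ N := by
  have hz : zeta E N ≠ 0 := (zeta_prim hN).ne_zero hN
  set u : ZMod N := cyc N σ * ψ σ⁻¹ with hu
  set j : ZMod N := u * f σ with hj
  let ζ : Eˣ := Units.mk0 _ hz
  have hζ : ζ ^ N = 1 := Units.ext (zeta_prim hN).pow_eq_one
  have hσ := h.mem
  have hσ' := H.inv_mem hσ
  have hψ1 : ψ σ⁻¹ * ψ σ = 1 := by rw [← hψ.2 _ hσ' _ hσ, inv_mul_cancel, hψ.1]
  have hfix : ∀ g ∈ H', g ((ρ : E) ^ N) = (ρ : E) ^ N := fun g hg => mem_L.1 hρ g hg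
  have hfixσ : ∀ g ∈ H', g ((σ (ρ : E)) ^ N) = (σ (ρ : E)) ^ N := fun g hg => by
    have := mem_L.1 (sel_smul_mem_LU h hσ hρ) g hg
    simpa using this
  refine ⟨σ • ρ / (ρ ^ u.val * ζ ^ j.val), mem_L.2 fun g hg => ?_, ?_⟩
  · have e : ((σ • ρ / (ρ ^ u.val * ζ ^ j.val) : Eˣ) : E) =
        σ (ρ : E) / ((ρ : E) ^ u.val * zeta E N ^ j.val) := by
      simp [ζ]
    rw [e]
    have hA : g (((ρ : E) ^ u.val) ^ N) = ((ρ : E) ^ u.val) ^ N := by
      rw [← pow_mul, mul_comm, pow_mul, map_pow, hfix g hg]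
    have hB0 : g (zeta E N ^ N) = zeta E N ^ N := by rw [(zeta_prim hN).pow_eq_one, map_one]
    have hB : g ((zeta E N ^ j.val) ^ N) = (zeta E N ^ j.val) ^ N := by
      rw [← pow_mul, mul_comm, pow_mul, map_pow, hB0]
    have hρ0 : (ρ : E) ≠ 0 := ρ.ne_zero
    refine sel_fix_div hN ((map_ne_zero σ).2 hρ0) (mul_ne_zero (pow_ne_zero _ hρ0) (pow_ne_zero _ hz))
      (hfixσ g hg) (by rw [mul_pow, map_mul, hA, hB]) ?_
    rw [kum_mul_left hN (pow_ne_zero _ hρ0) (pow_ne_zero _ hz) hA hB, kum_pow_left hN hρ0 (hfix g hg),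
      kum_pow_left hN hz hB0, sel_kum_zeta hN, cb_cast_val hN, cb_cast_val hN, hk g hg]
    have hgc : σ⁻¹ * g * σ⁻¹⁻¹ ∈ H' := h.normal _ hσ' _ hg
    have hc := kum_conj hN hρ0 σ⁻¹ (g := g) (by rw [inv_inv]; exact hfixσ g hg)
    rw [hk _ hgc, inv_inv] at hc
    rw [inv_inv] at hgc
    have h1 := hf σ hσ _ (h.le hgc)
    have h2 := hf g (h.le hg) σ hσ
    rw [show σ * (σ⁻¹ * g * σ) = g * σ by group, h2, hψc g hg] at h1
    have h3 := cyc_inv_mul hN σ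
    have h4 : kum N (σ (ρ : E)) g = cyc N σ * f (σ⁻¹ * g * σ) := by
      rw [hc, ← mul_assoc, mul_comm (cyc N σ), h3, one_mul]
    rw [h4, hj, hu]
    linear_combination (-(cyc N σ * ψ σ⁻¹)) * h1 - cyc N σ * f (σ⁻¹ * g * σ) * hψ1
  · rw [div_pow, mul_pow, ← pow_mul ζ, mul_comm j.val, pow_mul ζ, hζ, one_pow, mul_one, smul_pow',
      ← pow_mul ρ N, ← pow_mul ρ u.val, mul_comm u.val N, mul_div_cancel]

theorem sel_div_mem (hH' : IsOpen (H' : Set Gal(E/F))) {N : ℕ} (hN : N ≠ 0) (P : Finset ℕ)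
    {ρ : Eˣ} (hρ : ρ ^ N ∈ LU H')
    (hur : ∀ W : Pl E, W.p ∉ P → ∀ τ ∈ Ine F W, τ ∈ H' → kum N (ρ : E) τ = 0) :
    ∃ b ∈ DivP H' 1, ∀ W : Pl E, W.p ∉ P → b W = W.vU ρ := by
  have hfix : ∀ g ∈ H', g ((ρ : E) ^ N) = (ρ : E) ^ N := fun g hg => mem_L.1 hρ g hg
  refine ⟨fun W => if W.p ∈ P then 1 else W.vU ρ, ?_, fun W hW => if_neg hW⟩
  rw [mem_DivP_iff hH' (L H').one_mem]
  refine ⟨fun g hg => ?_, fun W => ?_, fun W hW => absurd hW (by simp), ?_⟩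
  · refine Dv.ext fun W => Units.ext ?_
    change ((if W.p ∈ P then 1 else (g⁻¹ • W).vU ρ : ℝ≥0ˣ) : ℝ≥0) =
      ((if W.p ∈ P then 1 else W.vU ρ : ℝ≥0ˣ) : ℝ≥0)
    split_ifs
    · rfl
    · rw [Pl.coe_vU, Pl.coe_vU, Pl.smul_v, inv_inv, kum_spec hN ρ.ne_zero (hfix g hg), map_mul,
        map_pow, sel_v_zeta W hN, one_pow, one_mul]
  · change (if W.p ∈ P then 1 else W.vU ρ : ℝ≥0ˣ) ∈ valGrp H' W
    split_ifs with hW
    · exact Subgroup.one_mem _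
    · refine vU_mem_valGrp_of_ine hH' W (mem_L.2 fun τ hτ => ?_)
      exact (kum_eq_zero_iff hN ρ.ne_zero (hfix τ hτ.2)).1 (hur W hW τ hτ.1 hτ.2)
  · haveI := isAlgebraic_rat F E
    obtain ⟨B, hB⟩ := finite_p_v_ne_one (E := E) ρ.ne_zero
    refine ⟨B, fun W hW => ?_⟩
    change (if W.p ∈ P then 1 else W.vU ρ : ℝ≥0ˣ) = 1
    split_ifs
    · rfl
    · exact Units.ext (hB W hW)

theorem sel_alg1 {G : Type*} [CommGroup G] (a a0 y y' a' v : G) (N : ℕ)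
    (e : (a / a0 / y) ^ N = (a' / a0 / y') ^ N * v ^ N) : a ^ N = (a' * (v * y / y')) ^ N := by
  have e2 : a ^ N = (a / a0 / y) ^ N * (a0 * y) ^ N := by
    apply Additive.ofMul.injective
    simp only [ofMul_mul, ofMul_div, ofMul_pow]
    module
  rw [e2, e]
  apply Additive.ofMul.injective
  simp only [ofMul_mul, ofMul_div, ofMul_pow]
  module

theorem sel_alg2 {G : Type*} [CommGroup G] (a a0 y w w0 sy : G) (N u : ℕ) :
    (a ^ N) ^ u * w ^ N / ((a0 ^ N) ^ u * w0 ^ N) / sy ^ N =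
      ((a / a0 / y) ^ N) ^ u * (y ^ u * w / w0 / sy) ^ N := by
  apply Additive.ofMul.injective
  simp only [ofMul_mul, ofMul_div, ofMul_pow]
  module

theorem selB (h : CycExt H H' σ n) (hi : HasI H) {l : ℕ} (hl : l.Prime) (P : Finset ℕ) (hlP : l ∈ P) :
    ∃ C : ℕ, ∀ (k : ℕ) (ψ : Gal(E/F) → ZMod (l ^ k)), MHom H ψ → (∀ x ∈ H', ψ x = cyc (l ^ k) x) →
      ∀ s : Finset (Gal(E/F) → ZMod (l ^ k)),
        (∀ f ∈ s, (∀ g ∈ H, ∀ g' ∈ H, f (g * g') = f g + ψ g * f g') ∧ LocZ H f ∧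
          ∀ W : Pl E, W.p ∉ P → ∀ τ ∈ Ine F W, τ ∈ H' → f τ = 0) →
        (∀ f ∈ s, ∀ f' ∈ s, (∀ x ∈ H', x ∈ FixMu F E (l ^ k) → f x = f' x) → f = f') →
        s.card ≤ C * (l ^ k) ^ (deg H * (P.card + 1)) := by
  obtain ⟨m, a, hm, ha, hidx⟩ := exists_sunit_gens h hi P
  set X := SU H' {W : Pl E | W.p ∈ P} with hX
  refine ⟨(Ray H' 1).relIndex (DivP H' 1) *
    (Subgroup.closure {x | ∃ j, ∃ i : ℕ, x = σ ^ i • a j}).relIndex X,
    fun k ψ hψ hψc s hs hsep => ?_⟩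
  have hN : l ^ k ≠ 0 := pow_ne_zero _ hl.ne_zero
  generalize hNe : l ^ k = N at *
  have hex : ∀ f : Gal(E/F) → ZMod N, ∃ ρ : Eˣ, ∃ b : Dv E, ∃ w : Eˣ, f ∈ s →
      ρ ^ N ∈ LU H' ∧ (∀ g ∈ H', kum N (ρ : E) g = f g) ∧ b ∈ DivP H' 1 ∧
      (∀ W : Pl E, W.p ∉ P → b W = W.vU ρ) ∧ w ∈ LU H' ∧
      σ • ρ ^ N = (ρ ^ N) ^ (cyc N σ * ψ σ⁻¹).val * w ^ N := by
    intro f
    by_cases hf : f ∈ s
    · obtain ⟨h1, ⟨U, hU1, hU2⟩, h3⟩ := hs f hf
      obtain ⟨ρ, hρ0, hρ1, hρ2⟩ := h90_mu hN H' f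
        (fun g hg g' hg' => by rw [h1 g (h.le hg) g' (h.le hg'), hψc g hg])
        ⟨U, hU1, fun x hx => hU2 x (h.le hx)⟩
      have hρ : Units.mk0 ρ hρ0 ^ N ∈ LU H' := hρ1
      obtain ⟨w, hw1, hw2⟩ := sel_eigen h hN hψ hψc h1 hρ hρ2
      obtain ⟨b, hb1, hb2⟩ := sel_div_mem h.isOpen hN P hρ fun W hW τ hτ hτ' =>
        (hρ2 τ hτ').trans (h3 W hW τ hτ hτ')
      exact ⟨_, b, w, fun _ => ⟨hρ, hρ2, hb1, hb2, hw1, hw2⟩⟩
    · exact ⟨1, 1, 1, fun h => absurd h hf⟩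
  choose ρ b w hex using hex
  set u := (cyc N σ * ψ σ⁻¹).val with hu
  rw [mul_assoc]
  refine sel_count _ _ (Ray_one_relIndex h.isOpen) s b (fun f hf => (hex f hf).2.2.1) _
    fun t hts ht => ?_
  rcases t.eq_empty_or_nonempty with rfl | ⟨f0, hf0⟩
  · simp
  have hy : ∀ f : Gal(E/F) → ZMod N, ∃ y : Eˣ, f ∈ t → y ∈ LU H' ∧ dv y = (b f0)⁻¹ * b f := by
    intro f
    by_cases hf : f ∈ t
    · obtain ⟨y, hy1, hy2⟩ := ht f0 hf0 f hf
      rw [rayU_one] at hy1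
      exact ⟨y, fun _ => ⟨hy1, hy2⟩⟩
    · exact ⟨1, fun h => absurd h hf⟩
  choose y hy using hy
  let x : (Gal(E/F) → ZMod N) → Eˣ := fun f => (ρ f / ρ f0 / y f) ^ N
  have hxX : ∀ f ∈ t, x f ∈ X := by
    intro f hf
    refine ⟨?_, fun W hW => ?_⟩
    · simp only [x, div_pow]
      exact (LU H').div_mem ((LU H').div_mem (hex f (hts hf)).1 (hex f0 (hts hf0)).1)
        ((LU H').pow_mem (hy f hf).1 _)
    · have e := congrFun (hy f hf).2 W
      rw [dv_apply, Dv.mul_apply, Dv.inv_apply, (hex f (hts hf)).2.2.2.1 W hW,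
        (hex f0 (hts hf0)).2.2.2.1 W hW] at e
      have e2 : W.vU (x f) = 1 := by
        simp only [x, map_pow, map_div, e]
        rw [div_eq_inv_mul (W.vU (ρ f)), div_self', one_pow]
      exact congrArg Units.val e2
  have hkey : ∀ f ∈ t, ∀ f' ∈ t, ∀ v ∈ X, x f = x f' * v ^ N → f = f' := by
    intro f hf f' hf' v hv e
    refine hsep f (hts hf) f' (hts hf') fun g hg hgμ => ?_
    have hc : v * y f / y f' ∈ LU H' :=
      (LU H').div_mem ((LU H').mul_mem hv.1 (hy f hf).1) (hy f' hf').1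
    have e1 : ρ f ^ N = (ρ f' * (v * y f / y f')) ^ N := sel_alg1 _ _ _ _ _ _ _ e
    have e3 : (ρ f : E) ^ N = ((ρ f' : E) * ((v * y f / y f' : Eˣ) : E)) ^ N := by
      exact_mod_cast congrArg Units.val e1
    have hfix : ∀ f ∈ t, g ((ρ f : E) ^ N) = (ρ f : E) ^ N := fun f hf =>
      mem_L.1 (hex f (hts hf)).1 g hg
    have hcf : g ((v * y f / y f' : Eˣ) : E) = ((v * y f / y f' : Eˣ) : E) := mem_L.1 hc g hg
    have hcN : g (((v * y f / y f' : Eˣ) : E) ^ N) = ((v * y f / y f' : Eˣ) : E) ^ N := by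
      rw [map_pow, hcf]
    rw [← (hex f (hts hf)).2.1 g hg, ← (hex f' (hts hf')).2.1 g hg,
      kum_root_indep hN (ρ f).ne_zero e3 hgμ (hfix f hf),
      kum_mul_left hN (ρ f').ne_zero (Units.ne_zero _) (hfix f' hf') hcN,
      (kum_eq_zero_iff hN (Units.ne_zero _) hcN).2 hcf, add_zero]
  have hinj : Set.InjOn x t := fun f hf f' hf' e =>
    hkey f hf f' hf' 1 X.one_mem (by rw [one_pow, mul_one]; exact e)
  rw [← Finset.card_image_of_injOn hinj]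
  have hXs : ∀ z ∈ X, σ • z ∈ X := fun z hz => sel_smul_mem_SU h h.mem P hz
  have hE := eigB (X := X) (δ := σ) h.ne_zero hXs
    (fun z hz => mem_LU_iff_smul.1 hz.1 _ ((h.pow_mem_iff n).2 dvd_rfl)) a ha hidx hN u (t.image x)
    (fun z hz => ?_) (fun z hz z' hz' v hv e => ?_)
  · refine hE.trans (Nat.mul_le_mul_left _ ?_)
    rw [Fintype.card_fin]
    exact Nat.pow_le_pow_right (Nat.pos_of_ne_zero hN) hm
  · obtain ⟨f, hf, rfl⟩ := Finset.mem_image.1 hz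
    have hrel : σ • x f = x f ^ u * (y f ^ u * w f / w f0 / σ • y f) ^ N := by
      have e1 := (hex f (hts hf)).2.2.2.2.2
      have e0 := (hex f0 (hts hf0)).2.2.2.2.2
      rw [← sel_alg2, ← e1, ← e0, ← smul_pow', ← smul_div', ← smul_div', ← div_pow, ← div_pow]
    refine ⟨hxX f hf, _, ⟨?_, fun W hW => ?_⟩, hrel⟩
    · exact (LU H').div_mem ((LU H').div_mem ((LU H').mul_mem ((LU H').pow_mem (hy f hf).1 _)
        (hex f (hts hf)).2.2.2.2.1) (hex f0 (hts hf0)).2.2.2.2.1)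
        (sel_smul_mem_LU h h.mem (hy f hf).1)
    · have h1 := (hXs _ (hxX f hf)).2 W hW
      have h2 := (hxX f hf).2 W hW
      rw [hrel, Units.val_mul, Units.val_pow_eq_pow_val, map_mul, map_pow, h2, one_pow, one_mul,
        Units.val_pow_eq_pow_val, map_pow] at h1
      exact sel_v_eq_one W hN h1
  · obtain ⟨f, hf, rfl⟩ := Finset.mem_image.1 hz
    obtain ⟨f', hf', rfl⟩ := Finset.mem_image.1 hz'
    rw [hkey f hf f' hf' v hv e]

theorem finHom (hH : IsOpen (H : Set Gal(E/F))) {l : ℕ} (hl : l.Prime) (k : ℕ) (P : Finset ℕ) :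
    ∃ C : ℕ, ∀ s : Finset (Gal(E/F) → ZMod (l ^ k)),
      (∀ f ∈ s, CHom H f ∧ ∀ W : Pl E, W.p ∉ P → ∀ τ ∈ Ine F W, τ ∈ H → f τ = 0) →
      (∀ f ∈ s, ∀ f' ∈ s, (∀ x ∈ H, f x = f' x) → f = f') → s.card ≤ C := by
  have hN : l ^ k ≠ 0 := pow_ne_zero _ hl.ne_zero
  haveI : NeZero (l ^ k) := ⟨hN⟩
  set H1 : Subgroup Gal(E/F) := H ⊓ FixMu F E (l ^ k) ⊓ FixMu F E 4 with hH1
  have ho : IsOpen (H1 : Set Gal(E/F)) :=
    isOpen_inf (isOpen_inf hH (isOpen_FixMu _)) (isOpen_FixMu _)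
  have hle : H1 ≤ H := inf_le_left.trans inf_le_left
  have hmu : H1 ≤ FixMu F E (l ^ k) := inf_le_left.trans inf_le_right
  have hc : CycExt H1 H1 1 1 :=
    ⟨ho, le_rfl, fun g hg x hx => H1.mul_mem (H1.mul_mem hg hx) (H1.inv_mem hg), H1.one_mem,
      Subgroup.relIndex_self _, fun g hg => ⟨0, by simpa using hg⟩⟩
  obtain ⟨C, hC⟩ := selB hc inf_le_right hl (insert l P) (Finset.mem_insert_self _ _)
  obtain ⟨r, -, hr, hr', -⟩ := exists_reps (relIndex_ne_zero_of_isOpen ho H)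
  refine ⟨C * (l ^ k) ^ (deg H1 * ((insert l P).card + 1)) *
    (Finset.univ : Finset (r → ZMod (l ^ k))).card, fun s hs hsep => ?_⟩
  refine Finset.card_le_mul_card_image_of_maps_to (s := s) (t := Finset.univ)
    (f := fun f => fun x : r => f x) (fun _ _ => Finset.mem_univ _) _ fun q _ => ?_
  refine hC k (cyc (l ^ k)) ⟨cyc_one hN, fun x _ y _ => cyc_mul hN x y⟩ (fun _ _ => rfl) _
    (fun f hf => ?_) (fun f hf f' hf' hff => ?_)
  · obtain ⟨⟨h1, N, hN1, hN2⟩, h3⟩ := hs f (Finset.mem_filter.1 hf).1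
    refine ⟨fun g hg g' hg' => ?_, ⟨N, hN1, fun x hx => hN2 x (hle hx)⟩,
      fun W hW τ hτ hτ' => h3 W (fun hp => hW (Finset.mem_insert_of_mem hp)) τ hτ (hle hτ')⟩
    rw [(mem_FixMu_iff hN).1 (hmu hg), one_mul, h1 g (hle hg) g' (hle hg')]
  · rw [Finset.mem_filter] at hf hf'
    refine hsep f hf.1 f' hf'.1 fun x hx => ?_
    obtain ⟨t, ⟨ht, ht'⟩, -⟩ := hr' x hx
    have e : x = t * (t⁻¹ * x) := by rw [mul_inv_cancel_left]
    have e2 : f t = f' t := congrFun (hf.2.trans hf'.2.symm) ⟨t, ht⟩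
    rw [e, (hs f hf.1).1.1 t (hr t ht) _ (hle ht'), (hs f' hf'.1).1.1 t (hr t ht) _ (hle ht'), e2,
      hff _ ht' (hmu ht')]

end Crest.Agent.R018
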