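import Crest.Agent.R018.Fib
import Crest.Agent.R018.LL1
import Crest.Agent.R018.LL2
import Crest.Agent.R018.Sel

/-!
# R018 / ExcCount

`U0 = img ⊤`, `h0` from `exists_class_exp U0`, `H = G0 ⊓ FixMu 4`, `B'` from `pbad`, `g = deg H (B' + 2)`.  Given `l`: `P = P_bad(l) ∪ {l}`,
`H' = {x ∈ H | cyc l (α x) = cyc l x}` (`exists_cycExt_of_mhom` with `ψ x = cyc l (α x) / cyc l x ∈ (ZMod l)ˣ`), `C` from `selB`.  Given `k` and `s`: `ψ = cyc (l^k) ∘ α` agrees with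
`cyc (l^k)` on `H'` (`zmod_eq_one_of_pow_sub_one`).  `x_W ∈ LU U0` with `dv x_W = bas U0 W ^ h0`, `ρ_W = rt (l^k) x_W`; for `c : s → Fin (l^k)`, `ρ_c = ∏ ρ_W^{c W}`,
`f_c = kum (l^k) ρ_c ∘ α` is a continuous `ψ`-cocycle on `H`.  Unramified outside `P`: for `τ ∈ Ine V ⊓ H'`, `α τ ∈ U_k = U0 ⊓ FixMu (l^k)` where `kum ρ_c` is a `CHom`; use `ll0`, or
`ll1`, `W'.p ≠ l` (`pbad`), `W'` not `U0`-conjugate to a member of `s` (`exc_of_same`) so `x_c` is a unit at `W'` (`Ine_fix_of_pow`) and `ll2`.  Distinct: if `f_c = f_{c'}` on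
`H' ⊓ FixMu (l^k)`, then `κ = kum (ρ_c / ρ_{c'})` kills the `2(l-1)`-th powers in `U_k` (`eq_zero_of_pow_mem`), so `ρ_c/ρ_{c'}` is fixed by `U_k ≥ Ine W ⊓ U0`,
`vU_mem_valGrp_of_ine` and `unif_zpow_injective` give `l^k ∣ h0 (c W - c' W)`.
`stepB`: `k = 1` (Fermat); `stepC`: `cyc_pow_eq_of_lcyc_eq`, let `k → ∞`.
-/

set_option autoImplicit false
set_option linter.unusedSectionVars false

noncomputable section

namespace Crest.Agent.R018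

open scoped NNReal Classical

variable {Ω F E : Type*} [Field Ω] [CharZero Ω] [IsAlgClosed Ω] [IsGalois ℚ Ω]
  [Field F] [NumberField F] [Field E] [CharZero E] [Algebra F E] [IsGalois F E] [RadCl E]

namespace Setup
variable (S : Setup Ω F E)

theorem ec_not_dvd {p l : ℕ} (hp : p.Prime) (hl : l.Prime) (h : p ≠ l) (k : ℕ) : ¬ p ∣ l ^ k :=
  fun hd => h ((Nat.prime_dvd_prime_iff_eq hp hl).1 (hp.dvd_of_dvd_pow hd))

theorem ec_four (g : Gal(Ω/ℚ)) : g ^ 2 ∈ FixMu ℚ Ω 4 := by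
  rw [mem_FixMu_iff (by norm_num), cyc_pow (by norm_num)]
  obtain ⟨u, hu⟩ := isUnit_cyc (N := 4) (by norm_num) g
  rw [← hu]
  revert u
  generalize cyc 4 g = a
  decide +revert

/-- the subgroup of `G0 ⊓ FixMu 4` where the mod `l` cyclotomic characters agree. -/
theorem ec_sub {l : ℕ} (hl : l.Prime) : ∃ (H' : Subgroup Gal(Ω/ℚ)) (σ : Gal(Ω/ℚ)) (n : ℕ),
    CycExt (S.G0 ⊓ FixMu ℚ Ω 4) H' σ n ∧
      ∀ x, x ∈ H' ↔ x ∈ S.G0 ⊓ FixMu ℚ Ω 4 ∧ cyc l (S.α x) = cyc l x := by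
  haveI := Fact.mk hl
  have h0 := hl.ne_zero
  let ψ : Gal(Ω/ℚ) → (ZMod l)ˣ := fun x => (isUnit_cyc h0 (S.α x)).unit / (isUnit_cyc h0 x).unit
  have h1 : ∀ x, ψ x = 1 ↔ cyc l (S.α x) = cyc l x := fun x => by
    simp only [ψ, div_eq_one, Units.ext_iff, IsUnit.unit_spec]
  have hψ : MHom (S.G0 ⊓ FixMu ℚ Ω 4) ψ := by
    refine ⟨(h1 1).2 (by rw [S.map_one, cyc_one h0, cyc_one h0]), fun x hx y hy => ?_⟩
    simp only [ψ]
    rw [div_mul_div_comm]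
    congr 1 <;> ext
    · simp only [IsUnit.unit_spec, Units.val_mul, S.mul x hx.1 y hy.1, cyc_mul h0]
    · simp only [IsUnit.unit_spec, Units.val_mul, cyc_mul h0]
  obtain ⟨H', hH'⟩ := hψ.exists_ker
  have ho : IsOpen (H' : Set Gal(Ω/ℚ)) := by
    refine Subgroup.isOpen_mono (H₁ := FixMu ℚ Ω 4 ⊓ FixMu ℚ Ω l ⊓ S.pre (FixMu F E l))
      (fun x hx => (hH' x).2 ⟨⟨hx.2.1, hx.1.1⟩, (h1 x).2 ?_⟩)
      (isOpen_inf (isOpen_inf (isOpen_FixMu 4) (isOpen_FixMu l)) (S.isOpen_pre (isOpen_FixMu l)))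
    rw [(mem_FixMu_iff h0).1 hx.1.2, (mem_FixMu_iff h0).1 hx.2.2]
  obtain ⟨σ, n, h, -⟩ := exists_cycExt_of_mhom ho hψ hH'
  exact ⟨H', σ, n, h, fun x => by rw [hH', h1]⟩

theorem ec_cyc {l k : ℕ} (hl : l.Prime) (hk : k ≠ 0) {x : Gal(Ω/ℚ)} {y : Gal(E/F)}
    (h1 : cyc (l ^ k) y ^ (l - 1) = cyc (l ^ k) x ^ (l - 1)) (h2 : cyc l y = cyc l x) :
    cyc (l ^ k) y = cyc (l ^ k) x := by
  haveI := Fact.mk hl
  have hN : l ^ k ≠ 0 := pow_ne_zero _ hl.ne_zero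
  have h3 : cyc (l ^ k) x⁻¹ * cyc (l ^ k) y = 1 := by
    refine zmod_eq_one_of_pow_sub_one hk ?_ ?_
    · rw [mul_pow, h1, ← mul_pow, cyc_inv_mul hN, one_pow]
    · rw [map_mul, cyc_cast _ hN, cyc_cast _ hN, h2, cyc_inv_mul hl.ne_zero]
  exact (isUnit_cyc hN x⁻¹).mul_left_cancel (h3.trans (cyc_inv_mul hN x).symm)

/-- unramified outside the bad primes. -/
theorem ec_unr {l k : ℕ} (hl : l.Prime) (hl2 : l ≠ 2) {ρ : E} (hρ : ρ ≠ 0)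
    (hL : ρ ^ l ^ k ∈ L (S.img ⊤)) (hv : ∀ W : Pl E, ¬ S.Exc l W → W.v ρ = 1) {V : Pl Ω}
    (hV : V.p ≠ l) (hb : ∀ W : Pl E, S.Rel V W → W.p ≠ l) {τ : Gal(Ω/ℚ)} (hτ : τ ∈ Ine ℚ V)
    (h0 : τ ∈ S.G0) (hc : cyc (l ^ k) (S.α τ) = cyc (l ^ k) τ) :
    kum (l ^ k) ρ (S.α τ) = 0 := by
  have hN : l ^ k ≠ 0 := pow_ne_zero _ hl.ne_zero
  have hU : IsOpen ((S.img ⊤ ⊓ FixMu F E (l ^ k) : Subgroup Gal(E/F)) : Set Gal(E/F)) :=
    isOpen_inf (S.isOpen_img isOpen_univ) (isOpen_FixMu _)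
  have hκ : CHom (S.img ⊤ ⊓ FixMu F E (l ^ k)) (kum (l ^ k) ρ) :=
    chom_kum hN hρ inf_le_right (L_anti inf_le_left hL)
  have hp : τ ∈ S.pre (S.img ⊤ ⊓ FixMu F E (l ^ k)) := by
    refine ⟨h0, ⟨τ, trivial, h0, rfl⟩, (mem_FixMu_iff hN).2 ?_⟩
    rw [hc]
    exact (mem_FixMu_iff hN).1 (Ine_le_FixMu (ec_not_dvd V.hp hl hV k) hτ)
  by_cases hT : S.Tl l V
  · obtain ⟨W, hW⟩ := S.ll1 hl hl2 hT
    refine S.ll2 hl hl2 hV (hb W hW) hW hU hκ (fun t ht ht' => ?_) τ hτ hp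
    have h1 := mem_L.1 hL t ht'.1
    exact (kum_eq_zero_iff hN hρ h1).2 (Ine_fix_of_pow (ec_not_dvd W.hp hl (hb W hW) k) ht
      (hv W fun h => h ⟨V, hT, hW⟩) h1)
  · exact S.ll0 hl hV hT hU hκ τ hτ hp

/-- equal cocycles on a small subgroup: the quotient of the roots is fixed by `U_k`. -/
theorem ec_fix {l k : ℕ} (hl : l.Prime) (hl2 : l ≠ 2)
    (hk : ∀ x ∈ S.G0, cyc (l ^ k) (S.α x) ^ (l - 1) = cyc (l ^ k) x ^ (l - 1)) {ρ ρ' : E}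
    (hρ : ρ ≠ 0) (hρ' : ρ' ≠ 0) (hL : ρ ^ l ^ k ∈ L (S.img ⊤)) (hL' : ρ' ^ l ^ k ∈ L (S.img ⊤))
    (h : ∀ x ∈ S.G0 ⊓ FixMu ℚ Ω 4, cyc l (S.α x) = cyc l x → x ∈ FixMu ℚ Ω (l ^ k) →
      kum (l ^ k) ρ (S.α x) = kum (l ^ k) ρ' (S.α x)) :
    ρ / ρ' ∈ L (S.img ⊤ ⊓ FixMu F E (l ^ k)) := by
  have hN : l ^ k ≠ 0 := pow_ne_zero _ hl.ne_zero
  have a1 := (chom_kum hN hρ inf_le_right (L_anti (H' := S.img ⊤ ⊓ FixMu F E (l ^ k))
    inf_le_left hL)).1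
  have a2 := (chom_kum hN hρ' inf_le_right (L_anti (H' := S.img ⊤ ⊓ FixMu F E (l ^ k))
    inf_le_left hL')).1
  have hm : ((l - 1) * 2).Coprime (l ^ k) := by
    refine Nat.Coprime.pow_right _ (Nat.Coprime.mul_left ?_
      ((Nat.coprime_primes Nat.prime_two hl).2 hl2.symm))
    exact (Nat.coprime_self_sub_left hl.one_le).2 (Nat.coprime_one_left l)
  have h0 := eq_zero_of_pow_mem hm (U := S.img ⊤ ⊓ FixMu F E (l ^ k))
    (κ := fun u => kum (l ^ k) ρ u - kum (l ^ k) ρ' u)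
    (fun x hx y hy => by simp only [a1 x hx y hy, a2 x hx y hy]; ring) ?_
  · exact mem_L.2 fun u hu => sel_fix_div hN hρ hρ' (mem_L.1 hL u hu.1) (mem_L.1 hL' u hu.1)
      (sub_eq_zero.1 (h0 u hu))
  rintro _ ⟨⟨g, -, hg, rfl⟩, hu⟩
  simp only [← S.map_pow hg, sub_eq_zero]
  refine h _ ⟨S.G0.pow_mem hg _, by rw [pow_mul]; exact ec_four _⟩ ?_ ?_
  · rw [S.map_pow hg, pow_mul, pow_mul, cyc_pow hl.ne_zero, cyc_pow hl.ne_zero _ 2,
      (mem_FixMu_iff hl.ne_zero).1 (pow_mem_FixMu_prime hl g),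
      (mem_FixMu_iff hl.ne_zero).1 (pow_mem_FixMu_prime hl (S.α g))]
  · rw [mem_FixMu_iff hN, cyc_pow hN, pow_mul, ← hk g hg, (mem_FixMu_iff hN).1 hu, one_pow, one_pow]

theorem excCount (hS : S.Maxl) : ∃ g h0 : ℕ, h0 ≠ 0 ∧ ∀ l : ℕ, l.Prime → l ≠ 2 → ¬ l ∣ h0 → ∃ C : ℕ,
    ∀ k : ℕ, (∀ x ∈ S.G0, cyc (l ^ k) (S.α x) ^ (l - 1) = cyc (l ^ k) x ^ (l - 1)) →
    ∀ s : Finset (Pl E), (∀ W ∈ s, ∀ W' ∈ s, W.p = W'.p → W = W') →
      (∀ W ∈ s, W.p ≠ l ∧ S.Exc l W) → (l ^ k) ^ s.card ≤ C * (l ^ k) ^ g := by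
  have hU0 : IsOpen (S.img ⊤ : Set Gal(E/F)) := S.isOpen_img isOpen_univ
  obtain ⟨h0, hh0, hcl⟩ := exists_class_exp hU0
  obtain ⟨B, hB⟩ := S.pbad hS
  choose x hx hdv using fun W : Pl E =>
    hcl (bas (S.img ⊤) W) (Subgroup.subset_closure ⟨W, by simp, rfl⟩)
  refine ⟨deg (S.G0 ⊓ FixMu ℚ Ω 4) * (B + 2), h0, hh0, fun l hl hl2 hlh => ?_⟩
  obtain ⟨P, hPc, hP⟩ := hB l
  obtain ⟨H', σ, n, hcyc, hH'⟩ := S.ec_sub hl
  obtain ⟨C, hC⟩ := selB hcyc inf_le_right hl (insert l P) (Finset.mem_insert_self _ _)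
  refine ⟨C + 1, fun k hk s hs hs' => ?_⟩
  rcases eq_or_ne k 0 with rfl | hk0
  · simp
  have hN : l ^ k ≠ 0 := pow_ne_zero _ hl.ne_zero
  have hψ : ∀ y ∈ H', cyc (l ^ k) (S.α y) = cyc (l ^ k) y := fun y hy =>
    ec_cyc hl hk0 (hk y ((hH' y).1 hy).1.1) ((hH' y).1 hy).2
  let r : Pl E → Eˣ := fun W => Units.mk0 (rt (l ^ k) (x W : E)) (rt_ne_zero hN (x W).ne_zero)
  have hr : ∀ W, r W ^ l ^ k = x W := fun W => Units.ext (rt_pow hN _)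
  let ρ : (s → Fin (l ^ k)) → Eˣ := fun c => ∏ W : s, r W ^ (c W : ℕ)
  have hρ : ∀ c, ρ c ^ l ^ k = ∏ W : s, x W ^ (c W : ℕ) := fun c => by
    simp only [ρ, ← Finset.prod_pow, pow_right_comm _ _ (l ^ k), hr]
  have hL : ∀ c, (ρ c : E) ^ l ^ k ∈ L (S.img ⊤) := fun c => by
    rw [← Units.val_pow_eq_pow_val, hρ]
    exact (LU (S.img ⊤)).prod_mem fun W _ => (LU _).pow_mem (hx W) _
  have hv : ∀ c (W' : Pl E), W'.vU (ρ c) ^ l ^ k =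
      ∏ W : s, bas (S.img ⊤) W W' ^ (h0 * c W) := fun c W' => by
    rw [← _root_.map_pow, hρ, map_prod]
    refine Finset.prod_congr rfl fun W _ => ?_
    rw [_root_.map_pow, ← dv_apply, hdv, Dv.pow_apply, pow_mul]
  let f : (s → Fin (l ^ k)) → Gal(Ω/ℚ) → ZMod (l ^ k) := fun c g => kum (l ^ k) (ρ c : E) (S.α g)
  have key : ∀ c c', (∀ y ∈ H', y ∈ FixMu ℚ Ω (l ^ k) → f c y = f c' y) → c = c' := by
    intro c c' h
    have h1 := S.ec_fix hl hl2 hk (ρ c).ne_zero (ρ c').ne_zero (hL c) (hL c')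
      fun y hy hy' => h y ((hH' y).2 ⟨hy, hy'⟩)
    funext W
    have h2 : W.1.vU (ρ c / ρ c') ∈ valGrp (S.img ⊤) W.1 := by
      refine vU_mem_valGrp_of_ine hU0 _ ?_
      rw [Units.val_div_eq_div_val]
      exact L_anti (le_inf inf_le_right (inf_le_left.trans
        (Ine_le_FixMu (ec_not_dvd W.1.hp hl (hs' W.1 W.2).1 k)))) h1
    rw [(unif_spec hU0 W.1).2] at h2
    obtain ⟨m, hm⟩ := Subgroup.mem_zpowers_iff.1 h2
    have h3 : ∀ c : s → Fin (l ^ k), W.1.vU (ρ c) ^ l ^ k = unif (S.img ⊤) W.1 ^ (h0 * c W) := by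
      intro c
      rw [hv, Finset.prod_eq_single W (fun W' _ hW' => ?_) (by simp), bas, if_pos (Same.refl _ _)]
      rw [bas, if_neg fun h => hW' (Subtype.ext (hs _ W'.2 _ W.2 h.p_eq)), one_pow]
    have h4 : m * (l ^ k : ℕ) = (h0 * c W : ℕ) - (h0 * c' W : ℕ) := by
      refine unif_zpow_injective hU0 W.1 ?_
      simp only [zpow_mul, zpow_sub, zpow_natCast, hm, ← h3, map_div, div_pow, div_eq_mul_inv,
        map_mul, _root_.map_inv, mul_pow, inv_pow]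
    have h5 : h0 * c' W ≡ h0 * c W [MOD l ^ k] := Nat.modEq_iff_dvd.2 ⟨m, by rw [← h4, mul_comm]⟩
    have h6 := Nat.ModEq.cancel_left_of_coprime
      (Nat.Coprime.pow_left k ((Nat.Prime.coprime_iff_not_dvd hl).2 hlh)) h5
    exact Fin.ext (Nat.ModEq.eq_of_lt_of_lt h6 (c' W).2 (c W).2).symm
  have hmem : ∀ g ∈ S.G0, S.α g ∈ S.img ⊤ := fun g hg => ⟨g, trivial, hg, rfl⟩
  have h := hC k (fun g => cyc (l ^ k) (S.α g))
    ⟨by simp only [S.map_one, cyc_one hN], fun a ha b hb => by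
      simp only [S.mul a ha.1 b hb.1, cyc_mul hN]⟩ hψ (Finset.univ.image f) ?_ ?_
  · rw [Finset.card_image_of_injective _ fun c c' e => key c c' fun y _ _ => by rw [e]] at h
    simp only [Finset.card_univ, Fintype.card_fun, Fintype.card_fin, Fintype.card_coe] at h
    refine h.trans (Nat.mul_le_mul (Nat.le_succ C) (Nat.pow_le_pow_right
      (Nat.pos_of_ne_zero hN) (Nat.mul_le_mul_left _ ?_)))
    have := Finset.card_insert_le l P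
    omega
  · intro _ hf
    obtain ⟨c, -, rfl⟩ := Finset.mem_image.1 hf
    refine ⟨fun a ha b hb => ?_, S.locZ_comp (J := S.G0 ⊓ FixMu ℚ Ω 4) (U := ⊤)
      (fun a ha => ⟨ha.1, trivial⟩)
      (locZ_kum _ hN (ρ c).ne_zero ⊤), fun V hV τ hτ hτ' => ?_⟩
    · simp only [f, S.mul a ha.1 b hb.1]
      exact kum_mul_right hN (ρ c).ne_zero (mem_L.1 (hL c) _ (hmem a ha.1))
        (mem_L.1 (hL c) _ (hmem b hb.1))
    · rw [Finset.mem_insert, not_or] at hV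
      refine S.ec_unr hl hl2 (ρ c).ne_zero (hL c) (fun W' hW' => sel_v_eq_one W' hN ?_) hV.1
        (fun W' hR e => hV.2 (hP V W' hR e)) hτ ((hH' τ).1 hτ').1.1 (hψ τ hτ')
      rw [← Pl.coe_vU, ← Units.val_pow_eq_pow_val, hv, Finset.prod_eq_one, Units.val_one]
      intro W _
      rw [bas, if_neg fun h => hW' (S.exc_of_same h (hs' W.1 W.2).2), one_pow]
  · intro _ hf _ hf' e
    obtain ⟨c, -, rfl⟩ := Finset.mem_image.1 hf
    obtain ⟨c', -, rfl⟩ := Finset.mem_image.1 hf'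
    rw [key c c' e]

theorem stepBC (hS : S.Maxl) : ∃ g h0 : ℕ, h0 ≠ 0 ∧ ∀ (l : ℕ) [Fact l.Prime], l ≠ 2 → ¬ l ∣ h0 →
    (∃ P : Finset ℕ, ∀ W : Pl E, S.Exc l W → W.p ∈ P) ∧
    (S.Psi l → ∀ s : Finset (Pl E), (∀ W ∈ s, ∀ W' ∈ s, W.p = W'.p → W = W') →
      (∀ W ∈ s, W.p ≠ l ∧ S.Exc l W) → s.card ≤ g) := by
  obtain ⟨g, h0, hh0, h⟩ := S.excCount hS
  refine ⟨g, h0, hh0, fun l hl hl2 hlh => ?_⟩
  have hl := hl.out
  obtain ⟨C, hC⟩ := h l hl hl2 hlh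
  refine ⟨?_, fun hP s hs hs' => ?_⟩
  · have hN : l ^ 1 ≠ 0 := pow_ne_zero _ hl.ne_zero
    have h1 := hC 1 fun x _ => by
      rw [← cyc_pow hN, ← cyc_pow hN,
        (mem_FixMu_iff hN).1 (FixMu_anti (pow_one l).dvd hl.ne_zero (pow_mem_FixMu_prime hl x)),
        (mem_FixMu_iff hN).1 (FixMu_anti (pow_one l).dvd hl.ne_zero (pow_mem_FixMu_prime hl _))]
    have hfin : {p | ∃ W : Pl E, W.p = p ∧ W.p ≠ l ∧ S.Exc l W}.Finite := by
      by_contra hinf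
      obtain ⟨T, hT, hc⟩ := Set.Infinite.exists_subset_card_eq hinf (C * (l ^ 1) ^ g)
      choose w hw using fun p : T => hT p.2
      have hinj : Function.Injective w := fun p q e =>
        Subtype.ext ((hw p).1.symm.trans (e ▸ (hw q).1))
      have h2 := h1 (Finset.univ.image w) (fun W hW W' hW' e => ?_) fun W hW => ?_
      · rw [Finset.card_image_of_injective _ hinj, Finset.card_univ, Fintype.card_coe, hc] at h2
        exact absurd h2 (not_le.2 (Nat.lt_pow_self (by simpa using hl.one_lt)))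
      · obtain ⟨p, -, rfl⟩ := Finset.mem_image.1 hW
        obtain ⟨q, -, rfl⟩ := Finset.mem_image.1 hW'
        rw [(hw p).1, (hw q).1] at e
        rw [Subtype.ext e]
      · obtain ⟨p, -, rfl⟩ := Finset.mem_image.1 hW
        exact (hw p).2
    refine ⟨insert l hfin.toFinset, fun W hW => ?_⟩
    rw [Finset.mem_insert, Set.Finite.mem_toFinset]
    exact (eq_or_ne W.p l).imp_right fun h => ⟨W, rfl, h, hW⟩
  · by_contra hlt
    have h1 := hC C (fun x hx => cyc_pow_eq_of_lcyc_eq hl2 (hP x hx) C) s hs hs'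
    have hN : 0 < l ^ C := pow_pos hl.pos _
    have h2 := (Nat.pow_le_pow_right hN (Nat.succ_le_of_lt (not_le.1 hlt))).trans h1
    rw [pow_succ'] at h2
    exact absurd (Nat.le_of_mul_le_mul_right h2 (pow_pos hN _))
      (not_le.2 (Nat.lt_pow_self hl.one_lt))

end Setup

end Crest.Agent.R018
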