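import Crest.Agent.R018.Ram
import Crest.Agent.R018.CycB

/-!
# R018 / KLem

(K) Suppose `ι₁ x₀ ≠ ι₂ x₀`; let `θ ∈ L U` be an algebraic integer with `ι₁ θ ≠ ι₂ θ`, `f ∈ ℤ[X]` its minimal polynomial (degree ≥ 1... in
fact ≥ 2).  Shrink `H` so that it fixes `ι₁ θ, ι₂ θ`.  Infinitely many primes `p` divide a value `f(a)`, `a ∈ ℤ` (Schur; or use
`exists_dec_le`-free argument: if only primes in `B` divide values, look at `f(f(0) ∏B · t)`).  For such `p` outside the finite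
sets of `exists_unif_eq_p` and `finite_p_v_ne_one (ι₁θ - ι₂θ)`: `f(a) = ± N(θ - a)`, so some place `W0` of `E'` above `p` has
`W0.v (θ - a) < 1` (otherwise... e.g. `θ - a` is not a unit at `p`: its inverse would be integral at all places above `p`; or take a
root of `f` in `E` close to `a` at a place `W1` and move by `exists_pl_extend`); extend along `ι₁` (`exists_pl_extend`) to `W` with
`W.v (ι₁θ - a) < 1`; replacing `a` by `a + p` if necessary `W.v (ι₁θ - a) = W.v p`; then `W.v (ι₂θ - a) = 1`.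
Build `y_1, y_2, ...` (`y_j = θ - a_j`, `p_j` outside the supports of `ι_i y_k`, `k < j`); two of them, `k < j`, are in the same
coset of `Y`; `ι₁ (y_j/y_k) / ι₂ (y_j/y_k)` has value `W.v p = unif`, which is not a square in `valGrp H W`.
(K0) is the same with `y_j = p_j`.  `eq_one_of_centralizes`: for `N ≤ U` open normal, `y ∈ LU N`, `ρ² = y`: `γρ/ρ` is fixed by `N`
(`n γ ρ = γ n ρ = ± γ ρ` with the sign of `n ρ = ± ρ`), so (K) with `ι₁ = γ`, `ι₂ = id` gives `γ ∈ N`.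
-/

set_option autoImplicit false
set_option linter.unusedSectionVars false

noncomputable section

namespace Crest.Agent.R018

open scoped NNReal Classical

variable {F E : Type*} [Field F] [NumberField F] [Field E] [CharZero E] [Algebra F E]
  [IsGalois F E]

theorem infinite_primes_dvd_eval (f : Polynomial ℤ) (hf : 0 < f.natDegree) (B : Finset ℕ) :
    ∃ p : ℕ, p.Prime ∧ p ∉ B ∧ ∃ a : ℤ, (p : ℤ) ∣ f.eval a := by
  by_cases hc : f.eval 0 = 0
  · obtain ⟨p, hp, hpB⟩ := Nat.infinite_setOfPred_prime.exists_notMem_finset B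
    exact ⟨p, hp, hpB, 0, by rw [hc]; exact dvd_zero _⟩
  set c := f.eval 0 with hcdef
  set P : ℕ := ∏ q ∈ B.filter Nat.Prime, q with hP
  have hP0 : P ≠ 0 := Finset.prod_ne_zero_iff.2 fun q hq => (Finset.mem_filter.1 hq).2.ne_zero
  have hne : ∀ e : ℤ, f - Polynomial.C e ≠ 0 := by
    intro e he
    rw [sub_eq_zero] at he
    rw [he, Polynomial.natDegree_C] at hf
    exact lt_irrefl _ hf
  have hg : (f - Polynomial.C c) * (f - Polynomial.C (-c)) ≠ 0 := mul_ne_zero (hne _) (hne _)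
  have hfin := Polynomial.finite_setOfPred_isRoot hg
  have hinj : Function.Injective fun t : ℤ => c * P * t := by
    intro t t' h
    exact mul_left_cancel₀ (mul_ne_zero hc (by exact_mod_cast hP0)) h
  obtain ⟨_, ⟨t, rfl⟩, ht⟩ := (Set.infinite_range_of_injective hinj).exists_notMem_finite hfin
  have ht' : ¬ ((f - Polynomial.C c) * (f - Polynomial.C (-c))).IsRoot (c * P * t) := ht
  simp only [Polynomial.IsRoot.def, Polynomial.eval_mul, Polynomial.eval_sub, Polynomial.eval_C,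
    mul_eq_zero, not_or] at ht'
  obtain ⟨k, hk⟩ := Polynomial.sub_dvd_eval_sub (c * P * t) 0 f
  rw [sub_zero, ← hcdef] at hk
  have he : f.eval (c * P * t) = c * (1 + P * (t * k)) := by linear_combination hk
  have h1 : (1 + P * (t * k) : ℤ).natAbs ≠ 1 := by
    intro h
    rcases Int.natAbs_eq_iff.1 h with h | h
    · exact ht'.1 (by rw [he, h]; simp)
    · exact ht'.2 (by rw [he, h]; simp)
  obtain ⟨p, hp, hpd⟩ := Nat.exists_prime_and_dvd h1
  have hpd' : (p : ℤ) ∣ 1 + P * (t * k) := Int.natCast_dvd.2 hpd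
  refine ⟨p, hp, fun hpB => ?_, c * P * t, by rw [he]; exact hpd'.mul_left c⟩
  have h2 : p ∣ P := Finset.dvd_prod_of_mem _ (Finset.mem_filter.2 ⟨hpB, hp⟩)
  have h3 : (p : ℤ) ∣ P * (t * k) := (Int.natCast_dvd_natCast.2 h2).mul_right _
  have h4 : (p : ℤ) ∣ 1 := (dvd_add_left h3).1 hpd'
  exact hp.one_lt.ne' (by exact_mod_cast Int.eq_one_of_dvd_one (by positivity) h4)

variable (F) in
include F in
/-- an algebraic integer is congruent to a rational integer at places above infinitely many primes. -/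
theorem kLem_exists_close {t : E} (ht : IsIntegral ℤ t) (B : Finset ℕ) :
    ∃ W : Pl E, W.p ∉ B ∧ ∃ a : ℤ, W.v (t - a) < 1 := by
  have := isAlgebraic_rat F E
  obtain ⟨p, hp, hpB, a, ha⟩ := infinite_primes_dvd_eval (minpoly ℤ t) (minpoly.natDegree_pos ht) B
  let φ : Polynomial ℤ →+* E := (Polynomial.aeval t : Polynomial ℤ →ₐ[ℤ] E).toRingHom
  let A : Subring E := φ.range
  let x : A := ⟨φ (Polynomial.C (p : ℤ)), _, rfl⟩
  let y : A := ⟨φ (Polynomial.X - Polynomial.C a), _, rfl⟩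
  have hI : Ideal.span {x, y} ≠ ⊤ := by
    intro h
    have h1 : (1 : A) ∈ Ideal.span {x, y} := by rw [h]; trivial
    obtain ⟨⟨_, α, rfl⟩, ⟨_, β, rfl⟩, hαβ⟩ := Ideal.mem_span_pair.1 h1
    have h2 : φ α * φ (Polynomial.C (p : ℤ)) + φ β * φ (Polynomial.X - Polynomial.C a) = 1 :=
      congrArg Subtype.val hαβ
    have h3 : Polynomial.aeval t
        (α * Polynomial.C (p : ℤ) + β * (Polynomial.X - Polynomial.C a) - 1) = 0 := by
      change φ _ = 0
      rw [map_sub, map_add, map_mul, map_mul, h2, map_one, sub_self]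
    have h4 := Polynomial.eval_dvd (x := a) (minpoly.isIntegrallyClosed_dvd ht h3)
    have h5 : (p : ℤ) ∣ α.eval a * p - 1 := by simpa using ha.trans h4
    have h6 : (p : ℤ) ∣ 1 := by
      have := (dvd_mul_left (p : ℤ) (α.eval a)).sub h5
      simpa using this
    exact hp.one_lt.ne' (by exact_mod_cast Int.eq_one_of_dvd_one (by positivity) h6)
  obtain ⟨V, -, hV⟩ := Ideal.image_subset_nonunits_valuationSubring _ hI
  have hx : (p : E) ∈ V.nonunits := by
    have := hV ⟨x, Ideal.subset_span (by simp), rfl⟩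
    simpa [x, φ] using this
  have hy : t - a ∈ V.nonunits := by
    have := hV ⟨y, Ideal.subset_span (by simp), rfl⟩
    simpa [y, φ] using this
  obtain ⟨W, hWp, hW⟩ := exists_pl_of_valuationSubring V hp hx
  refine ⟨W, hWp ▸ hpB, a, ?_⟩
  rcases V.mem_nonunits_iff_or.1 hy with h0 | h0
  · rw [h0]; simp
  · rw [← hW, map_inv₀, not_le] at h0
    by_contra h1
    exact absurd (inv_le_one_of_one_le₀ (not_lt.1 h1)) (not_le.2 h0)

/-- an element whose value is the uniformiser value is not a square. -/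
theorem kLem_not_sq {H : Subgroup Gal(E/F)} (hH : IsOpen (H : Set Gal(E/F))) (W : Pl E) {m : E}
    (hm : m ∈ L H) : W.v (m ^ 2) ≠ (unif H W : ℝ≥0) := by
  intro h
  have hm0 : m ≠ 0 := by
    rintro rfl
    exact (unif H W).ne_zero (by simpa using h.symm)
  have h1 : W.vU (Units.mk0 m hm0) ∈ valGrp H W := ⟨Units.mk0 m hm0, hm, rfl⟩
  rw [(unif_spec hH W).2] at h1
  obtain ⟨k, hk⟩ := h1
  have h2 : unif H W ^ (k * 2) = unif H W ^ (1 : ℤ) := by
    have hk' : unif H W ^ k = W.vU (Units.mk0 m hm0) := hk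
    rw [zpow_mul, hk', zpow_one]
    ext1
    rw [← h]
    simp [zpow_ofNat]
  have h3 := unif_zpow_injective hH W h2
  omega

variable (F) in
include F in
/-- pigeonhole: move an element with a prescribed value into a subgroup of finite index. -/
theorem kLem_pigeon {M : Type*} [CommGroup M] {A Y : Subgroup M} (hY : Y.relIndex A ≠ 0)
    (φ : M →* Eˣ) (t : Pl E → ℝ≥0)
    (h : ∀ B : Finset ℕ, ∃ y ∈ A, ∃ W : Pl E, W.p ∉ B ∧ W.v (φ y : E) = t W) :
    ∃ y ∈ Y, y ∈ A ∧ ∃ W : Pl E, W.v (φ y : E) = t W := by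
  have := isAlgebraic_rat F E
  have : Finite (A ⧸ Y.subgroupOf A) := Nat.finite_of_card_ne_zero hY
  have := Fintype.ofFinite (A ⧸ Y.subgroupOf A)
  choose Bq hBq using fun q : A ⧸ Y.subgroupOf A =>
    finite_p_v_ne_one (E := E) (φ ((q.out : A) : M)).ne_zero
  obtain ⟨y, hy, W, hW, hv⟩ := h (Finset.univ.biUnion Bq)
  set q : A ⧸ Y.subgroupOf A := QuotientGroup.mk ⟨y, hy⟩ with hq
  have h1 : (q.out)⁻¹ * ⟨y, hy⟩ ∈ Y.subgroupOf A := by
    rw [← QuotientGroup.eq, QuotientGroup.out_eq']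
  have h2 : W.v (φ ((q.out : A) : M) : E) = 1 :=
    hBq q W fun hh => hW (Finset.mem_biUnion.2 ⟨q, Finset.mem_univ _, hh⟩)
  refine ⟨((q.out : A) : M)⁻¹ * y, h1, A.mul_mem (A.inv_mem (q.out).2) hy, W, ?_⟩
  rw [map_mul, map_inv, Units.val_mul, Units.val_inv_eq_inv_val, map_mul, map_inv₀, h2, inv_one,
    one_mul, hv]

theorem embed_eq_of_sq {F' E' : Type*} [Field F'] [NumberField F'] [Field E'] [CharZero E']
    [Algebra F' E'] [IsGalois F' E'] {U : Subgroup Gal(E'/F')} (hU : IsOpen (U : Set Gal(E'/F')))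
    {H : Subgroup Gal(E/F)} (hH : IsOpen (H : Set Gal(E/F))) (ι₁ ι₂ : E' →+* E) (Y : Subgroup E'ˣ)
    (hY : Y.relIndex (LU U) ≠ 0)
    (h : ∀ y ∈ Y, y ∈ LU U → ∃ m ∈ L H, ι₁ (y : E') = m ^ 2 * ι₂ (y : E')) :
    ∀ x ∈ L U, ι₁ x = ι₂ x := by
  have := isAlgebraic_rat F E
  have := isAlgebraic_rat F' E'
  intro x₀ hx₀
  by_contra hne
  have halg : IsAlgebraic ℤ x₀ :=
    (IsFractionRing.isAlgebraic_iff ℤ ℚ E').2 (Algebra.IsAlgebraic.isAlgebraic x₀)
  obtain ⟨n, hn, hθ⟩ := halg.exists_integral_multiple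
  set θ : E' := n • x₀ with hθdef
  have hθU : θ ∈ L U := by
    rw [hθdef]; exact zsmul_mem hx₀ n
  have hθne : ι₁ θ - ι₂ θ ≠ 0 := by
    rw [hθdef, map_zsmul, map_zsmul, ← smul_sub]
    exact smul_ne_zero hn (sub_ne_zero.2 hne)
  have ht : IsIntegral ℤ (ι₁ θ) := hθ.map ι₁.toIntAlgHom
  have hH' : IsOpen ((H ⊓ stab F (ι₁ θ) : Subgroup Gal(E/F)) : Set Gal(E/F)) :=
    isOpen_inf hH (isOpen_stab _)
  have htL : ι₁ θ ∈ L (H ⊓ stab F (ι₁ θ)) := mem_L.2 fun g hg => hg.2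
  obtain ⟨B₁, hB₁⟩ := exists_unif_eq_p hH'
  obtain ⟨B₂, hB₂⟩ := finite_p_v_ne_one hθne
  let φ : E'ˣ →* Eˣ := Units.map ι₁.toMonoidHom / Units.map ι₂.toMonoidHom
  have hφ : ∀ y : E'ˣ, (φ y : E) = ι₁ y / ι₂ y := fun y => by simp [φ]
  obtain ⟨y, hyY, hyU, W, hW⟩ := kLem_pigeon F hY φ (fun W => unif (H ⊓ stab F (ι₁ θ)) W) (by
    intro B
    obtain ⟨W, hWB, a, ha⟩ := kLem_exists_close F ht (B ∪ B₁ ∪ B₂)
    simp only [Finset.mem_union, not_or] at hWB
    have hu := hB₁ W hWB.1.2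
    have h1 := hB₂ W hWB.2
    have hle : W.v (ι₁ θ - a) ≤ W.v (W.p : E) := by
      rw [← hu]
      exact v_le_unif hH' W (sub_mem htL (intCast_mem _ a)) ha
    obtain ⟨a', ha'⟩ : ∃ a' : ℤ, W.v (ι₁ θ - a') = W.v (W.p : E) := by
      rcases hle.eq_or_lt with h2 | h2
      · exact ⟨a, h2⟩
      · refine ⟨a + W.p, ?_⟩
        rw [← W.v.map_sub_eq_of_lt_right h2]
        congr 1
        push_cast
        ring
    have h2 : W.v (ι₂ θ - a') = 1 := by
      have e : ι₂ θ - a' = (ι₁ θ - a') - (ι₁ θ - ι₂ θ) := by ring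
      rw [e, W.v.map_sub_eq_of_lt_right (by rw [ha', h1]; exact W.v_p_lt_one), h1]
    have hy0 : θ - a' ≠ 0 := by
      intro h0
      have : ι₂ θ - a' = 0 := by simpa using congrArg ι₂ h0
      rw [this] at h2
      simp at h2
    refine ⟨Units.mk0 _ hy0, sub_mem hθU (intCast_mem _ a'), W, hWB.1.1, ?_⟩
    rw [hφ, hu, map_div₀]
    simp only [Units.val_mk0, map_sub, map_intCast]
    rw [ha', h2, div_one])
  obtain ⟨m, hm, hm'⟩ := h y hyY hyU
  refine kLem_not_sq hH' W (L_anti inf_le_left hm) ?_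
  rw [← hW, hφ, hm', mul_div_assoc, div_self ((map_ne_zero ι₂).2 y.ne_zero), mul_one]

theorem exists_nonsquare {U : Subgroup Gal(E/F)} (hU : IsOpen (U : Set Gal(E/F))) (Y : Subgroup Eˣ)
    (hY : Y.relIndex (LU U) ≠ 0) : ∃ y ∈ Y, y ∈ LU U ∧ ¬ ∃ m ∈ L U, (y : E) = m ^ 2 := by
  have := isAlgebraic_rat F E
  obtain ⟨B₁, hB₁⟩ := exists_unif_eq_p hU
  obtain ⟨y, hyY, hyU, W, hW⟩ := kLem_pigeon F hY (MonoidHom.id Eˣ) (fun W => unif U W) (by
    intro B
    obtain ⟨p, hp, hpB⟩ := Nat.infinite_setOfPred_prime.exists_notMem_finset (B ∪ B₁)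
    obtain ⟨W, rfl⟩ := exists_pl E hp
    simp only [Finset.mem_union, not_or] at hpB
    have hp0 : (W.p : E) ≠ 0 := by exact_mod_cast W.hp.ne_zero
    exact ⟨Units.mk0 _ hp0, natCast_mem (L U) _, W, hpB.1, (hB₁ W hpB.2).symm⟩)
  refine ⟨y, hyY, hyU, ?_⟩
  rintro ⟨m, hm, hm'⟩
  exact kLem_not_sq hU W hm (by rw [← hm']; exact hW)

theorem eq_one_of_centralizes [RadCl E] {U : Subgroup Gal(E/F)} (hU : IsOpen (U : Set Gal(E/F)))
    {γ : Gal(E/F)} (h : ∀ u ∈ U, γ * u = u * γ) : γ = 1 := by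
  ext x
  have hN : IsOpen ((U ⊓ stab F x : Subgroup Gal(E/F)) : Set Gal(E/F)) :=
    isOpen_inf hU (isOpen_stab _)
  have hx : x ∈ L (U ⊓ stab F x) := mem_L.2 fun g hg => hg.2
  refine embed_eq_of_sq hN hN (γ : E →+* E) (RingHom.id E) ⊤ (by simp) ?_ x hx
  intro y _ hy
  have hρ : rt 2 (y : E) ^ 2 = y := rt_pow two_ne_zero _
  have hρ0 : rt 2 (y : E) ≠ 0 := rt_ne_zero two_ne_zero y.ne_zero
  set ρ := rt 2 (y : E) with hρdef
  refine ⟨γ ρ / ρ, mem_L.2 fun n hn => ?_, ?_⟩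
  · have h1 : n (γ ρ) = γ (n ρ) := by
      have := congrArg (fun g : Gal(E/F) => g ρ) (h n hn.1)
      simpa using this.symm
    have h2 : (n ρ) ^ 2 = ρ ^ 2 := by
      rw [← map_pow, hρ]; exact mem_L.1 hy n hn
    rw [map_div₀, h1]
    rcases sq_eq_sq_iff_eq_or_eq_neg.1 h2 with h3 | h3
    · rw [h3]
    · rw [h3, map_neg, neg_div_neg_eq]
  · change γ (y : E) = (γ ρ / ρ) ^ 2 * (y : E)
    rw [← hρ, map_pow]
    field_simp

end Crest.Agent.R018
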