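import Crest.Agent.R018.SetupB
import Crest.Agent.R018.KLem

/-!
# R018 / Ext

`G⁺ = {s | ∃ γ, ∃ H0 open ≤ G0, ∀ h ∈ H0, s h s⁻¹ ∈ G0 ∧ α (s h s⁻¹) = γ (α h) γ⁻¹}`; `γ` is unique (`eq_one_of_centralizes` for `img (H0 ⊓ H0')`), `α⁺ s = γ`.
For products use `H0 = H0(s') ⊓ s'⁻¹ H0(s) s'` (`isOpen_conj`).  Openness: subgroups containing an open subgroup are open.
-/

set_option autoImplicit false
set_option linter.unusedSectionVars false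

noncomputable section

namespace Crest.Agent.R018

open scoped NNReal Classical

variable {Ω F E : Type*} [Field Ω] [CharZero Ω] [IsAlgClosed Ω] [IsGalois ℚ Ω]
  [Field F] [NumberField F] [Field E] [CharZero E] [Algebra F E] [IsGalois F E] [RadCl E]

namespace Setup
variable (S : Setup Ω F E)

/-- `s` acts on `α` near `1` like conjugation by `γ` -/
def ExtR (s : Ω ≃ₐ[ℚ] Ω) (γ : E ≃ₐ[F] E) : Prop :=
  ∃ H0 : Subgroup (Ω ≃ₐ[ℚ] Ω), IsOpen (H0 : Set (Ω ≃ₐ[ℚ] Ω)) ∧ H0 ≤ S.G0 ∧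
    ∀ h ∈ H0, s * h * s⁻¹ ∈ S.G0 ∧ S.α (s * h * s⁻¹) = γ * S.α h * γ⁻¹

variable {S}

theorem ext_of_mem {s : Ω ≃ₐ[ℚ] Ω} (hs : s ∈ S.G0) : S.ExtR s (S.α s) :=
  ⟨S.G0, S.open0, le_rfl, fun _ hh =>
    ⟨S.G0.mul_mem (S.G0.mul_mem hs hh) (S.G0.inv_mem hs), S.map_conj hs hh⟩⟩

theorem ext_uniq {s : Ω ≃ₐ[ℚ] Ω} {γ γ' : E ≃ₐ[F] E} (h : S.ExtR s γ) (h' : S.ExtR s γ') :
    γ = γ' := by
  obtain ⟨H, ho, -, hH⟩ := h
  obtain ⟨H', ho', -, hH'⟩ := h'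
  have key : γ'⁻¹ * γ = 1 := by
    refine eq_one_of_centralizes (S.isOpen_img (isOpen_inf ho ho')) ?_
    rintro _ ⟨h, hh, -, rfl⟩
    have e := (hH h hh.1).2.symm.trans (hH' h hh.2).2
    calc γ'⁻¹ * γ * S.α h = γ'⁻¹ * (γ * S.α h * γ⁻¹) * γ := by group
      _ = S.α h * (γ'⁻¹ * γ) := by rw [e]; group
  exact (inv_mul_eq_one.1 key).symm

theorem ext_mul {s s' : Ω ≃ₐ[ℚ] Ω} {γ γ' : E ≃ₐ[F] E} (h : S.ExtR s γ) (h' : S.ExtR s' γ') :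
    S.ExtR (s * s') (γ * γ') := by
  obtain ⟨H, ho, -, hH⟩ := h
  obtain ⟨H', ho', hle, hH'⟩ := h'
  refine ⟨H' ⊓ H.comap (MulAut.conj s'⁻¹⁻¹).toMonoidHom, isOpen_inf ho' (isOpen_conj ho _),
    inf_le_left.trans hle, fun h hh => ?_⟩
  have h1 : s' * h * s'⁻¹ ∈ H := by simpa using hh.2
  have e : s * s' * h * (s * s')⁻¹ = s * (s' * h * s'⁻¹) * s⁻¹ := by group
  rw [e]
  refine ⟨(hH _ h1).1, ?_⟩
  rw [(hH _ h1).2, (hH' h hh.1).2]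
  group

theorem ext_inv {s : Ω ≃ₐ[ℚ] Ω} {γ : E ≃ₐ[F] E} (h : S.ExtR s γ) : S.ExtR s⁻¹ γ⁻¹ := by
  obtain ⟨H, ho, hle, hH⟩ := h
  refine ⟨S.G0 ⊓ H.comap (MulAut.conj s⁻¹).toMonoidHom, isOpen_inf S.open0 (isOpen_conj ho _),
    inf_le_left, fun h hh => ?_⟩
  have h1 : s⁻¹ * h * s⁻¹⁻¹ ∈ H := hh.2
  refine ⟨hle h1, ?_⟩
  have e := (hH _ h1).2
  have e' : s * (s⁻¹ * h * s⁻¹⁻¹) * s⁻¹ = h := by group
  rw [e'] at e
  rw [e]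
  group

theorem ext_one : S.ExtR 1 1 := by
  have := ext_of_mem (S := S) S.G0.one_mem
  rwa [S.map_one] at this

variable (S)

/-- the elements that act like an element of `U` -/
def extG (U : Subgroup (E ≃ₐ[F] E)) : Subgroup (Ω ≃ₐ[ℚ] Ω) where
  carrier := {s | ∃ γ ∈ U, S.ExtR s γ}
  one_mem' := ⟨1, U.one_mem, ext_one⟩
  mul_mem' := by
    rintro _ _ ⟨γ, hγ, h⟩ ⟨γ', hγ', h'⟩
    exact ⟨_, U.mul_mem hγ hγ', ext_mul h h'⟩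
  inv_mem' := by
    rintro _ ⟨γ, hγ, h⟩
    exact ⟨_, U.inv_mem hγ, ext_inv h⟩

/-- the image of the extension -/
def extI : Subgroup (E ≃ₐ[F] E) where
  carrier := {γ | ∃ s, S.ExtR s γ}
  one_mem' := ⟨1, ext_one⟩
  mul_mem' := by
    rintro _ _ ⟨s, h⟩ ⟨s', h'⟩
    exact ⟨_, ext_mul h h'⟩
  inv_mem' := by
    rintro _ ⟨s, h⟩
    exact ⟨_, ext_inv h⟩

/-- the extended map -/
def extA (s : Ω ≃ₐ[ℚ] Ω) : E ≃ₐ[F] E := @Classical.epsilon _ ⟨1⟩ (S.ExtR s)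

variable {S}

theorem extA_eq {s : Ω ≃ₐ[ℚ] Ω} {γ : E ≃ₐ[F] E} (h : S.ExtR s γ) : S.extA s = γ :=
  ext_uniq (@Classical.epsilon_spec _ (S.ExtR s) ⟨γ, h⟩) h

variable (S)

theorem pre_le_extG (U : Subgroup (E ≃ₐ[F] E)) : S.pre U ≤ S.extG U :=
  fun _ hg => ⟨_, hg.2, ext_of_mem hg.1⟩

theorem le_extG : S.G0 ≤ S.extG ⊤ := fun _ hg => ⟨_, trivial, ext_of_mem hg⟩

/-- the extended setup -/
def ext : Setup Ω F E where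
  G0 := S.extG ⊤
  open0 := Subgroup.isOpen_mono S.le_extG S.open0
  α := S.extA
  mul := by
    rintro g ⟨γ, -, h⟩ g' ⟨γ', -, h'⟩
    rw [extA_eq h, extA_eq h', extA_eq (ext_mul h h')]
  pre_open := by
    intro U hU
    have e : {g | g ∈ S.extG ⊤ ∧ S.extA g ∈ U} = (S.extG U : Set (Ω ≃ₐ[ℚ] Ω)) := by
      ext g
      constructor
      · rintro ⟨⟨γ, -, h⟩, h'⟩
        exact ⟨γ, extA_eq h ▸ h', h⟩
      · rintro ⟨γ, hγ, h⟩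
        exact ⟨⟨γ, trivial, h⟩, (extA_eq h).symm ▸ hγ⟩
    rw [e]
    exact Subgroup.isOpen_mono (S.pre_le_extG U) (S.isOpen_pre hU)
  img_open := by
    have e : S.extA '' (S.extG ⊤ : Set (Ω ≃ₐ[ℚ] Ω)) = (S.extI : Set (E ≃ₐ[F] E)) := by
      ext γ
      constructor
      · rintro ⟨s, ⟨γ, -, h⟩, rfl⟩
        exact ⟨s, (extA_eq h).symm ▸ h⟩
      · rintro ⟨s, h⟩
        exact ⟨s, ⟨γ, trivial, h⟩, extA_eq h⟩
    rw [e]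
    refine Subgroup.isOpen_mono (H₁ := S.img S.G0) ?_ (S.isOpen_img S.open0)
    rintro _ ⟨h, hh, -, rfl⟩
    exact ⟨h, ext_of_mem hh⟩

theorem exists_maxl : ∃ S' : Setup Ω F E, S.G0 ≤ S'.G0 ∧ (∀ g ∈ S.G0, S'.α g = S.α g) ∧ S'.Maxl := by
  refine ⟨S.ext, S.le_extG, fun g hg => extA_eq (ext_of_mem hg), ?_⟩
  rintro s ⟨H, ho, -, hH⟩
  refine ⟨1, trivial, H ⊓ (S.G0 ⊓ S.G0.comap (MulAut.conj s⁻¹⁻¹).toMonoidHom),
    isOpen_inf ho (isOpen_inf S.open0 (isOpen_conj S.open0 _)), inf_le_right.trans inf_le_left,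
    fun h hh => ?_⟩
  have h1 : s * h * s⁻¹ ∈ S.G0 := by simpa using hh.2.2
  refine ⟨h1, ?_⟩
  have e : S.extA (s * h * s⁻¹) = S.extA h := (hH h hh.1).2
  rw [extA_eq (ext_of_mem h1), extA_eq (ext_of_mem hh.2.1)] at e
  simpa using e

end Setup

end Crest.Agent.R018
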