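import Crest.Agent.R018.H90
import Crest.Agent.R018.Class

/-!
# R018 / LocB

(LocB) A `σ`-stable group of elements `≡ 1 mod π` with trivial `H⁻¹`.  Let `R ⊆ L H`, `O ⊆ L H'` be the rings of elements with `W.v ≤ 1` at all
`W ∣ π`.  Take a normal basis `σ^i θ` (`i < n`) of `L H' / L H` (Mathlib `IsGalois.normalBasis` / `exists_linearIndependent_algEquiv_apply`, or: `θ` with
`det (σ^{i+j} θ) ≠ 0`), scaled into `O`; `Λ = ∑ R σ^i θ`; there is `c` with `π^c O ⊆ Λ ⊆ O` (Cramer: `δ O ⊆ Λ` for `δ = det²∈ L H`, and `π^c/δ ∈ R`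
for large `c`: finitely many orbits of `W ∣ π`, `W.v π < 1`).  `X_M = {x | x - 1 ∈ π^M Λ}` is a `σ`-stable group for `M ≥ c + 1`.
Step: if `x = 1 + π^M λ ∈ X_M` has norm `1` then `∑ σ^i λ ∈ π Λ` (`M ≥ c+1`), i.e. `λ = ∑ r_i σ^i θ` with `∑ r_i ∈ π R`, so `λ ≡ σ μ - μ mod π Λ` and
`x = (σ b / b) x'`, `b = 1 + π^M μ`, `x' ∈ X_{M+1}` of norm one.  End: for `x' ≡ 1 mod π^{M'}`, `M'` huge, of norm one,
`b' = (1/n) ∑_{i<n} x' σx' ⋯ σ^{i-1}x'` satisfies `x' σ b' = b'` and `b' - 1 ∈ (π^{M'}/n) O ⊆ π^M Λ`.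
(If no place divides `π` everything still makes sense: `R = L H`, or simply take `X = LU H'` and `h90_cyc`.)
-/

set_option autoImplicit false
set_option linter.unusedSectionVars false

noncomputable section

namespace Crest.Agent.R018

open scoped NNReal Classical

variable {F E : Type*} [Field F] [NumberField F] [Field E] [CharZero E] [Algebra F E]
  [IsGalois F E]
variable {H H' : Subgroup Gal(E/F)} {σ : Gal(E/F)} {n : ℕ} {π : E}

theorem lb_mem (h : CycExt H H' σ n) {g : Gal(E/F)} (hg : g ∈ H) {x : E} (hx : x ∈ L H') :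
    g x ∈ L H' := mem_L.2 fun t ht => by
  have := mem_L.1 hx _ (h.normal _ (H.inv_mem hg) t ht)
  rw [inv_inv] at this
  conv_rhs => rw [← this, ← AlgEquiv.mul_apply, ← mul_assoc, mul_inv_cancel_left]
  rfl

theorem lb_gen (h : CycExt H H' σ n) {g : Gal(E/F)} (hg : g ∈ H) :
    ∃ j < n, ∀ x ∈ L H', g x = (σ ^ j) x := by
  obtain ⟨j, ⟨h1, h2⟩, -⟩ := h.gen_lt hg
  refine ⟨j, h1, fun x hx => ?_⟩
  conv_rhs => rw [← mem_L.1 hx _ h2, ← AlgEquiv.mul_apply, mul_inv_cancel_left]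

/-- the trace -/
def lbT (σ : Gal(E/F)) (n : ℕ) : E →+ E where
  toFun x := ∑ i ∈ Finset.range n, (σ ^ i) x
  map_zero' := by simp
  map_add' x y := by simp [Finset.sum_add_distrib]

theorem lbT_apply (x : E) : lbT σ n x = ∑ i ∈ Finset.range n, (σ ^ i) x := rfl

theorem lbT_mul (h : CycExt H H' σ n) {r : E} (hr : r ∈ L H) (x : E) :
    lbT σ n (r * x) = r * lbT σ n x := by
  simp only [lbT_apply, map_mul, Finset.mul_sum, mem_L.1 hr _ (H.pow_mem h.mem _)]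

theorem lbT_smul (h : CycExt H H' σ n) {g : Gal(E/F)} (hg : g ∈ H) {x : E} (hx : x ∈ L H') :
    lbT σ n (g x) = lbT σ n x := by
  obtain ⟨j, -, hj⟩ := lb_gen h hg
  rw [hj x hx]
  clear hj
  induction j with
  | zero => rfl
  | succ j ih =>
    have h1 := Finset.sum_range_succ (fun i => (σ ^ i) ((σ ^ j) x)) n
    rw [Finset.sum_range_succ', mem_L.1 (lb_mem h (H.pow_mem h.mem j) hx) _
      ((h.pow_mem_iff n).2 dvd_rfl), pow_zero, AlgEquiv.one_apply, add_left_inj] at h1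
    rw [← ih, lbT_apply, lbT_apply, ← h1]
    simp only [pow_succ' σ j, pow_succ σ, AlgEquiv.mul_apply]

theorem lbT_mem (h : CycExt H H' σ n) {x : E} (hx : x ∈ L H') : lbT σ n x ∈ L H :=
  mem_L.2 fun g hg => by
    obtain ⟨j, -, hj⟩ := lb_gen h hg
    have hm : lbT σ n x ∈ L H' := by
      rw [lbT_apply]
      exact sum_mem fun i _ => lb_mem h (H.pow_mem h.mem i) hx
    refine (hj _ hm).trans (Eq.trans ?_ (lbT_smul h (H.pow_mem h.mem j) hx))
    simp only [lbT_apply, map_sum, ← AlgEquiv.mul_apply, pow_mul_comm]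

/-- a normal basis and its dual basis -/
theorem lb_dual (h : CycExt H H' σ n) : ∃ θ ∈ L H', ∃ η ∈ L H',
    ∀ j < n, lbT σ n (θ * (σ ^ j) η) = if j = 0 then 1 else 0 := by
  let K' := IntermediateField.extendScalars (L_anti h.le)
  have : Module.Finite F K' := finiteDimensional_L h.isOpen
  have : Module.Finite (L H) K' := Module.Finite.of_restrictScalars_finite F _ _
  obtain ⟨η, hη⟩ := exists_linearIndependent_algEquiv_apply (L H) K'
  let ρ : Fin n → Gal(K'/L H) := fun j =>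
    { toFun := fun x => ⟨(σ ^ (j : ℕ)) x, lb_mem h (H.pow_mem h.mem j) x.2⟩
      invFun := fun x => ⟨(σ ^ (j : ℕ))⁻¹ x, lb_mem h (H.inv_mem (H.pow_mem h.mem j)) x.2⟩
      left_inv := fun x => Subtype.ext ((σ ^ (j : ℕ)).symm_apply_apply x)
      right_inv := fun x => Subtype.ext ((σ ^ (j : ℕ)).apply_symm_apply x)
      map_mul' := fun x y => Subtype.ext (map_mul (σ ^ (j : ℕ)) (x : E) y)
      map_add' := fun x y => Subtype.ext (map_add (σ ^ (j : ℕ)) (x : E) y)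
      commutes' := fun r => Subtype.ext (mem_L.1 r.2 _ (H.pow_mem h.mem j)) }
  have hρ : Function.Injective ρ := fun i j e => by
    refine Fin.ext ((h.gen_lt (H.pow_mem h.mem j)).unique ⟨i.2, ?_⟩ ⟨j.2, by simp⟩)
    refine mem_of_fix_L (isClosed_of_isOpen h.isOpen) fun x hx => ?_
    have e' : (σ ^ (i : ℕ)) x = (σ ^ (j : ℕ)) x := congrArg Subtype.val (DFunLike.congr_fun e ⟨x, hx⟩)
    rw [AlgEquiv.mul_apply, ← e']
    exact (σ ^ (i : ℕ)).symm_apply_apply x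
  let Φ : K' →ₗ[L H] (Fin n → L H) :=
    { toFun := fun θ j => ⟨lbT σ n (θ * ρ j η), lbT_mem h (θ * ρ j η).2⟩
      map_add' := fun x y => funext fun j => Subtype.ext (by simp [add_mul])
      map_smul' := fun r x => funext fun j => Subtype.ext (by
        exact (congrArg _ (mul_assoc (r : E) _ _)).trans (lbT_mul h r.2 _)) }
  have hΦ : LinearMap.range Φ = ⊤ := by
    by_contra hne
    obtain ⟨f, hf, hle⟩ := Submodule.exists_le_ker_of_lt_top _ (lt_top_iff_ne_top.2 hne)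
    obtain ⟨a, ha⟩ : ∃ a : Fin n → L H, ∀ y, f y = ∑ j, y j * a j :=
      ⟨_, f.pi_apply_eq_sum_univ⟩
    have h0 : ∑ j, a j • ρ j η = 0 := by
      by_contra hy
      have h1 := congrArg Subtype.val ((ha _).symm.trans (hle ⟨(∑ j, a j • ρ j η)⁻¹, rfl⟩))
      have h2 := congrArg (fun x : K' => lbT σ n x) (inv_mul_cancel₀ hy)
      generalize (∑ j, a j • ρ j η)⁻¹ = z at h1 h2
      have h3 : lbT σ n (z * ∑ j, a j • ρ j η : K') = (∑ j, Φ z j * a j : L H) := by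
        rw [Finset.mul_sum, IntermediateField.coe_sum, IntermediateField.coe_sum, map_sum]
        refine Finset.sum_congr rfl fun j _ => ?_
        exact (congrArg _ (mul_left_comm (z : E) (a j) _)).trans
          ((lbT_mul h (a j).2 _).trans (mul_comm _ _))
      rw [h3, h1] at h2
      simp [lbT_apply, h.ne_zero, eq_comm] at h2
    exact hf (LinearMap.ext fun y => by
      simp [ha, Fintype.linearIndependent_iff.1 (hη.comp ρ hρ) a h0])
  obtain ⟨θ, hθ⟩ := LinearMap.range_eq_top.1 hΦ fun j => if (j : ℕ) = 0 then 1 else 0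
  refine ⟨θ, θ.2, η, η.2, fun j hj => (congrArg Subtype.val (congrFun hθ ⟨j, hj⟩)).trans ?_⟩
  by_cases h0 : j = 0 <;> simp [h0]

/-- elements divisible by `π ^ k` at the places dividing `π` -/
def lbO (π : E) (k : ℤ) : AddSubgroup E where
  carrier := {x | ∀ W : Pl E, W.v π < 1 → W.v x ≤ W.v π ^ k}
  zero_mem' := fun W _ => by simp
  add_mem' ha hb := fun W hW => le_trans (W.v.map_add _ _) (max_le (ha W hW) (hb W hW))
  neg_mem' ha := fun W hW => by rw [Valuation.map_neg]; exact ha W hW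

theorem lbO_mul (h0 : π ≠ 0) {a b c : ℤ} {x y : E} (hx : x ∈ lbO π a) (hy : y ∈ lbO π b)
    (hc : c ≤ a + b) : x * y ∈ lbO π c := fun W hW => by
  have hv : 0 < W.v π := by simpa [pos_iff_ne_zero] using h0
  rw [map_mul]
  refine (mul_le_mul' (hx W hW) (hy W hW)).trans ?_
  rw [← zpow_add₀ hv.ne']
  exact zpow_le_zpow_right_of_le_one₀ hv hW.le hc

theorem lbO_one : (1 : E) ∈ lbO π 0 := fun W _ => by simp

theorem lbO_anti (h0 : π ≠ 0) {a c : ℤ} {x : E} (hx : x ∈ lbO π a) (hc : c ≤ a) :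
    x ∈ lbO π c := by
  simpa using lbO_mul h0 hx lbO_one (by simpa using hc)

theorem lbO_smul (hπ : π ∈ L H) {g : Gal(E/F)} (hg : g ∈ H) {k : ℤ} {x : E} (hx : x ∈ lbO π k) :
    g x ∈ lbO π k := fun W hW => by
  have := hx (g⁻¹ • W)
  simp only [Pl.smul_v, inv_inv, mem_L.1 hπ g hg] at this
  exact this hW

theorem lbO_T (h : CycExt H H' σ n) (hπ : π ∈ L H) {k : ℤ} {x : E} (hx : x ∈ lbO π k) :
    lbT σ n x ∈ lbO π k := by
  rw [lbT_apply]
  exact sum_mem fun i _ => lbO_smul hπ (H.pow_mem h.mem i) hx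

theorem lbO_exists (hH : IsOpen (H : Set Gal(E/F))) (hπ : π ∈ L H) (h0 : π ≠ 0) {y : E}
    (hy : y ∈ L H) : ∃ c : ℕ, y ∈ lbO π (-c) := by
  obtain ⟨s, -, hs⟩ := class_reps hH hπ h0
  have hv : ∀ W : Pl E, 0 < W.v π := fun W => by simpa [pos_iff_ne_zero] using h0
  have : ∀ W : Pl E, ∃ c : ℕ, W.v π < 1 → W.v y ≤ W.v π ^ (-c : ℤ) := fun W => by
    by_cases hW : W.v π < 1
    · obtain ⟨c, hc⟩ := pow_unbounded_of_one_lt (W.v y) ((one_lt_inv₀ (hv W)).2 hW)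
      exact ⟨c, fun _ => by rw [zpow_neg, zpow_natCast, ← inv_pow]; exact hc.le⟩
    · exact ⟨0, fun h => absurd h hW⟩
  choose c hc using this
  refine ⟨s.sup c, fun W hW => ?_⟩
  obtain ⟨W', h1, h2⟩ := (hs W).2 hW
  rw [← h2.v_eq hπ] at hW ⊢
  rw [← h2.v_eq hy]
  exact (hc W' hW).trans (zpow_le_zpow_right_of_le_one₀ (hv W') hW.le
    (neg_le_neg (Nat.cast_le.2 (Finset.le_sup h1))))

theorem lbO_v_eq_one (h0 : π ≠ 0) {k : ℤ} (hk : 1 ≤ k) {x : E} (hx : x - 1 ∈ lbO π k) {W : Pl E}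
    (hW : W.v π < 1) : W.v x = 1 := by
  have := W.v.map_one_add_of_lt (((lbO_anti h0 hx hk W hW).trans_eq (zpow_one _)).trans_lt hW)
  rwa [add_sub_cancel] at this

theorem lbO_inv (h0 : π ≠ 0) {k : ℤ} (hk : 1 ≤ k) {x : E} (hx : x - 1 ∈ lbO π k) :
    x⁻¹ ∈ lbO π 0 := fun W hW => by
  rw [map_inv₀, lbO_v_eq_one h0 hk hx hW, inv_one, zpow_zero]

theorem lbO_prod (h0 : π ≠ 0) {k : ℤ} (hk : 0 ≤ k) {a : ℕ → E} (ha : ∀ i, a i - 1 ∈ lbO π k)
    (m : ℕ) : ∏ i ∈ Finset.range m, a i - 1 ∈ lbO π k ∧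
      ∏ i ∈ Finset.range m, a i - 1 - ∑ i ∈ Finset.range m, (a i - 1) ∈ lbO π (k + k) := by
  induction m with
  | zero => simp
  | succ m ih =>
    have h1 := lbO_mul h0 ih.1 (ha m) le_rfl
    rw [Finset.prod_range_succ, Finset.sum_range_succ]
    constructor
    · convert add_mem (add_mem (lbO_anti h0 h1 (by omega : k ≤ _)) ih.1) (ha m) using 1
      ring
    · convert add_mem h1 ih.2 using 1
      ring

theorem lb_lattice (h : CycExt H H' σ n) (hπ : π ∈ L H) (h0 : π ≠ 0) :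
    ∃ (Λ : ℤ → AddSubgroup E) (c : ℕ), (∀ k, ∀ x ∈ Λ k, x ∈ L H' ∧ x ∈ lbO π (k - c)) ∧
      (∀ k, ∀ x ∈ L H', x ∈ lbO π (k + c) → x ∈ Λ k) ∧ (∀ k l, k ≤ l → Λ l ≤ Λ k) ∧
      (∀ k, ∀ x ∈ Λ k, σ x ∈ Λ k) ∧
      ∀ k l, ∀ x ∈ Λ k, lbT σ n x ∈ lbO π l → ∃ μ ∈ Λ k, x - (σ μ - μ) ∈ lbO π (l - c - c) := by
  obtain ⟨θ, hθ, η, hη, hd⟩ := lb_dual h
  obtain ⟨c₁, h1⟩ := lbO_exists h.isOpen (L_anti h.le hπ) h0 hθ
  obtain ⟨c₂, h2⟩ := lbO_exists h.isOpen (L_anti h.le hπ) h0 hη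
  replace h1 := lbO_anti h0 h1 (by omega : (-(c₁ + c₂ : ℕ) : ℤ) ≤ _)
  replace h2 := lbO_anti h0 h2 (by omega : (-(c₁ + c₂ : ℕ) : ℤ) ≤ _)
  generalize c₁ + c₂ = c at h1 h2
  have hp := fun i : ℕ => H.pow_mem h.mem i
  let Λ : ℤ → AddSubgroup E := fun k =>
    { carrier := {x | x ∈ L H' ∧ ∀ g ∈ H, lbT σ n (x * g η) ∈ lbO π k}
      zero_mem' := ⟨zero_mem _, fun g _ => by simp⟩
      add_mem' := fun ha hb => ⟨add_mem ha.1 hb.1, fun g hg => by
        rw [add_mul, map_add]; exact add_mem (ha.2 g hg) (hb.2 g hg)⟩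
      neg_mem' := fun ha => ⟨neg_mem ha.1, fun g hg => by
        rw [neg_mul, map_neg]; exact neg_mem (ha.2 g hg)⟩ }
  have hexp : ∀ x : E, ∑ j ∈ Finset.range n, lbT σ n (x * (σ ^ j) η) * (σ ^ j) θ = x := by
    intro x
    have : ∑ j ∈ Finset.range n, lbT σ n (x * (σ ^ j) η) * (σ ^ j) θ =
        ∑ i ∈ Finset.range n, (σ ^ i) x * lbT σ n (θ * (σ ^ i) η) := by
      simp only [lbT_apply, Finset.sum_mul, Finset.mul_sum, map_mul]
      rw [Finset.sum_comm]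
      refine Finset.sum_congr rfl fun i _ => Finset.sum_congr rfl fun j _ => ?_
      rw [← AlgEquiv.mul_apply, ← AlgEquiv.mul_apply, pow_mul_comm]
      ring
    rw [this, Finset.sum_eq_single_of_mem 0 (Finset.mem_range.2 h.ne_zero.pos),
      hd 0 h.ne_zero.pos, if_pos rfl, mul_one, pow_zero, AlgEquiv.one_apply]
    intro j hj hj0
    rw [hd j (Finset.mem_range.1 hj), if_neg hj0, mul_zero]
  have hsm : ∀ k, ∀ g ∈ H, ∀ x ∈ Λ k, g x ∈ Λ k := fun k g hg x hx =>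
    ⟨lb_mem h hg hx.1, fun g' hg' => by
      have hm := H.mul_mem (H.inv_mem hg) hg'
      have := hx.2 _ hm
      rwa [← lbT_smul h hg (mul_mem hx.1 (lb_mem h hm hη)), map_mul, ← AlgEquiv.mul_apply,
        mul_inv_cancel_left] at this⟩
  refine ⟨Λ, c, fun k x hx => ⟨hx.1, ?_⟩, fun k x hx hx' => ⟨hx, fun g hg => lbO_T h hπ
    (lbO_mul h0 hx' (lbO_smul hπ hg h2) (by omega))⟩, fun k l hkl x hx =>
    ⟨hx.1, fun g hg => lbO_anti h0 (hx.2 g hg) hkl⟩, fun k => hsm k σ h.mem, fun k l x hx hT => ?_⟩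
  · rw [← hexp x]
    exact sum_mem fun j _ => lbO_mul h0 (hx.2 _ (hp j)) (lbO_smul hπ (hp j) h1) (by omega)
  have hr : ∀ j : ℕ, lbT σ n (x * (σ ^ j) η) ∈ L H := fun j =>
    lbT_mem h (mul_mem hx.1 (lb_mem h (hp j) hη))
  refine ⟨∑ j ∈ Finset.range n, ∑ i ∈ Finset.range j, (σ ^ i) (lbT σ n (x * (σ ^ j) η) * θ),
    sum_mem fun j _ => sum_mem fun i _ => hsm k _ (hp i) _
      ⟨mul_mem (L_anti h.le (hr j)) hθ, fun g hg => ?_⟩, ?_⟩
  · obtain ⟨i, hi, e⟩ := lb_gen h hg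
    rw [mul_assoc, lbT_mul h (hr j), e η hη, hd i hi]
    split_ifs
    · rw [mul_one]; exact hx.2 _ (hp j)
    · rw [mul_zero]; exact zero_mem _
  · convert lbO_mul h0 (lbO_mul h0 (lbO_T h hπ h2) hT le_rfl) h1 (by omega : l - c - c ≤ _) using 1
    rw [← lbT_mul h (lbT_mem h hη), mul_comm _ x, lbT_apply η, Finset.mul_sum, map_sum (lbT σ n),
      Finset.sum_mul, map_sum, ← Finset.sum_sub_distrib]
    nth_rewrite 1 [← hexp x]
    rw [← Finset.sum_sub_distrib]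
    refine Finset.sum_congr rfl fun j _ => ?_
    rw [map_sum, ← Finset.sum_sub_distrib]
    simp only [← AlgEquiv.mul_apply, ← pow_succ']
    rw [Finset.sum_range_sub fun i => (σ ^ i) (lbT σ n (x * (σ ^ j) η) * θ), map_mul (σ ^ j),
      mem_L.1 (hr j) _ (hp j), pow_zero, AlgEquiv.one_apply]
    ring

theorem exists_locB (h : CycExt H H' σ n) (hπ : π ∈ L H) (h0 : π ≠ 0) :
    ∃ (X : Subgroup Eˣ) (N : ℕ), N ≠ 0 ∧ rayU H' (π ^ N) ≤ X ∧ X ≤ rayU H' π ∧ (∀ x ∈ X, σ • x ∈ X) ∧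
      ∀ x ∈ X, nr Eˣ σ n x = 1 → ∃ b ∈ X, x = dl Eˣ σ b := by
  by_cases hW : ∃ W : Pl E, W.v π < 1
  swap
  · push Not at hW
    exact ⟨LU H', 1, one_ne_zero, fun x hx => hx.1,
      fun x hx => ⟨hx, fun W h => absurd h (hW W).not_gt⟩, fun x hx => lb_mem h h.mem hx,
      fun x hx h1 => h90_cyc h hx h1⟩
  obtain ⟨W₀, hW₀⟩ := hW
  obtain ⟨Λ, c, hΛ, hΛ', hanti, hσ, hT⟩ := lb_lattice h hπ h0
  obtain ⟨M, hM⟩ : ∃ M : ℤ, M = 5 * c + 1 := ⟨_, rfl⟩
  have hL : ∀ {k} {x : E}, x - 1 ∈ Λ k → x ∈ L H' := fun {k x} hx => by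
    simpa using add_mem (hΛ k _ hx).1 (one_mem _)
  have hne : ∀ {x : E}, x - 1 ∈ Λ M → x ≠ 0 := fun {x} hx e => by
    have := lbO_v_eq_one h0 (by omega) (hΛ M _ hx).2 hW₀
    simp [e] at this
  let X : Subgroup Eˣ :=
    { carrier := {x | (x : E) - 1 ∈ Λ M}
      one_mem' := by simp
      mul_mem' := fun {x y} hx hy => by
        have := hΛ' M _ (mul_mem (hΛ M _ hx).1 (hΛ M _ hy).1)
          (lbO_mul h0 (hΛ M _ hx).2 (hΛ M _ hy).2 (by omega))
        convert add_mem (add_mem this hx) hy using 1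
        simp only [Set.mem_ofPred_eq, Units.val_mul]
        congr! 1
        ring
      inv_mem' := fun {x} hx => by
        have := hΛ' M _ (mul_mem (mul_mem (hΛ M _ hx).1 (hΛ M _ hx).1) (inv_mem (hL hx)))
          (lbO_mul h0 (lbO_mul h0 (hΛ M _ hx).2 (hΛ M _ hx).2 le_rfl)
            (lbO_inv h0 (by omega) (hΛ M _ hx).2) (by omega))
        convert sub_mem this hx using 1
        simp only [Set.mem_ofPred_eq, Units.val_inv_eq_inv_val]
        congr! 1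
        field_simp
        ring }
  have hX : ∀ {x : Eˣ}, x ∈ X ↔ (x : E) - 1 ∈ Λ M := Iff.rfl
  have hnr : ∀ (x : Eˣ) (m : ℕ), ((∏ i ∈ Finset.range m, σ ^ i • x : Eˣ) : E) =
      ∏ i ∈ Finset.range m, (σ ^ i) (x : E) := fun x m => by
    rw [Units.coe_prod]; rfl
  have hsm : ∀ {k} {x : E}, x - 1 ∈ lbO π k → ∀ i : ℕ, (σ ^ i) x - 1 ∈ lbO π k :=
    fun {k x} hx i => by simpa using lbO_smul hπ (H.pow_mem h.mem i) hx
  have step : ∀ d : ℕ, ∀ x ∈ X, nr Eˣ σ n x = 1 → ∃ b ∈ X, ∃ x' : Eˣ,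
      (x' : E) - 1 ∈ Λ (M + d) ∧ nr Eˣ σ n x' = 1 ∧ x = dl Eˣ σ b * x' := by
    intro d x hx h1
    induction d with
    | zero => exact ⟨1, one_mem _, x, by simpa using hX.1 hx, h1, by simp⟩
    | succ d ih =>
      obtain ⟨b, hb, y, hy, hy1, rfl⟩ := ih
      have e1 := (lbO_prod h0 (by omega) (hsm (hΛ _ _ hy).2) n).2
      rw [← hnr, ← nr_apply, hy1, Units.val_one, sub_self, zero_sub, neg_mem_iff] at e1
      obtain ⟨μ, hμ, e2⟩ := hT _ _ _ hy (by
        rw [lbT_apply]; simpa only [map_sub, map_one] using e1)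
      have hb' : 1 + μ - 1 ∈ Λ M := by
        rw [add_sub_cancel_left]; exact hanti _ _ (by omega) hμ
      let b' : Eˣ := Units.mk0 _ (hne hb')
      have hbL : b' ∈ LU H' := hL hb'
      refine ⟨b * b', mul_mem hb hb', y / dl Eˣ σ b', hΛ' _ _ (sub_mem ?_ (one_mem _)) ?_, ?_, ?_⟩
      · exact (LU H').div_mem (hL hy) ((LU H').div_mem (lb_mem h h.mem hbL) hbL)
      · have e3 : σ (1 + μ) - 1 ∈ Λ M := by simpa using hσ _ _ hb'
        have := lbO_mul h0 (add_mem e2 (lbO_mul h0 (hΛ _ _ hy).2 (hΛ _ _ hμ).2 (by omega)))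
          (lbO_inv h0 (by omega) (hΛ _ _ e3).2) (c := M + (d + 1 : ℕ) + c) (by omega)
        convert this using 1
        have e4 := hne e3
        have e5 := hne hb'
        simp only [dl_apply, Units.val_div_eq_div_val, coe_smul_units, b', Units.val_mk0]
        field_simp
        rw [map_add, map_one]
        ring
      · rw [map_div, hy1, (h.hPair (X := LU H') (fun x hx => lb_mem h h.mem hx)
          fun x hx => mem_LU_iff_smul.1 hx).2.2.2 b' hbL, div_one]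
      · rw [map_mul, mul_assoc, mul_div_cancel]
  refine ⟨X, 6 * c + 1, by omega, fun x hx => hΛ' _ _ (sub_mem hx.1 (one_mem _)) fun W hW => ?_,
    fun x hx => ⟨hL hx, fun W hW =>
      (lbO_anti h0 (hΛ _ _ hx).2 (by omega : 1 ≤ M - c) W hW).trans_eq (zpow_one _)⟩,
    fun x hx => by simpa [hX] using hσ _ _ hx, fun x hx h1 => ?_⟩
  · have := hx.2 W (by rw [map_pow]; exact pow_lt_one₀ (by simp) hW (by omega))
    rwa [map_pow, ← zpow_natCast, show ((6 * c + 1 : ℕ) : ℤ) = M + c by omega] at this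
  obtain ⟨d, hd⟩ := lbO_exists h.isOpen (L_anti h.le hπ) h0 (inv_mem (natCast_mem (L H') n))
  obtain ⟨b, hb, y, hy, hy1, rfl⟩ := step (d + 2 * c) x hx h1
  have hn : (n : E) ≠ 0 := Nat.cast_ne_zero.2 h.ne_zero
  obtain ⟨P, hP⟩ : ∃ P : ℕ → E, P = fun m => ∏ i ∈ Finset.range m, (σ ^ i) (y : E) := ⟨_, rfl⟩
  have hu : (n : E)⁻¹ * ∑ m ∈ Finset.range n, P m - 1 ∈ Λ M := by
    have e : (n : E)⁻¹ * ∑ m ∈ Finset.range n, P m - 1 =
        (n : E)⁻¹ * ∑ m ∈ Finset.range n, (P m - 1) := by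
      rw [Finset.sum_sub_distrib, Finset.sum_const, Finset.card_range, nsmul_one, mul_sub,
        inv_mul_cancel₀ hn]
    rw [e, hP]
    refine hΛ' _ _ (mul_mem (inv_mem (natCast_mem _ n)) (sum_mem fun m _ => sub_mem
      (prod_mem fun i _ => lb_mem h (H.pow_mem h.mem i) (hL hy)) (one_mem _))) ?_
    exact lbO_mul h0 hd (sum_mem fun m _ => (lbO_prod h0 (by omega) (hsm (hΛ _ _ hy).2) m).1)
      (by omega)
  have e1 : ∀ m, y * σ (P m) = P (m + 1) := fun m => by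
    simp only [hP, Finset.prod_range_succ', map_prod, pow_succ' σ, AlgEquiv.mul_apply, pow_zero,
      AlgEquiv.one_apply, mul_comm]
  have e2 : P n = P 0 := by
    simp only [hP, Finset.prod_range_zero]
    rw [← hnr, ← nr_apply, hy1, Units.val_one]
  have e3 := Finset.sum_range_succ P n
  rw [Finset.sum_range_succ', e2, add_left_inj] at e3
  refine ⟨b * (Units.mk0 _ (hne hu))⁻¹, mul_mem hb (inv_mem (hX.2 hu)), ?_⟩
  rw [map_mul, map_inv, mul_right_inj, eq_inv_iff_mul_eq_one, dl_apply, ← mul_div_assoc, div_eq_one]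
  refine Units.ext ?_
  rw [Units.val_mul, coe_smul_units, Units.val_mk0, map_mul, map_inv₀, map_natCast, mul_left_comm,
    map_sum, Finset.mul_sum _ _ (y : E), Finset.sum_congr rfl fun m _ => e1 m, e3]

end Crest.Agent.R018
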