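import Crest.Agent.R018.Defs

/-!
# R018 / Herb

Herbrand quotients for pairs `(f, g)`.  The exact hexagon can be avoided by index computations: for a homomorphism `f` and
subgroups `B ≤ A`: `[A : B] = [f A : f B] [A ⊓ ker f : B ⊓ ker f]` (`relIndex_eq_map_mul_ker`).  For `X ≤ X'` of finite index:
`[X' : X] = [f X' : f X] [X' ∩ ker f : X ∩ ker f]`, `[X' ∩ ker f : g X] = [X' ∩ ker f : X ∩ ker f] hq f g X = hq f g X' [g X' : g X]`, and symmetrically.
For `hq_map`, chase the six-term sequence `H⁰K → H⁰X → H⁰Y → H¹K → H¹X → H¹Y → H⁰K` by indices (each group order is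
`|ker| |im|`), or build the actual quotient groups.
-/

set_option autoImplicit false
set_option linter.unusedSectionVars false

noncomputable section

namespace Crest.Agent.R018

open scoped NNReal Classical

variable {M M' : Type*} [CommGroup M] [CommGroup M']

theorem relIndex_eq_map_mul_ker (Φ : M →* M') {A B : Subgroup M} (h : B ≤ A) :
    B.relIndex A = (B.map Φ).relIndex (A.map Φ) * (B ⊓ Φ.ker).relIndex (A ⊓ Φ.ker) := by
  have h1 := Subgroup.relIndex_inf_mul_relIndex B (B ⊔ Φ.ker) A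
  rw [inf_of_le_left (le_sup_left : B ≤ B ⊔ Φ.ker), sup_inf_assoc_of_le _ h, Subgroup.relIndex_sup_left] at h1
  rw [← h1, ← Subgroup.relIndex_comap, Subgroup.comap_map_eq, mul_comm, inf_comm Φ.ker A,
    ← Subgroup.inf_relIndex_right B, ← inf_assoc, inf_of_le_left h]

/-- If `P` contains the kernel part of `Z`, the index can be computed in the image. -/
theorem herb_relIndex_map (Φ : M →* M') {Z P : Subgroup M} (h : P ≤ Z) (hk : Z ⊓ Φ.ker ≤ P) :
    P.relIndex Z = (P.map Φ).relIndex (Z.map Φ) := by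
  rw [relIndex_eq_map_mul_ker Φ h, Subgroup.relIndex_eq_one.2 (le_inf hk inf_le_right), mul_one]

theorem HPair.herb_map_le {f g : M →* M} {X : Subgroup M} (h : HPair f g X) :
    X.map g ≤ X ⊓ f.ker := by
  rintro _ ⟨x, hx, rfl⟩
  exact ⟨h.2.1 x hx, h.2.2.1 x hx⟩

theorem herb_le {f g : M →* M} {X X' : Subgroup M} (hX : HPair f g X) (hX' : HPair f g X')
    (hle : X ≤ X') : hq f g X * (X ⊓ f.ker).relIndex (X' ⊓ f.ker) =
      (X.map g).relIndex (X'.map g) * hq f g X' := by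
  rw [hq, hq, Subgroup.relIndex_mul_relIndex _ _ _ hX.herb_map_le (inf_le_inf_right _ hle),
    Subgroup.relIndex_mul_relIndex _ _ _ (Subgroup.map_mono hle) hX'.herb_map_le]

theorem HPair.symm {f g : M →* M} {X : Subgroup M} (h : HPair f g X) : HPair g f X :=
  ⟨h.2.1, h.1, h.2.2.2, h.2.2.1⟩

theorem hq_ne_zero_iff_of_le {f g : M →* M} {X X' : Subgroup M} (hX : HPair f g X) (hX' : HPair f g X')
    (hle : X ≤ X') (hi : X.relIndex X' ≠ 0) : hq f g X ≠ 0 ↔ hq f g X' ≠ 0 := by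
  have h1 := herb_le hX hX' hle
  have hf := hi
  have hg := hi
  rw [relIndex_eq_map_mul_ker f hle, mul_ne_zero_iff] at hf
  rw [relIndex_eq_map_mul_ker g hle, mul_ne_zero_iff] at hg
  constructor
  · intro h
    exact right_ne_zero_of_mul (h1 ▸ mul_ne_zero h hf.2)
  · intro h
    exact left_ne_zero_of_mul (h1 ▸ mul_ne_zero hg.1 h)

theorem hq_mul_of_le {f g : M →* M} {X X' : Subgroup M} (hX : HPair f g X) (hX' : HPair f g X')
    (hle : X ≤ X') (hi : X.relIndex X' ≠ 0) : hq f g X * hq g f X' = hq g f X * hq f g X' := by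
  have h1 := herb_le hX hX' hle
  have h2 := herb_le hX.symm hX'.symm hle
  have hf := relIndex_eq_map_mul_ker f hle
  have hg := relIndex_eq_map_mul_ker g hle
  refine mul_right_cancel₀ hi ?_
  calc hq f g X * hq g f X' * X.relIndex X'
      = (hq f g X * (X ⊓ f.ker).relIndex (X' ⊓ f.ker)) *
          ((X.map f).relIndex (X'.map f) * hq g f X') := by rw [hf]; ring
    _ = ((X.map g).relIndex (X'.map g) * hq f g X') *
          (hq g f X * (X ⊓ g.ker).relIndex (X' ⊓ g.ker)) := by rw [h1, h2]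
    _ = _ := by rw [hg]; ring

theorem HPair.inf_ker {f g : M →* M} {f' g' : M' →* M'} {X : Subgroup M} (hX : HPair f g X)
    (Φ : M →* M') (hf : ∀ x ∈ X, Φ (f x) = f' (Φ x)) (hg : ∀ x ∈ X, Φ (g x) = g' (Φ x)) :
    HPair f g (X ⊓ Φ.ker) := by
  refine ⟨fun x hx => ⟨hX.1 x hx.1, ?_⟩, fun x hx => ⟨hX.2.1 x hx.1, ?_⟩,
    fun x hx => hX.2.2.1 x hx.1, fun x hx => hX.2.2.2 x hx.1⟩
  · have h : Φ x = 1 := hx.2
    change Φ (f x) = 1
    rw [hf x hx.1, h, map_one]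
  · have h : Φ x = 1 := hx.2
    change Φ (g x) = 1
    rw [hg x hx.1, h, map_one]

theorem HPair.map {f g : M →* M} {f' g' : M' →* M'} {X : Subgroup M} (hX : HPair f g X)
    (Φ : M →* M') (hf : ∀ x ∈ X, Φ (f x) = f' (Φ x)) (hg : ∀ x ∈ X, Φ (g x) = g' (Φ x)) :
    HPair f' g' (X.map Φ) := by
  refine ⟨?_, ?_, ?_, ?_⟩ <;> rintro _ ⟨x, hx, rfl⟩
  · exact ⟨f x, hX.1 x hx, hf x hx⟩
  · exact ⟨g x, hX.2.1 x hx, hg x hx⟩
  · rw [← hg x hx, ← hf _ (hX.2.1 x hx), hX.2.2.1 x hx, map_one]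
  · rw [← hf x hx, ← hg _ (hX.1 x hx), hX.2.2.2 x hx, map_one]

/-- image of `H(K) → H(X)` -/
def herbA (f g : M →* M) (X : Subgroup M) (Φ : M →* M') : ℕ :=
  (X.map g ⊓ Φ.ker).relIndex (X ⊓ f.ker ⊓ Φ.ker)

/-- image of `H(X) → H(Y)` -/
def herbB (f g : M →* M) (X : Subgroup M) (Φ : M →* M') : ℕ :=
  ((X.map g).map Φ).relIndex ((X ⊓ f.ker).map Φ)

/-- image of the connecting map -/
def herbD (f : M →* M) (X : Subgroup M) (Φ : M →* M') : ℕ :=
  ((X ⊓ Φ.ker).map f).relIndex (X.map f ⊓ Φ.ker)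

theorem herb_fac {f g : M →* M} {f' g' : M' →* M'} {X : Subgroup M} (hX : HPair f g X)
    (Φ : M →* M') (hf : ∀ x ∈ X, Φ (f x) = f' (Φ x)) (hg : ∀ x ∈ X, Φ (g x) = g' (Φ x)) :
    hq f g X = herbB f g X Φ * herbA f g X Φ ∧
      hq f g (X ⊓ Φ.ker) = herbD g X Φ * herbA f g X Φ ∧
      hq f' g' (X.map Φ) = herbB f g X Φ * herbD f X Φ := by
  refine ⟨relIndex_eq_map_mul_ker Φ hX.herb_map_le, ?_, ?_⟩
  · rw [hq, herbD, herbA, Subgroup.relIndex_mul_relIndex, inf_right_comm]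
    · refine le_inf (Subgroup.map_mono inf_le_left) ?_
      exact (hX.inf_ker Φ hf hg).herb_map_le.trans (inf_le_left.trans inf_le_right)
    · exact inf_le_inf_right _ hX.herb_map_le
  · set Z := X ⊓ Φ.ker.comap f with hZ
    set P := (X ⊓ f.ker) ⊔ (X ⊓ Φ.ker) with hP
    have hPZ : P ≤ Z := by
      refine sup_le (fun x hx => ⟨hx.1, ?_⟩) (fun x hx => ⟨hx.1, ?_⟩)
      · have h : f x = 1 := hx.2
        change Φ (f x) = 1
        rw [h, map_one]
      · exact ((hX.inf_ker Φ hf hg).1 x hx).2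
    have e1 : P.map Φ = (X ⊓ f.ker).map Φ := by
      rw [hP, Subgroup.map_sup, (Subgroup.map_eq_bot_iff (X ⊓ Φ.ker)).2 inf_le_right, sup_bot_eq]
    have e2 : P.map f = (X ⊓ Φ.ker).map f := by
      rw [hP, Subgroup.map_sup, (Subgroup.map_eq_bot_iff (X ⊓ f.ker)).2 inf_le_right, bot_sup_eq]
    have e3 : Z.map Φ = X.map Φ ⊓ f'.ker := by
      ext y
      constructor
      · rintro ⟨x, hx, rfl⟩
        refine ⟨⟨x, hx.1, rfl⟩, ?_⟩
        change f' (Φ x) = 1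
        rw [← hf x hx.1]; exact hx.2
      · rintro ⟨⟨x, hx, rfl⟩, h⟩
        refine ⟨x, ⟨hx, ?_⟩, rfl⟩
        change Φ (f x) = 1
        rw [hf x hx]; exact h
    have e4 : Z.map f = X.map f ⊓ Φ.ker := by
      ext y
      constructor
      · rintro ⟨x, hx, rfl⟩
        exact ⟨⟨x, hx.1, rfl⟩, hx.2⟩
      · rintro ⟨⟨x, hx, rfl⟩, h⟩
        exact ⟨x, ⟨hx, h⟩, rfl⟩
    have e5 : (X.map Φ).map g' = (X.map g).map Φ := by
      ext y
      constructor
      · rintro ⟨_, ⟨x, hx, rfl⟩, rfl⟩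
        exact ⟨_, ⟨x, hx, rfl⟩, hg x hx⟩
      · rintro ⟨_, ⟨x, hx, rfl⟩, rfl⟩
        exact ⟨_, ⟨x, hx, rfl⟩, (hg x hx).symm⟩
    have d1 := herb_relIndex_map Φ hPZ (le_sup_of_le_right (inf_le_inf_right _ inf_le_left))
    have d2 := herb_relIndex_map f hPZ (le_sup_of_le_left (inf_le_inf_right _ inf_le_left))
    rw [e1, e3] at d1
    rw [e2, e4] at d2
    rw [hq, herbB, herbD, ← d2, d1, e5, Subgroup.relIndex_mul_relIndex]
    · exact Subgroup.map_mono hX.herb_map_le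
    · rw [← e1, ← e3]; exact Subgroup.map_mono hPZ

theorem hq_map_ne_zero_iff {f g : M →* M} {f' g' : M' →* M'} {X : Subgroup M} (hX : HPair f g X)
    (Φ : M →* M') (hf : ∀ x ∈ X, Φ (f x) = f' (Φ x)) (hg : ∀ x ∈ X, Φ (g x) = g' (Φ x))
    (h0 : hq f g (X ⊓ Φ.ker) ≠ 0) (h1 : hq g f (X ⊓ Φ.ker) ≠ 0) :
    hq f' g' (X.map Φ) ≠ 0 ↔ hq f g X ≠ 0 := by
  obtain ⟨a1, a2, a3⟩ := herb_fac hX Φ hf hg
  obtain ⟨-, b2, -⟩ := herb_fac hX.symm Φ hg hf
  rw [a2, mul_ne_zero_iff] at h0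
  rw [b2, mul_ne_zero_iff] at h1
  rw [a1, a3, mul_ne_zero_iff, mul_ne_zero_iff]
  exact ⟨fun h => ⟨h.1, h0.2⟩, fun h => ⟨h.1, h1.1⟩⟩

theorem hq_map {f g : M →* M} {f' g' : M' →* M'} {X : Subgroup M} (hX : HPair f g X)
    (Φ : M →* M') (hf : ∀ x ∈ X, Φ (f x) = f' (Φ x)) (hg : ∀ x ∈ X, Φ (g x) = g' (Φ x))
    (h0 : hq f g (X ⊓ Φ.ker) ≠ 0) (h1 : hq g f (X ⊓ Φ.ker) ≠ 0) :
    hq f g X * hq g f (X ⊓ Φ.ker) * hq g' f' (X.map Φ) =
      hq g f X * hq f g (X ⊓ Φ.ker) * hq f' g' (X.map Φ) := by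
  obtain ⟨a1, a2, a3⟩ := herb_fac hX Φ hf hg
  obtain ⟨b1, b2, b3⟩ := herb_fac hX.symm Φ hg hf
  rw [a1, a2, a3, b1, b2, b3]
  ring

theorem herb_pair_pow (X : Subgroup M) (l : ℕ) : HPair (1 : M →* M) (powMonoidHom l) X :=
  ⟨fun _ _ => X.one_mem, fun _ hx => X.pow_mem hx l, fun _ _ => rfl, fun _ _ => one_pow l⟩

theorem herb_hq_one_pow (X : Subgroup M) (l : ℕ) :
    hq (1 : M →* M) (powMonoidHom l) X = (Pw X l).relIndex X := by
  rw [hq, MonoidHom.ker_one, inf_top_eq]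

theorem herb_hq_pow_one (X : Subgroup M) (l : ℕ) :
    hq (powMonoidHom l) (1 : M →* M) X = Nat.card ↥(X ⊓ (powMonoidHom l : M →* M).ker) := by
  rw [hq, (Subgroup.map_eq_bot_iff X).2 (by rw [MonoidHom.ker_one]; exact le_top),
    Subgroup.relIndex_bot_left]

theorem herb_hq_bot (f g : M →* M) : hq f g ⊥ = 1 := by
  rw [hq, bot_inf_eq, Subgroup.relIndex_bot_right]

/-- The rank of a subgroup of `ℤ^ι`. -/
theorem herb_lattice {ι : Type*} [Fintype ι] (Y : Subgroup (Multiplicative (ι → ℤ))) :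
    ∃ r ≤ Fintype.card ι, (Y.index ≠ 0 → r = Fintype.card ι) ∧
      ∀ l : ℕ, (Pw Y l).relIndex Y = l ^ r := by
  let S : AddSubgroup (ι → ℤ) := AddSubgroup.toSubgroup.symm Y
  have hS : AddSubgroup.toSubgroup S = Y := OrderIso.apply_symm_apply _ _
  refine ⟨Module.finrank ℤ S, ?_, fun h => ?_, fun l => ?_⟩
  · rw [← Module.finrank_fintype_fun_eq_card ℤ]
    exact S.toIntSubmodule.finrank_le
  · have : S.FiniteIndex := ⟨by rw [← hS] at h; exact h⟩
    rw [AddSubgroup.finrank_eq_of_finiteIndex, Module.finrank_fintype_fun_eq_card]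
  · rw [← AddSubgroup.relIndex_map_nsmul l S, ← hS]
    rfl

theorem herb_pw {X : Subgroup M} {ι : Type*} [Fintype ι] (Φ : M →* Multiplicative (ι → ℤ))
    (hker : Finite ↥(X ⊓ Φ.ker)) {l : ℕ} (hl : l ≠ 0) :
    (Pw X l).relIndex X = (Pw (X.map Φ) l).relIndex (X.map Φ) *
        Nat.card ↥(X ⊓ (powMonoidHom l : M →* M).ker) ∧
      Nat.card ↥(X ⊓ (powMonoidHom l : M →* M).ker) ≠ 0 := by
  have hX := herb_pair_pow X l
  have hf : ∀ x ∈ X, Φ ((1 : M →* M) x) =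
      (1 : Multiplicative (ι → ℤ) →* Multiplicative (ι → ℤ)) (Φ x) := fun x _ => map_one Φ
  have hg : ∀ x ∈ X, Φ ((powMonoidHom l : M →* M) x) =
      (powMonoidHom l : Multiplicative (ι → ℤ) →* Multiplicative (ι → ℤ)) (Φ x) :=
    fun x _ => map_pow Φ x l
  have hi : (⊥ : Subgroup M).relIndex (X ⊓ Φ.ker) ≠ 0 := by
    rw [Subgroup.relIndex_bot_left]; exact Nat.card_pos.ne'
  have hb := herb_pair_pow (⊥ : Subgroup M) l
  have hK := herb_pair_pow (X ⊓ Φ.ker) l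
  have k0 := (hq_ne_zero_iff_of_le hb hK bot_le hi).1 (by rw [herb_hq_bot]; exact one_ne_zero)
  have k1 := (hq_ne_zero_iff_of_le hb.symm hK.symm bot_le hi).1
    (by rw [herb_hq_bot]; exact one_ne_zero)
  have k2 := hq_mul_of_le hb hK bot_le hi
  rw [herb_hq_bot, herb_hq_bot, one_mul, one_mul] at k2
  have hY : hq (powMonoidHom l) (1 : Multiplicative (ι → ℤ) →* Multiplicative (ι → ℤ))
      (X.map Φ) = 1 := by
    rw [herb_hq_pow_one, Subgroup.card_eq_one, eq_bot_iff]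
    rintro y ⟨-, hy⟩
    have h : y ^ l = 1 := hy
    exact (pow_eq_one_iff_left hl).1 h
  have m1 := hq_map hX Φ hf hg k0 k1
  have m2 := (hq_map_ne_zero_iff hX.symm Φ hg hf k1 k0).1 (by rw [hY]; exact one_ne_zero)
  rw [hY, mul_one, k2, mul_right_comm, mul_left_inj' k0, herb_hq_one_pow, herb_hq_one_pow,
    herb_hq_pow_one] at m1
  rw [herb_hq_pow_one] at m2
  exact ⟨by rw [m1, mul_comm], m2⟩

/-- For the pair `(pow l, 1)`: if `X` maps with finite kernel onto a finite-index subgroup of `ℤ^ι`... stated concretely: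
`[X : X^l] = l^{card ι} · |X[l]|` when `Φ : X → ℤ^ι` has finite kernel on `X` and image of finite index. -/
theorem relIndex_pw_eq {X : Subgroup M} {ι : Type*} [Fintype ι] (Φ : M →* Multiplicative (ι → ℤ))
    (hker : Finite ↥(X ⊓ Φ.ker)) (him : (X.map Φ).index ≠ 0) {l : ℕ} (hl : l ≠ 0) :
    (Pw X l).relIndex X = l ^ Fintype.card ι * Nat.card ↥(X ⊓ (powMonoidHom l : M →* M).ker) ∧
      Finite ↥(X ⊓ (powMonoidHom l : M →* M).ker) := by
  obtain ⟨h1, h2⟩ := herb_pw Φ hker hl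
  obtain ⟨r, -, hr, hr'⟩ := herb_lattice (X.map Φ)
  exact ⟨by rw [h1, hr', hr him], Nat.finite_of_card_ne_zero h2⟩

/-- inequality version without the assumption on the image (the image is free of rank `≤ card ι`). -/
theorem relIndex_pw_le {X : Subgroup M} {ι : Type*} [Fintype ι] (Φ : M →* Multiplicative (ι → ℤ))
    (hker : Finite ↥(X ⊓ Φ.ker)) {l : ℕ} (hl : l ≠ 0) :
    (Pw X l).relIndex X ≠ 0 ∧
      (Pw X l).relIndex X ≤ l ^ Fintype.card ι * Nat.card ↥(X ⊓ (powMonoidHom l : M →* M).ker) := by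
  obtain ⟨h1, h2⟩ := herb_pw Φ hker hl
  obtain ⟨r, hr, -, hr'⟩ := herb_lattice (X.map Φ)
  rw [h1, hr']
  exact ⟨mul_ne_zero (pow_ne_zero _ hl) h2,
    Nat.mul_le_mul_right _ (Nat.pow_le_pow_right (Nat.pos_of_ne_zero hl) hr)⟩

end Crest.Agent.R018
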