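import Crest.Agent.R018.UnitA
import Crest.Agent.R018.Herb

/-!
# R018 / U1

(U1) Herbrand quotient of the units: `|H⁻¹| = n |H⁰|`.  Let `Λ = Multiplicative (Fin r → Fin n → ℤ)` (or `ZMod n` as index) with the shift `τ`,
`f = τ/id`, `g = ∏ τ^i`; `hq f g ⊤ = hq g f ⊤ = 1` (induced module); `Φ c = ∏ (σ^i u_j)^{c j i}` is equivariant with kernel `ℤκ` (trivial action:
`hq f g = n`, `hq g f = 1`); apply `hq_map` and `hq_mul_of_le`.
-/

set_option autoImplicit false
set_option linter.unusedSectionVars false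

noncomputable section

namespace Crest.Agent.R018

open scoped NNReal Classical

section u1aux
variable {J : Type*} [Fintype J] {N : ℕ} [NeZero N]

theorem u1_sum_range {A : Type*} [AddCommMonoid A] (c : ZMod N → A) :
    ∑ k ∈ Finset.range N, c (k : ZMod N) = ∑ a, c a := by
  refine Finset.sum_nbij' (fun k => (k : ZMod N)) (fun a => a.val) (fun _ _ => Finset.mem_univ _)
    (fun a _ => Finset.mem_range.2 (ZMod.val_lt a)) (fun k hk => ?_) (fun a _ => ?_) fun _ _ => rfl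
  · exact ZMod.val_cast_of_lt (Finset.mem_range.1 hk)
  · exact ZMod.natCast_zmod_val a

variable (J N) in
/-- `τ - 1` on the induced module. -/
def u1f : Multiplicative (J → ZMod N → ℤ) →* Multiplicative (J → ZMod N → ℤ) where
  toFun c := Multiplicative.ofAdd fun j i => c.toAdd j (i - 1) - c.toAdd j i
  map_one' := by ext j i; simp
  map_mul' a b := by ext j i; simp; ring

variable (J N) in
/-- the norm on the induced module. -/
def u1g : Multiplicative (J → ZMod N → ℤ) →* Multiplicative (J → ZMod N → ℤ) where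
  toFun c := Multiplicative.ofAdd fun j _ => ∑ a, c.toAdd j a
  map_one' := by ext j i; simp
  map_mul' a b := by ext j i; simp [Finset.sum_add_distrib]

theorem u1f_apply (c : Multiplicative (J → ZMod N → ℤ)) (j : J) (i : ZMod N) :
    (u1f J N c).toAdd j i = c.toAdd j (i - 1) - c.toAdd j i := rfl

theorem u1g_apply (c : Multiplicative (J → ZMod N → ℤ)) (j : J) (i : ZMod N) :
    (u1g J N c).toAdd j i = ∑ a, c.toAdd j a := rfl

theorem u1_ext {a b : Multiplicative (J → ZMod N → ℤ)} (h : ∀ j i, a.toAdd j i = b.toAdd j i) :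
    a = b := Multiplicative.toAdd.injective (funext fun j => funext fun i => h j i)

theorem u1_hpair : HPair (u1f J N) (u1g J N) ⊤ := by
  refine ⟨fun _ _ => trivial, fun _ _ => trivial, fun x _ => u1_ext fun j i => ?_,
    fun x _ => u1_ext fun j i => ?_⟩
  · simp [u1f_apply, u1g_apply]
  · rw [u1g_apply]
    simp only [u1f_apply, Finset.sum_sub_distrib]
    rw [Equiv.sum_comp (Equiv.subRight (1 : ZMod N)) (fun a => x.toAdd j a) |>.symm]
    simp

theorem u1_hq_fg : hq (u1f J N) (u1g J N) ⊤ = 1 := by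
  unfold hq
  rw [Subgroup.relIndex_eq_one]
  rintro c ⟨-, hc⟩
  have h1 : ∀ j i, c.toAdd j (i - 1) = c.toAdd j i := fun j i => by
    have := congrArg (fun d => d.toAdd j i) (MonoidHom.mem_ker.1 hc)
    simpa [u1f_apply, sub_eq_zero] using this
  have h2 : ∀ j (k : ℕ), c.toAdd j (k : ZMod N) = c.toAdd j 0 := fun j k => by
    induction k with
    | zero => simp
    | succ k ih => rw [← ih, ← h1 j ((k + 1 : ℕ) : ZMod N)]; simp
  refine ⟨Multiplicative.ofAdd fun j i => if i = 0 then c.toAdd j 0 else 0, trivial,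
    u1_ext fun j i => ?_⟩
  rw [u1g_apply, ← ZMod.natCast_zmod_val i, h2]
  simp

theorem u1_hq_gf : hq (u1g J N) (u1f J N) ⊤ = 1 := by
  unfold hq
  rw [Subgroup.relIndex_eq_one]
  rintro c ⟨-, hc⟩
  have h1 : ∀ j, ∑ a, c.toAdd j a = 0 := fun j => by
    have := congrArg (fun d => d.toAdd j 0) (MonoidHom.mem_ker.1 hc)
    simpa [u1g_apply] using this
  obtain ⟨S, hS⟩ : ∃ S : J → ℕ → ℤ, ∀ j k,
      S j k = ∑ a ∈ Finset.range k, c.toAdd j ((a : ZMod N) + 1) := ⟨_, fun _ _ => rfl⟩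
  have hSN : ∀ j, S j N = 0 := fun j => by
    rw [hS, u1_sum_range (fun a => c.toAdd j (a + 1))]
    exact (Equiv.sum_comp (Equiv.addRight (1 : ZMod N)) (fun a => c.toAdd j a)).trans (h1 j)
  have key : ∀ j (i : ZMod N), S j (i + 1).val = S j i.val + c.toAdd j (i + 1) := fun j i => by
    have e1 : S j (i.val + 1) = S j i.val + c.toAdd j (i + 1) := by
      rw [hS, hS, Finset.sum_range_succ, ZMod.natCast_zmod_val]
    rw [← e1]
    have e2 : i + 1 = ((i.val + 1 : ℕ) : ZMod N) := by simp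
    rw [e2, ZMod.val_natCast]
    rcases (Nat.succ_le_of_lt (ZMod.val_lt i)).eq_or_lt with h | h
    · have h' : i.val + 1 = N := h
      rw [h', Nat.mod_self, hSN, hS]; simp
    · rw [Nat.mod_eq_of_lt h]
  refine ⟨Multiplicative.ofAdd fun j i => - S j i.val, trivial, u1_ext fun j i => ?_⟩
  rw [u1f_apply]
  have := key j (i - 1)
  rw [sub_add_cancel] at this
  simp only [toAdd_ofAdd]
  linarith

/-- the line `ℤ κ`. -/
def u1psi (N : ℕ) (κ : J → ℤ) : Multiplicative ℤ →* Multiplicative (J → ZMod N → ℤ) where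
  toFun t := Multiplicative.ofAdd fun j _ => t.toAdd * κ j
  map_one' := by ext j i; simp
  map_mul' a b := by ext j i; simp; ring

theorem u1psi_apply (κ : J → ℤ) (t : Multiplicative ℤ) (j : J) (i : ZMod N) :
    (u1psi N κ t).toAdd j i = t.toAdd * κ j := rfl

theorem u1psi_inj {κ : J → ℤ} (hκ : κ ≠ 0) : Function.Injective (u1psi N κ) := by
  obtain ⟨j, hj⟩ := Function.ne_iff.1 hκ
  intro s t h
  have := congrArg (fun d => d.toAdd j 0) h
  simp only [u1psi_apply] at this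
  exact Multiplicative.toAdd.injective (mul_right_cancel₀ hj this)

theorem u1g_psi (κ : J → ℤ) (t : Multiplicative ℤ) :
    u1g J N (u1psi N κ t) = u1psi N κ (t ^ N) := by
  refine u1_ext fun j i => ?_
  rw [u1g_apply, u1psi_apply]
  simp only [u1psi_apply, Finset.sum_const, Finset.card_univ, ZMod.card, toAdd_pow, nsmul_eq_mul]
  ring

theorem u1f_psi (κ : J → ℤ) (t : Multiplicative ℤ) : u1f J N (u1psi N κ t) = 1 := by
  refine u1_ext fun j i => ?_
  simp [u1f_apply, u1psi_apply]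

theorem u1_hq_line_fg {κ : J → ℤ} (hκ : κ ≠ 0) :
    hq (u1f J N) (u1g J N) ((⊤ : Subgroup (Multiplicative ℤ)).map (u1psi N κ)) = N := by
  unfold hq
  have h1 : (⊤ : Subgroup (Multiplicative ℤ)).map (u1psi N κ) ⊓ (u1f J N).ker =
      (⊤ : Subgroup (Multiplicative ℤ)).map (u1psi N κ) := by
    refine inf_eq_left.2 ?_
    rintro _ ⟨t, -, rfl⟩
    exact u1f_psi κ t
  have h2 : ((⊤ : Subgroup (Multiplicative ℤ)).map (u1psi N κ)).map (u1g J N) =
      (AddSubgroup.toSubgroup (AddSubgroup.zmultiples (N : ℤ))).map (u1psi N κ) := by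
    ext x
    constructor
    · rintro ⟨_, ⟨t, -, rfl⟩, rfl⟩
      refine ⟨t ^ N, ?_, (u1g_psi κ t).symm⟩
      change (t ^ N).toAdd ∈ AddSubgroup.zmultiples (N : ℤ)
      rw [Int.mem_zmultiples_iff]
      simp
    · rintro ⟨t, ht, rfl⟩
      have ht' : t.toAdd ∈ AddSubgroup.zmultiples (N : ℤ) := ht
      obtain ⟨s, hs⟩ := Int.mem_zmultiples_iff.1 ht'
      refine ⟨_, ⟨Multiplicative.ofAdd s, trivial, rfl⟩, ?_⟩
      rw [u1g_psi]
      congr 1
      refine Multiplicative.toAdd.injective ?_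
      simp [hs]
  rw [h1, h2, Subgroup.relIndex_map_map_of_injective _ _ (u1psi_inj hκ), Subgroup.relIndex_top_right,
    AddSubgroup.index_toSubgroup, Int.index_zmultiples]
  simp

theorem u1_hq_line_gf {κ : J → ℤ} (hκ : κ ≠ 0) :
    hq (u1g J N) (u1f J N) ((⊤ : Subgroup (Multiplicative ℤ)).map (u1psi N κ)) = 1 := by
  unfold hq
  rw [Subgroup.relIndex_eq_one]
  rintro _ ⟨⟨t, -, rfl⟩, ht⟩
  replace ht := MonoidHom.mem_ker.1 ht
  rw [u1g_psi, ← map_one (u1psi N κ)] at ht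
  have h1 := congrArg Multiplicative.toAdd (u1psi_inj hκ ht)
  have h2 : t = 1 := by
    refine Multiplicative.toAdd.injective ?_
    simpa [NeZero.ne N] using h1
  rw [h2, map_one]
  exact Subgroup.one_mem _

variable {M : Type*} [CommGroup M] {Γ : Type*} [Group Γ] [MulDistribMulAction Γ M]

/-- the map from the induced module. -/
def u1Phi (v : J → ZMod N → M) : Multiplicative (J → ZMod N → ℤ) →* M where
  toFun c := ∏ j, ∏ i, v j i ^ c.toAdd j i
  map_one' := by simp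
  map_mul' a b := by simp [zpow_add, Finset.prod_mul_distrib]

theorem u1Phi_apply (v : J → ZMod N → M) (c : Multiplicative (J → ZMod N → ℤ)) :
    u1Phi v c = ∏ j, ∏ i, v j i ^ c.toAdd j i := rfl

theorem u1_pow_smul {v : J → ZMod N → M} {σ : Γ} (hv : ∀ j i, σ • v j i = v j (i + 1)) (k : ℕ)
    (j : J) (i : ZMod N) : σ ^ k • v j i = v j (i + k) := by
  induction k with
  | zero => simp
  | succ k ih => rw [pow_succ', mul_smul, ih, hv, Nat.cast_succ, add_assoc]

theorem u1_pow_smul_Phi {v : J → ZMod N → M} {σ : Γ} (hv : ∀ j i, σ • v j i = v j (i + 1)) (k : ℕ)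
    (c : Multiplicative (J → ZMod N → ℤ)) :
    σ ^ k • u1Phi v c = ∏ j, ∏ i, v j i ^ c.toAdd j (i - k) := by
  rw [u1Phi_apply, Finset.smul_prod']
  refine Finset.prod_congr rfl fun j _ => ?_
  rw [Finset.smul_prod', ← Equiv.prod_comp (Equiv.addRight (k : ZMod N))
    (fun i => v j i ^ c.toAdd j (i - k))]
  refine Finset.prod_congr rfl fun i _ => ?_
  rw [smul_zpow', u1_pow_smul hv]
  simp

theorem u1Phi_f {v : J → ZMod N → M} {σ : Γ} (hv : ∀ j i, σ • v j i = v j (i + 1))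
    (c : Multiplicative (J → ZMod N → ℤ)) : u1Phi v (u1f J N c) = dl M σ (u1Phi v c) := by
  have := u1_pow_smul_Phi hv 1 c
  rw [pow_one, Nat.cast_one] at this
  rw [dl_apply, this, u1Phi_apply, u1Phi_apply, ← Finset.prod_div_distrib]
  refine Finset.prod_congr rfl fun j _ => ?_
  rw [← Finset.prod_div_distrib]
  refine Finset.prod_congr rfl fun i _ => ?_
  rw [u1f_apply, zpow_sub, div_eq_mul_inv]

theorem u1_prod_zpow {ι : Type*} (s : Finset ι) (x : M) (e : ι → ℤ) :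
    ∏ k ∈ s, x ^ e k = x ^ ∑ k ∈ s, e k := by
  induction s using Finset.induction_on with
  | empty => simp
  | insert a s ha ih => rw [Finset.prod_insert ha, Finset.sum_insert ha, ih, zpow_add]

theorem u1Phi_g {v : J → ZMod N → M} {σ : Γ} (hv : ∀ j i, σ • v j i = v j (i + 1))
    (c : Multiplicative (J → ZMod N → ℤ)) : u1Phi v (u1g J N c) = nr M σ N (u1Phi v c) := by
  rw [nr_apply]
  simp only [u1_pow_smul_Phi hv]
  rw [u1Phi_apply, Finset.prod_comm (s := Finset.range N)]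
  refine Finset.prod_congr rfl fun j _ => ?_
  rw [Finset.prod_comm (s := Finset.range N)]
  refine Finset.prod_congr rfl fun i _ => ?_
  rw [u1_prod_zpow, u1g_apply, u1_sum_range (fun a => c.toAdd j (i - a))]
  exact congrArg _ (Equiv.sum_comp (Equiv.subLeft i) (fun a => c.toAdd j a)).symm

theorem u1_main {v : J → ZMod N → M} {σ : Γ} (hv : ∀ j i, σ • v j i = v j (i + 1))
    {X Y : Subgroup M} (hX : HPair (dl M σ) (nr M σ N) X) (hvX : ∀ j i, v j i ∈ X)
    (hY : Y.relIndex X ≠ 0) (hY' : Y ≤ Subgroup.closure {x | ∃ j i, x = v j i})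
    {κ : J → ℤ} (hκ : κ ≠ 0) (hrel : ∀ c : J → ZMod N → ℤ,
      (∏ j, ∏ i, v j i ^ c j i = 1 ↔ ∃ t : ℤ, ∀ j i, c j i = t * κ j)) :
    hq (dl M σ) (nr M σ N) X ≠ 0 ∧
      hq (nr M σ N) (dl M σ) X = N * hq (dl M σ) (nr M σ N) X := by
  have hK : (⊤ : Subgroup _) ⊓ (u1Phi v).ker =
      (⊤ : Subgroup (Multiplicative ℤ)).map (u1psi N κ) := by
    ext c
    rw [top_inf_eq, MonoidHom.mem_ker, u1Phi_apply, hrel]
    constructor
    · rintro ⟨t, ht⟩
      exact ⟨Multiplicative.ofAdd t, trivial, u1_ext fun j i => (ht j i).symm⟩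
    · rintro ⟨t, -, rfl⟩
      exact ⟨t.toAdd, fun j i => rfl⟩
  have h0 : hq (u1f J N) (u1g J N) (⊤ ⊓ (u1Phi v).ker) ≠ 0 := by
    rw [hK, u1_hq_line_fg hκ]; exact NeZero.ne N
  have h1 : hq (u1g J N) (u1f J N) (⊤ ⊓ (u1Phi v).ker) ≠ 0 := by
    rw [hK, u1_hq_line_gf hκ]; exact one_ne_zero
  have hf : ∀ x ∈ (⊤ : Subgroup _), u1Phi v (u1f J N x) = dl M σ (u1Phi v x) :=
    fun x _ => u1Phi_f hv x
  have hg : ∀ x ∈ (⊤ : Subgroup _), u1Phi v (u1g J N x) = nr M σ N (u1Phi v x) :=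
    fun x _ => u1Phi_g hv x
  have e1 := hq_map u1_hpair (u1Phi v) hf hg h0 h1
  have e2 := (hq_map_ne_zero_iff u1_hpair (u1Phi v) hf hg h0 h1).2
    (by rw [u1_hq_fg]; exact one_ne_zero)
  have e3 := u1_hpair.map (u1Phi v) hf hg
  rw [hK, u1_hq_fg, u1_hq_gf, u1_hq_line_fg hκ, u1_hq_line_gf hκ, one_mul, one_mul, one_mul] at e1
  have hle : (⊤ : Subgroup _).map (u1Phi v) ≤ X := by
    rintro _ ⟨c, -, rfl⟩
    rw [u1Phi_apply]
    exact X.prod_mem fun j _ => X.prod_mem fun i _ => X.zpow_mem (hvX j i) _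
  have hle' : Y ≤ (⊤ : Subgroup _).map (u1Phi v) := by
    refine hY'.trans ((Subgroup.closure_le _).2 ?_)
    rintro _ ⟨j, i, rfl⟩
    refine ⟨Multiplicative.ofAdd (Pi.single j (Pi.single i 1)), trivial, ?_⟩
    rw [u1Phi_apply, Finset.prod_eq_single j, Finset.prod_eq_single i]
    · simp
    · intro i' _ hi'; simp [Pi.single_eq_of_ne hi']
    · simp
    · intro j' _ hj'; simp [Pi.single_eq_of_ne hj']
    · simp
  have hi : ((⊤ : Subgroup _).map (u1Phi v)).relIndex X ≠ 0 := fun h =>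
    hY (Subgroup.relIndex_eq_zero_of_le_left hle' h)
  have e4 := hq_mul_of_le e3 hX hle hi
  refine ⟨(hq_ne_zero_iff_of_le e3 hX hle hi).1 e2, ?_⟩
  rw [e1] at e4
  refine mul_left_cancel₀ e2 (e4.trans ?_)
  ring

end u1aux

variable {F E : Type*} [Field F] [NumberField F] [Field E] [CharZero E] [Algebra F E]
  [IsGalois F E] [RadCl E]
variable {H H' : Subgroup Gal(E/F)} {σ : Gal(E/F)} {n : ℕ} {π : E}

theorem hq_units (h : CycExt H H' σ n) (hi : HasI H) :
    hq (dl Eˣ σ) (nr Eˣ σ n) (SU H' ∅) ≠ 0 ∧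
      hq (nr Eˣ σ n) (dl Eˣ σ) (SU H' ∅) = n * hq (dl Eˣ σ) (nr Eˣ σ n) (SU H' ∅) := by
  obtain ⟨u, hu, hidx, κ, hκ, hrel⟩ := exists_units h hi
  obtain ⟨m, rfl⟩ := Nat.exists_eq_succ_of_ne_zero h.ne_zero
  have hfix : ∀ x ∈ SU H' ∅, ∀ g ∈ H', g • x = x := fun x hx => mem_LU_iff_smul.1 hx.1
  have hσ : ∀ x ∈ SU H' ∅, σ • x ∈ SU H' ∅ := fun x hx =>
    ⟨mem_LU_iff_smul.2 (h.smul_fixed (hfix x hx) h.mem), fun W _ => by
      have := hx.2 (σ⁻¹ • W) (Set.notMem_empty _)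
      simpa using this⟩
  have hσ' : ∀ (k : ℕ), ∀ x ∈ SU H' ∅, σ ^ k • x ∈ SU H' ∅ := fun k x hx => by
    induction k with
    | zero => simpa using hx
    | succ k ih => rw [pow_succ', mul_smul]; exact hσ _ ih
  have hmod : ∀ (k : ℕ) j, σ ^ (k % (m + 1)) • u j = σ ^ k • u j := fun k j => by
    conv_rhs => rw [← Nat.mod_add_div k (m + 1), pow_add, mul_smul,
      hfix _ (hu j) _ ((h.pow_mem_iff _).2 (dvd_mul_right _ _))]
  refine u1_main (N := m + 1) (v := fun j i => σ ^ i.val • u j) (fun j i => ?_) (h.hPair hσ hfix)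
    (fun j i => hσ' _ _ (hu j)) hidx (Subgroup.closure_mono ?_) hκ hrel
  · have e2 : i + 1 = ((i.val + 1 : ℕ) : ZMod (m + 1)) := by simp
    rw [e2, ZMod.val_natCast, hmod, pow_succ', mul_smul]
  · rintro _ ⟨j, i, rfl⟩
    exact ⟨j, (i : ZMod (m + 1)), by rw [ZMod.val_natCast, hmod]⟩

end Crest.Agent.R018
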