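import Crest.Agent.R018.HI
import Crest.Agent.R018.LocB
import Crest.Agent.R018.U1

/-!
# R018 / FI

First inequality.  Apply `herbrand_ineq` to `Φ = dv`, `Y = DivP H' π`, `f = dl σ`, `g = nr σ n`: `Y ⊓ ker f = DivP H π` (`mem_DivP_of_unram`,
`DivP_le_of_le`), `Y.map g = NDiv H H' π` (`nm_eq_nr`), `X ⊓ ker f = X ⊓ LU H`, `X ⊓ ker dv` has finite index in `SU H' ∅` (`rayU_relIndex`), so
`b = n a` (`hq_units`, `hq_mul_of_le`).  For `fi` take `X` from `exists_locB`; `rayU H (π^N) ≤ X ⊓ LU H`, `DivP_pow`, `relIndex_le_of_le_left`.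
-/

set_option autoImplicit false
set_option linter.unusedSectionVars false

noncomputable section

namespace Crest.Agent.R018

open scoped NNReal Classical

variable {F E : Type*} [Field F] [NumberField F] [Field E] [CharZero E] [Algebra F E]
  [IsGalois F E] [RadCl E]
variable {H H' : Subgroup Gal(E/F)} {σ : Gal(E/F)} {n : ℕ} {π : E}

theorem fi_conj_iff (h : CycExt H H' σ n) (x : Gal(E/F)) : x ∈ H' ↔ σ * x * σ⁻¹ ∈ H' := by
  refine ⟨fun hx => h.normal σ h.mem x hx, fun hx => ?_⟩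
  have := h.normal σ⁻¹ (H.inv_mem h.mem) _ hx
  simpa [mul_assoc] using this

theorem fi_smul_mem_SU (h : CycExt H H' σ n) {x : Eˣ} (hx : x ∈ SU H' ∅) : σ • x ∈ SU H' ∅ := by
  refine ⟨mem_LU_iff_smul.2 (h.smul_fixed (mem_LU_iff_smul.1 hx.1) h.mem), fun W _ => ?_⟩
  have := hx.2 (σ⁻¹ • W) (Set.notMem_empty _)
  simpa using this

theorem fi_dv_dl (x : Eˣ) : dv (dl Eˣ σ x) = dl (Dv E) σ (dv x) := by
  rw [dl_apply, dl_apply, map_div, dv_smul]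

theorem fi_dv_nr (x : Eˣ) : dv (nr Eˣ σ n x) = nr (Dv E) σ n (dv x) := by
  rw [nr_apply, nr_apply, map_prod]
  exact Finset.prod_congr rfl fun i _ => dv_smul _ _

theorem fi_ker_units (h : CycExt H H' σ n) {X : Subgroup Eˣ} (hX : X ≤ LU H') :
    X ⊓ (dl Eˣ σ).ker = X ⊓ LU H := by
  ext x
  simp only [Subgroup.mem_inf, MonoidHom.mem_ker, dl_apply, div_eq_one]
  refine and_congr_right fun hx => ?_
  rw [h.fixed_iff (mem_LU_iff_smul.1 (hX hx)), mem_LU_iff_smul]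

theorem fi_ker_div (h : CycExt H H' σ n) (hπ : π ∈ L H) (hu : Unram H H' π) :
    DivP H' π ⊓ (dl (Dv E) σ).ker = DivP H π := by
  ext a
  simp only [Subgroup.mem_inf, MonoidHom.mem_ker, dl_apply, div_eq_one]
  constructor
  · rintro ⟨ha, hσ⟩
    exact mem_DivP_of_unram h.isOpen h.le hπ hu ha
      ((h.fixed_iff fun g hg => smul_of_mem_DivP ha hg).1 hσ)
  · intro ha
    exact ⟨DivP_le_of_le h.isOpen h.le hπ ha, smul_of_mem_DivP ha h.mem⟩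

theorem fi_map_nr (h : CycExt H H' σ n) :
    (DivP H' π).map (nr (Dv E) σ n) = NDiv H H' π := by
  ext a
  simp only [NDiv, Subgroup.mem_map]
  refine exists_congr fun b => and_congr_right fun hb => ?_
  rw [h.nm_eq_nr fun g hg => smul_of_mem_DivP hb hg]

theorem fi_ray_le (h : CycExt H H' σ n) {X : Subgroup Eˣ} {π' : E} (hX1 : rayU H' π' ≤ X) :
    Ray H π' ≤ (X ⊓ LU H).map dv :=
  Subgroup.map_mono (le_inf ((rayU_mono (fun _ _ => le_rfl) h.le).trans hX1) fun _ hx => hx.1)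

theorem fi_core (h : CycExt H H' σ n) (hi : HasI H) (hπ : π ∈ L H) (h0 : π ≠ 0) (hu : Unram H H' π)
    (X : Subgroup Eˣ) {N : ℕ} (hN : N ≠ 0) (hX1 : rayU H' (π ^ N) ≤ X) (hX2 : X ≤ rayU H' π)
    (hσ : ∀ x ∈ X, σ • x ∈ X) (h90 : ∀ x ∈ X, nr Eˣ σ n x = 1 → ∃ b ∈ X, x = dl Eˣ σ b) :
    (X.map (nr Eˣ σ n)).relIndex (X ⊓ LU H ⊓ (NDiv H H' π).comap dv) ≠ 0 ∧
    n * (X.map (nr Eˣ σ n)).relIndex (X ⊓ LU H ⊓ (NDiv H H' π).comap dv) ≤
      ((X ⊓ LU H).map dv ⊔ NDiv H H' π).relIndex (DivP H π) := by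
  have hπ' : π ∈ L H' := L_anti h.le hπ
  have hπN : π ^ N ∈ L H := pow_mem hπ N
  have hπN' : π ^ N ∈ L H' := pow_mem hπ' N
  have h0N : π ^ N ≠ 0 := pow_ne_zero N h0
  have hXL : X ≤ LU H' := fun x hx => (hX2 hx).1
  have hX : HPair (dl Eˣ σ) (nr Eˣ σ n) X :=
    h.hPair hσ fun x hx => mem_LU_iff_smul.1 (hXL hx)
  have hY : HPair (dl (Dv E) σ) (nr (Dv E) σ n) (DivP H' π) :=
    h.hPair (fun a ha => smul_mem_DivP (fi_conj_iff h) (mem_L.1 hπ σ h.mem) ha)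
      fun a ha g hg => smul_of_mem_DivP ha hg
  have hf : ∀ x ∈ X, dv (dl Eˣ σ x) = dl (Dv E) σ (dv x) := fun x _ => fi_dv_dl x
  have hg : ∀ x ∈ X, dv (nr Eˣ σ n x) = nr (Dv E) σ n (dv x) := fun x _ => fi_dv_nr x
  have hle : X.map dv ≤ DivP H' π :=
    (Subgroup.map_mono hX2).trans (Ray_le_DivP h.isOpen hπ')
  have hidx : (X.map dv).relIndex (DivP H' π) ≠ 0 := by
    intro h1
    have h2 := Ray_relIndex h.isOpen hπN' h0N
    rw [DivP_pow hN] at h2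
    exact h2 (Subgroup.relIndex_eq_zero_of_le_left (Subgroup.map_mono hX1) h1)
  have hK : HPair (dl Eˣ σ) (nr Eˣ σ n) (X ⊓ dv.ker) := hX.inf_ker dv hf hg
  have hS : HPair (dl Eˣ σ) (nr Eˣ σ n) (SU H' ∅) :=
    h.hPair (fun x hx => fi_smul_mem_SU h hx) fun x hx => mem_LU_iff_smul.1 hx.1
  have hKS : X ⊓ dv.ker = X ⊓ SU H' ∅ := by
    ext x
    simp only [Subgroup.mem_inf, MonoidHom.mem_ker, dv_eq_one_iff, mem_SU]
    exact and_congr_right fun hx =>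
      ⟨fun h1 => ⟨hXL hx, fun W _ => h1 W⟩, fun h1 W => h1.2 W (Set.notMem_empty _)⟩
  have hKle : X ⊓ dv.ker ≤ SU H' ∅ := hKS ▸ inf_le_right
  have hKi : (X ⊓ dv.ker).relIndex (SU H' ∅) ≠ 0 := by
    rw [hKS, Subgroup.inf_relIndex_right]
    intro h1
    have h2 := rayU_relIndex h.isOpen hπN' h0N
    refine h2 (Subgroup.relIndex_eq_zero_of_le_right (K := SU H' ∅) ?_
      (Subgroup.relIndex_eq_zero_of_le_left hX1 h1))
    intro x hx
    exact ⟨hx.1, fun W _ => hx.2 W (Set.notMem_empty _)⟩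
  obtain ⟨hA, hB⟩ := hq_units h hi
  have ha : hq (dl Eˣ σ) (nr Eˣ σ n) (X ⊓ dv.ker) ≠ 0 :=
    (hq_ne_zero_iff_of_le hK hS hKle hKi).2 hA
  have hab : hq (nr Eˣ σ n) (dl Eˣ σ) (X ⊓ dv.ker) =
      hq (dl Eˣ σ) (nr Eˣ σ n) (X ⊓ dv.ker) * n := by
    have h1 := hq_mul_of_le hK hS hKle hKi
    rw [hB, ← mul_assoc] at h1
    exact (Nat.eq_of_mul_eq_mul_right (Nat.pos_of_ne_zero hA) h1).symm
  have hb : hq (nr Eˣ σ n) (dl Eˣ σ) (X ⊓ dv.ker) ≠ 0 := by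
    rw [hab]
    exact mul_ne_zero ha h.ne_zero
  have hc : ((X ⊓ (dl Eˣ σ).ker).map dv ⊔ (DivP H' π).map (nr (Dv E) σ n)).relIndex
      (DivP H' π ⊓ (dl (Dv E) σ).ker) ≠ 0 := by
    rw [fi_ker_units h hXL, fi_ker_div h hπ hu]
    intro h1
    have h2 := Ray_relIndex h.isOpen_top hπN h0N
    rw [DivP_pow hN] at h2
    exact h2 (Subgroup.relIndex_eq_zero_of_le_left ((fi_ray_le h hX1).trans le_sup_left) h1)
  obtain ⟨h1, h2⟩ := herbrand_ineq hX hY dv hf hg hle hidx h90 ha hb hc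
  rw [fi_ker_units h hXL, fi_map_nr h] at h1
  rw [hab, fi_ker_units h hXL, fi_ker_div h hπ hu, fi_map_nr h, mul_assoc] at h2
  exact ⟨h1, Nat.le_of_mul_le_mul_left h2 (Nat.pos_of_ne_zero ha)⟩

theorem fi (h : CycExt H H' σ n) (hi : HasI H) (hπ : π ∈ L H) (h0 : π ≠ 0) (hu : Unram H H' π) :
    ∃ N : ℕ, N ≠ 0 ∧ n ≤ nIdx H H' (π ^ N) := by
  obtain ⟨X, N, hN, hX1, hX2, hσ, h90⟩ := exists_locB h hπ h0
  obtain ⟨h1, h2⟩ := fi_core h hi hπ h0 hu X hN hX1 hX2 hσ h90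
  refine ⟨N, hN, ?_⟩
  have h3 := nIdx_ne_zero h.isOpen_top (pow_mem hπ N) (pow_ne_zero N h0) H'
  have h4 : NDiv H H' (π ^ N) = NDiv H H' π := by rw [NDiv, NDiv, DivP_pow hN]
  unfold nIdx at h3 ⊢
  rw [h4, DivP_pow hN] at h3 ⊢
  refine le_trans (Nat.le_mul_of_pos_right n (Nat.pos_of_ne_zero h1)) (h2.trans ?_)
  exact Subgroup.relIndex_le_of_le_left (sup_le_sup_right (fi_ray_le h hX1) _) h3

end Crest.Agent.R018
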