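import Crest.Agent.R018.SetupB
import Crest.Agent.R018.KLem

/-!
# R018 / GC

(GC) `H0 = G0.normalCore`.  For `U` open normal let `C U = {s ∉ G0 | ∀ h ∈ H0, (α h)⁻¹ α (s h s⁻¹) ∈ U}`: closed and monotone; if all are nonempty,
`exists_forall_normal` gives `s ∉ G0` with `α (s h s⁻¹) = α h` on `H0` (`mem_of_forall_normal` with `Γ = ⊥`), contradicting `Maxl`.  So `C U* = ∅` for some `U*`.
For `U ≤ U*`, `H` as stated and `t ∉ pre U`, let `Z_t = {y ∈ LU U | ∀ h ∈ H, sg y (α (t h t⁻¹)) = sg y (α h)}` (a subgroup by `sg_mul_left`; it depends only on `t H`).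
If `Z_t` had finite index in `LU U`:  case `t ∈ G0`: `(α t)⁻¹ ρ / ρ` is fixed by `img H` for `y ∈ Z_t`, so `embed_eq_of_sq` gives `α t ∈ U`;  case `t ∉ G0`: for `h0 ∈ H0`,
`a = α h0`, `b = α (t h0 t⁻¹)`, and `y ∈ Z_t` with `b⁻¹ y ∈ Z_t` (finite index), `a⁻¹ ρ / b⁻¹ ρ` is fixed by `img H`
(`α x` fixes `a⁻¹ρ` iff `α (h0 x h0⁻¹)` fixes `ρ` iff `α (t h0 x h0⁻¹ t⁻¹)` fixes `ρ` iff `α (t x t⁻¹)` fixes `b⁻¹ρ` iff `α x` fixes `b⁻¹ρ`), so `a⁻¹ = b⁻¹` on `L U`, i.e.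
`t ∈ C U ⊆ C U* = ∅`.  Finally add `Z_0 = {y ∈ LU U | U fixes rt 2 y}`, of infinite index by `exists_nonsquare`.
-/

set_option autoImplicit false
set_option linter.unusedSectionVars false

noncomputable section

namespace Crest.Agent.R018

open scoped NNReal Classical

variable {Ω F E : Type*} [Field Ω] [CharZero Ω] [IsAlgClosed Ω] [IsGalois ℚ Ω]
  [Field F] [NumberField F] [Field E] [CharZero E] [Algebra F E] [IsGalois F E] [RadCl E]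

/-- the elements all of whose square roots are fixed by `T`. -/
def gcZ (T : Set Gal(E/F)) : Subgroup Eˣ where
  carrier := {y | ∀ g ∈ T, ∀ ρ : E, ρ ^ 2 = (y : E) → g ρ = ρ}
  one_mem' := by
    intro g _ ρ hρ
    have h1 : ρ ^ 2 = 1 ^ 2 := by simpa using hρ
    rcases sq_eq_sq_iff_eq_or_eq_neg.1 h1 with h | h <;> simp [h]
  mul_mem' := by
    intro y y' hy hy' g hg ρ hρ
    obtain ⟨σ, hσ⟩ := RadCl.root 2 two_ne_zero (y : E)
    have hσ0 : σ ≠ 0 := by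
      rintro rfl
      exact y.ne_zero (by simpa using hσ.symm)
    have h1 : (ρ / σ) ^ 2 = (y' : E) := by
      rw [div_pow, hρ, hσ, Units.val_mul, mul_div_cancel_left₀ _ y.ne_zero]
    have h2 := hy' g hg _ h1
    rw [map_div₀, hy g hg σ hσ, div_left_inj' hσ0] at h2
    exact h2
  inv_mem' := by
    intro y hy g hg ρ hρ
    have h1 : (ρ⁻¹) ^ 2 = (y : E) := by
      rw [inv_pow, hρ, Units.val_inv_eq_inv_val, inv_inv]
    have h2 := hy g hg _ h1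
    rw [map_inv₀, inv_inj] at h2
    exact h2

theorem mem_gcZ {T : Set Gal(E/F)} {y : Eˣ} :
    y ∈ gcZ T ↔ ∀ g ∈ T, ∀ ρ : E, ρ ^ 2 = (y : E) → g ρ = ρ := Iff.rfl

theorem gc_pm {g : Gal(E/F)} {ρ y : E} (hρ : ρ ^ 2 = y) (hg : g y = y) : g ρ = ρ ∨ g ρ = -ρ :=
  sq_eq_sq_iff_eq_or_eq_neg.1 (by rw [← map_pow, hρ, hg])

theorem gc_fix_of_fix {g : Gal(E/F)} {ρ ρ' : E} (h : ρ ^ 2 = ρ' ^ 2) (hg : g ρ' = ρ') : g ρ = ρ := by
  rcases sq_eq_sq_iff_eq_or_eq_neg.1 h with h1 | h1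
  · rw [h1, hg]
  · rw [h1, map_neg, hg]

theorem gc_eq_of_iff {a b : Gal(E/F)} {ρ y : E} (hρ : ρ ^ 2 = y) (ha : a y = y) (hb : b y = y)
    (h : a ρ = ρ ↔ b ρ = ρ) : a ρ = b ρ := by
  by_cases h1 : a ρ = ρ
  · rw [h1, h.1 h1]
  · have h2 : ¬ b ρ = ρ := fun h2 => h1 (h.2 h2)
    rw [(gc_pm hρ ha).resolve_left h1, (gc_pm hρ hb).resolve_left h2]

theorem gc_conj {a b : Gal(E/F)} {ρ y : E} (hρ : ρ ^ 2 = y) (ha : a y = y) (hb : b y = y) :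
    (a * b * a⁻¹) ρ = b ρ := by
  have ha' : a⁻¹ y = y := by
    conv_lhs => rw [← ha]
    simp
  have h1 : ∀ z : E, a (a⁻¹ z) = z := fun z => by simp
  rcases gc_pm hρ ha' with h2 | h2 <;> rcases gc_pm hρ hb with h3 | h3
  · have h4 : a ρ = ρ := by conv_lhs => rw [← h2, h1]
    rw [AlgEquiv.mul_apply, AlgEquiv.mul_apply, h2, h3, h4]
  · have h4 : a ρ = ρ := by conv_lhs => rw [← h2, h1]
    rw [AlgEquiv.mul_apply, AlgEquiv.mul_apply, h2, h3, map_neg, h4]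
  · have h4 : a (-ρ) = ρ := by rw [← h2, h1]
    rw [AlgEquiv.mul_apply, AlgEquiv.mul_apply, h2, map_neg, h3, h4]
  · have h4 : a (-ρ) = ρ := by rw [← h2, h1]
    rw [AlgEquiv.mul_apply, AlgEquiv.mul_apply, h2, map_neg, h3, map_neg, h4]

theorem gc_smul_mem_L {U : Subgroup Gal(E/F)} (hU : U.Normal) (g : Gal(E/F)) {x : E}
    (hx : x ∈ L U) : g x ∈ L U := by
  refine mem_L.2 fun u hu => ?_
  have h1 := mem_L.1 hx _ (hU.conj_mem _ hu g⁻¹)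
  have h2 := congrArg g h1
  simpa using h2

/-- the quotient of two conjugates of a root is fixed by `c` if the conjugated elements agree on the root. -/
theorem gc_quot_fix {a b c : Gal(E/F)} {ρ y : E} (hρ : ρ ^ 2 = y) (ha : (a * c * a⁻¹) y = y)
    (h : (a * c * a⁻¹) ρ = (b * c * b⁻¹) ρ) : c (a⁻¹ ρ / b⁻¹ ρ) = a⁻¹ ρ / b⁻¹ ρ := by
  have h1 : c (a⁻¹ ρ) = a⁻¹ ((a * c * a⁻¹) ρ) := by simp
  have h2 : c (b⁻¹ ρ) = b⁻¹ ((b * c * b⁻¹) ρ) := by simp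
  rw [map_div₀, h1, h2, ← h]
  rcases gc_pm hρ ha with h3 | h3
  · rw [h3]
  · rw [h3, map_neg, map_neg, neg_div_neg_eq]

/-- the common step: `a⁻¹ = b⁻¹` on `L U`. -/
theorem gc_mem_of_sq {U J : Subgroup Gal(E/F)} (hUn : U.Normal) (hU : IsOpen (U : Set Gal(E/F)))
    (hJ : IsOpen (J : Set Gal(E/F))) (hJU : J ≤ U) {a b : Gal(E/F)} {Y : Subgroup Eˣ}
    (hY : Y.relIndex (LU U) ≠ 0)
    (h : ∀ y ∈ Y, y ∈ LU U → ∀ ρ : E, ρ ^ 2 = (y : E) → ∀ c ∈ J, (a * c * a⁻¹) ρ = (b * c * b⁻¹) ρ) :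
    a⁻¹ * b ∈ U := by
  have key := embed_eq_of_sq hU hJ ((a⁻¹ : Gal(E/F)) : E →+* E) ((b⁻¹ : Gal(E/F)) : E →+* E) Y hY (by
    intro y hyY hyU
    obtain ⟨ρ, hρ⟩ := RadCl.root 2 two_ne_zero (y : E)
    have hρ0 : ρ ≠ 0 := by
      rintro rfl
      exact y.ne_zero (by simpa using hρ.symm)
    refine ⟨a⁻¹ ρ / b⁻¹ ρ, mem_L.2 fun c hc => gc_quot_fix hρ
      (mem_L.1 hyU _ (hUn.conj_mem _ (hJU hc) a)) (h y hyY hyU ρ hρ c hc), ?_⟩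
    change a⁻¹ (y : E) = (a⁻¹ ρ / b⁻¹ ρ) ^ 2 * b⁻¹ (y : E)
    have h0 : b⁻¹ ρ ≠ 0 := (map_ne_zero (b⁻¹ : Gal(E/F))).2 hρ0
    rw [← hρ, map_pow, map_pow]
    field_simp)
  refine mem_of_fix_L (isClosed_of_isOpen hU) fun x hx => ?_
  have h1 : a⁻¹ (b x) = b⁻¹ (b x) := key _ (gc_smul_mem_L hUn b hx)
  rw [AlgEquiv.mul_apply, h1]
  simp

namespace Setup
variable (S : Setup Ω F E)

theorem gc_star (hS : S.Maxl) : ∃ Ustar : Subgroup Gal(E/F), IsOpen (Ustar : Set Gal(E/F)) ∧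
    ∀ s : Gal(Ω/ℚ), (∀ h ∈ S.G0.normalCore, (S.α h)⁻¹ * S.α (s * h * s⁻¹) ∈ Ustar) → s ∈ S.G0 := by
  by_contra hc
  push Not at hc
  have hn : S.G0.normalCore.Normal := inferInstance
  have hle : S.G0.normalCore ≤ S.G0 := S.G0.normalCore_le
  obtain ⟨s, hs⟩ := exists_forall_normal (F := F) (E := E) (X := Gal(Ω/ℚ))
    (fun U => {s | s ∉ S.G0 ∧ ∀ h ∈ S.G0.normalCore, (S.α h)⁻¹ * S.α (s * h * s⁻¹) ∈ U})
    (by
      intro N _ hN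
      have e : {s : Gal(Ω/ℚ) | s ∉ S.G0 ∧ ∀ h ∈ S.G0.normalCore, (S.α h)⁻¹ * S.α (s * h * s⁻¹) ∈ N} =
          (S.G0 : Set Gal(Ω/ℚ))ᶜ ∩ ⋂ h ∈ S.G0.normalCore,
            (fun s : Gal(Ω/ℚ) => (S.α h)⁻¹ * S.α (s * h * s⁻¹)) ⁻¹' (N : Set Gal(E/F)) := by
        ext s
        simp only [Set.mem_ofPred_eq, Set.mem_inter_iff, Set.mem_compl_iff, SetLike.mem_coe,
          Set.mem_iInter, Set.mem_preimage]
      rw [e]
      refine S.open0.isClosed_compl.inter (isClosed_biInter fun h hh => ?_)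
      refine (isClosed_of_isOpen hN).preimage (continuous_const.mul ?_)
      have hc' : Continuous fun s : Gal(Ω/ℚ) => s * h * s⁻¹ := by fun_prop
      exact S.continuousOn.comp_continuous hc' fun s => hle (hn.conj_mem _ hh s))
    (by
      intro N _ hN
      obtain ⟨s, h1, h2⟩ := hc N hN
      exact ⟨s, h2, h1⟩)
    (fun N N' hNN' s hs => ⟨hs.1, fun h hh => hNN' (hs.2 h hh)⟩)
  refine (hs ⊤ inferInstance (by simp)).1 (hS s ⟨S.G0.normalCore, isOpen_normalCore S.open0, hle,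
    fun h hh => ⟨hle (hn.conj_mem _ hh s), ?_⟩⟩)
  have hb : IsClosed ((⊥ : Subgroup Gal(E/F)) : Set Gal(E/F)) := by
    rw [Subgroup.coe_bot]; exact isClosed_singleton
  have h1 := mem_of_forall_normal hb (g := (S.α h)⁻¹ * S.α (s * h * s⁻¹)) fun N hN hNo =>
    ⟨1, Subgroup.one_mem _, by simpa using (hs N hN hNo).2 h hh⟩
  rw [Subgroup.mem_bot, inv_mul_eq_one] at h1
  exact h1.symm

/-- the subgroup `Z_t`. -/
def gcZt (H : Subgroup Gal(Ω/ℚ)) (t : Gal(Ω/ℚ)) : Subgroup Eˣ :=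
  gcZ {g | ∃ h ∈ H, g = (S.α h)⁻¹ * S.α (t * h * t⁻¹)}

theorem mem_gcZt {H : Subgroup Gal(Ω/ℚ)} {t : Gal(Ω/ℚ)} {y : Eˣ} :
    y ∈ S.gcZt H t ↔ ∀ h ∈ H, ∀ ρ : E, ρ ^ 2 = (y : E) → S.α (t * h * t⁻¹) ρ = S.α h ρ := by
  constructor
  · intro hy h hh ρ hρ
    have h1 := congrArg (S.α h) (hy _ ⟨h, hh, rfl⟩ ρ hρ)
    simpa using h1
  · rintro hy _ ⟨h, hh, rfl⟩ ρ hρ
    rw [AlgEquiv.mul_apply, hy h hh ρ hρ]
    simp

theorem gc_zero {Ustar U : Subgroup Gal(E/F)} {H : Subgroup Gal(Ω/ℚ)}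
    (hst : ∀ s : Gal(Ω/ℚ), (∀ h ∈ S.G0.normalCore, (S.α h)⁻¹ * S.α (s * h * s⁻¹) ∈ Ustar) → s ∈ S.G0)
    (hUn : U.Normal) (hU : IsOpen (U : Set Gal(E/F))) (hle : U ≤ Ustar) (hHn : H.Normal)
    (hH : IsOpen (H : Set Gal(Ω/ℚ))) (hHU : H ≤ S.pre U) {t : Gal(Ω/ℚ)} (ht : t ∉ S.pre U) :
    (S.gcZt H t).relIndex (LU U) = 0 := by
  by_contra hY
  have hJ := S.isOpen_img hH
  have hJU := S.img_le_of_le_pre hHU
  have hG : t ∈ S.G0 := by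
    refine hst t fun h0 hh0 => hle ?_
    have hn : S.G0.normalCore.Normal := inferInstance
    have h0G : h0 ∈ S.G0 := S.G0.normalCore_le hh0
    have h0G' : t * h0 * t⁻¹ ∈ S.G0 := S.G0.normalCore_le (hn.conj_mem _ hh0 t)
    set b := S.α (t * h0 * t⁻¹) with hb
    let φ : Eˣ →* Eˣ := Units.map ((b⁻¹ : Gal(E/F)) : E →* E)
    have hφ : ∀ y : Eˣ, (φ y : E) = b⁻¹ (y : E) := fun _ => rfl
    have hY' : ((S.gcZt H t).comap φ).relIndex (LU U) ≠ 0 := by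
      rw [Subgroup.relIndex_comap]
      intro h0
      refine hY (Subgroup.relIndex_eq_zero_of_le_right ?_ h0)
      rintro _ ⟨y, hy, rfl⟩
      exact gc_smul_mem_L hUn b⁻¹ hy
    refine gc_mem_of_sq hUn hU hJ hJU (Subgroup.relIndex_inf_ne_zero hY hY') ?_
    rintro y ⟨hy1, hy2⟩ _ ρ hρ _ ⟨x, hx, hxG, rfl⟩
    have h1 := S.mem_gcZt.1 hy1 _ (hHn.conj_mem _ hx h0) ρ hρ
    have h2 := S.mem_gcZt.1 hy2 _ hx (b⁻¹ ρ) (by rw [hφ, ← _root_.map_pow, hρ])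
    have e : t * (h0 * x * h0⁻¹) * t⁻¹ = (t * h0 * t⁻¹) * (t * x * t⁻¹) * (t * h0 * t⁻¹)⁻¹ := by group
    rw [e, S.map_conj h0G' (hHU (hHn.conj_mem _ hx t)).1, S.map_conj h0G hxG, ← hb] at h1
    rw [← h1, AlgEquiv.mul_apply, AlgEquiv.mul_apply, AlgEquiv.mul_apply, AlgEquiv.mul_apply, h2]
  refine ht ⟨hG, ?_⟩
  have h1 : (S.α t)⁻¹ * 1 ∈ U := by
    refine gc_mem_of_sq hUn hU hJ hJU hY ?_
    rintro y hy _ ρ hρ _ ⟨x, hx, hxG, rfl⟩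
    have h1 := S.mem_gcZt.1 hy _ hx ρ hρ
    rw [S.map_conj hG hxG] at h1
    rw [h1]
    simp
  simpa using h1

theorem exists_good (hS : S.Maxl) : ∃ Ustar : Subgroup Gal(E/F), IsOpen (Ustar : Set Gal(E/F)) ∧
    ∀ (U : Subgroup Gal(E/F)) (H : Subgroup Gal(Ω/ℚ)), U.Normal → IsOpen (U : Set Gal(E/F)) →
      U ≤ Ustar → HasI U → 6 ≤ deg U → H.Normal → IsOpen (H : Set Gal(Ω/ℚ)) → HasI H → H ≤ S.pre U →
      S.Good U H := by
  obtain ⟨Ustar, hUs, hst⟩ := S.gc_star hS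
  refine ⟨Ustar, hUs, fun U H hUn hU hle hUI hdeg hHn hH hHI hHU =>
    ⟨hUn, hU, hUI, hdeg, hHn, hH, hHI, hHU, ?_⟩⟩
  have hfin : Finite (Gal(Ω/ℚ) ⧸ H) := Subgroup.quotient_finite_of_isOpen H hH
  have := Fintype.ofFinite (Gal(Ω/ℚ) ⧸ H)
  refine ⟨insert (gcZ (U : Set Gal(E/F))) ((Finset.univ.filter fun q : Gal(Ω/ℚ) ⧸ H =>
    q.out ∉ S.pre U).image fun q => S.gcZt H q.out), ?_, ?_⟩
  · intro Z hZ
    rcases Finset.mem_insert.1 hZ with rfl | hZ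
    · by_contra hY
      obtain ⟨y, hy, -, hy'⟩ := exists_nonsquare hU _ hY
      have hρ : rt 2 (y : E) ^ 2 = y := rt_pow two_ne_zero _
      exact hy' ⟨rt 2 (y : E), mem_L.2 fun g hg => hy g hg _ hρ, hρ.symm⟩
    · obtain ⟨q, hq, rfl⟩ := Finset.mem_image.1 hZ
      exact S.gc_zero hst hUn hU hle hHn hH hHU (Finset.mem_filter.1 hq).2
  · intro y hy hZ
    have hρ : rt 2 (y : E) ^ 2 = y := rt_pow two_ne_zero _
    constructor
    · by_contra hc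
      push Not at hc
      exact hZ _ (Finset.mem_insert_self _ _) fun g hg ρ hρ' =>
        gc_fix_of_fix (by rw [hρ', hρ]) (hc g hg)
    · intro t ht
      by_contra htU
      obtain ⟨k, hk⟩ := QuotientGroup.mk_out_eq_mul H t
      have hq : (QuotientGroup.mk t : Gal(Ω/ℚ) ⧸ H).out ∉ S.pre U := by
        rw [hk]
        intro h1
        exact htU (by simpa using (S.pre U).mul_mem h1 ((S.pre U).inv_mem (hHU k.2)))
      refine hZ _ (Finset.mem_insert_of_mem (Finset.mem_image_of_mem _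
        (Finset.mem_filter.2 ⟨Finset.mem_univ _, hq⟩))) ?_
      rw [hk]
      rintro _ ⟨h, hh, rfl⟩ ρ hρ'
      refine gc_fix_of_fix (ρ' := rt 2 (y : E)) (by rw [hρ', hρ]) ?_
      have hh' : (k : Gal(Ω/ℚ)) * h * (k : Gal(Ω/ℚ))⁻¹ ∈ H := hHn.conj_mem _ hh _
      have hfix : ∀ x ∈ H, S.α x (y : E) = y := fun x hx => mem_L.1 hy _ (hHU hx).2
      have h1 := gc_eq_of_iff hρ (hfix _ (hHn.conj_mem _ hh' t)) (hfix _ hh') (ht _ hh')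
      rw [S.map_conj (hHU k.2).1 (hHU hh).1, gc_conj hρ (hfix _ k.2) (hfix _ hh)] at h1
      have e : t * (k : Gal(Ω/ℚ)) * h * (t * (k : Gal(Ω/ℚ)))⁻¹ =
          t * ((k : Gal(Ω/ℚ)) * h * (k : Gal(Ω/ℚ))⁻¹) * t⁻¹ := by group
      rw [AlgEquiv.mul_apply, e, h1]
      simp

/-- a good pair with `H` inside a given open subgroup. -/
theorem exists_good_pair (hS : S.Maxl) {U0 : Subgroup Gal(E/F)} (hU0 : IsOpen (U0 : Set Gal(E/F))) :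
    ∃ U ≤ U0, ∀ H0 : Subgroup Gal(Ω/ℚ), IsOpen (H0 : Set Gal(Ω/ℚ)) → ∃ H ≤ H0, S.Good U H := by
  obtain ⟨Ustar, hUs, hgood⟩ := S.exists_good hS
  obtain ⟨U, hUn, hU, hle, hUI, hdeg⟩ := exists_small_normal (isOpen_inf hU0 hUs) 6
  refine ⟨U, hle.trans inf_le_left, fun H0 hH0 => ?_⟩
  have ho := isOpen_normalCore (isOpen_inf hH0 (isOpen_inf (S.isOpen_pre hU)
    (isOpen_FixMu (F := ℚ) (E := Ω) 4)))
  have hl := Subgroup.normalCore_le (H0 ⊓ (S.pre U ⊓ FixMu ℚ Ω 4))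
  exact ⟨_, hl.trans inf_le_left, hgood U _ hUn hU (hle.trans inf_le_right) hUI hdeg inferInstance ho
    (hl.trans (inf_le_right.trans inf_le_right)) (hl.trans (inf_le_right.trans inf_le_left))⟩

end Setup

end Crest.Agent.R018
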