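import Crest.Agent.R018.N1
import Crest.Agent.R018.Sel

/-!
# R018 / N2

(N) Let `A_k` be the set of functions `Gal(E/F) → ZMod (l^k)`, zero outside `Uε`, that are continuous eigen-homs on `Uε`, unramified outside `l`, with `a x0 = 0`.  It is a finite
(`finHom`) additive group with `|A_k| ≥ l^{2k} / l^k` (`exists_eigen_chom`, pigeonhole on `a x0` and differences).  Let `S_k ⊆ A_{k+1}` be the elements that are nonzero mod `l`.
If `S_k = ∅` then `|A_j| ≤ |A_k| ·…` stays bounded: every `a ∈ A_{j}` (`j > k`) reduces mod `l^{k+1}` to an element divisible by `l`, so `a` is divisible by `l`,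
`a = l a'` with `a' ∈ A_{j-1}` unique, so `|A_j| ≤ |A_{j-1}|`, contradiction.  The `S_k` form an inverse system of nonempty finite sets
(`nonempty_sections_of_finite_inverse_system`, `exists_seq_covby_of_forall_covby_finite`, or König by hand), and `exists_padic_of_compat` gives `a`.
-/

set_option autoImplicit false
set_option linter.unusedSectionVars false

noncomputable section

namespace Crest.Agent.R018

open scoped NNReal Classical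

variable {F E : Type*} [Field F] [NumberField F] [Field E] [CharZero E] [Algebra F E]
  [IsGalois F E] [RadCl E]

theorem n2_zero {l : ℕ} [Fact l.Prime] (k : ℕ) (x : ℤ_[l]) :
    PadicInt.toZModPow k x = 0 ↔ (l : ℤ_[l]) ^ k ∣ x := by
  rw [← RingHom.mem_ker, PadicInt.ker_toZModPow, Ideal.mem_span_singleton]

theorem n2_eq {l : ℕ} [Fact l.Prime] (k : ℕ) (x y : ℤ_[l]) :
    PadicInt.toZModPow k x = PadicInt.toZModPow k y ↔ (l : ℤ_[l]) ^ k ∣ x - y := by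
  rw [← n2_zero, map_sub, sub_eq_zero]

/-- `f` is an unramified eigen-character modulo `l ^ k` killing `x0`. -/
structure N2Q (U Uε : Subgroup Gal(E/F)) {l : ℕ} [Fact l.Prime] (ε : Gal(E/F) → ℤ_[l])
    (x0 : Gal(E/F)) (k : ℕ) (f : Gal(E/F) → ℤ_[l]) : Prop where
  add : ∀ x ∈ Uε, ∀ y ∈ Uε, (l : ℤ_[l]) ^ k ∣ f (x * y) - (f x + f y)
  loc : ∃ N : Subgroup Gal(E/F), IsOpen (N : Set Gal(E/F)) ∧ ∀ x ∈ Uε, x ∈ N → (l : ℤ_[l]) ^ k ∣ f x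
  eig : ∀ u ∈ U, ∀ x ∈ Uε, (l : ℤ_[l]) ^ k ∣ f (u * x * u⁻¹) - ε u * f x
  unr : ∀ W : Pl E, W.p ≠ l → ∀ τ ∈ Ine F W, τ ∈ Uε → (l : ℤ_[l]) ^ k ∣ f τ
  zero : (l : ℤ_[l]) ^ k ∣ f x0

/-- `m` pairwise incongruent solutions modulo `l ^ k`. -/
def N2Fam (U Uε : Subgroup Gal(E/F)) {l : ℕ} [Fact l.Prime] (ε : Gal(E/F) → ℤ_[l])
    (x0 : Gal(E/F)) (k m : ℕ) : Prop :=
  ∃ f : Fin m → Gal(E/F) → ℤ_[l], (∀ i, N2Q U Uε ε x0 k (f i)) ∧
    ∀ i j, (∀ x ∈ Uε, (l : ℤ_[l]) ^ k ∣ f i x - f j x) → i = j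

section
variable {U Uε : Subgroup Gal(E/F)} {l : ℕ} [Fact l.Prime] {ε : Gal(E/F) → ℤ_[l]} {x0 : Gal(E/F)}

theorem N2Q.mono {j k : ℕ} {f : Gal(E/F) → ℤ_[l]} (h : N2Q U Uε ε x0 k f) (hjk : j ≤ k) :
    N2Q U Uε ε x0 j f := by
  have d : (l : ℤ_[l]) ^ j ∣ (l : ℤ_[l]) ^ k := pow_dvd_pow _ hjk
  obtain ⟨N, hN, hN'⟩ := h.loc
  exact ⟨fun x hx y hy => d.trans (h.add x hx y hy), ⟨N, hN, fun x hx hx' => d.trans (hN' x hx hx')⟩,
    fun u hu x hx => d.trans (h.eig u hu x hx), fun W hW τ h1 h2 => d.trans (h.unr W hW τ h1 h2),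
    d.trans h.zero⟩

theorem N2Q.div {k : ℕ} {f g : Gal(E/F) → ℤ_[l]} (h : N2Q U Uε ε x0 (k + 1) f)
    (hc : ∀ u ∈ U, ∀ x ∈ Uε, u * x * u⁻¹ ∈ Uε) (hx0 : x0 ∈ Uε) (hg : ∀ x ∈ Uε, f x = l * g x) :
    N2Q U Uε ε x0 k g := by
  have d : ∀ y : ℤ_[l], (l : ℤ_[l]) ^ (k + 1) ∣ l * y → (l : ℤ_[l]) ^ k ∣ y := fun y hy => by
    rw [pow_succ'] at hy
    exact (mul_dvd_mul_iff_left (Nat.cast_ne_zero.2 (Fact.out : l.Prime).ne_zero)).1 hy
  obtain ⟨N, hN, hN'⟩ := h.loc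
  refine ⟨fun x hx y hy => d _ ?_, ⟨N, hN, fun x hx hx' => d _ (hg x hx ▸ hN' x hx hx')⟩,
    fun u hu x hx => d _ ?_, fun W hW τ h1 h2 => d _ (hg τ h2 ▸ h.unr W hW τ h1 h2),
    d _ (hg x0 hx0 ▸ h.zero)⟩
  · have := h.add x hx y hy
    rw [hg _ (Uε.mul_mem hx hy), hg x hx, hg y hy] at this
    convert this using 1
    ring
  · have := h.eig u hu x hx
    rw [hg _ (hc u hu x hx), hg x hx] at this
    convert this using 1
    ring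

theorem N2Q.chom {k : ℕ} {f : Gal(E/F) → ℤ_[l]} (h : N2Q U Uε ε x0 k f)
    {b : Gal(E/F) → ZMod (l ^ k)} (hb : ∀ x ∈ Uε, b x = PadicInt.toZModPow k (f x)) :
    CHom Uε b ∧ ∀ W : Pl E, W.p ∉ ({l} : Finset ℕ) → ∀ τ ∈ Ine F W, τ ∈ Uε → b τ = 0 := by
  obtain ⟨N, hN, hN'⟩ := h.loc
  refine ⟨⟨fun x hx y hy => ?_, N, hN, fun x hx hx' => ?_⟩, fun W hW τ h1 h2 => ?_⟩
  · rw [hb _ (Uε.mul_mem hx hy), hb x hx, hb y hy, ← map_add, n2_eq]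
    exact h.add x hx y hy
  · rw [hb x hx, n2_zero]
    exact hN' x hx hx'
  · rw [hb τ h2, n2_zero]
    exact h.unr W (by simpa using hW) τ h1 h2

theorem n2_bdd (hUε : IsOpen (Uε : Set Gal(E/F))) (k : ℕ) :
    ∃ C : ℕ, ∀ m, N2Fam U Uε ε x0 k m → m ≤ C := by
  obtain ⟨C, hC⟩ := finHom hUε (Fact.out : l.Prime) k {l}
  refine ⟨C, fun m ⟨f, hf, hinj⟩ => ?_⟩
  have := hC (Finset.univ.image fun i x => PadicInt.toZModPow k (f i x)) (fun b hb => ?_)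
    (fun b hb b' hb' h => ?_)
  · rwa [Finset.card_image_of_injective _ fun i j hij => hinj i j fun x _ =>
      (n2_eq k _ _).1 (congrFun hij x), Finset.card_univ, Fintype.card_fin] at this
  · obtain ⟨i, -, rfl⟩ := Finset.mem_image.1 hb
    exact (hf i).chom fun _ _ => rfl
  · obtain ⟨i, -, rfl⟩ := Finset.mem_image.1 hb
    obtain ⟨j, -, rfl⟩ := Finset.mem_image.1 hb'
    rw [hinj i j fun x hx => (n2_eq k _ _).1 (h x hx)]

theorem n2_fin (hUε : IsOpen (Uε : Set Gal(E/F))) (k : ℕ) :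
    {b : Gal(E/F) → ZMod (l ^ k) | ∃ f, N2Q U Uε ε x0 k f ∧
      b = fun x => if x ∈ Uε then PadicInt.toZModPow k (f x) else 0}.Finite := by
  obtain ⟨C, hC⟩ := finHom hUε (Fact.out : l.Prime) k {l}
  by_contra hinf
  obtain ⟨s, hs, hcard⟩ := Set.Infinite.exists_subset_card_eq hinf (C + 1)
  have := hC s (fun b hb => ?_) (fun b hb b' hb' h => ?_)
  · omega
  · obtain ⟨f, hf, rfl⟩ := hs hb
    exact hf.chom fun x hx => if_pos hx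
  · obtain ⟨f, -, rfl⟩ := hs hb
    obtain ⟨f', -, rfl⟩ := hs hb'
    funext x
    by_cases hx : x ∈ Uε
    · exact h x hx
    · rw [if_neg hx, if_neg hx]

theorem n2_fam {k : ℕ} {s : Finset (Gal(E/F) → ZMod (l ^ k))} (hs : (l ^ k) ^ 2 ≤ s.card)
    (h : ∀ a ∈ s, CHom Uε a ∧
      (∀ u ∈ U, ∀ x ∈ Uε, a (u * x * u⁻¹) = PadicInt.toZModPow k (ε u) * a x) ∧
      ∀ W : Pl E, W.p ≠ l → ∀ τ ∈ Ine F W, τ ∈ Uε → a τ = 0)
    (hinj : ∀ a ∈ s, ∀ a' ∈ s, (∀ x ∈ Uε, a x = a' x) → a = a') : N2Fam U Uε ε x0 k (l ^ k) := by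
  have hp : 0 < l ^ k := pow_pos (Fact.out : l.Prime).pos k
  haveI : NeZero (l ^ k) := ⟨hp.ne'⟩
  obtain ⟨c, -, hc⟩ := Finset.exists_le_card_fiber_of_mul_le_card_of_maps_to (s := s)
    (t := (Finset.univ : Finset (ZMod (l ^ k)))) (f := fun a => a x0) (n := l ^ k)
    (fun _ _ => Finset.mem_univ _) Finset.univ_nonempty
    (by rwa [Finset.card_univ, ZMod.card, ← sq])
  obtain ⟨e, he⟩ := Function.Embedding.exists_of_card_le_finset (α := Fin (l ^ k))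
    (s := s.filter fun a => a x0 = c) (by rwa [Fintype.card_fin])
  have he' : ∀ i, e i ∈ s ∧ e i x0 = c := fun i => Finset.mem_filter.1 (he ⟨i, rfl⟩)
  have hv : ∀ z : ZMod (l ^ k), PadicInt.toZModPow k (z.val : ℤ_[l]) = z := fun z => by
    rw [map_natCast, ZMod.natCast_zmod_val]
  set i0 : Fin (l ^ k) := ⟨0, hp⟩
  refine ⟨fun i x => ((e i x - e i0 x).val : ℤ_[l]), fun i => ?_, fun i j hij => ?_⟩
  · obtain ⟨⟨a1, N, hN, a2⟩, a3, a4⟩ := h _ (he' i).1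
    obtain ⟨⟨b1, N', hN', b2⟩, b3, b4⟩ := h _ (he' i0).1
    refine ⟨fun x hx y hy => ?_, ⟨N ⊓ N', hN.inter hN', fun x hx hx' => ?_⟩, fun u hu x hx => ?_,
      fun W hW τ h1 h2 => ?_, ?_⟩
    · rw [← n2_eq, map_add, hv, hv, hv, a1 x hx y hy, b1 x hx y hy]
      ring
    · rw [← n2_zero, hv, a2 x hx hx'.1, b2 x hx hx'.2, sub_zero]
    · rw [← n2_eq, map_mul, hv, hv, a3 u hu x hx, b3 u hu x hx]
      ring
    · rw [← n2_zero, hv, a4 W hW τ h1 h2, b4 W hW τ h1 h2, sub_zero]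
    · rw [← n2_zero, hv, (he' i).2, (he' i0).2, sub_self]
  · refine e.injective (hinj _ (he' i).1 _ (he' j).1 fun x hx => ?_)
    have := (n2_eq k _ _).2 (hij x hx)
    rwa [hv, hv, sub_left_inj] at this

theorem n2_freq (hUε : IsOpen (Uε : Set Gal(E/F))) (hc : ∀ u ∈ U, ∀ x ∈ Uε, u * x * u⁻¹ ∈ Uε)
    (hx0 : x0 ∈ Uε) (h : ∀ k, N2Fam U Uε ε x0 k (l ^ k)) :
    ∃ᶠ k in Filter.atTop, ∃ f, N2Q U Uε ε x0 k f ∧ ∃ x ∈ Uε, ¬ (l : ℤ_[l]) ∣ f x := by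
  by_contra hcon
  rw [Filter.not_frequently, Filter.eventually_atTop] at hcon
  obtain ⟨k, hk⟩ := hcon
  push Not at hk
  obtain ⟨C, hC⟩ := n2_bdd (U := U) (ε := ε) (x0 := x0) hUε k
  have key : ∀ j m, N2Fam U Uε ε x0 (k + j) m → N2Fam U Uε ε x0 k m := by
    intro j
    induction j with
    | zero => exact fun _ h => h
    | succ j ih =>
      rintro m ⟨f, hf, hinj⟩
      have h1 : ∀ i x, ∃ y, x ∈ Uε → f i x = l * y := fun i x => by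
        by_cases hx : x ∈ Uε
        · obtain ⟨y, hy⟩ := hk _ (Nat.le_add_right _ _) _ (hf i) x hx
          exact ⟨y, fun _ => hy⟩
        · exact ⟨0, fun h => absurd h hx⟩
      choose g hg using h1
      refine ih m ⟨g, fun i => (hf i).div hc hx0 (hg i), fun i i' hi => hinj i i' fun x hx => ?_⟩
      rw [hg i x hx, hg i' x hx, ← mul_sub, ← add_assoc, pow_succ']
      exact mul_dvd_mul_left _ (hi x hx)
  have h1 := hC _ (key C _ (h (k + C)))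
  have h2 := Nat.lt_pow_self (n := k + C) (Fact.out : l.Prime).one_lt
  omega

end

theorem exists_eigen_zhom {U Uε : Subgroup Gal(E/F)} (hUε : IsOpen (Uε : Set Gal(E/F))) (hi : HasI U)
    (hdeg : 6 ≤ deg U) {l : ℕ} [Fact l.Prime] (hl2 : l ≠ 2) {ε : Gal(E/F) → ℤ_[l]} (hε : MHom U ε)
    (hpow : ∀ u ∈ U, ε u ^ (l - 1) = 1) (hker : ∀ x, x ∈ Uε ↔ x ∈ U ∧ ε x = 1)
    {δ : Gal(E/F)} (hδ : δ ∈ U) (hδ' : ε δ ≠ 1) {x0 : Gal(E/F)} (hx0 : x0 ∈ Uε) :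
    ∃ a : Gal(E/F) → ℤ_[l], ZHom l Uε a ∧ (∀ u ∈ U, ∀ x ∈ Uε, a (u * x * u⁻¹) = ε u * a x) ∧
      a x0 = 0 ∧ ∃ x ∈ Uε, a x ≠ 0 := by
  have hc : ∀ u ∈ U, ∀ x ∈ Uε, u * x * u⁻¹ ∈ Uε := fun u hu x hx => by
    obtain ⟨h1, h2⟩ := (hker x).1 hx
    refine (hker _).2 ⟨U.mul_mem (U.mul_mem hu h1) (U.inv_mem hu), ?_⟩
    rw [hε.2 _ (U.mul_mem hu h1) _ (U.inv_mem hu), hε.2 _ hu _ h1, h2, mul_one,
      ← hε.2 _ hu _ (U.inv_mem hu), mul_inv_cancel, hε.1]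
  have hfr := n2_freq (ε := ε) hUε hc hx0 fun k => by
    obtain ⟨s, h1, h2, h3⟩ := exists_eigen_chom hUε hi hl2 hε hpow hker hδ hδ' k
    exact n2_fam ((Nat.pow_le_pow_right (pow_pos (Fact.out : l.Prime).pos k) (by omega)).trans h1)
      h2 h3
  obtain ⟨𝒰, h𝒰, hmem⟩ : ∃ 𝒰 : Ultrafilter ℕ, (𝒰 : Filter ℕ) ≤ Filter.atTop ∧
      ∀ᶠ k in (𝒰 : Filter ℕ), ∃ f, N2Q U Uε ε x0 k f ∧ ∃ x ∈ Uε, ¬ (l : ℤ_[l]) ∣ f x := by
    obtain ⟨𝒰, h⟩ := @Ultrafilter.exists_le _ _ (Filter.frequently_iff_neBot.1 hfr)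
    exact ⟨𝒰, h.trans inf_le_left, Filter.le_principal_iff.1 (h.trans inf_le_right)⟩
  obtain ⟨f, hf⟩ := hmem.choice
  have h1 : ∀ j : ℕ, ∃ b : Gal(E/F) → ZMod (l ^ j), ∀ᶠ k in (𝒰 : Filter ℕ),
      ∀ x ∈ Uε, b x = PadicInt.toZModPow j (f k x) := fun j => by
    have h2 : ∀ᶠ k in (𝒰 : Filter ℕ), ∃ b ∈ {b : Gal(E/F) → ZMod (l ^ j) | ∃ f, N2Q U Uε ε x0 j f ∧
        b = fun x => if x ∈ Uε then PadicInt.toZModPow j (f x) else 0},
        ∀ x ∈ Uε, b x = PadicInt.toZModPow j (f k x) := by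
      filter_upwards [hf, h𝒰 (Filter.eventually_ge_atTop j)] with k hk hjk
      exact ⟨_, ⟨f k, hk.1.mono hjk, rfl⟩, fun x hx => if_pos hx⟩
    obtain ⟨b, -, hb⟩ := (Ultrafilter.eventually_exists_mem_iff (n2_fin hUε j)).1 h2
    exact ⟨b, hb⟩
  choose b hb using h1
  have h2 : ∀ x, ∃ y : ℤ_[l], x ∈ Uε → ∀ j, PadicInt.toZModPow j y = b j x := fun x => by
    by_cases hx : x ∈ Uε
    · obtain ⟨y, hy⟩ := exists_padic_of_compat (fun j => b j x) fun j => by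
        obtain ⟨k, hk, hk'⟩ := ((hb j).and (hb (j + 1))).exists
        rw [hk x hx, hk' x hx, ZMod.castHom_apply, PadicInt.cast_toZModPow _ _ (Nat.le_succ j)]
      exact ⟨y, fun _ => hy⟩
    · exact ⟨0, fun h => absurd h hx⟩
  choose a ha using h2
  have h3 : ∀ j, ∃ g, N2Q U Uε ε x0 j g ∧ (∃ x ∈ Uε, ¬ (l : ℤ_[l]) ∣ g x) ∧
      ∀ x ∈ Uε, PadicInt.toZModPow j (a x) = PadicInt.toZModPow j (g x) := fun j => by
    obtain ⟨k, hk, hjk, hk'⟩ := (hf.and (((Filter.eventually_ge_atTop j).filter_mono h𝒰).and (hb j))).exists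
    exact ⟨f k, hk.1.mono hjk, hk.2, fun x hx => by rw [ha x hx, hk' x hx]⟩
  refine ⟨a, ⟨fun x hx y hy => PadicInt.ext_of_toZModPow.1 fun j => ?_, fun j => ?_⟩,
    fun u hu x hx => PadicInt.ext_of_toZModPow.1 fun j => ?_,
    PadicInt.ext_of_toZModPow.1 fun j => ?_, ?_⟩
  · obtain ⟨g, hg, -, e⟩ := h3 j
    rw [map_add, e _ (Uε.mul_mem hx hy), e x hx, e y hy, ← map_add, n2_eq]
    exact hg.add x hx y hy
  · obtain ⟨g, hg, -, e⟩ := h3 j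
    exact (hg.chom e).1.2
  · obtain ⟨g, hg, -, e⟩ := h3 j
    rw [map_mul, e _ (hc u hu x hx), e x hx, ← map_mul, n2_eq]
    exact hg.eig u hu x hx
  · obtain ⟨g, hg, -, e⟩ := h3 j
    rw [e _ hx0, map_zero, n2_zero]
    exact hg.zero
  · obtain ⟨g, -, ⟨x, hx, hx'⟩, e⟩ := h3 1
    refine ⟨x, hx, fun h0 => hx' ?_⟩
    have := e x hx
    rw [h0, map_zero, eq_comm, n2_zero, pow_one] at this
    exact this

end Crest.Agent.R018
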