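import Crest.Agent.R018.Bridge

/-!
# R018 / Trans

Transitivity of the Galois action on the places above a given place.  Either use
`Algebra.IsInvariant.exists_smul_of_under_eq_of_profinite` (group `H`, ring `𝓞 E` or `integralClosure`), or: at finite level
(`N` open normal in `G`, `H N / N` acting on `𝓞 (L N)`) use `Algebra.IsInvariant.exists_smul_of_under_eq` /
`Ideal.exists_smul_eq_of_isGaloisGroup`, or the elementary norm argument (CRT gives `x ∈ 𝓞(L N)` in the prime of `W` but in no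
conjugate of the prime of `W'`; its norm lies in `L (H ⊔ N)`), then `exists_forall_normal` (`X = H`) for the limit.  For closed `H`:
first find, for each `N`, `h ∈ H` with `h • W` and `W'` agreeing on `L N` (note `L (H ⊔ N) ≤ L H`).
-/

set_option autoImplicit false
set_option linter.unusedSectionVars false

noncomputable section

namespace Crest.Agent.R018

open scoped NNReal Classical

variable {F E : Type*} [Field F] [NumberField F] [Field E] [CharZero E] [Algebra F E]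
  [IsGalois F E]
open NumberField IsDedekindDomain

theorem tr_int {K : IntermediateField F E} (a : 𝓞 K) : IsIntegral ℤ ((a : K) : E) :=
  a.isIntegral_coe.map (K.val.restrictScalars ℤ)

theorem tr_int_smul (g : Gal(E/F)) {a : E} (h : IsIntegral ℤ a) : IsIntegral ℤ (g a) :=
  h.map ((g : E →ₐ[F] E).restrictScalars ℤ)

include F in
theorem tr_sep {W₁ W₂ : Pl E} (h : W₁ ≠ W₂) :
    ∃ a : E, IsIntegral ℤ a ∧ W₁.v a < 1 ∧ W₂.v (1 - a) < 1 := by
  obtain ⟨x, hx⟩ : ∃ x, W₁.v x ≠ W₂.v x := by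
    by_contra hc
    push Not at hc
    exact h (Pl.ext_v hc)
  have := numberField_L (isOpen_stab (F := F) x)
  have hne : (W₁.prime (L (stab F x))).asIdeal ≠ (W₂.prime (L (stab F x))).asIdeal := fun e =>
    hx (v_eq_of_prime_eq _ (HeightOneSpectrum.ext e) ⟨x, mem_L.2 fun _ hg => hg⟩)
  have hsup := (W₁.prime (L (stab F x))).isMaximal.coprime_of_ne
    (W₂.prime (L (stab F x))).isMaximal hne
  obtain ⟨a, ha, b, hb, hab⟩ := Submodule.mem_sup.1 (hsup ▸ Submodule.mem_top (x := 1))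
  refine ⟨((a : L (stab F x)) : E), tr_int a, ha, ?_⟩
  have e : (1 : E) - ((a : L (stab F x)) : E) = ((b : L (stab F x)) : E) := by
    rw [eq_sub_of_add_eq' hab]; simp
  rw [e]; exact hb

theorem tr_prod_lt {W : Pl E} {ι : Type*} {s : Finset ι} {f : ι → E}
    (hf : ∀ i ∈ s, IsIntegral ℤ (f i)) {j : ι} (hj : j ∈ s) (h : W.v (f j) < 1) :
    W.v (∏ i ∈ s, f i) < 1 := by
  rw [← Finset.mul_prod_erase s f hj, map_mul]
  exact mul_lt_one_of_nonneg_of_lt_one_left (by simp) h (W.v_le_one_of_isIntegral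
    (IsIntegral.prod _ fun i hi => hf i (Finset.mem_of_mem_erase hi)))

theorem tr_one_sub_prod {W : Pl E} {ι : Type*} (s : Finset ι) {f : ι → E}
    (hf : ∀ i ∈ s, IsIntegral ℤ (f i)) (h : ∀ i ∈ s, W.v (1 - f i) < 1) :
    W.v (1 - ∏ i ∈ s, f i) < 1 := by
  induction s using Finset.induction_on with
  | empty => simp
  | insert a s ha ih =>
    rw [Finset.prod_insert ha, show 1 - f a * ∏ i ∈ s, f i =
      (1 - f a) + f a * (1 - ∏ i ∈ s, f i) by ring]
    refine lt_of_le_of_lt (W.v.map_add _ _) (max_lt (h a (Finset.mem_insert_self _ _)) ?_)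
    rw [map_mul]
    exact mul_lt_one_of_nonneg_of_lt_one_right
      (W.v_le_one_of_isIntegral (hf a (Finset.mem_insert_self _ _))) (by simp)
      (ih (fun i hi => hf i (Finset.mem_insert_of_mem hi))
        fun i hi => h i (Finset.mem_insert_of_mem hi))

theorem same_of_v_eq {H : Subgroup Gal(E/F)} (hH : IsClosed (H : Set Gal(E/F))) {W W' : Pl E}
    (h : ∀ x ∈ L H, W.v x = W'.v x) : Same H W W' := by
  by_contra hc
  have h1 : ∀ g : Gal(E/F), ∃ a : E, IsIntegral ℤ a ∧ (g ∈ H → (g • W).v a < 1) ∧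
      W'.v (1 - a) < 1 := fun g => by
    by_cases hg : g ∈ H
    · obtain ⟨a, h1, h2, h3⟩ := tr_sep (F := F) (fun e : g • W = W' => hc ⟨g, hg, e⟩)
      exact ⟨a, h1, fun _ => h2, h3⟩
    · exact ⟨1, isIntegral_one, fun h => absurd h hg, by simp⟩
  choose a ha1 ha2 ha3 using h1
  obtain ⟨t, -, ht⟩ := hH.isCompact.elim_nhds_subcover (fun g => {g' | (g' • W).v (a g) < 1})
    (fun g hg => by
      have ho : IsOpen ((fun g' : Gal(E/F) => g * g'⁻¹) ⁻¹' (stab F (a g) : Set Gal(E/F))) :=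
        (isOpen_stab _).preimage (by fun_prop)
      refine Filter.mem_of_superset (ho.mem_nhds (by simp)) fun g' hg' => ?_
      have e : g (g'⁻¹ (a g)) = a g := hg'
      have e' : g'⁻¹ (a g) = g⁻¹ (a g) := by
        conv_rhs => rw [← e]
        simp
      have := ha2 g hg
      rw [Pl.smul_v, ← e'] at this
      exact this)
  set x : E := 1 - ∏ g ∈ t, a g with hx
  have hxi : IsIntegral ℤ x := isIntegral_one.sub (IsIntegral.prod _ fun g _ => ha1 g)
  have hx1 : W'.v x < 1 := tr_one_sub_prod t (fun g _ => ha1 g) fun g _ => ha3 g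
  have hx2 : ∀ g ∈ H, W.v (g x) = 1 := fun g hg => by
    obtain ⟨g', hg', hlt⟩ := Set.mem_iUnion₂.1 (ht (H.inv_mem hg))
    have h2 : (g⁻¹ • W).v (∏ g ∈ t, a g) < 1 := tr_prod_lt (fun g _ => ha1 g) hg' hlt
    have h3 := (g⁻¹ • W).v.map_one_sub_of_lt h2
    rwa [Pl.smul_v, inv_inv] at h3
  have hfin : {z | ∃ g ∈ H, g x = z}.Finite := by
    have hxF : IsIntegral F x := Algebra.IsIntegral.isIntegral x
    refine ((minpoly F x).rootSet_finite E).subset ?_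
    rintro _ ⟨g, -, rfl⟩
    rw [Polynomial.mem_rootSet]
    refine ⟨minpoly.ne_zero hxF, ?_⟩
    have := Polynomial.aeval_algHom_apply (g : E →ₐ[F] E) x (minpoly F x)
    rw [minpoly.aeval, map_zero] at this
    exact this
  have hmem : ∀ z, z ∈ hfin.toFinset ↔ ∃ g ∈ H, g x = z := fun z => hfin.mem_toFinset
  have hy : ∏ z ∈ hfin.toFinset, z ∈ L H := mem_L.2 fun g hg => by
    rw [map_prod]
    refine Finset.prod_bij (fun z _ => g z) (fun z hz => ?_) (fun _ _ _ _ e => g.injective e)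
      (fun z hz => ?_) fun _ _ => rfl
    · obtain ⟨g', hg', rfl⟩ := (hmem z).1 hz
      exact (hmem _).2 ⟨g * g', H.mul_mem hg hg', rfl⟩
    · obtain ⟨g', hg', rfl⟩ := (hmem z).1 hz
      exact ⟨(g⁻¹ * g') x, (hmem _).2 ⟨_, H.mul_mem (H.inv_mem hg) hg', rfl⟩, by simp⟩
  have h4 : W'.v (∏ z ∈ hfin.toFinset, z) < 1 :=
    tr_prod_lt (f := fun z => z) (fun z hz => by
      obtain ⟨g, -, rfl⟩ := (hmem z).1 hz
      exact tr_int_smul g hxi) ((hmem x).2 ⟨1, H.one_mem, rfl⟩) hx1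
  rw [← h _ hy, map_prod, Finset.prod_eq_one fun z hz => ?_] at h4
  · exact lt_irrefl _ h4
  · obtain ⟨g, hg, rfl⟩ := (hmem z).1 hz
    exact hx2 g hg

theorem prime_eq_iff_same {H : Subgroup Gal(E/F)} (hH : IsOpen (H : Set Gal(E/F)))
    [NumberField (L H)] {W W' : Pl E} : W.prime (L H) = W'.prime (L H) ↔ Same H W W' := by
  refine ⟨fun h => same_of_v_eq (isClosed_of_isOpen hH) fun x hx =>
    v_eq_of_prime_eq _ h ⟨x, hx⟩, fun h => HeightOneSpectrum.ext (Ideal.ext fun x => ?_)⟩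
  rw [Pl.mem_prime, Pl.mem_prime, h.v_eq (x : L H).2]

theorem exists_smul_eq_of_p_eq {Ω : Type*} [Field Ω] [CharZero Ω] [IsGalois ℚ Ω] {V V' : Pl Ω}
    (h : V.p = V'.p) : ∃ g : Gal(Ω/ℚ), g • V = V' := by
  obtain ⟨g, -, hg⟩ : Same (⊤ : Subgroup Gal(Ω/ℚ)) V V' := by
    refine same_of_v_eq (by simp) fun x hx => ?_
    obtain ⟨q, rfl⟩ := mem_L_top.1 hx
    by_cases hq : q = 0
    · simp [hq]
    · rw [eq_ratCast, V.v_ratCast hq, V'.v_ratCast hq, V.vp, V'.vp, h]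
  exact ⟨g, hg⟩

theorem tr_dvd_iff (W : Pl E) (K : IntermediateField F E) [NumberField K] {p : ℕ} (hp : p.Prime) :
    (W.prime K).asIdeal ∣ Ideal.span {(p : 𝓞 K)} ↔ W.p = p := by
  rw [Ideal.dvd_span_singleton, Pl.mem_prime, ← Nat.prime_dvd_prime_iff_eq W.hp hp,
    ← W.v_natCast_lt_one_iff]
  simp

theorem tr_absNorm {K : Type*} [Field K] [NumberField K] {𝔭 : HeightOneSpectrum (𝓞 K)} {p : ℕ}
    (hp : p.Prime) (h : 𝔭.asIdeal ∣ Ideal.span {(p : 𝓞 K)}) :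
    ∃ f : ℕ, 0 < f ∧ f ≤ Module.finrank ℚ K ∧ Ideal.absNorm 𝔭.asIdeal = p ^ f := by
  have h1 := map_dvd Ideal.absNorm h
  rw [Ideal.absNorm_span_natCast, RingOfIntegers.rank] at h1
  obtain ⟨f, hf, e⟩ := (Nat.dvd_prime_pow hp).1 h1
  refine ⟨f, Nat.pos_of_ne_zero ?_, hf, e⟩
  rintro rfl
  exact 𝔭.isPrime.ne_top (Ideal.absNorm_eq_one_iff.1 e)

theorem tr_card {K : Type*} [Field K] [NumberField K] {p : ℕ} (hp : p.Prime)
    (T : Finset (HeightOneSpectrum (𝓞 K))) (h : ∀ 𝔭 ∈ T, 𝔭.asIdeal ∣ Ideal.span {(p : 𝓞 K)}) :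
    T.card ≤ Module.finrank ℚ K := by
  have h1 : ∏ 𝔭 ∈ T, 𝔭.asIdeal ∣ Ideal.span {(p : 𝓞 K)} :=
    Finset.prod_dvd_of_coprime (fun a _ b _ hab => HeightOneSpectrum.isCoprime_of_ne a b hab) h
  have h2 := map_dvd Ideal.absNorm h1
  rw [Ideal.absNorm_span_natCast, RingOfIntegers.rank, map_prod] at h2
  have h3 : ∏ _𝔭 ∈ T, p ∣ ∏ 𝔭 ∈ T, Ideal.absNorm 𝔭.asIdeal :=
    Finset.prod_dvd_prod_of_dvd _ _ fun 𝔭 h𝔭 => by
      obtain ⟨f, hf, -, e⟩ := tr_absNorm hp (h 𝔭 h𝔭)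
      rw [e]; exact dvd_pow_self p hf.ne'
  rw [Finset.prod_const] at h3
  exact (Nat.pow_dvd_pow_iff_le_right hp.one_lt).1 (h3.trans h2)

/-- at most `deg H` orbits above `p` (`Ideal.card_primesOverFinset_le_finrank` or `∑ e f = n`). -/
theorem exists_orbit_reps {H : Subgroup Gal(E/F)} (hH : IsOpen (H : Set Gal(E/F))) (p : ℕ) :
    ∃ s : Finset (Pl E), s.card ≤ deg H ∧ (∀ W ∈ s, W.p = p) ∧
      (∀ W ∈ s, ∀ W' ∈ s, Same H W W' → W = W') ∧ ∀ W : Pl E, W.p = p → W ∈ orbs H s := by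
  by_cases hp : p.Prime
  swap
  · exact ⟨∅, by simp, by simp, by simp, fun W hW => absurd (hW ▸ W.hp) hp⟩
  have := numberField_L hH
  have := isAlgebraic_rat F E
  choose c hc using exists_pl_prime (E := E) (L H)
  have hfin := Ideal.finite_factors (R := 𝓞 (L H)) (I := Ideal.span {(p : 𝓞 (L H))})
    (by simpa using hp.ne_zero)
  refine ⟨hfin.toFinset.image c, Finset.card_image_le.trans ?_, fun W hW => ?_,
    fun W hW W' hW' hs => ?_, fun W hW => ?_⟩
  · rw [← finrank_rat_L hH]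
    exact tr_card hp _ fun 𝔭 h => hfin.mem_toFinset.1 h
  · obtain ⟨𝔭, h, rfl⟩ := Finset.mem_image.1 hW
    rw [← tr_dvd_iff _ (L H) hp, hc]
    exact hfin.mem_toFinset.1 h
  · obtain ⟨𝔭, -, rfl⟩ := Finset.mem_image.1 hW
    obtain ⟨𝔭', -, rfl⟩ := Finset.mem_image.1 hW'
    have e := (prime_eq_iff_same hH).2 hs
    rw [hc, hc] at e
    rw [e]
  · exact ⟨c (W.prime (L H)), Finset.mem_image_of_mem c
      (hfin.mem_toFinset.2 ((tr_dvd_iff W (L H) hp).2 hW)), (prime_eq_iff_same hH).1 (hc _)⟩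

/-- representatives of the orbits above a finite set of primes. -/
theorem exists_orbit_reps_finset {H : Subgroup Gal(E/F)} (hH : IsOpen (H : Set Gal(E/F)))
    (P : Finset ℕ) : ∃ s : Finset (Pl E), s.card ≤ deg H * P.card ∧ (∀ W ∈ s, W.p ∈ P) ∧
      (∀ W ∈ s, ∀ W' ∈ s, Same H W W' → W = W') ∧ ∀ W : Pl E, W.p ∈ P → W ∈ orbs H s := by
  choose s h1 h2 h3 h4 using exists_orbit_reps hH
  refine ⟨P.biUnion s, Finset.card_biUnion_le.trans ?_, fun W hW => ?_, fun W hW W' hW' hs => ?_,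
    fun W hW => ?_⟩
  · rw [mul_comm, ← smul_eq_mul]
    exact Finset.sum_le_card_nsmul _ _ _ fun p _ => h1 p
  · obtain ⟨p, hp, hW⟩ := Finset.mem_biUnion.1 hW
    rwa [h2 p W hW]
  · obtain ⟨p, -, hW⟩ := Finset.mem_biUnion.1 hW
    obtain ⟨p', -, hW'⟩ := Finset.mem_biUnion.1 hW'
    obtain rfl : p = p' := by rw [← h2 p W hW, ← h2 p' W' hW', hs.p_eq]
    exact h3 p W hW W' hW' hs
  · obtain ⟨W', hW', hs⟩ := h4 W.p W rfl
    exact ⟨W', Finset.mem_biUnion.2 ⟨W.p, hW, hW'⟩, hs⟩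

/-- representatives of the orbits in an `H`-stable set of places above finitely many primes. -/
theorem exists_orbit_reps_set {H : Subgroup Gal(E/F)} (hH : IsOpen (H : Set Gal(E/F)))
    (S : Set (Pl E)) (hS : ∀ W ∈ S, ∀ W', Same H W W' → W' ∈ S) (P : Finset ℕ)
    (hP : ∀ W ∈ S, W.p ∈ P) : ∃ s : Finset (Pl E),
      (∀ W ∈ s, ∀ W' ∈ s, Same H W W' → W = W') ∧ orbs H s = S := by
  obtain ⟨s, -, -, h3, h4⟩ := exists_orbit_reps_finset hH P
  refine ⟨s.filter (· ∈ S), fun W hW W' hW' =>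
    h3 W (Finset.mem_filter.1 hW).1 W' (Finset.mem_filter.1 hW').1, Set.ext fun W => ⟨?_, ?_⟩⟩
  · rintro ⟨W', hW', hs⟩
    exact hS W' (Finset.mem_filter.1 hW').2 W hs
  · intro hW
    obtain ⟨W', hW', hs⟩ := h4 W (hP W hW)
    exact ⟨W', Finset.mem_filter.2 ⟨hW', hS W hW W' hs.symm⟩, hs⟩

/-- absolute ramification index. -/
theorem exists_unif_pow_eq {H : Subgroup Gal(E/F)} (hH : IsOpen (H : Set Gal(E/F))) (W : Pl E) :
    ∃ e : ℕ, 0 < e ∧ e ≤ deg H ∧ (unif H W : ℝ≥0) ^ e = W.v (W.p : E) := by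
  have := numberField_L hH
  have hp0 : ((W.p : ℕ) : 𝓞 (L H)) ≠ 0 := by exact_mod_cast W.hp.ne_zero
  have hp1 : (((W.p : ℕ) : 𝓞 (L H)) : L H) ≠ 0 := by exact_mod_cast W.hp.ne_zero
  obtain ⟨e, he⟩ : ∃ e : ℕ, (W.prime (L H)).intValuation ((W.p : ℕ) : 𝓞 (L H)) =
      WithZero.exp (-(e : ℤ)) := ⟨_, (W.prime (L H)).intValuation_if_neg hp0⟩
  have h1 := v_eq_unif_zpow hH W hp1
  rw [HeightOneSpectrum.valuation_of_algebraMap, he, WithZero.log_exp, neg_neg, zpow_natCast] at h1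
  have h2 : (unif H W : ℝ≥0) ^ e = W.v (W.p : E) := by
    rw [← h1]; simp
  refine ⟨e, Nat.pos_of_ne_zero ?_, ?_, h2⟩
  · rintro rfl
    have := W.v_p_lt_one
    rw [← h2, pow_zero] at this
    exact lt_irrefl _ this
  · have h3 := map_dvd Ideal.absNorm
      (((W.prime (L H)).intValuation_le_pow_iff_dvd _ e).1 he.le)
    obtain ⟨f, hf, -, h4⟩ := tr_absNorm W.hp ((tr_dvd_iff W (L H) W.hp).2 rfl)
    rw [Ideal.absNorm_span_natCast, RingOfIntegers.rank, finrank_rat_L hH, map_pow, h4, ← pow_mul,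
      Nat.pow_dvd_pow_iff_le_right W.hp.one_lt] at h3
    exact (Nat.le_mul_of_pos_left e hf).trans h3

/-- absolute residue degree. -/
theorem exists_resCard_eq_pow {H : Subgroup Gal(E/F)} (hH : IsOpen (H : Set Gal(E/F))) (W : Pl E) :
    ∃ f : ℕ, 0 < f ∧ f ≤ deg H ∧ resCard H W = W.p ^ f := by
  have := numberField_L hH
  rw [resCard_eq_absNorm, ← finrank_rat_L hH]
  exact tr_absNorm W.hp ((tr_dvd_iff W (L H) W.hp).2 rfl)

theorem resCard_top_rat {Ω : Type*} [Field Ω] [CharZero Ω] [IsGalois ℚ Ω] (V : Pl Ω) :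
    resCard (⊤ : Subgroup Gal(Ω/ℚ)) V = V.p := by
  obtain ⟨f, h1, h2, h3⟩ := exists_resCard_eq_pow (H := (⊤ : Subgroup Gal(Ω/ℚ))) (by simp) V
  rw [deg_rat, Subgroup.index_top] at h2
  rw [h3, le_antisymm h2 h1, pow_one]

theorem unif_top_rat {Ω : Type*} [Field Ω] [CharZero Ω] [IsGalois ℚ Ω] (V : Pl Ω) :
    (unif (⊤ : Subgroup Gal(Ω/ℚ)) V : ℝ≥0) = V.v (V.p : Ω) := by
  obtain ⟨e, h1, h2, h3⟩ := exists_unif_pow_eq (H := (⊤ : Subgroup Gal(Ω/ℚ))) (by simp) V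
  rw [deg_rat, Subgroup.index_top] at h2
  rw [← h3, le_antisymm h2 h1, pow_one]

end Crest.Agent.R018
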