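import Crest.Agent.R018.Core
import Crest.Agent.R018.GC
import Crest.Agent.R018.N2
import Crest.Agent.R018.Trans

/-!
# R018 / Fib

(Fib) Take a good pair `(U, H)`, `n = (2 H.index)!`, `B` from `core n`.  Given `W` and `s` with `card > B`: `Y = Pw (LU U) 2 ⊔ rayU U ((2 p)^3)` has finite index
(`pw_sup_rayU_relIndex`) and for `y ∈ Y`, `Dec W ⊓ U` fixes `rt 2 y` (`hensel`); `neumann` gives a generic `y ∈ Y`.  `Uε = U ⊓ stab (rt 2 y)`,
`H' = (H ⊓ pre Uε).normalCore` (`index_normalCore_le`, `relIndex_pre_le`), `l` an odd split prime outside `{W.p} ∪ {V.p}` (`exists_split`), `ε = sg ℤ_[l] y`,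
`a` from `exists_eigen_zhom` with `x0 = frob Uε W`, `zhom_dec_eq_zero`; `core` with `η = 1`, `μ = 0` is absurd.
`pbad`: at most `deg (img ⊤)` orbits of `W ∣ l` under `img ⊤` (`exists_orbit_reps`), `rel_smul`; `B' = deg · B`.
-/

set_option autoImplicit false
set_option linter.unusedSectionVars false

noncomputable section

namespace Crest.Agent.R018

open scoped NNReal Classical

variable {Ω F E : Type*} [Field Ω] [CharZero Ω] [IsAlgClosed Ω] [IsGalois ℚ Ω]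
  [Field F] [NumberField F] [Field E] [CharZero E] [Algebra F E] [IsGalois F E] [RadCl E]

theorem fib_fix {U : Subgroup Gal(E/F)} (W : Pl E) {y : Eˣ}
    (hy : y ∈ Pw (LU U) 2 ⊔ rayU U (((2 * W.p) ^ 3 : ℕ) : E)) {g : Gal(E/F)} (hg : g ∈ Dec F W)
    (hgU : g ∈ U) : g (rt 2 (y : E)) = rt 2 (y : E) := by
  obtain ⟨_, ⟨x, hx, rfl⟩, z, hz, rfl⟩ := Subgroup.mem_sup.1 hy
  have h1 : W.v (((2 * W.p) ^ 3 : ℕ) : E) < 1 :=
    W.v_natCast_lt_one_iff.2 (Dvd.dvd.pow (dvd_mul_left _ _) (by norm_num))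
  have h2 : W.v ((z : E) - 1) < W.v ((2 : ℕ) : E) ^ 2 := by
    refine (hz.2 W h1).trans_lt ?_
    have h20 : 0 < W.v ((2 : ℕ) : E) := (Valuation.pos_iff _).2 (by norm_num)
    have h21 := W.v_natCast_le_one 2
    have hp := W.v_p_lt_one
    have e : W.v (((2 * W.p) ^ 3 : ℕ) : E) =
        W.v ((2 : ℕ) : E) ^ 2 * (W.v ((2 : ℕ) : E) * W.v (W.p : E) ^ 3) := by
      rw [Nat.cast_pow, Nat.cast_mul, map_pow, map_mul]; ring
    rw [e]
    refine mul_lt_of_lt_one_right (pow_pos h20 2) ?_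
    exact mul_lt_one_of_nonneg_of_lt_one_right h21 (by simp) (pow_lt_one₀ (by simp) hp (by norm_num))
  obtain ⟨w, hw, hfix⟩ := hensel (F := F) W two_ne_zero h2
  have h3 : ((x : E) * w) ^ 2 = rt 2 (((powMonoidHom 2 x * z : Eˣ)) : E) ^ 2 := by
    rw [rt_pow two_ne_zero, mul_pow, hw]; simp
  refine (fix_root_iff two_ne_zero h3 (mem_FixMu_two g)).1 ?_
  rw [map_mul, mem_L.1 hx g hgU, hfix g hg (mem_L.1 hz.1 g hgU)]

theorem fib_sg_eq_one {l : ℕ} [Fact l.Prime] (y : E) (g : Gal(E/F)) :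
    sg ℤ_[l] y g = 1 ↔ g (rt 2 y) = rt 2 y := by
  unfold sg
  split_ifs with h
  · simp [h]
  · simp only [h, iff_false]; norm_num

theorem fib_sg_eq {l : ℕ} [Fact l.Prime] {y : E} {g g' : Gal(E/F)}
    (h : sg ℤ_[l] y g = sg ℤ_[l] y g') : g (rt 2 y) = rt 2 y ↔ g' (rt 2 y) = rt 2 y := by
  rw [← fib_sg_eq_one (l := l), ← fib_sg_eq_one (l := l), h]

namespace Setup
variable (S : Setup Ω F E)

theorem fib (hS : S.Maxl) : ∃ B : ℕ, ∀ W : Pl E, ∃ P : Finset ℕ, P.card ≤ B ∧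
    ∀ V : Pl Ω, S.Rel V W → V.p ∈ P := by
  obtain ⟨U, -, hU⟩ := S.exists_good_pair hS (U0 := ⊤) isOpen_univ
  obtain ⟨H, -, hG⟩ := hU ⊤ isOpen_univ
  obtain ⟨B, hB⟩ := S.core (2 * H.index).factorial
  refine ⟨B, fun W => exists_finset_of_card_le (fun V => S.Rel V W) Pl.p B fun s hs hinj => ?_⟩
  by_contra hcard
  have hπ0 : (((2 * W.p) ^ 3 : ℕ) : E) ≠ 0 :=
    Nat.cast_ne_zero.2 (pow_ne_zero _ (mul_ne_zero two_ne_zero W.hp.ne_zero))
  have hY := pw_sup_rayU_relIndex hG.openU (natCast_mem (L U) ((2 * W.p) ^ 3)) hπ0 two_ne_zero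
  have hYle : Pw (LU U) 2 ⊔ rayU U (((2 * W.p) ^ 3 : ℕ) : E) ≤ LU U := by
    refine sup_le ?_ fun x hx => hx.1
    rintro _ ⟨x, hx, rfl⟩
    exact (LU U).pow_mem hx 2
  obtain ⟨s0, hs0, hcov⟩ := hG.cover
  obtain ⟨y, hy, hyZ⟩ : ∃ y ∈ Pw (LU U) 2 ⊔ rayU U (((2 * W.p) ^ 3 : ℕ) : E), ∀ Z ∈ s0, y ∉ Z := by
    by_contra hcon
    push Not at hcon
    obtain ⟨Z, hZ, hZ'⟩ := neumann _ s0 (fun _ => 1) id fun y hy => by simpa using hcon y hy
    exact Subgroup.relIndex_ne_zero_trans hZ' hY (hs0 Z hZ)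
  have hyU : y ∈ LU U := hYle hy
  obtain ⟨⟨δ, hδ, hδ'⟩, hgen⟩ := hcov y hyU hyZ
  have hcyc := cycExt_stab hG.openU Nat.prime_two (fun g _ => mem_FixMu_two g)
    (ρ := rt 2 (y : E)) (by rw [rt_pow two_ne_zero]; exact hyU) hδ hδ'
  obtain ⟨Uε, hUε⟩ : ∃ Uε, Uε = U ⊓ stab F (rt 2 (y : E)) := ⟨_, rfl⟩
  rw [← hUε] at hcyc
  have hH1 : IsOpen ((H ⊓ S.pre Uε : Subgroup Gal(Ω/ℚ)) : Set Gal(Ω/ℚ)) :=
    isOpen_inf hG.openH (S.isOpen_pre hcyc.isOpen)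
  have hH' := isOpen_normalCore hH1
  have hidx : (H ⊓ S.pre Uε).normalCore.index ≤ (2 * H.index).factorial := by
    refine (index_normalCore_le hH1).trans (Nat.factorial_le ?_)
    rw [← Subgroup.relIndex_mul_index (inf_le_left : H ⊓ S.pre Uε ≤ H), Subgroup.inf_relIndex_left]
    refine Nat.mul_le_mul_right _ ?_
    rw [← hcyc.idx]
    exact S.relIndex_pre_le H hG.le (by rw [hcyc.idx]; exact two_ne_zero)
  obtain ⟨l, hl, hlB, hsplit⟩ := exists_split hH' (insert 2 (insert W.p (s.image Pl.p)))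
  have : Fact l.Prime := ⟨hl⟩
  simp only [Finset.mem_insert, Finset.mem_image, not_or, not_exists, not_and] at hlB
  obtain ⟨hl2, hlW, hls⟩ := hlB
  have hε : MHom U (sg ℤ_[l] (y : E) : Gal(E/F) → ℤ_[l]) :=
    ⟨(fib_sg_eq_one _ _).2 rfl, fun g hg h hh =>
      sg_mul_right _ y.ne_zero (mem_L.1 hyU g hg) (mem_L.1 hyU h hh)⟩
  have hker : ∀ x, x ∈ Uε ↔ x ∈ U ∧ sg ℤ_[l] (y : E) x = 1 := fun x => by
    rw [hUε, fib_sg_eq_one, Subgroup.mem_inf, mem_stab]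
  have hpow : ∀ u ∈ U, sg ℤ_[l] (y : E) u ^ (l - 1) = 1 := fun u _ => by
    have he : Even (l - 1) := (hl.even_sub_one hl2)
    unfold sg
    split_ifs
    · exact one_pow _
    · exact he.neg_one_pow
  obtain ⟨a, ha, hconj, ha0, hne⟩ := exists_eigen_zhom hcyc.isOpen hG.hasIU hG.degU hl2 hε hpow hker
    hδ (fun h => hδ' ((fib_sg_eq_one _ _).1 h)) (frob_spec hcyc.isOpen W).1
  have hdec := zhom_dec_eq_zero hcyc.isOpen (Ne.symm hlW) (ha.mono inf_le_right)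
    (frob_spec hcyc.isOpen W) ha0
  have hle1 : (H ⊓ S.pre Uε).normalCore ≤ H := (Subgroup.normalCore_le _).trans inf_le_left
  have hle2 : (H ⊓ S.pre Uε).normalCore ≤ S.pre Uε := (Subgroup.normalCore_le _).trans inf_le_right
  obtain ⟨t, -, h, -, hh⟩ := hB U Uε H (H ⊓ S.pre Uε).normalCore l (sg ℤ_[l] (y : E)) a
    (fun _ => 1) (fun _ => 0) s hl2 hG.normalH hG.le inferInstance hH' hle1 hle2
    (hle1.trans hG.hasIH) hidx hsplit hε hker ha hconj hne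
    (fun t ht => hgen t fun h hh => fib_sg_eq (ht h hh))
    ⟨rfl, fun _ _ _ _ => (one_mul _).symm⟩
    ⟨fun _ _ _ _ => (add_zero _).symm, fun k => ⟨⊤, isOpen_univ, fun _ _ _ => map_zero _⟩⟩
    (fun _ _ _ _ => (mul_zero _).symm) (not_le.1 hcard).le hinj hls
    (fun V hV d hd hd' => hdec _ (hs V hV d hd (hle2 hd').1) (hle2 hd').2)
    (fun V hV t ht ht' => (fib_sg_eq_one _ _).2 (fib_fix W hy (hs V hV t ht ht'.1) ht'.2))
  exact hh rfl

theorem pbad (hS : S.Maxl) : ∃ B : ℕ, ∀ l : ℕ, ∃ P : Finset ℕ, P.card ≤ B ∧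
    ∀ (V : Pl Ω) (W : Pl E), S.Rel V W → W.p = l → V.p ∈ P := by
  obtain ⟨B, hB⟩ := S.fib hS
  choose P hP hP' using hB
  refine ⟨deg (S.img ⊤) * B, fun l => ?_⟩
  obtain ⟨s, hs, -, -, hs'⟩ := exists_orbit_reps (S.isOpen_img (H := ⊤) isOpen_univ) l
  refine ⟨s.biUnion P, Finset.card_biUnion_le.trans ?_, fun V W hVW hW => ?_⟩
  · refine (Finset.sum_le_card_nsmul _ _ B fun W _ => hP W).trans ?_
    exact Nat.mul_le_mul_right _ hs
  · obtain ⟨W', hW', _, ⟨g, -, hg, rfl⟩, rfl⟩ := hs' W hW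
    refine Finset.mem_biUnion.2 ⟨W', hW', hP' W' (g⁻¹ • V) ((S.rel_smul hg).1 ?_)⟩
    rwa [smul_inv_smul]

end Setup

end Crest.Agent.R018
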