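import Crest.Agent.R018.StepG1
import Crest.Agent.R018.Ext

/-!
# R018 / StepG2

`stepG2`: take a good pair `(U, H)` with `U ≤ U0`, `H ≤` the group of `exists_normal_le_fixI Ω U`.  For `ι` in the finite set of `exists_finset_emb Ω U`,
`Y_ι = {y ∈ LU U | ∀ h ∈ H, α h fixes rt 2 y ↔ h fixes ι (rt 2 y)}` is a subgroup (signs are multiplicative; the condition depends only on `ι y`).  `stepG1` + `Good.cover` + `neumann`:
some `Y_ι` has finite index.  For `g ∈ G0` and `y ∈ Y_ι` with `(α g)⁻¹ y ∈ Y_ι` (finite index, `U` normal): `h` fixes `g⁻¹ ι ρ` iff `g h g⁻¹` fixes `ι ρ` iff `α (g h g⁻¹)` fixes `ρ` iff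
`α h` fixes `(α g)⁻¹ ρ` iff `h` fixes `ι ((α g)⁻¹ ρ)`; so the ratio is in `L H` and `embed_eq_of_sq` gives `g⁻¹ ∘ ι = ι ∘ (α g)⁻¹` on `L U ≥ L U0`; apply to `g⁻¹`.
`exists_j`: `exists_maxl`; fix `ι0`; `C N = {s | ∀ g ∈ G0, ∀ x ∈ L N, g (s (ι0 x)) = s (ι0 (α g x))}` closed, nonempty (`exists_aut_of_emb`), monotone; `exists_forall_normal`;
every `x` lies in `L (stab x).normalCore`.
-/

set_option autoImplicit false
set_option linter.unusedSectionVars false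

noncomputable section

namespace Crest.Agent.R018

open scoped NNReal Classical

variable {Ω F E : Type*} [Field Ω] [CharZero Ω] [IsAlgClosed Ω] [IsGalois ℚ Ω]
  [Field F] [NumberField F] [Field E] [CharZero E] [Algebra F E] [IsGalois F E] [RadCl E]

namespace Setup
variable (S : Setup Ω F E)

/-- the elements on which `ι` intertwines `α` and the action of `H`. -/
def g2Z (H : Subgroup Gal(Ω/ℚ)) (ι : E →+* Ω) : Subgroup Eˣ where
  carrier := {ρ | ∀ h ∈ H, ι (S.α h (ρ : E)) = h (ι ρ)}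
  one_mem' := fun h _ => by simp
  mul_mem' := fun {a b} ha hb h hh => by simp [ha h hh, hb h hh]
  inv_mem' := fun {a} ha h hh => by simp [ha h hh]

theorem g2_pm {K K' : Type*} [Field K] [Field K'] [Algebra K K'] {g : K' ≃ₐ[K] K'} {ρ : K'}
    (h : g (ρ ^ 2) = ρ ^ 2) : g ρ = ρ ∨ g ρ = -ρ :=
  sq_eq_sq_iff_eq_or_eq_neg.1 (by rw [← _root_.map_pow, h])

theorem g2_index (hS : S.Maxl) {U : Subgroup Gal(E/F)} {H : Subgroup Gal(Ω/ℚ)} (hG : S.Good U H)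
    (hfix : ∀ ι : E →+* Ω, H ≤ fixI ι U) :
    ∃ ι : E →+* Ω, ((S.g2Z H ι).map (powMonoidHom 2)).relIndex (LU U) ≠ 0 := by
  obtain ⟨t, ht⟩ := exists_finset_emb Ω hG.openU
  obtain ⟨s, hs0, hs⟩ := hG.cover
  obtain ⟨Z, hZ, hZ'⟩ := neumann (LU U) (s ∪ t.image fun ι => (S.g2Z H ι).map (powMonoidHom 2))
    (fun _ => 1) id fun y hy => by
      by_cases h : ∃ Z ∈ s, y ∈ Z
      · obtain ⟨Z, h1, h2⟩ := h
        exact ⟨Z, Finset.mem_union_left _ h1, by simpa using h2⟩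
      obtain ⟨ι, hι⟩ := S.stepG1 hS hG hfix y.ne_zero hy (hs y hy fun Z h1 h2 => h ⟨Z, h1, h2⟩)
      obtain ⟨ι', h1, h2⟩ := ht ι
      have hρ : rt 2 (y : E) ^ 2 = y := rt_pow two_ne_zero _
      refine ⟨_, Finset.mem_union_right _ (Finset.mem_image_of_mem _ h1),
        Units.mk0 _ (rt_ne_zero two_ne_zero y.ne_zero), fun g hg => ?_, Units.ext (by simpa using hρ)⟩
      have h3 : g (ι (rt 2 (y : E))) = ι (rt 2 (y : E)) ↔ g (ι' (rt 2 (y : E))) = ι' (rt 2 (y : E)) := by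
        have : ι (rt 2 (y : E)) ^ 2 = ι' (rt 2 (y : E)) ^ 2 := by rw [← _root_.map_pow, ← _root_.map_pow, hρ, h2 _ hy]
        rcases sq_eq_sq_iff_eq_or_eq_neg.1 this with e | e <;> simp [e]
      have h4 := (hι g hg).trans h3
      rw [Units.val_mk0]
      by_cases e : S.α g (rt 2 (y : E)) = rt 2 (y : E)
      · rw [e, h4.1 e]
      · rw [(g2_pm (hρ.symm ▸ mem_L.1 hy _ (hG.le hg).2)).resolve_left e, map_neg,
          (g2_pm (by rw [← _root_.map_pow, hρ]; exact hfix ι' hg _ hy)).resolve_left (mt h4.2 e)]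
  rcases Finset.mem_union.1 hZ with h | h
  · exact absurd (hs0 Z h) hZ'
  · obtain ⟨ι, -, rfl⟩ := Finset.mem_image.1 h
    exact ⟨ι, hZ'⟩

theorem stepG2 (hS : S.Maxl) {U0 : Subgroup Gal(E/F)} (hU0 : IsOpen (U0 : Set Gal(E/F))) :
    ∃ ι : E →+* Ω, ∀ g ∈ S.G0, ∀ x ∈ L U0, g (ι x) = ι (S.α g x) := by
  obtain ⟨U, hU, hH⟩ := S.exists_good_pair hS hU0
  have hUo : IsOpen (U : Set Gal(E/F)) := (hH ⊤ isOpen_univ).choose_spec.2.openU
  obtain ⟨H0, -, hH0, hfix⟩ := exists_normal_le_fixI Ω hUo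
  obtain ⟨H, hle, hG⟩ := hH H0 hH0
  obtain ⟨ι, hι⟩ := S.g2_index hS hG fun ι => hle.trans (hfix ι)
  refine ⟨ι, fun g hg x hx => ?_⟩
  set Y := (S.g2Z H ι).map (powMonoidHom 2)
  let φ : Eˣ →* Eˣ := Units.map (S.α g : E →* E)
  have h1 : (Y.comap φ).relIndex (LU U) ≠ 0 := by
    rw [Subgroup.relIndex_comap]
    refine fun h => hι (Subgroup.relIndex_eq_zero_of_le_right ?_ h)
    rintro _ ⟨y, hy, rfl⟩
    refine mem_L.2 fun u hu => ?_
    have := mem_L.1 hy _ (hG.normalU.conj_mem' u hu (S.α g))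
    exact (S.α g).symm.injective (by simpa [φ] using this)
  refine embed_eq_of_sq (F := ℚ) hUo hG.openH ((g : Ω →+* Ω).comp ι) (ι.comp (S.α g : E →+* E))
    (Y ⊓ Y.comap φ) (Subgroup.relIndex_inf_ne_zero hι h1) ?_ x (L_anti hU hx)
  rintro _ ⟨⟨ρ, hρ, rfl⟩, ρ', hρ', e⟩ hy
  have e' : (ρ' : E) ^ 2 = S.α g ρ ^ 2 := by simpa [φ] using congrArg Units.val e
  have h2 : ∀ h ∈ H, ι (S.α h (S.α g ρ)) = h (ι (S.α g ρ)) := fun h hh => by
    have := hρ' h hh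
    rcases sq_eq_sq_iff_eq_or_eq_neg.1 e' with e | e <;> simpa [e] using this
  have h0 : ι (S.α g ρ) ≠ 0 := by simp
  refine ⟨g (ι ρ) / ι (S.α g ρ), mem_L.2 fun h hh => ?_, by simp [div_pow, h0]⟩
  have hh' : g⁻¹ * h * g ∈ H := hG.normalH.conj_mem' h hh g
  have h3 : h (g (ι ρ)) = g (ι (S.α (g⁻¹ * h * g) ρ)) := by rw [hρ _ hh']; simp
  have h4 : S.α h (S.α g ρ) = S.α g (S.α (g⁻¹ * h * g) ρ) := by
    rw [← AlgEquiv.mul_apply, ← AlgEquiv.mul_apply, ← S.mul _ (hG.le hh).1 _ hg, ← S.mul _ hg _ (hG.le hh').1]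
    congr 2
    group
  rw [map_div₀, ← h2 h hh, h3, h4]
  rcases g2_pm (ρ := (ρ : E)) (mem_L.1 hy _ (hG.le hh').2) with e | e <;> simp [e]

theorem exists_j : ∃ j : E →+* Ω, ∀ g ∈ S.G0, ∀ x : E, g (j x) = j (S.α g x) := by
  obtain ⟨S', hle, hα, hS'⟩ := S.exists_maxl
  obtain ⟨ι0⟩ := exists_emb (Ω := Ω) (F := F) (E := E)
  obtain ⟨s, hs⟩ := exists_forall_normal (F := F) (E := E)
    (fun N => {s : Gal(Ω/ℚ) | ∀ g ∈ S'.G0, ∀ x ∈ L N, g (s (ι0 x)) = s (ι0 (S'.α g x))})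
    (fun N _ _ => by
      simp only [Set.ofPred_forall]
      refine isClosed_iInter fun g => isClosed_iInter fun _ => isClosed_iInter fun x =>
        isClosed_iInter fun _ => ?_
      have : {s : Gal(Ω/ℚ) | g (s (ι0 x)) = s (ι0 (S'.α g x))} =
          ⋂ c, {s | ¬ s (ι0 x) = c} ∪ {s | g c = s (ι0 (S'.α g x))} := by
        ext s
        simp [← imp_iff_not_or]
      rw [this]
      exact isClosed_iInter fun c => (top_isClosed _ fun y => ¬ y = c).union (top_isClosed _ fun y => g c = y))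
    (fun N _ hN => by
      obtain ⟨ι, hι⟩ := S'.stepG2 hS' hN
      obtain ⟨s, hs⟩ := exists_aut_of_emb F ι0 ι
      exact ⟨s, fun g hg x hx => by rw [← hs, ← hs, hι g hg x hx]⟩)
    fun N N' h s hs g hg x hx => hs g hg x (L_anti h hx)
  refine ⟨(s : Ω →+* Ω).comp ι0, fun g hg x => ?_⟩
  rw [← hα g hg]
  exact hs (stab F x).normalCore inferInstance (isOpen_normalCore (isOpen_stab x)) g (hle hg) x
    (mem_L.2 fun u hu => (stab F x).normalCore_le hu)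

end Setup

end Crest.Agent.R018
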