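import Crest.Prelude.Def_SolvClosed
import Crest.Agent.R018.StepG2

/-!
# R018 / Final

`radCl_of`: `X^n - 1` has commutative Galois group (cf. the proof of `gal_X_pow_sub_one_isSolvable`), so it splits and (char 0, separable) a primitive root exists; then `X^n - a` has
commutative Galois group (cf. `gal_X_pow_sub_C_isSolvable_aux`), so it splits.
`uchida`: `Ω = AlgebraicClosure E₁` (`IsGalois ℚ Ω`: algebraic over `ℚ` and algebraically closed), `ι₁ = algebraMap E₁ Ω`, `S1` from `exists_setup_pb ι₁` for `(F₁, E₁)`;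
`S.G0 = fixI ι₁ ⊤`, `S.α g = α (pb F₁ ι₁ g)` (preimage of an open subgroup: `U.comap α` is open, `S1.pre_open`; image `= range α` by `exists_pb_eq`).  `exists_j` gives `j : E₂ → Ω`;
`j x` is fixed by `fixI ι₁ ⊥`-elements (`pb = 1`), i.e. by `Gal(Ω/E₁)`, so `j x ∈ ι₁ E₁` (`InfiniteGalois.mem_range_algebraMap_iff_fixed` for `Ω / E₁`, `AlgEquiv.restrictScalars`).
-/

set_option autoImplicit false
set_option linter.unusedSectionVars false

noncomputable section

namespace Crest.Agent.R018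

open scoped NNReal Classical


open Polynomial in
theorem fin_comm_one (E : Type*) [Field E] {n : ℕ} (hn : n ≠ 0) (σ τ : (X ^ n - 1 : E[X]).Gal) :
    σ * τ = τ * σ := by
  have hn' : 0 < n := pos_iff_ne_zero.mpr hn
  have hn'' : (X ^ n - 1 : E[X]) ≠ 0 := X_pow_sub_C_ne_zero hn' 1
  ext a ha
  simp only [mem_rootSet_of_ne hn'', map_sub, aeval_X_pow, aeval_one, sub_eq_zero] at ha
  have key : ∀ σ : (X ^ n - 1 : E[X]).Gal, ∃ m : ℕ, σ a = a ^ m := by
    intro σ
    lift n to ℕ+ using hn'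
    exact map_rootsOfUnity_eq_pow_self σ.toAlgHom (rootsOfUnity.mkOfPowEq a ha)
  obtain ⟨c, hc⟩ := key σ
  obtain ⟨d, hd⟩ := key τ
  change σ (τ a) = τ (σ a)
  rw [hc, map_pow, hd, map_pow, hc, ← pow_mul, pow_mul']

open Polynomial in
theorem fin_prim (E : Type*) [Field E] [CharZero E] (h : Crest.NumberTheoryR.IsSolvablyClosed E)
    {n : ℕ} (hn : n ≠ 0) : ∃ z : E, IsPrimitiveRoot z n := by
  have hs : (X ^ n - 1 : E[X]).Splits := h _ (fin_comm_one E hn)
  have hn' : 0 < n := pos_iff_ne_zero.mpr hn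
  have hd : cyclotomic n E ∣ (X ^ n - 1 : E[X]) := cyclotomic.dvd_X_pow_sub_one n E
  have hn'' : (X ^ n - 1 : E[X]) ≠ 0 := X_pow_sub_C_ne_zero hn' 1
  have hs' : (cyclotomic n E).Splits := hs.of_dvd hn'' hd
  have hdeg : (cyclotomic n E).degree ≠ 0 := by
    rw [degree_cyclotomic]
    exact_mod_cast (Nat.totient_pos.2 hn').ne'
  obtain ⟨z, hz⟩ := hs'.exists_eval_eq_zero hdeg
  have : NeZero (n : E) := ⟨by exact_mod_cast hn⟩
  exact ⟨z, isRoot_cyclotomic_iff.1 hz⟩

open Polynomial in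
theorem fin_comm_C (E : Type*) [Field E] {n : ℕ} (hn : n ≠ 0) {z : E} (hz : IsPrimitiveRoot z n)
    {a : E} (ha : a ≠ 0) (σ τ : (X ^ n - C a : E[X]).Gal) : σ * τ = τ * σ := by
  have hn' : 0 < n := pos_iff_ne_zero.mpr hn
  have hn'' : (X ^ n - C a : E[X]) ≠ 0 := X_pow_sub_C_ne_zero hn' a
  have : NeZero n := ⟨hn⟩
  have hz' : IsPrimitiveRoot (algebraMap E (X ^ n - C a : E[X]).SplittingField z) n :=
    hz.map_of_injective (algebraMap E _).injective
  ext b hb
  simp only [mem_rootSet_of_ne hn'', map_sub, aeval_X_pow, aeval_C, sub_eq_zero] at hb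
  have hb0 : b ≠ 0 := by
    intro h0
    rw [h0, zero_pow hn] at hb
    exact ha ((algebraMap E _).injective (by rw [← hb, map_zero]))
  have key : ∀ σ : (X ^ n - C a : E[X]).Gal, ∃ c : E, σ b = b * algebraMap E _ c := by
    intro σ
    have h1 : (σ b / b) ^ n = 1 := by
      rw [div_pow, ← map_pow, hb, AlgHomClass.commutes, div_self]
      exact (_root_.map_ne_zero _).2 ha
    obtain ⟨i, -, hi⟩ := hz'.eq_pow_of_pow_eq_one h1
    refine ⟨z ^ i, ?_⟩
    rw [map_pow, hi]; field_simp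
  obtain ⟨c, hc⟩ := key σ
  obtain ⟨d, hd⟩ := key τ
  change σ (τ b) = τ (σ b)
  rw [hc, map_mul, AlgHomClass.commutes, hd, map_mul,
    AlgHomClass.commutes, hc]
  ring

open Polynomial in
theorem radCl_of (E : Type*) [Field E] [CharZero E] (h : Crest.NumberTheoryR.IsSolvablyClosed E) :
    RadCl E := by
  refine ⟨fun n hn x => ?_, fun n hn => fin_prim E h hn⟩
  by_cases hx : x = 0
  · exact ⟨0, by rw [hx, zero_pow hn]⟩
  obtain ⟨z, hz⟩ := fin_prim E h hn
  have hs : (X ^ n - C x : E[X]).Splits := h _ (fin_comm_C E hn hz hx)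
  have hdeg : (X ^ n - C x : E[X]).degree ≠ 0 := by
    rw [degree_X_pow_sub_C (pos_iff_ne_zero.mpr hn)]
    exact_mod_cast hn
  obtain ⟨y, hy⟩ := hs.exists_eval_eq_zero hdeg
  exact ⟨y, by simpa [sub_eq_zero] using hy⟩

theorem uchida (F₁ F₂ E₁ E₂ : Type*) [Field F₁] [NumberField F₁] [Field F₂] [NumberField F₂]
    [Field E₁] [Algebra F₁ E₁] [IsGalois F₁ E₁] [Field E₂] [Algebra F₂ E₂] [IsGalois F₂ E₂]
    (h₂ : Crest.NumberTheoryR.IsSolvablyClosed E₂)
    (α : (E₁ ≃ₐ[F₁] E₁) →* (E₂ ≃ₐ[F₂] E₂)) (hα : Continuous α) (hopen : IsOpen (Set.range α)) :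
    ∃ j : E₂ →+* E₁, ∀ g : E₁ ≃ₐ[F₁] E₁, ∀ x : E₂, g (j x) = j (α g x) := by
  have : CharZero E₁ := charZero_of_injective_algebraMap (algebraMap F₁ E₁).injective
  have : CharZero E₂ := charZero_of_injective_algebraMap (algebraMap F₂ E₂).injective
  have : RadCl E₂ := radCl_of E₂ h₂
  let Ω := AlgebraicClosure E₁
  have : CharZero Ω := charZero_of_injective_algebraMap (algebraMap E₁ Ω).injective
  have h1 : Algebra.IsAlgebraic ℚ E₁ := isAlgebraic_rat F₁ E₁
  have h2 : Algebra.IsAlgebraic ℚ Ω := Algebra.IsAlgebraic.trans ℚ E₁ Ω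
  have : IsAlgClosure ℚ Ω := ⟨inferInstance, h2⟩
  have : IsGalois ℚ Ω := IsAlgClosure.isGalois ℚ Ω
  let ι : E₁ →+* Ω := algebraMap E₁ Ω
  obtain ⟨S1, hS1, hS1'⟩ := exists_setup_pb (F := F₁) ι
  let S : Setup Ω F₂ E₂ :=
    { G0 := S1.G0
      open0 := S1.open0
      α := fun g => α (S1.α g)
      mul := fun g hg h hh => by rw [S1.mul g hg h hh, map_mul]
      pre_open := fun U hU => S1.pre_open (U.comap α) (hU.preimage hα)
      img_open := by
        convert hopen using 1
        ext u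
        constructor
        · rintro ⟨g, -, rfl⟩; exact ⟨_, rfl⟩
        · rintro ⟨γ, rfl⟩
          obtain ⟨g, hg, hg'⟩ := exists_pb_eq (F := F₁) ι γ
          exact ⟨g, by rw [hS1]; exact hg, by simp only [hS1', hg']⟩ }
  obtain ⟨j, hj⟩ := S.exists_j
  have hmem : ∀ x, ∃ y : E₁, ι y = j x := by
    intro x
    refine (InfiniteGalois.mem_range_algebraMap_iff_fixed (k := E₁) (K := Ω) (j x)).2 fun f => ?_
    let g : Ω ≃ₐ[ℚ] Ω := f.restrictScalars ℚ
    have hg : g ∈ fixI ι (⊤ : Subgroup (E₁ ≃ₐ[F₁] E₁)) := fun y _ => f.commutes y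
    have hpb : pb F₁ ι g = 1 := by
      ext y
      apply ι.injective
      rw [pb_spec ι hg]
      exact f.commutes y
    have := hj g (by change g ∈ S1.G0; rw [hS1]; exact hg) x
    change g (j x) = j (α (S1.α g) x) at this
    rw [hS1', hpb, map_one] at this
    exact this
  choose j' hj' using hmem
  refine ⟨{ toFun := j'
            map_one' := ι.injective (by rw [hj', map_one, map_one])
            map_mul' := fun x y => ι.injective (by rw [hj', map_mul, map_mul, hj', hj'])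
            map_zero' := ι.injective (by rw [hj', map_zero, map_zero])
            map_add' := fun x y => ι.injective (by rw [hj', map_add, map_add, hj', hj']) }, ?_⟩
  intro γ x
  obtain ⟨g, hg, hg'⟩ := exists_pb_eq (F := F₁) ι γ
  apply ι.injective
  change ι (γ (j' x)) = ι (j' (α γ x))
  rw [← hg', pb_spec ι hg, hj', hj']
  have := hj g (by change g ∈ S1.G0; rw [hS1]; exact hg) x
  change g (j x) = j (α (S1.α g) x) at this
  rw [hS1'] at this
  exact this

end Crest.Agent.R018
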