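import Crest.Agent.R018.Trans

/-!
# R018 / FrobAux

The residue field of a place, the action of the decomposition group on it, and lifting of residue
automorphisms.
-/

set_option autoImplicit false
set_option linter.unusedSectionVars false

noncomputable section

namespace Crest.Agent.R018

open scoped NNReal Classical

section general
variable {E : Type*} [Field E]

/-- maximal ideal of the valuation ring -/
def frM (W : Pl E) : Ideal W.v.integer where
  carrier := {x | W.v (x : E) < 1}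
  zero_mem' := by simp
  add_mem' ha hb := lt_of_le_of_lt (W.v.map_add _ _) (max_lt ha hb)
  smul_mem' c x hx := by
    change W.v ((c : E) * (x : E)) < 1
    rw [map_mul]
    exact mul_lt_one_of_nonneg_of_lt_one_right c.2 (by simp) hx

theorem mem_frM {W : Pl E} {x : W.v.integer} : x ∈ frM W ↔ W.v (x : E) < 1 := Iff.rfl

theorem fr_inv_mem {W : Pl E} {x : W.v.integer} (hx : x ∉ frM W) :
    (x : E) ≠ 0 ∧ (x : E)⁻¹ ∈ W.v.integer := by
  have h1 : W.v (x : E) = 1 := le_antisymm x.2 (not_lt.1 hx)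
  refine ⟨fun h => by simp [h] at h1, ?_⟩
  change W.v (x : E)⁻¹ ≤ 1
  rw [map_inv₀, h1, inv_one]

instance frM_isMaximal (W : Pl E) : (frM W).IsMaximal := by
  rw [Ideal.isMaximal_iff]
  refine ⟨by simp [mem_frM], fun J x _ hx hxJ => ?_⟩
  obtain ⟨h0, h1⟩ := fr_inv_mem hx
  have h2 : (⟨_, h1⟩ : W.v.integer) * x = 1 := Subtype.ext (inv_mul_cancel₀ h0)
  rw [← h2]
  exact J.mul_mem_left _ hxJ

/-- residue field -/
def Kap (W : Pl E) : Type _ := W.v.integer ⧸ frM W

instance (W : Pl E) : Field (Kap W) := Ideal.Quotient.field (frM W)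

/-- residue map -/
def frRes (W : Pl E) : W.v.integer →+* Kap W := Ideal.Quotient.mk (frM W)

theorem frRes_surj (W : Pl E) : Function.Surjective (frRes W) := Ideal.Quotient.mk_surjective

theorem frRes_eq {W : Pl E} {x y : W.v.integer} :
    frRes W x = frRes W y ↔ W.v ((x : E) - (y : E)) < 1 := Ideal.Quotient.eq

theorem frRes_eq_zero {W : Pl E} {x : W.v.integer} : frRes W x = 0 ↔ W.v (x : E) < 1 :=
  Ideal.Quotient.eq_zero_iff_mem

theorem fr_natCast_eq_zero {W : Pl E} {n : ℕ} : (n : Kap W) = 0 ↔ W.p ∣ n := by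
  rw [← map_natCast (frRes W), frRes_eq_zero, ← W.v_natCast_lt_one_iff]
  simp

instance (W : Pl E) : CharP (Kap W) W.p :=
  (CharP.charP_iff_prime_eq_zero W.hp).2 (fr_natCast_eq_zero.2 dvd_rfl)

theorem fr_ff {κ : Type*} [Field κ] (K L : Subfield κ) [Finite L] (hKL : K ≤ L) (δ : κ →+* κ)
    (hL : ∀ x ∈ L, δ x ∈ L) (hK : ∀ x ∈ K, δ x = x) :
    ∃ m : ℕ, ∀ x ∈ L, δ x = x ^ (Nat.card K ^ m) := by
  let _ : Algebra K L := (Subfield.inclusion hKL).toAlgebra
  have : Finite K := Finite.of_injective _ (Subfield.inclusion hKL).injective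
  let _ : Fintype K := Fintype.ofFinite K
  let δ' : L →ₐ[K] L :=
    { toRingHom := (δ.comp L.subtype).codRestrict L fun x => hL x x.2
      commutes' := fun a => Subtype.ext (hK a a.2) }
  obtain ⟨n, hn⟩ := (FiniteField.bijective_frobeniusAlgHom_pow K L).2 δ'
  refine ⟨n, fun x hx => ?_⟩
  have h1 := congrArg (fun f : L →ₐ[K] L => ((f ⟨x, hx⟩ : L) : κ)) hn
  simp only [AlgHom.coe_pow, FiniteField.coe_frobeniusAlgHom, pow_iterate] at h1
  rw [Nat.card_eq_fintype_card]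
  exact h1.symm

variable {F : Type*} [Field F] [Algebra F E]

/-- the action of the decomposition group on the valuation ring -/
def frO (W : Pl E) (d : Dec F W) : W.v.integer →+* W.v.integer :=
  (((d : Gal(E/F)) : E →+* E).comp W.v.integer.subtype).codRestrict W.v.integer fun x => by
    change W.v ((d : Gal(E/F)) (x : E)) ≤ 1
    rw [mem_Dec_iff.1 d.2]; exact x.2

@[simp] theorem coe_frO (W : Pl E) (d : Dec F W) (x : W.v.integer) :
    (frO W d x : E) = (d : Gal(E/F)) (x : E) := rfl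

/-- the action of the decomposition group on the residue field -/
def frAct (W : Pl E) : Dec F W →* (Kap W →+* Kap W) where
  toFun d := Ideal.quotientMap (frM W) (frO W d) fun x hx => by
    change W.v ((d : Gal(E/F)) (x : E)) < 1
    rw [mem_Dec_iff.1 d.2]; exact hx
  map_one' := by
    ext x
    obtain ⟨x, rfl⟩ := frRes_surj W x
    rfl
  map_mul' d d' := by
    ext x
    obtain ⟨x, rfl⟩ := frRes_surj W x
    rfl

theorem frAct_res (W : Pl E) (d : Dec F W) (x : W.v.integer) :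
    frAct W d (frRes W x) = frRes W (frO W d x) := rfl

theorem frAct_eq_one {W : Pl E} {d : Dec F W} : frAct W d = 1 ↔ (d : Gal(E/F)) ∈ Ine F W := by
  constructor
  · intro h
    refine ⟨d.2, fun x hx => ?_⟩
    have h1 : frAct W d (frRes W ⟨x, hx⟩) = frRes W ⟨x, hx⟩ := by rw [h]; rfl
    exact frRes_eq.1 h1
  · intro h
    ext x
    obtain ⟨x, rfl⟩ := frRes_surj W x
    exact frRes_eq.2 (h.2 x x.2)

theorem fr_inv_mul_mem {W : Pl E} {d d' : Dec F W} (h : frAct W d = frAct W d') :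
    (d : Gal(E/F))⁻¹ * d' ∈ Ine F W := by
  have h1 : frAct W (d⁻¹ * d') = 1 := by rw [map_mul, ← h, ← map_mul, inv_mul_cancel, map_one]
  have h2 := frAct_eq_one.1 h1
  rwa [Subgroup.coe_mul, Subgroup.coe_inv] at h2

theorem frAct_surj (W : Pl E) (d : Dec F W) : Function.Surjective (frAct W d) := fun y =>
  ⟨frAct W d⁻¹ y, by
    change (frAct W d * frAct W d⁻¹) y = y
    rw [← map_mul, mul_inv_cancel, map_one]; rfl⟩

theorem IsFrob.act {H : Subgroup Gal(E/F)} {W : Pl E} {φ : Gal(E/F)} (h : IsFrob H W φ)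
    (y : Kap W) : frAct W ⟨φ, h.2.1⟩ y = y ^ resCard H W := by
  obtain ⟨x, rfl⟩ := frRes_surj W y
  rw [frAct_res, ← map_pow]
  exact frRes_eq.2 (h.2.2 x x.2)

theorem IsFrob.act_pow {H : Subgroup Gal(E/F)} {W : Pl E} {φ : Gal(E/F)} (h : IsFrob H W φ)
    (m : ℕ) (y : Kap W) : frAct W (⟨φ, h.2.1⟩ ^ m) y = y ^ resCard H W ^ m := by
  induction m generalizing y with
  | zero => simp
  | succ m ih =>
    rw [pow_succ, map_mul]
    change frAct W (⟨φ, h.2.1⟩ ^ m) (frAct W ⟨φ, h.2.1⟩ y) = _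
    rw [ih, h.act, ← pow_mul, pow_succ']

/-- residue field of `L H` -/
def frK (H : Subgroup Gal(E/F)) (W : Pl E) : Subfield (Kap W) where
  carrier := {y | ∃ x : W.v.integer, (x : E) ∈ L H ∧ frRes W x = y}
  mul_mem' := by
    rintro _ _ ⟨a, ha, rfl⟩ ⟨b, hb, rfl⟩
    exact ⟨a * b, (L H).mul_mem ha hb, map_mul _ _ _⟩
  one_mem' := ⟨1, (L H).one_mem, map_one _⟩
  add_mem' := by
    rintro _ _ ⟨a, ha, rfl⟩ ⟨b, hb, rfl⟩
    exact ⟨a + b, (L H).add_mem ha hb, map_add _ _ _⟩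
  zero_mem' := ⟨0, (L H).zero_mem, map_zero _⟩
  neg_mem' := by
    rintro _ ⟨a, ha, rfl⟩
    exact ⟨-a, (L H).neg_mem ha, map_neg _ _⟩
  inv_mem' := by
    rintro _ ⟨a, ha, rfl⟩
    by_cases h : a ∈ frM W
    · exact ⟨0, (L H).zero_mem, by rw [frRes_eq_zero.2 h, map_zero, inv_zero]⟩
    · obtain ⟨h0, h1⟩ := fr_inv_mem h
      refine ⟨⟨_, h1⟩, (L H).inv_mem ha, eq_inv_of_mul_eq_one_left ?_⟩
      rw [← map_mul, ← map_one (frRes W)]
      congr 1
      exact Subtype.ext (inv_mul_cancel₀ h0)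

theorem mem_frK {H : Subgroup Gal(E/F)} {W : Pl E} {y : Kap W} :
    y ∈ frK H W ↔ ∃ x : W.v.integer, (x : E) ∈ L H ∧ frRes W x = y := Iff.rfl

theorem frK_anti {H H' : Subgroup Gal(E/F)} (h : H' ≤ H) (W : Pl E) : frK H W ≤ frK H' W := by
  rintro _ ⟨x, hx, rfl⟩
  exact ⟨x, L_anti h hx, rfl⟩

theorem card_frK (H : Subgroup Gal(E/F)) (W : Pl E) : Nat.card (frK H W) = resCard H W := by
  let f : intAdd H W →+ Kap W :=
    { toFun := fun x => frRes W ⟨x, x.2.2⟩
      map_zero' := map_zero (frRes W)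
      map_add' := fun x y => map_add (frRes W) ⟨x, x.2.2⟩ ⟨y, y.2.2⟩ }
  have h1 : f.ker = (maxAdd H W).addSubgroupOf (intAdd H W) := by
    ext x
    rw [AddMonoidHom.mem_ker, AddSubgroup.mem_addSubgroupOf]
    exact frRes_eq_zero.trans ⟨fun h => ⟨x.2.1, h⟩, fun h => h.2⟩
  have h2 : (f.range : Set (Kap W)) = frK H W := by
    ext y
    exact ⟨fun ⟨x, hx⟩ => ⟨⟨x, x.2.2⟩, x.2.1, hx⟩, fun ⟨x, hx, h⟩ => ⟨⟨x, hx, x.2⟩, h⟩⟩
  rw [resCard, AddSubgroup.relIndex, ← h1, AddSubgroup.index_ker]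
  exact (congrArg (fun s : Set (Kap W) => Nat.card s) h2).symm

theorem frAct_fix {H : Subgroup Gal(E/F)} {W : Pl E} {d : Dec F W} (hd : (d : Gal(E/F)) ∈ H) :
    ∀ y ∈ frK H W, frAct W d y = y := by
  rintro _ ⟨x, hx, rfl⟩
  rw [frAct_res]
  congr 1
  exact Subtype.ext (mem_L.1 hx _ hd)

theorem frAct_mem {N : Subgroup Gal(E/F)} (hN : N.Normal) {W : Pl E} (d : Dec F W) :
    ∀ y ∈ frK N W, frAct W d y ∈ frK N W := by
  rintro _ ⟨x, hx, rfl⟩
  refine ⟨frO W d x, mem_L.2 fun n hn => ?_, rfl⟩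
  have h1 := mem_L.1 hx _ (hN.conj_mem' n hn d)
  have h2 := congrArg (d : Gal(E/F)) h1
  simpa using h2

end general

variable {F E : Type*} [Field F] [NumberField F] [Field E] [CharZero E] [Algebra F E]
  [IsGalois F E]
open NumberField

theorem finite_frK {H : Subgroup Gal(E/F)} (hH : IsOpen (H : Set Gal(E/F))) (W : Pl E) :
    Finite (frK H W) := by
  obtain ⟨f, -, -, hf⟩ := exists_resCard_eq_pow hH W
  refine Nat.finite_of_card_ne_zero ?_
  rw [card_frK, hf]
  exact pow_ne_zero _ W.hp.ne_zero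

theorem frK_pow_card {H : Subgroup Gal(E/F)} (hH : IsOpen (H : Set Gal(E/F))) {W : Pl E}
    {y : Kap W} (hy : y ∈ frK H W) : y ^ resCard H W = y := by
  have := finite_frK hH W
  let _ : Fintype (frK H W) := Fintype.ofFinite _
  have h1 := congrArg Subtype.val (FiniteField.pow_card (⟨y, hy⟩ : frK H W))
  rw [← card_frK, Nat.card_eq_fintype_card]
  exact h1

variable (F) in
theorem exists_mem_frK {W : Pl E} (y : Kap W) : ∃ N : Subgroup Gal(E/F), N.Normal ∧
    IsOpen (N : Set Gal(E/F)) ∧ y ∈ frK N W := by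
  obtain ⟨x, rfl⟩ := frRes_surj W y
  exact ⟨(stab F (x : E)).normalCore, inferInstance, isOpen_normalCore (isOpen_stab _),
    x, mem_L.2 fun g hg => Subgroup.normalCore_le _ hg, rfl⟩

theorem frAct_eq_pow {H N : Subgroup Gal(E/F)} (hN : IsOpen (N : Set Gal(E/F))) (hn : N.Normal)
    (hle : N ≤ H) {W : Pl E} (d : Dec F W) (hd : ∀ y ∈ frK H W, frAct W d y = y) :
    ∃ m : ℕ, ∀ y ∈ frK N W, frAct W d y = y ^ resCard H W ^ m := by
  have := finite_frK hN W
  rw [← card_frK]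
  exact fr_ff _ _ (frK_anti hle W) _ (frAct_mem hn d) hd

/-- reduction of algebraic integers -/
def frRho (W : Pl E) : 𝓞 E →+* Kap W :=
  (frRes W).comp ((algebraMap (𝓞 E) E).codRestrict W.v.integer fun x =>
    W.v_le_one_of_isIntegral x.isIntegral_coe)

theorem frRho_eq_zero {W : Pl E} {x : 𝓞 E} : frRho W x = 0 ↔ W.v (x : E) < 1 := frRes_eq_zero

variable (F) in
include F in
theorem frRho_surj (W : Pl E) : Function.Surjective (frRho W) := by
  intro y
  obtain ⟨N, -, hN, hy⟩ := exists_mem_frK F y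
  have := numberField_L hN
  have := finite_frK hN W
  let g : 𝓞 (L N) →+* Kap W := (frRho W).comp (algebraMap (𝓞 (L N)) (𝓞 E))
  have h1 : g.toAddMonoidHom.ker = (W.prime (L N)).asIdeal.toAddSubgroup := by
    ext x
    exact frRho_eq_zero
  have h2 : (g.toAddMonoidHom.range : Set (Kap W)) ⊆ frK N W := by
    rintro _ ⟨x, rfl⟩
    exact ⟨_, ((x : L N)).2, rfl⟩
  have h3 : Nat.card (frK N W) = Nat.card g.toAddMonoidHom.range := by
    rw [← AddSubgroup.index_ker, h1, card_frK, resCard_eq_absNorm]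
    rfl
  have h4 : (g.toAddMonoidHom.range : Set (Kap W)) = frK N W :=
    Set.eq_of_subset_of_ncard_le h2 h3.le (Set.toFinite _)
  have h5 : y ∈ (g.toAddMonoidHom.range : Set (Kap W)) := h4 ▸ hy
  obtain ⟨x, hx⟩ := h5
  exact ⟨_, hx⟩

/-- every automorphism of the residue field over the residue field of `L H` lifts to `Dec ⊓ H`. -/
theorem fr_lift {H : Subgroup Gal(E/F)} (hH : IsOpen (H : Set Gal(E/F))) (W : Pl E)
    (σ : Kap W →+* Kap W) (hs : Function.Surjective σ) (hσ : ∀ y ∈ frK H W, σ y = y) :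
    ∃ d : Dec F W, (d : Gal(E/F)) ∈ H ∧ frAct W d = σ := by
  let _ : TopologicalSpace (𝓞 E) := ⊥
  have : DiscreteTopology (𝓞 E) := ⟨rfl⟩
  have : CompactSpace H := isCompact_iff_compactSpace.1 (isClosed_of_isOpen hH).isCompact
  have : ContinuousSMul H (𝓞 E) := by
    rw [continuousSMul_iff_stabilizer_isOpen]
    intro x
    have h1 : (MulAction.stabilizer H x : Set H) = Subtype.val ⁻¹' (stab F (x : E) : Set _) := by
      ext g
      exact ⟨fun h => congrArg (fun y : 𝓞 E => (y : E)) h, fun h => RingOfIntegers.ext h⟩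
    rw [h1]
    exact (isOpen_stab _).preimage continuous_subtype_val
  let A := FixedPoints.subring (𝓞 E) H
  have : Algebra.IsInvariant A (𝓞 E) H := ⟨fun b hb => ⟨⟨b, hb⟩, rfl⟩⟩
  let Q : Ideal (𝓞 E) := RingHom.ker (frRho W)
  have : Q.IsPrime := RingHom.ker_isPrime _
  let e : (𝓞 E ⧸ Q) ≃+* Kap W := RingHom.quotientKerEquivOfSurjective (frRho_surj F W)
  have he : ∀ b, e (Ideal.Quotient.mk Q b) = frRho W b := fun b => rfl
  let σ' : Kap W ≃+* Kap W := RingEquiv.ofBijective σ ⟨σ.injective, hs⟩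
  let τ : (𝓞 E ⧸ Q) ≃ₐ[A ⧸ Q.under A] (𝓞 E ⧸ Q) :=
    AlgEquiv.ofRingEquiv (f := e.trans (σ'.trans e.symm)) fun a => by
      obtain ⟨a, rfl⟩ := Ideal.Quotient.mk_surjective a
      change e.symm (σ (e (Ideal.Quotient.mk Q (a : 𝓞 E)))) = Ideal.Quotient.mk Q (a : 𝓞 E)
      rw [RingEquiv.symm_apply_eq, he]
      have h1 : ((a : 𝓞 E) : E) ∈ L H :=
        mem_L.2 fun g hg => congrArg (fun y : 𝓞 E => (y : E)) (a.2 ⟨g, hg⟩)
      exact hσ _ ⟨⟨_, W.v_le_one_of_isIntegral (a : 𝓞 E).isIntegral_coe⟩, h1, rfl⟩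
  obtain ⟨⟨h, hst⟩, hh⟩ :=
    Ideal.Quotient.stabilizerHom_surjective_of_profinite (G := H) (Q.under A) Q τ
  have key : ∀ b : 𝓞 E, frRho W (h • b) = σ (frRho W b) := by
    intro b
    have h1 : Ideal.Quotient.mk Q (h • b) = τ (Ideal.Quotient.mk Q b) := by rw [← hh]; rfl
    rw [← he, h1]
    exact e.apply_symm_apply _
  have hdec : (h : Gal(E/F)) ∈ Dec F W := by
    rw [mem_Dec_iff]
    intro x
    have := numberField_L (F := F) (isOpen_stab x)
    have h1 : ((h : Gal(E/F))⁻¹ • W).prime (L (stab F x)) = W.prime (L (stab F x)) := by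
      ext a
      rw [Pl.mem_prime, Pl.mem_prime, Pl.smul_v, inv_inv]
      have h2 := key (algebraMap _ (𝓞 E) a)
      have h3 : frRho W (h • algebraMap _ (𝓞 E) a) = 0 ↔ frRho W (algebraMap _ (𝓞 E) a) = 0 := by
        rw [h2, map_eq_zero]
      rw [frRho_eq_zero, frRho_eq_zero] at h3
      exact h3
    have h4 := v_eq_of_prime_eq _ h1 ⟨x, mem_L.2 fun g hg => hg⟩
    rwa [Pl.smul_v, inv_inv] at h4
  refine ⟨⟨h, hdec⟩, h.2, ?_⟩
  ext y
  obtain ⟨b, rfl⟩ := frRho_surj F W y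
  exact key b

end Crest.Agent.R018
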