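import Crest.Agent.R018.Trans
import Crest.Agent.R018.CycB
import Crest.Agent.R018.FrobAux

/-!
# R018 / Frob

Frobenius elements.  Existence: `Ideal.Quotient.stabilizerHom_surjective_of_profinite` (group `H`, `B = 𝓞 E`,
`A = 𝓞 (L H)`), or finite level (`IsArithFrobAt.exists_of_isInvariant`, `AlgHom.IsArithFrobAt`) + `exists_forall_normal`;
every `x` with `W.v x ≤ 1` is congruent mod `W` to an algebraic integer (`x = a / s`, `a, s` integral, `W.v s = 1`, `s^(q^m-1) ≡ 1`).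
`exists_frob_pow`: at the finite level `N` the residue field `κ_N` of `L N` is finite, `d` acts on it over `κ_H`
(`|κ_H| = q`), so as `x ↦ x^(q^m)`; `d' = (φ^m)⁻¹ d` acts trivially on `κ_N`; `d'` acts on all residues, and by compactness /
induction one finds `n ∈ Dec ⊓ N` acting on the full residue field as `d'` does (limit of powers of a Frobenius of `N`, or
`stabilizerHom_surjective_of_profinite` for `N ⊓ H`); then `τ = d' n⁻¹ ∈ Ine`.
-/

set_option autoImplicit false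
set_option linter.unusedSectionVars false

noncomputable section

namespace Crest.Agent.R018

open scoped NNReal Classical

variable {F E : Type*} [Field F] [NumberField F] [Field E] [CharZero E] [Algebra F E]
  [IsGalois F E]

theorem frob_spec {H : Subgroup Gal(E/F)} (hH : IsOpen (H : Set Gal(E/F))) (W : Pl E) :
    IsFrob H W (frob H W) := by
  refine @Classical.epsilon_spec _ (IsFrob H W) ?_
  obtain ⟨f, -, -, hf⟩ := exists_resCard_eq_pow hH W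
  have : ExpChar (Kap W) W.p := .prime W.hp
  have h1 : ∀ y, iterateFrobenius (Kap W) W.p f y = y ^ resCard H W := fun y => by
    rw [iterateFrobenius_def, hf]
  obtain ⟨d, hd, hd'⟩ := fr_lift hH W (iterateFrobenius (Kap W) W.p f) (fun y => by
    obtain ⟨N, -, hN, hy⟩ := exists_mem_frK F y
    obtain ⟨g, hg, -, hg'⟩ := exists_resCard_eq_pow hN W
    have h2 : ∀ k : ℕ, y ^ W.p ^ (g * k) = y := fun k => by
      induction k with
      | zero => simp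
      | succ k ih => rw [mul_add, mul_one, pow_add, pow_mul, ih, ← hg', frK_pow_card hN hy]
    refine ⟨y ^ W.p ^ ((g - 1) * f), ?_⟩
    rw [iterateFrobenius_def, ← pow_mul, ← pow_add, ← add_one_mul, Nat.sub_add_cancel (show 1 ≤ g from hg), h2])
    (fun y hy => by rw [h1, frK_pow_card hH hy])
  refine ⟨d, hd, d.2, fun x hx => ?_⟩
  have h2 : frAct W d (frRes W ⟨x, hx⟩) = frRes W (⟨x, hx⟩ ^ resCard H W) := by
    rw [hd', h1, map_pow]
  exact frRes_eq.1 h2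

theorem IsFrob.inv_mul_mem_Ine {H H' : Subgroup Gal(E/F)} {W : Pl E} {φ φ' : Gal(E/F)}
    (h : IsFrob H W φ) (h' : IsFrob H' W φ') {f : ℕ} (hq : resCard H' W = resCard H W ^ f) :
    (φ ^ f)⁻¹ * φ' ∈ Ine F W := by
  have h1 : frAct W ((⟨φ, h.2.1⟩ : Dec F W) ^ f) = frAct W ⟨φ', h'.2.1⟩ := by
    refine RingHom.ext fun y => ?_
    rw [h.act_pow, h'.act, hq]
  have h2 := fr_inv_mul_mem h1
  rwa [Subgroup.coe_pow] at h2

theorem IsFrob.smul {H : Subgroup Gal(E/F)} {W : Pl E} {φ g : Gal(E/F)} (h : IsFrob H W φ)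
    (hg : ∀ x, x ∈ H ↔ g * x * g⁻¹ ∈ H) : IsFrob H (g • W) (g * φ * g⁻¹) := by
  refine ⟨(hg φ).1 h.1, mem_Dec_smul.2 (by simpa [mul_assoc] using h.2.1), fun x hx => ?_⟩
  rw [resCard_smul hg]
  have := h.2.2 (g⁻¹ x) hx
  simpa using this

/-- `Dec ⊓ H` is topologically generated by Frobenius and inertia. -/
theorem IsFrob.exists_pow {H : Subgroup Gal(E/F)} (hH : IsOpen (H : Set Gal(E/F))) {W : Pl E}
    {φ : Gal(E/F)} (h : IsFrob H W φ) {d : Gal(E/F)} (hd : d ∈ Dec F W) (hd' : d ∈ H)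
    {N : Subgroup Gal(E/F)} (hN : IsOpen (N : Set Gal(E/F))) :
    ∃ m : ℕ, ∃ τ ∈ Ine F W, τ ∈ H ∧ (φ ^ m * τ)⁻¹ * d ∈ N := by
  have hN' := isOpen_normalCore (isOpen_inf hN hH)
  have hle := Subgroup.normalCore_le (N ⊓ H)
  obtain ⟨m, hm⟩ := frAct_eq_pow hN' inferInstance (hle.trans inf_le_right) (W := W) ⟨d, hd⟩
    (frAct_fix hd')
  obtain ⟨φ', hφ'⟩ : ∃ φ' : Dec F W, φ' = ⟨φ, h.2.1⟩ ^ m := ⟨_, rfl⟩
  have h1 : ∀ y ∈ frK (N ⊓ H).normalCore W, frAct W (φ'⁻¹ * ⟨d, hd⟩) y = y := by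
    intro y hy
    rw [map_mul, RingHom.mul_def, RingHom.comp_apply, hm y hy, ← h.act_pow, ← hφ',
      ← RingHom.comp_apply, ← RingHom.mul_def, ← map_mul, inv_mul_cancel, map_one]
    rfl
  obtain ⟨n, hn, hn'⟩ := fr_lift hN' W _ (frAct_surj W _) h1
  have h3 : frAct W (φ'⁻¹ * ⟨d, hd⟩ * n⁻¹) = 1 := by
    rw [map_mul, ← hn', ← map_mul, mul_inv_cancel, map_one]
  have h5 := frAct_eq_one.1 h3
  rw [Subgroup.coe_mul, Subgroup.coe_mul, Subgroup.coe_inv, Subgroup.coe_inv, hφ',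
    Subgroup.coe_pow] at h5
  refine ⟨m, (φ ^ m)⁻¹ * d * (n : Gal(E/F))⁻¹, h5, ?_, ?_⟩
  · exact H.mul_mem (H.mul_mem (H.inv_mem (H.pow_mem h.1 m)) hd') (H.inv_mem (hle hn).2)
  · have h4 : (φ ^ m * ((φ ^ m)⁻¹ * d * (n : Gal(E/F))⁻¹))⁻¹ * d = n := by group
    rw [h4]
    exact (hle hn).1

theorem IsFrob.dec_le {H : Subgroup Gal(E/F)} (hH : IsOpen (H : Set Gal(E/F))) {W : Pl E}
    {φ : Gal(E/F)} (h : IsFrob H W φ) {N : Subgroup Gal(E/F)} (hN : IsOpen (N : Set Gal(E/F)))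
    (hφ : φ ∈ N) (hI : Ine F W ⊓ H ≤ N) : Dec F W ⊓ H ≤ N := by
  intro d hd
  obtain ⟨m, τ, h1, h2, h3⟩ := h.exists_pow hH hd.1 hd.2 hN
  have h4 := N.mul_mem (N.mul_mem (N.pow_mem hφ m) (hI ⟨h1, h2⟩)) h3
  rwa [mul_inv_cancel_left] at h4

theorem commutator_mem_Ine {W : Pl E} {d d' : Gal(E/F)} (hd : d ∈ Dec F W) (hd' : d' ∈ Dec F W) :
    d * d' * d⁻¹ * d'⁻¹ ∈ Ine F W := by
  have h1 : frAct W (⟨d, hd⟩ * ⟨d', hd'⟩) = frAct W (⟨d', hd'⟩ * ⟨d, hd⟩) := by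
    ext y
    obtain ⟨N, hn, hN, hy⟩ := exists_mem_frK F y
    obtain ⟨m, hm⟩ := frAct_eq_pow hN hn le_top (W := W) ⟨d, hd⟩ (frAct_fix (Subgroup.mem_top _))
    rw [map_mul, map_mul]
    change frAct W ⟨d, hd⟩ (frAct W ⟨d', hd'⟩ y) = frAct W ⟨d', hd'⟩ (frAct W ⟨d, hd⟩ y)
    rw [hm y hy, hm _ (frAct_mem hn _ y hy), map_pow]
  have h2 : frAct W ((⟨d, hd⟩ * ⟨d', hd'⟩) * (⟨d', hd'⟩ * ⟨d, hd⟩ : Dec F W)⁻¹) = 1 := by
    rw [map_mul, h1, ← map_mul, mul_inv_cancel, map_one]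
  have h3 := frAct_eq_one.1 h2
  simpa [mul_assoc] using h3

/-- a root of unity of order prime to `p` that is `≡ 1` is `1` (`∏_{ζ ≠ 1} (1 - ζ) = N`). -/
theorem eq_one_of_pow_eq_one {W : Pl E} {N : ℕ} (hN : ¬ W.p ∣ N) {z : E} (hz : z ^ N = 1)
    (h1 : W.v (z - 1) < 1) : z = 1 := by
  by_contra hne
  have h2 : W.v z ≤ 1 := by
    have := W.v.map_add (z - 1) 1
    rw [sub_add_cancel, map_one] at this
    exact this.trans (max_le h1.le le_rfl)
  have h3 : frRes W ⟨z, h2⟩ = 1 := by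
    rw [← map_one (frRes W)]
    exact frRes_eq.2 h1
  have h4 : ∑ i ∈ Finset.range N, (⟨z, h2⟩ : W.v.integer) ^ i = 0 := by
    apply Subtype.ext
    have := mul_geom_sum z N
    rw [hz, sub_self] at this
    simpa using (mul_eq_zero.1 this).resolve_left (sub_ne_zero.2 hne)
  have h5 := congrArg (frRes W) h4
  simp only [map_sum, map_pow, h3, one_pow, Finset.sum_const, Finset.card_range, nsmul_eq_mul,
    mul_one, map_zero] at h5
  exact hN (fr_natCast_eq_zero.1 h5)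

/-- inertia fixes the units whose `N`-th power (`p ∤ N`) it fixes. -/
theorem Ine_fix_of_pow {W : Pl E} {N : ℕ} (hN : ¬ W.p ∣ N) {τ : Gal(E/F)} (hτ : τ ∈ Ine F W) {x : E}
    (hx : W.v x = 1) (h : τ (x ^ N) = x ^ N) : τ x = x := by
  have h0 : x ≠ 0 := fun h0 => by simp [h0] at hx
  have h1 : τ x / x = 1 := by
    refine eq_one_of_pow_eq_one hN ?_ ?_
    · rw [div_pow, ← map_pow, h, div_self (pow_ne_zero _ h0)]
    · rw [div_sub_one h0, map_div₀, hx, div_one]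
      exact hτ.2 x hx.le
  exact (div_eq_one_iff_eq h0).1 h1

theorem fr_v_eq_one {W : Pl E} {N : ℕ} (hN : N ≠ 0) {z : E} (hz : z ^ N = 1) : W.v z = 1 := by
  have h1 : W.v z ^ N = 1 := by rw [← map_pow, hz, map_one]
  exact (pow_eq_one_iff_of_nonneg (by simp) hN).1 h1

variable [RadCl E]

theorem Ine_le_FixMu {W : Pl E} {N : ℕ} (hN : ¬ W.p ∣ N) : Ine F W ≤ FixMu F E N := by
  intro τ hτ
  have h0 : N ≠ 0 := fun h => hN (h ▸ dvd_zero _)
  have h1 := (zeta_prim (E := E) h0).pow_eq_one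
  exact Ine_fix_of_pow hN hτ (fr_v_eq_one h0 h1) (by rw [h1, map_one])

theorem IsFrob.cyc_eq {H : Subgroup Gal(E/F)} {W : Pl E} {φ : Gal(E/F)} (h : IsFrob H W φ) {N : ℕ}
    (hN : ¬ W.p ∣ N) : cyc N φ = (resCard H W : ZMod N) := by
  have h0 : N ≠ 0 := fun h => hN (h ▸ dvd_zero _)
  have h1 := (zeta_prim (E := E) h0).pow_eq_one
  have h2 := fr_v_eq_one (W := W) h0 h1
  have h3 : zeta E N ^ resCard H W ≠ 0 := pow_ne_zero _ fun h => by simp [h] at h2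
  rw [cyc_eq_natCast_iff h0, ← div_eq_one_iff_eq h3]
  refine eq_one_of_pow_eq_one hN ?_ ?_
  · rw [div_pow, ← map_pow, pow_right_comm, h1, map_one, one_pow, div_one]
  · rw [div_sub_one h3, map_div₀, map_pow, h2, one_pow, div_one]
    exact h.2.2 _ h2.le

theorem exists_cyc_eq_pow {H : Subgroup Gal(E/F)} (hH : IsOpen (H : Set Gal(E/F))) {W : Pl E}
    {d : Gal(E/F)} (hd : d ∈ Dec F W) (hd' : d ∈ H) {N : ℕ} (hN : ¬ W.p ∣ N) :
    ∃ m : ℕ, cyc N d = (resCard H W : ZMod N) ^ m := by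
  have h0 : N ≠ 0 := fun h => hN (h ▸ dvd_zero _)
  have h := frob_spec hH W
  obtain ⟨m, τ, h1, -, h3⟩ := h.exists_pow hH hd hd' (isOpen_FixMu N)
  refine ⟨m, ?_⟩
  rw [← mul_inv_cancel_left (frob H W ^ m * τ) d, cyc_mul h0, cyc_mul h0, cyc_pow h0,
    (mem_FixMu_iff h0).1 h3, (mem_FixMu_iff h0).1 (Ine_le_FixMu hN h1), h.cyc_eq hN, mul_one, mul_one]

end Crest.Agent.R018
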