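import Crest.Agent.R018.Herb

/-!
# R018 / HI

(HI) Abstract Herbrand inequality.  `K = X ∩ ker Φ`, `P = Φ X ≤ Y` of finite index, `H⁻¹(X) = 0`.  With `u : H⁰X → H⁰P`, `w : H⁰P → H⁰Y`:
`0 → H⁻¹P → H⁰K → H⁰X → H⁰P → H⁻¹K → 0` gives `|ker u| = a / h⁻¹(P)`, `|coker u| = b`;
`H⁻¹P → H⁻¹Y → H⁻¹C → H⁰P → H⁰Y → H⁰C → H⁻¹P` (`C = Y/P` finite, `h⁰(C) = h⁻¹(C)`) gives `|ker w| / |coker w| ≤ h⁻¹(P)`; and
`d / c = |ker wu| / |coker wu| = (|ker u| |ker w|) / (|coker u| |coker w|) ≤ a / b`.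
Index version of the middle step: `|ker w| = [P ∩ gY : gP]`, `|coker w| = [Y ∩ ker f : (P ∩ ker f) gY]`; use
`[Y : P] = [fY : fP][Y ∩ ker f : P ∩ ker f] = [gY : gP][Y ∩ ker g : P ∩ ker g]`, `[gY : gP] = [gY : P ∩ gY] |ker w|`,
`[Y ∩ ker f : P ∩ ker f] = |coker w| [gY : gY ∩ P]`, and `[fY : fP] ≤ [Y ∩ ker g : fP] = [Y ∩ ker g : P ∩ ker g] h⁻¹(P)`.
-/

set_option autoImplicit false
set_option linter.unusedSectionVars false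

noncomputable section

namespace Crest.Agent.R018

open scoped NNReal Classical

variable {M M' : Type*} [CommGroup M] [CommGroup M']

theorem hi_aux1 {M'' : Type*} [CommGroup M''] (f : M →* M'') {X Z : Subgroup M} (A : Subgroup M) (hZ : Z ≤ X)
    (h : A ⊔ X ⊓ f.ker ≤ Z) : (A ⊔ X ⊓ f.ker).relIndex Z = (A.map f).relIndex (Z.map f) := by
  rw [relIndex_eq_map_mul_ker f h, Subgroup.map_sup, (Subgroup.map_eq_bot_iff (X ⊓ f.ker)).2 inf_le_right,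
    sup_bot_eq, Subgroup.relIndex_eq_one.2 (le_inf ((inf_le_inf_right _ hZ).trans le_sup_right) inf_le_right),
    mul_one]

theorem hi_aux2 {f : M →* M} {f' : M' →* M'} {X : Subgroup M} (Φ : M →* M')
    (hf : ∀ x ∈ X, Φ (f x) = f' (Φ x)) :
    ((X ⊓ Φ.ker).map f).relIndex (X.map f ⊓ Φ.ker) =
      ((X ⊓ f.ker).map Φ).relIndex (X.map Φ ⊓ f'.ker) := by
  have h : X ⊓ Φ.ker ⊔ X ⊓ f.ker ≤ X ⊓ f'.ker.comap Φ := by
    refine sup_le (fun x hx => ⟨hx.1, ?_⟩) fun x hx => ⟨hx.1, ?_⟩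
    · show f' (Φ x) = 1
      rw [show Φ x = 1 from hx.2, map_one]
    · show f' (Φ x) = 1
      rw [← hf x hx.1, show f x = 1 from hx.2, map_one]
  have h1 : (X ⊓ f'.ker.comap Φ).map f = X.map f ⊓ Φ.ker := by
    refine le_antisymm ?_ ?_
    · rintro _ ⟨x, hx, rfl⟩
      exact ⟨⟨x, hx.1, rfl⟩, (hf x hx.1).trans hx.2⟩
    · rintro _ ⟨⟨x, hx, rfl⟩, hx'⟩
      exact ⟨x, ⟨hx, (hf x hx).symm.trans hx'⟩, rfl⟩
  have h2 : (X ⊓ f'.ker.comap Φ).map Φ = X.map Φ ⊓ f'.ker := by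
    refine le_antisymm ?_ ?_
    · rintro _ ⟨x, hx, rfl⟩
      exact ⟨⟨x, hx.1, rfl⟩, hx.2⟩
    · rintro _ ⟨⟨x, hx, rfl⟩, hx'⟩
      exact ⟨x, ⟨hx, hx'⟩, rfl⟩
  rw [← h1, ← h2, ← hi_aux1 f _ inf_le_left h, sup_comm, hi_aux1 Φ _ inf_le_left ((sup_comm _ _).trans_le h)]

theorem hi_aux3 {f g : M →* M} {P Q Y : Subgroup M} (hP : HPair f g P) (hY : HPair f g Y) (hle : P ≤ Y)
    (hi : P.relIndex Y ≠ 0) (h1 : P.map g ≤ Q) (h2 : Q ≤ P ⊓ f.ker) (he : hq g f P ≠ 0) :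
    (P.map g).relIndex (Q ⊓ Y.map g) ≠ 0 ∧
      Q.relIndex (P ⊓ f.ker) * (P.map g).relIndex (Q ⊓ Y.map g) ≤
        hq g f P * (Q ⊔ Y.map g).relIndex (Y ⊓ f.ker) := by
  have e1 := relIndex_eq_map_mul_ker g hle
  have e2 := relIndex_eq_map_mul_ker f hle
  have e3 := Subgroup.relIndex_mul_relIndex (P.map g) (Q ⊓ Y.map g) (Y.map g)
    (le_inf h1 (Subgroup.map_mono hle)) inf_le_right
  have e4 := Subgroup.relIndex_mul_relIndex Q (P ⊓ f.ker) (Y ⊓ f.ker) h2 (inf_le_inf_right _ hle)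
  have e5 := Subgroup.relIndex_mul_relIndex Q (Q ⊔ Y.map g) (Y ⊓ f.ker) le_sup_left
    (sup_le (h2.trans (inf_le_inf_right _ hle)) (by
      rintro _ ⟨x, hx, rfl⟩
      exact ⟨hY.2.1 x hx, hY.2.2.1 x hx⟩))
  have e6 := Subgroup.relIndex_mul_relIndex (P.map f) (P ⊓ g.ker) (Y ⊓ g.ker) (by
      rintro _ ⟨x, hx, rfl⟩
      exact ⟨hP.1 x hx, hP.2.2.2 x hx⟩) (inf_le_inf_right _ hle)
  rw [Subgroup.relIndex_sup_left] at e5
  rw [Subgroup.inf_relIndex_right] at e3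
  rw [e1, ← e3] at hi
  rw [e1, ← e3] at e2
  have hu := right_ne_zero_of_mul hi
  have hs := right_ne_zero_of_mul (left_ne_zero_of_mul hi)
  have e7 : (P.map f).relIndex (Y.map f) ≤ (P.map f).relIndex (Y ⊓ g.ker) :=
    Subgroup.relIndex_le_of_le_right (by
      rintro _ ⟨x, hx, rfl⟩
      exact ⟨hY.1 x hx, hY.2.2.2 x hx⟩) (e6 ▸ mul_ne_zero he hu)
  refine ⟨left_ne_zero_of_mul (left_ne_zero_of_mul hi), Nat.le_of_mul_le_mul_right ?_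
    (Nat.pos_of_ne_zero (mul_ne_zero hs hu))⟩
  rw [← e6] at e7
  rw [← e5] at e4
  unfold hq
  generalize (P.map g).relIndex (Q ⊓ Y.map g) = d at *
  generalize Q.relIndex (P ⊓ f.ker) = b at *
  generalize Q.relIndex (Y.map g) = s at *
  generalize (P ⊓ g.ker).relIndex (Y ⊓ g.ker) = u at *
  generalize (P ⊓ f.ker).relIndex (Y ⊓ f.ker) = v at *
  generalize (P.map f).relIndex (Y.map f) = w at *
  generalize (P.map f).relIndex (P ⊓ g.ker) = e at *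
  generalize (Q ⊔ Y.map g).relIndex (Y ⊓ f.ker) = c at *
  calc b * d * (s * u) = b * (d * s * u) := by ring
    _ = w * (b * v) := by rw [e2]; ring
    _ ≤ e * u * (s * c) := by rw [e4]; exact Nat.mul_le_mul_right _ e7
    _ = e * c * (s * u) := by ring

theorem herbrand_ineq {f g : M →* M} {f' g' : M' →* M'} {X : Subgroup M} {Y : Subgroup M'}
    (hX : HPair f g X) (hY : HPair f' g' Y) (Φ : M →* M')
    (hf : ∀ x ∈ X, Φ (f x) = f' (Φ x)) (hg : ∀ x ∈ X, Φ (g x) = g' (Φ x))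
    (hle : X.map Φ ≤ Y) (hi : (X.map Φ).relIndex Y ≠ 0)
    (h90 : ∀ x ∈ X, g x = 1 → ∃ z ∈ X, x = f z)
    (ha : hq f g (X ⊓ Φ.ker) ≠ 0) (hb : hq g f (X ⊓ Φ.ker) ≠ 0)
    (hc : ((X ⊓ f.ker).map Φ ⊔ Y.map g').relIndex (Y ⊓ f'.ker) ≠ 0) :
    (X.map g).relIndex (X ⊓ f.ker ⊓ (Y.map g').comap Φ) ≠ 0 ∧
    hq g f (X ⊓ Φ.ker) * (X.map g).relIndex (X ⊓ f.ker ⊓ (Y.map g').comap Φ) ≤
      hq f g (X ⊓ Φ.ker) * ((X ⊓ f.ker).map Φ ⊔ Y.map g').relIndex (Y ⊓ f'.ker) := by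
  have hmap : ∀ (k : M →* M) (k' : M' →* M'), (∀ x ∈ X, Φ (k x) = k' (Φ x)) →
      (X.map k).map Φ = (X.map Φ).map k' := fun k k' hk => by
    refine le_antisymm ?_ ?_
    · rintro _ ⟨_, ⟨x, hx, rfl⟩, rfl⟩
      exact ⟨_, ⟨x, hx, rfl⟩, (hk x hx).symm⟩
    · rintro _ ⟨_, ⟨x, hx, rfl⟩, rfl⟩
      exact ⟨_, ⟨x, hx, rfl⟩, hk x hx⟩
  have hgX : X.map g ≤ X ⊓ f.ker := by
    rintro _ ⟨x, hx, rfl⟩
    exact ⟨hX.2.1 x hx, hX.2.2.1 x hx⟩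
  have hfX : X ⊓ g.ker = X.map f := by
    refine le_antisymm (fun x hx => ?_) ?_
    · obtain ⟨z, hz, rfl⟩ := h90 x hx.1 hx.2
      exact ⟨z, hz, rfl⟩
    · rintro _ ⟨x, hx, rfl⟩
      exact ⟨hX.1 x hx, hX.2.2.2 x hx⟩
  have eb : hq g f (X ⊓ Φ.ker) = ((X ⊓ f.ker).map Φ).relIndex (X.map Φ ⊓ f'.ker) := by
    rw [hq, inf_right_comm, hfX, hi_aux2 Φ hf]
  have ee : ((X ⊓ Φ.ker).map g).relIndex (X.map g ⊓ Φ.ker) = hq g' f' (X.map Φ) := by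
    rw [hi_aux2 Φ hg, hfX, hmap f f' hf, hq]
  have ea : hq g' f' (X.map Φ) * (X.map g ⊓ Φ.ker).relIndex (X ⊓ f.ker ⊓ Φ.ker) = hq f g (X ⊓ Φ.ker) := by
    rw [← ee, hq, inf_right_comm X Φ.ker]
    refine Subgroup.relIndex_mul_relIndex _ _ _ (le_inf (Subgroup.map_mono inf_le_left) ?_)
      (inf_le_inf_right _ hgX)
    rintro _ ⟨x, hx, rfl⟩
    show Φ (g x) = 1
    rw [hg x hx.1, show Φ x = 1 from hx.2, map_one]
  have ed : (X.map g).relIndex (X ⊓ f.ker ⊓ (Y.map g').comap Φ) =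
      ((X.map Φ).map g').relIndex ((X ⊓ f.ker).map Φ ⊓ Y.map g') *
        (X.map g ⊓ Φ.ker).relIndex (X ⊓ f.ker ⊓ Φ.ker) := by
    rw [relIndex_eq_map_mul_ker Φ (le_inf hgX (Subgroup.map_le_iff_le_comap.1
      ((hmap g g' hg).trans_le (Subgroup.map_mono hle)))), hmap g g' hg, inf_assoc (X ⊓ f.ker),
      inf_eq_right.2 (Subgroup.ker_le_comap Φ _)]
    congr 2
    refine le_antisymm ?_ ?_
    · rintro _ ⟨x, hx, rfl⟩
      exact ⟨⟨x, hx.1, rfl⟩, hx.2⟩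
    · rintro _ ⟨⟨x, hx, rfl⟩, hx'⟩
      exact ⟨x, ⟨hx, hx'⟩, rfl⟩
  rw [← ea] at ha
  obtain ⟨h1, h2⟩ := hi_aux3 (Q := (X ⊓ f.ker).map Φ) (hX.map Φ hf hg) hY hle hi
    ((hmap g g' hg).symm.trans_le (Subgroup.map_mono hgX)) (by
      rintro _ ⟨x, hx, rfl⟩
      refine ⟨⟨x, hx.1, rfl⟩, ?_⟩
      show f' (Φ x) = 1
      rw [← hf x hx.1, show f x = 1 from hx.2, map_one]) (left_ne_zero_of_mul ha)
  rw [ed, eb, ← ea, ← mul_assoc, mul_right_comm (hq g' f' (X.map Φ))]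
  exact ⟨mul_ne_zero h1 (right_ne_zero_of_mul ha), Nat.mul_le_mul_right _ h2⟩

end Crest.Agent.R018
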