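import Crest.Agent.R018.Apx
import Crest.Agent.R018.Frob
import Crest.Agent.R018.H90

/-!
# R018 / Hensel

`hensel`: the roots are `w_i = ζ^i w`, `∏ (1 - w_i) = 1 - u`; let `w` be a root closest to `1`; for the others
`v (1 - w_i) ≥ v (w - w_i) = v (1 - ζ^i)` and `∏_{i ≠ 0} (1 - ζ^i) = N`, so `v (w - 1) ≤ v (u - 1) / v N < v N ≤ v (1 - ζ^i)`;
hence `w` is the unique root with `v (w - 1) < v N`, and `Dec` preserves this condition.
`ext_char`: Kummer theory gives `ρ` with `z = ρ^l ∈ L (Dec W ⊓ Γ)`; approximate `z` by `z' ∈ L Γ` (`dense_closed`) with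
`v (z'/z - 1) < v(l)^2`; by `hensel`, `z'/z = w^l` with `w` fixed by `Dec W ⊓ Γ`.
-/

set_option autoImplicit false
set_option linter.unusedSectionVars false

noncomputable section

namespace Crest.Agent.R018

open scoped NNReal Classical

variable {F E : Type*} [Field F] [NumberField F] [Field E] [CharZero E] [Algebra F E]
  [IsGalois F E] [RadCl E]

theorem v_le_v_one_sub {W : Pl E} {N : ℕ} (hN : N ≠ 0) {z : E} (hz : z ^ N = 1) (h1 : z ≠ 1) :
    W.v (N : E) ≤ W.v (1 - z) := by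
  have hv : W.v z = 1 := by
    have := congrArg W.v hz
    rw [map_pow, map_one] at this
    exact (pow_eq_one_iff_of_nonneg zero_le hN).1 this
  have hs : ∑ i ∈ Finset.range N, z ^ i = 0 := by
    have := mul_neg_geom_sum z N
    rw [hz, sub_self] at this
    exact (mul_eq_zero.1 this).resolve_left (sub_ne_zero.2 h1.symm)
  have e : (N : E) = ∑ i ∈ Finset.range N, (1 - z ^ i) := by
    rw [Finset.sum_sub_distrib, hs]; simp
  rw [e]
  refine W.v.map_sum_le fun i _ => ?_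
  rw [← mul_neg_geom_sum, map_mul]
  refine mul_le_of_le_one_right' (W.v.map_sum_le fun j _ => ?_)
  rw [map_pow, hv, one_pow]

theorem exists_root_close (W : Pl E) {N : ℕ} (hN : N ≠ 0) {u : E}
    (hu : W.v (u - 1) < W.v (N : E) ^ 2) :
    ∃ w : E, w ^ N = u ∧ W.v (w - 1) * W.v (N : E) ≤ W.v (u - 1) := by
  obtain ⟨ζ, hζ⟩ := RadCl.prim (E := E) N hN
  have hN0 : 0 < N := Nat.pos_of_ne_zero hN
  obtain ⟨w, hw, hmin⟩ := Finset.exists_min_image (Polynomial.nthRoots N u).toFinset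
    (fun w => W.v (1 - w))
    ⟨rt N u, by rw [Multiset.mem_toFinset, Polynomial.mem_nthRoots hN0]; exact rt_pow hN u⟩
  simp only [Multiset.mem_toFinset, Polynomial.mem_nthRoots hN0] at hw hmin
  refine ⟨w, hw, ?_⟩
  have hvu : W.v u = 1 := by
    have := W.v.map_one_add_of_lt (hu.trans_le (pow_le_one₀ zero_le (W.v_natCast_le_one N)))
    simpa using this
  have hvw : W.v w = 1 := by
    have := congrArg W.v hw
    rw [map_pow, hvu] at this
    exact (pow_eq_one_iff_of_nonneg zero_le hN).1 this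
  have hp := congrArg (Polynomial.eval 1) (X_pow_sub_C_eq_prod hζ hN0 hw)
  simp only [Polynomial.eval_sub, Polynomial.eval_pow, Polynomial.eval_X, Polynomial.eval_C,
    Polynomial.eval_prod, one_pow] at hp
  obtain ⟨n, rfl⟩ := Nat.exists_eq_succ_of_ne_zero hN
  have hq := hζ.prod_one_sub_pow_eq_order
  rw [Finset.prod_range_succ', pow_zero, one_mul] at hp
  rw [W.v.map_sub_swap u, hp, W.v.map_sub_swap w, map_mul, mul_comm, Nat.cast_succ, ← hq,
    map_prod, map_prod]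
  refine mul_le_mul_left (Finset.prod_le_prod' fun i _ => ?_) _
  have e : w * (1 - ζ ^ (i + 1)) = (1 - ζ ^ (i + 1) * w) - (1 - w) := by ring
  have h1 : W.v (1 - w) ≤ W.v (1 - ζ ^ (i + 1) * w) := hmin _ (by
    rw [mul_pow, hw, ← pow_mul, mul_comm (i + 1), pow_mul, hζ.pow_eq_one, one_pow, one_mul])
  calc W.v (1 - ζ ^ (i + 1)) = W.v (w * (1 - ζ ^ (i + 1))) := by rw [map_mul, hvw, one_mul]
    _ ≤ _ := by rw [e]; exact (W.v.map_sub _ _).trans (max_le le_rfl h1)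

theorem hensel (W : Pl E) {N : ℕ} (hN : N ≠ 0) {u : E} (hu : W.v (u - 1) < W.v (N : E) ^ 2) :
    ∃ w : E, w ^ N = u ∧ ∀ g ∈ Dec F W, g u = u → g w = w := by
  obtain ⟨w, hw, hc⟩ := exists_root_close W hN hu
  refine ⟨w, hw, fun g hg hgu => ?_⟩
  have hN0 : 0 < W.v (N : E) :=
    pos_iff_ne_zero.2 ((map_ne_zero _).2 (Nat.cast_ne_zero.2 hN))
  have h1 : W.v (w - 1) < W.v (N : E) := by
    have := hc.trans_lt hu
    rw [sq] at this
    exact lt_of_mul_lt_mul_right this zero_le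
  have hvw : W.v w = 1 := by
    have := W.v.map_one_add_of_lt (h1.trans_le (W.v_natCast_le_one N))
    simpa using this
  have hw0 : w ≠ 0 := fun h => by simp [h] at hvw
  have h2 : W.v (g w - 1) < W.v (N : E) := by
    have := mem_Dec_iff.1 hg (w - 1)
    rw [map_sub, map_one] at this
    rw [this]; exact h1
  by_contra hne
  have hz : (g w / w) ^ N = 1 := by
    rw [div_pow, ← map_pow, hw, hgu, div_self]
    rw [← hw]; exact pow_ne_zero _ hw0
  have h3 := v_le_v_one_sub (W := W) hN hz fun h => hne ((div_eq_one_iff_eq hw0).1 h)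
  have e : 1 - g w / w = ((w - 1) - (g w - 1)) / w := by field_simp; ring
  rw [e, map_div₀, hvw, div_one] at h3
  exact absurd (h3.trans (W.v.map_sub _ _)) (not_le.2 (max_lt h1 h2))

/-- a local character of order `N` is the Kummer character of a global element. -/
theorem ext_char {Γ : Subgroup Gal(E/F)} (hΓ : IsClosed (Γ : Set Gal(E/F))) {N : ℕ} (hN : N ≠ 0)
    (hμ : Γ ≤ FixMu F E N) (W : Pl E) {κ : Gal(E/F) → ZMod N} (hκ : CHom (Dec F W ⊓ Γ) κ) :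
    ∃ z : E, z ≠ 0 ∧ z ∈ L Γ ∧ ∀ γ ∈ Dec F W ⊓ Γ, kum N (rt N z) γ = κ γ := by
  have hJ : Dec F W ⊓ Γ ≤ FixMu F E N := inf_le_right.trans hμ
  obtain ⟨ρ, hρ, hρL, hk⟩ := kummer hN hJ hκ
  have hz0 : ρ ^ N ≠ 0 := pow_ne_zero _ hρ
  have hv0 : 0 < W.v (ρ ^ N) := pos_iff_ne_zero.2 ((map_ne_zero _).2 hz0)
  have hN0 : 0 < W.v (N : E) :=
    pos_iff_ne_zero.2 ((map_ne_zero _).2 (Nat.cast_ne_zero.2 hN))
  obtain ⟨y, hyL, hy0, hy⟩ := dense_closed hΓ W hρL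
    (ε := W.v (N : E) ^ 2 * W.v (ρ ^ N)) (by positivity)
  have hu : W.v (y / ρ ^ N - 1) < W.v (N : E) ^ 2 := by
    rw [div_sub_one hz0, map_div₀, div_lt_iff₀ hv0]; exact hy
  obtain ⟨w, hw, hfix⟩ := hensel (F := F) W hN hu
  have hw0 : w ≠ 0 := fun h => by
    rw [h, zero_pow hN] at hw
    exact div_ne_zero hy0 hz0 hw.symm
  refine ⟨y, hy0, hyL, fun γ hγ => ?_⟩
  have g1 : γ y = y := mem_L.1 hyL γ hγ.2
  have g2 : γ (ρ ^ N) = ρ ^ N := mem_L.1 hρL γ hγ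
  have g3 : γ w = w := hfix γ hγ.1 (by rw [map_div₀, g1, g2])
  have g4 : γ (w ^ N) = w ^ N := by rw [map_pow, g3]
  have e : rt N y ^ N = (w * ρ) ^ N := by rw [rt_pow hN, mul_pow, hw, div_mul_cancel₀ _ hz0]
  rw [kum_root_indep hN (rt_ne_zero hN hy0) e (hJ hγ) (by rw [rt_pow hN, g1]),
    kum_mul_left hN hw0 hρ g4 g2, (kum_eq_zero_iff hN hw0 g4).2 g3, zero_add, hk γ hγ]

theorem hn_dvd_sub_one {Ω : Type*} [Field Ω] [CharZero Ω] [IsAlgClosed Ω] [IsGalois ℚ Ω]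
    (V : Pl Ω) {N : ℕ} (hN : ¬ V.p ∣ N) (hD : Dec ℚ V ≤ FixMu ℚ Ω N) : N ∣ V.p - 1 := by
  have htop : IsOpen ((⊤ : Subgroup Gal(Ω/ℚ)) : Set Gal(Ω/ℚ)) := by simp
  have hφ := frob_spec htop V
  have hN0 : N ≠ 0 := fun h => hN (h ▸ dvd_zero _)
  have h1 := (mem_FixMu_iff hN0).1 (hD hφ.2.1)
  rw [hφ.cyc_eq hN, resCard_top_rat] at h1
  exact (Nat.modEq_iff_dvd' V.hp.one_le).1
    ((ZMod.natCast_eq_natCast_iff 1 V.p N).1 (by rw [h1, Nat.cast_one]))

/-- (ResPow) for `F = ℚ`: `a` is an `r`-th power mod `l` iff `l` splits in `ℚ(μ_r, a^{1/r})`.  With `φ` a Frobenius (`q = l`),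
`φ ρ / ρ` is an `r`-th root of unity congruent to `ρ^(l-1) = a^((l-1)/r)`. -/
theorem resPow {Ω : Type*} [Field Ω] [CharZero Ω] [IsAlgClosed Ω] [IsGalois ℚ Ω] (V : Pl Ω) {r : ℕ}
    (hr : r.Prime) (hne : V.p ≠ r) (hD : Dec ℚ V ≤ FixMu ℚ Ω r) {a : ℕ} (ha : ¬ V.p ∣ a) :
    (∃ w : ZMod V.p, (a : ZMod V.p) = w ^ r) ↔ Dec ℚ V ≤ stab ℚ (rt r (a : Ω)) := by
  have : Fact V.p.Prime := ⟨V.hp⟩
  have hpr : ¬ V.p ∣ r := fun h => hne ((Nat.prime_dvd_prime_iff_eq V.hp hr).1 h)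
  obtain ⟨m, hm⟩ := hn_dvd_sub_one V hpr hD
  have htop : IsOpen ((⊤ : Subgroup Gal(Ω/ℚ)) : Set Gal(Ω/ℚ)) := by simp
  have hφ := frob_spec htop V
  set φ := frob (⊤ : Subgroup Gal(Ω/ℚ)) V
  have ha0 : a ≠ 0 := fun h => ha (h ▸ dvd_zero _)
  have haZ : (a : ZMod V.p) ≠ 0 := fun h => ha ((ZMod.natCast_eq_zero_iff _ _).1 h)
  set ρ := rt r (a : Ω) with hρdef
  have hρ : ρ ^ r = a := rt_pow hr.ne_zero _
  have hvρ : V.v ρ = 1 := by
    have := congrArg V.v hρ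
    rw [map_pow, V.v_natCast_eq_one ha] at this
    exact (pow_eq_one_iff_of_nonneg zero_le hr.ne_zero).1 this
  have hρ0 : ρ ≠ 0 := fun h => by simp [h] at hvρ
  have hη : (φ ρ / ρ) ^ r = 1 := by
    rw [div_pow, ← map_pow, hρ, map_natCast, div_self (Nat.cast_ne_zero.2 ha0)]
  have hc : V.v (φ ρ / ρ - (a : Ω) ^ m) < 1 := by
    have h1 := hφ.2.2 ρ hvρ.le
    rw [resCard_top_rat] at h1
    have e : φ ρ / ρ - (a : Ω) ^ m = (φ ρ - ρ ^ V.p) / ρ := by
      have : ρ ^ V.p = (a : Ω) ^ m * ρ := by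
        rw [← hρ, ← pow_mul, ← hm, ← pow_succ, Nat.sub_add_cancel V.hp.one_le]
      rw [this]; field_simp
    rwa [e, map_div₀, hvρ, div_one]
  have hiff : V.v ((a : Ω) ^ m - 1) < 1 ↔ (a : ZMod V.p) ^ m = 1 := by
    have h1 : 1 ≤ a ^ m := Nat.one_le_pow _ _ (Nat.pos_of_ne_zero ha0)
    have e : (a : Ω) ^ m - 1 = ((a ^ m - 1 : ℕ) : Ω) := by push_cast [h1]; rfl
    rw [e, V.v_natCast_lt_one_iff, ← ZMod.natCast_eq_zero_iff]
    push_cast [h1]
    exact sub_eq_zero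
  constructor
  · rintro ⟨w, hw⟩
    have hw0 : w ≠ 0 := fun h => haZ (by rw [hw, h, zero_pow hr.ne_zero])
    have h1 : V.v ((a : Ω) ^ m - 1) < 1 := hiff.2 (by
      rw [hw, ← pow_mul, ← hm]; exact ZMod.pow_card_sub_one_eq_one hw0)
    have h2 : φ ρ / ρ = 1 := by
      refine eq_one_of_pow_eq_one hpr hη ?_
      have e : φ ρ / ρ - 1 = (φ ρ / ρ - (a : Ω) ^ m) + ((a : Ω) ^ m - 1) := by ring
      rw [e]
      exact (V.v.map_add _ _).trans_lt (max_lt hc h1)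
    have := hφ.dec_le htop (isOpen_stab ρ) ((div_eq_one_iff_eq hρ0).1 h2) fun τ hτ =>
      Ine_fix_of_pow hpr hτ.1 hvρ (by rw [hρ, map_natCast])
    simpa using this
  · intro h
    have h1 : φ ρ = ρ := h hφ.2.1
    rw [h1, div_self hρ0, V.v.map_sub_swap, hiff] at hc
    obtain ⟨g, hg⟩ := IsCyclic.exists_monoid_generator (α := (ZMod V.p)ˣ)
    obtain ⟨k, hk⟩ := hg (Units.mk0 _ haZ)
    have hord : orderOf g = r * m := by
      rw [← hm, ← ZMod.card_units V.p, ← Nat.card_eq_fintype_card]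
      refine orderOf_eq_card_of_forall_mem_powers hg
    have hm0 : 0 < m := Nat.pos_of_ne_zero fun h0 => by
      have := V.hp.two_le
      rw [h0, mul_zero] at hm
      omega
    have hk' : g ^ k = Units.mk0 _ haZ := hk
    have h2 : g ^ (k * m) = 1 := by
      rw [pow_mul, hk']
      exact Units.ext (by simpa using hc)
    have h3 : r * m ∣ k * m := hord ▸ orderOf_dvd_of_pow_eq_one h2
    obtain ⟨j, rfl⟩ := Nat.dvd_of_mul_dvd_mul_right hm0 h3
    refine ⟨(g ^ j : (ZMod V.p)ˣ), ?_⟩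
    have := congrArg Units.val hk'
    rw [← Units.val_pow_eq_pow_val, ← pow_mul, mul_comm j r, this, Units.val_mk0]

/-- (SplitMod) -/
theorem dvd_sub_one_of_dec_le {Ω : Type*} [Field Ω] [CharZero Ω] [IsAlgClosed Ω] [IsGalois ℚ Ω]
    (V : Pl Ω) {N : ℕ} (hN : ¬ V.p ∣ N) (hD : Dec ℚ V ≤ FixMu ℚ Ω N) : N ∣ V.p - 1 := by
  exact hn_dvd_sub_one V hN hD

end Crest.Agent.R018
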