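import Crest.Agent.R018.FI
import Crest.Agent.R018.Hensel

/-!
# R018 / Key

Key lemma of Chevalley's proof.  Suppose `rt l b ∉ L H`; `H_b = H ⊓ stab (rt l b)`, `CycExt H H_b σ l` (`cycExt_stab`).  Let `τ ∈ LU H` with
`dv τ = (∏_{W ∈ T} bas H W)^h` (`exists_class_exp`), `π' = M τ`; `W ∣ π'` iff `W ∈ S ∪ orbs H T` (`S = {W ∣ M}`); `Unram H H_b π'` (`Ine_fix_of_pow`, `l ∣ M`).
`fi` gives `l ≤ nIdx H H_b (π'^N)`.  We show the index is `1`.  Let `a ∈ DivP H (π'^N)`; `hgen` gives `x` with `a = cut M (dv x)`; `x` is a unit at `T`; multiply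
`x` by powers of the dual `S`-units so that every `frob H W` (`W ∈ T`) fixes `ρ = rt l x` (`kum_mul_left`); then `Dec W' ⊓ H` fixes `ρ` for all
`W' ∈ orbs H T` (`IsFrob.dec_le`, `kum_conj`).  For `W ∈ S`, `Dec W ⊓ H ≤ H_b` (`b = c^l r`, `hensel`), so the `H`-orbit of `W` consists of the `l` distinct
`H_b`-orbits of `σ^i • W`.  By `approx_mul` for `H_b` choose `z ∈ LU H_b` close to `x` at one representative `W_0` of each `H`-orbit in `S`, close to `1` at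
`σ^i • W_0` (`0 < i < l`), close to `ρ` at (representatives of) the places over `T`.  Since `∏_{i<l} σ^i ρ = ρ^l = x` (`l` odd), `x / nr z ∈ rayU H (π'^N)`, and
`a = cut π' (dv x) = dv (x / nr z) * nm (cut π' (dv z))`.
-/

set_option autoImplicit false
set_option linter.unusedSectionVars false

noncomputable section

namespace Crest.Agent.R018

open scoped NNReal Classical

variable {F E : Type*} [Field F] [NumberField F] [Field E] [CharZero E] [Algebra F E]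
  [IsGalois F E] [RadCl E]

/-- units congruent to `1` at `W` to precision `t < 1`. -/
def keyNear (W : Pl E) (t : ℝ≥0) (ht : t < 1) : Subgroup Eˣ where
  carrier := {y | W.v ((y : E) - 1) ≤ t}
  one_mem' := by simp
  mul_mem' := by
    intro x y hx hy
    have e : ((x * y : Eˣ) : E) - 1 = (x - 1) * (y - 1) + ((x - 1) + (y - 1)) := by
      push_cast; ring
    change W.v _ ≤ t
    rw [e]
    refine le_trans (W.v.map_add _ _) (max_le ?_ (le_trans (W.v.map_add _ _) (max_le hx hy)))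
    rw [map_mul]
    calc W.v (x - 1) * W.v (y - 1) ≤ t * 1 := mul_le_mul' hx (le_trans hy ht.le)
      _ = t := mul_one _
  inv_mem' := by
    intro x hx
    have h1 : W.v (x : E) = 1 := by
      have := W.v.map_one_add_of_lt (lt_of_le_of_lt hx ht)
      simpa using this
    have e : ((x⁻¹ : Eˣ) : E) - 1 = -(((x : E) - 1) * ((x : E))⁻¹) := by
      rw [Units.val_inv_eq_inv_val]; field_simp; ring
    change W.v _ ≤ t
    rw [e, Valuation.map_neg, map_mul, map_inv₀, h1, inv_one, mul_one]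
    exact hx

/-- an element that is everywhere a local norm at `π` is a global norm modulo `π`. -/
theorem key_norm {H H' : Subgroup Gal(E/F)} {σ : Gal(E/F)} {l : ℕ} (hc : CycExt H H' σ l)
    (hc' : ∀ g ∈ H, g ∉ H' → CycExt H H' g l) {π : E} (hπ : π ∈ L H) (h0 : π ≠ 0) {x ρ : Eˣ}
    (hx : x ∈ LU H) (hρ : ρ ^ l = x)
    (hloc : ∀ W : Pl E, W.v π < 1 → Dec F W ⊓ H ≤ H' ∨ Dec F W ⊓ H ≤ stab F (ρ : E)) :
    ∃ z ∈ LU H', x / nm Eˣ H H' z ∈ rayU H π := by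
  have hH := hc.isOpen_top
  have hl : l ≠ 0 := hc.ne_zero
  have hidx : H'.relIndex H ≠ 0 := hc.idx ▸ hl
  obtain ⟨s, hs, hs'⟩ := class_reps hH hπ h0
  have hsπ : ∀ W ∈ s, W.v π < 1 := fun W hW => (hs' W).1 ⟨W, hW, Same.refl H W⟩
  set s' : Finset (Pl E) := s.biUnion fun W =>
    (Finset.range (if Dec F W ⊓ H ≤ H' then l else 1)).image fun i => (σ ^ i)⁻¹ • W with hs'def
  set a : Pl E → Eˣ := fun V => if V ∈ s then (if Dec F V ⊓ H ≤ H' then x else ρ) else 1 with ha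
  have hσi : ∀ i : ℕ, σ ^ i ∈ H := fun i => H.pow_mem hc.mem i
  have huniq : ∀ (W : Pl E), Dec F W ⊓ H ≤ H' → ∀ i < l, ∀ j < l,
      Same H' ((σ ^ i)⁻¹ • W) ((σ ^ j)⁻¹ • W) → i = j := by
    rintro W hW i hi j hj ⟨h, hh, e⟩
    have h1 : σ ^ j * h * (σ ^ i)⁻¹ ∈ H' := by
      refine hW ⟨mem_Dec.2 ?_, H.mul_mem (H.mul_mem (hσi j) (hc.le hh)) (H.inv_mem (hσi i))⟩
      rw [mul_smul, mul_smul, e, smul_inv_smul]
    have h2 := H'.mul_mem (hc.normal _ (H.inv_mem (hσi i)) _ h1) (H'.inv_mem hh)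
    have h3 : (σ ^ i)⁻¹ * σ ^ j ∈ H' := by
      convert h2 using 1; group
    exact (hc.gen_lt (hσi j)).unique ⟨hi, h3⟩ ⟨hj, by simp⟩
  have hs'1 : ∀ V ∈ s', ∀ V' ∈ s', Same H' V V' → V = V' := by
    intro V hV V' hV' hVV
    obtain ⟨W, hW, hV⟩ := Finset.mem_biUnion.1 hV
    obtain ⟨i, hi, rfl⟩ := Finset.mem_image.1 hV
    obtain ⟨W', hW', hV'⟩ := Finset.mem_biUnion.1 hV'
    obtain ⟨j, hj, rfl⟩ := Finset.mem_image.1 hV'
    have h1 : Same H W ((σ ^ i)⁻¹ • W) := ⟨_, H.inv_mem (hσi i), rfl⟩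
    have h2 : Same H W' ((σ ^ j)⁻¹ • W') := ⟨_, H.inv_mem (hσi j), rfl⟩
    obtain rfl : W = W' := hs W hW W' hW' ((h1.trans (hVV.mono hc.le)).trans h2.symm)
    rw [Finset.mem_range] at hi hj
    by_cases hsp : Dec F W ⊓ H ≤ H'
    · rw [if_pos hsp] at hi hj
      rw [huniq W hsp i hi j hj hVV]
    · rw [if_neg hsp] at hi hj
      rw [show i = j by omega]
  have ha1 : ∀ V ∈ s', (a V : E) ∈ L (Dec F V ⊓ H') := by
    intro V _
    simp only [ha]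
    split_ifs with h1 h2
    · exact L_anti (inf_le_right.trans hc.le) hx
    · exact mem_L.2 fun g hg => ((hloc V (hsπ V h1)).resolve_left h2) ⟨hg.1, hc.le hg.2⟩
    · exact (L _).one_mem
  have hε : 0 < ∏ W ∈ s, W.v π :=
    Finset.prod_pos fun W _ => pos_iff_ne_zero.2 ((map_ne_zero W.v).2 h0)
  have hε' : ∀ W ∈ s, ∏ W ∈ s, W.v π ≤ W.v π := fun W hW => by
    simpa using Finset.prod_le_prod_of_subset_of_le_one' (f := fun W : Pl E => W.v π)
      (Finset.singleton_subset_iff.2 hW) (fun V hV _ => (hsπ V hV).le)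
  obtain ⟨z, hz, hz'⟩ := approx_mul hc.isOpen s' hs'1 a ha1 hε
  have hzfix := mem_LU_iff_smul.1 hz
  have hy : x / nm Eˣ H H' z ∈ LU H := (LU H).div_mem hx (nm_mem_LU hidx hz)
  have key : ∀ W (hW : W ∈ s), x / nm Eˣ H H' z ∈ keyNear W (W.v π) (hsπ W hW) := by
    intro W hW
    rw [← inv_div]
    refine Subgroup.inv_mem _ ?_
    by_cases hsp : Dec F W ⊓ H ≤ H'
    · have e : x = ∏ i ∈ Finset.range l, σ ^ i • a ((σ ^ i)⁻¹ • W) := by
        rw [Finset.prod_eq_single 0]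
        · simp [ha, hW, hsp]
        · intro i hi hi0
          have : (σ ^ i)⁻¹ • W ∉ s := fun h => hi0 <| by
            have h1 := hs W hW _ h ⟨_, H.inv_mem (hσi i), rfl⟩
            refine huniq W hsp i (Finset.mem_range.1 hi) 0 (Nat.pos_of_ne_zero hl) ?_
            rw [← h1]
            simpa using Same.refl H' W
          simp [ha, this]
        · intro h
          exact absurd (Finset.mem_range.2 (Nat.pos_of_ne_zero hl)) h
      rw [hc.nm_eq_nr hzfix, nr_apply, e, ← Finset.prod_div_distrib]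
      refine Subgroup.prod_mem _ fun i hi => ?_
      have h1 := hz' ((σ ^ i)⁻¹ • W) (Finset.mem_biUnion.2 ⟨W, hW,
        Finset.mem_image.2 ⟨i, by rwa [if_pos hsp], rfl⟩⟩)
      rw [Pl.smul_v, inv_inv, map_sub, map_one] at h1
      rw [← smul_div']
      exact h1.le.trans (hε' W hW)
    · obtain ⟨d, hd, hd'⟩ := SetLike.not_le_iff_exists.1 hsp
      have hdρ : ∀ i : ℕ, d ^ i • ρ = ρ := fun i => Units.ext
        (((hloc W (hsπ W hW)).resolve_left hsp) ((Dec F W ⊓ H).pow_mem hd i))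
      have e : x = ∏ i ∈ Finset.range l, d ^ i • ρ := by simp [hdρ, hρ]
      rw [(hc' d hd.2 hd').nm_eq_nr hzfix, nr_apply, e, ← Finset.prod_div_distrib]
      refine Subgroup.prod_mem _ fun i _ => ?_
      have h1 := hz' W (Finset.mem_biUnion.2 ⟨W, hW,
        Finset.mem_image.2 ⟨0, by rw [if_neg hsp]; simp, by simp⟩⟩)
      have h2 : a W = ρ := by simp [ha, hW, hsp]
      rw [h2, ← mem_Dec_iff.1 ((Dec F W).pow_mem hd.1 i), map_sub, map_one] at h1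
      rw [← smul_div']
      exact h1.le.trans (hε' W hW)
  refine ⟨z, hz, hy, fun V hV => ?_⟩
  obtain ⟨W, hW, hWV⟩ := (hs' V).2 hV
  rw [← hWV.v_eq hπ, ← hWV.v_eq ((L H).sub_mem hy (L H).one_mem)]
  exact key W hW

theorem key_pi {H : Subgroup Gal(E/F)} (hH : IsOpen (H : Set Gal(E/F))) {M : ℕ} (hM : M ≠ 0)
    (T : Finset (Pl E)) : ∃ π ∈ L H, π ≠ 0 ∧
      ∀ W : Pl E, W.v π < 1 ↔ W.v (M : E) < 1 ∨ W ∈ orbs H T := by
  obtain ⟨h, hh, hτ⟩ := exists_class_exp hH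
  obtain ⟨τ, hτ1, hτ2⟩ := hτ (∏ W ∈ T, bas H W)
    (Subgroup.prod_mem _ fun W _ => bas_mem_DivP (by simp))
  have hv : ∀ V : Pl E, V.v (τ : E) = (∏ W ∈ T, ((bas H W V : ℝ≥0ˣ) : ℝ≥0)) ^ h := by
    intro V
    have := congrArg (fun a : Dv E => ((a V : ℝ≥0ˣ) : ℝ≥0)) hτ2
    simpa [Dv.prod_apply] using this
  have hle : ∀ W V : Pl E, ((bas H W V : ℝ≥0ˣ) : ℝ≥0) ≤ 1 := by
    intro W V
    unfold bas
    split_ifs
    · exact (unif_spec hH W).1.le
    · simp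
  have h1 : ∀ V : Pl E, V ∈ orbs H T → V.v (τ : E) < 1 := by
    rintro V ⟨W, hW, hWV⟩
    rw [hv]
    refine pow_lt_one₀ (by simp) (lt_of_le_of_lt ?_ (unif_spec hH W).1) hh
    simpa [bas, hWV] using Finset.prod_le_prod_of_subset_of_le_one'
      (f := fun W : Pl E => ((bas H W V : ℝ≥0ˣ) : ℝ≥0))
      (Finset.singleton_subset_iff.2 hW) (fun W' _ _ => hle W' V)
  have h2 : ∀ V : Pl E, V ∉ orbs H T → V.v (τ : E) = 1 := by
    intro V hV
    rw [hv, Finset.prod_eq_one, one_pow]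
    intro W hW
    have : ¬ Same H W V := fun h => hV ⟨W, hW, h⟩
    simp [bas, this]
  refine ⟨(M : E) * τ, (L H).mul_mem (natCast_mem _ M) hτ1,
    mul_ne_zero (by exact_mod_cast hM) τ.ne_zero, fun W => ?_⟩
  rw [map_mul]
  by_cases hW : W ∈ orbs H T
  · simp only [hW, or_true, iff_true]
    exact mul_lt_one_of_nonneg_of_lt_one_right (W.v_natCast_le_one M) (by simp) (h1 W hW)
  · rw [h2 W hW, mul_one]
    simp [hW]

theorem key_not_dvd {W : Pl E} {l M : ℕ} (hlM : l ^ 3 ∣ M) (hW : ¬ W.v (M : E) < 1) :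
    ¬ W.p ∣ l := fun h =>
  hW (W.v_natCast_lt_one_iff.2 (h.trans ((dvd_pow_self l (by norm_num)).trans hlM)))

theorem key_v_root {W : Pl E} {l : ℕ} (hl : l ≠ 0) {ρ : E} (h : W.v (ρ ^ l) = 1) : W.v ρ = 1 := by
  rw [map_pow] at h
  exact (pow_eq_one_iff_of_nonneg (by simp) hl).1 h

/-- the places dividing `M` split. -/
theorem key_split {H : Subgroup Gal(E/F)} {l : ℕ} (hl : l ≠ 0) (hμ : H ≤ FixMu F E l) {M : ℕ}
    (hlM : l ^ 3 ∣ M) {b : Eˣ} (hb' : b ∈ Pw (LU H) l ⊔ rayU H (M : E)) {W : Pl E}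
    (hW : W.v (M : E) < 1) : Dec F W ⊓ H ≤ H ⊓ stab F (rt l (b : E)) := by
  obtain ⟨_, ⟨c, hc, rfl⟩, r, hr, rfl⟩ := Subgroup.mem_sup.1 hb'
  have h1 : W.v (M : E) < W.v (l : E) ^ 2 := by
    rcases (W.v_natCast_le_one l).eq_or_lt with h | h
    · rwa [h, one_pow]
    · obtain ⟨m, rfl⟩ := hlM
      have h2 : 0 < W.v (l : E) := pos_iff_ne_zero.2 ((map_ne_zero W.v).2 (by exact_mod_cast hl))
      push_cast
      rw [map_mul, map_pow]
      calc W.v (l : E) ^ 3 * W.v (m : E) ≤ W.v (l : E) ^ 3 * 1 :=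
            mul_le_mul' le_rfl (W.v_natCast_le_one m)
        _ < W.v (l : E) ^ 2 := by rw [mul_one]; exact pow_lt_pow_right_of_lt_one₀ h2 h (by norm_num)
  obtain ⟨w, hw, hw'⟩ := hensel (F := F) W hl (lt_of_le_of_lt (hr.2 W hW) h1)
  intro d hd
  refine ⟨hd.2, (fix_root_iff (ρ := (c : E) * w) hl ?_ (hμ hd.2)).1 ?_⟩
  · rw [rt_pow hl, mul_pow, hw]
    simp
  · rw [map_mul, hw' d hd.1 (mem_L.1 hr.1 d hd.2), mem_L.1 hc d hd.2]

/-- adjusting by the dual `S`-units. -/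
theorem key_adjust {H : Subgroup Gal(E/F)} (hH : IsOpen (H : Set Gal(E/F))) {l : ℕ}
    (hl : l.Prime) (T : Finset (Pl E)) {S : Set (Pl E)}
    (hdual : ∀ W ∈ T, ∃ u ∈ SU H S, frob H W (rt l (u : E)) ≠ rt l (u : E) ∧
        ∀ W' ∈ T, W' ≠ W → frob H W' (rt l (u : E)) = rt l (u : E))
    {x : Eˣ} (hx : x ∈ LU H) : ∃ u ∈ SU H S, ∃ ρ : Eˣ, ρ ^ l = x * u ∧
      ∀ W ∈ T, frob H W (ρ : E) = ρ := by
  have : Fact l.Prime := ⟨hl⟩
  have hl0 := hl.ne_zero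
  choose! u hu hu1 hu2 using hdual
  have hfix : ∀ (W : Pl E) {y : Eˣ}, y ∈ LU H →
      frob H W (rt l (y : E) ^ l) = rt l (y : E) ^ l := fun W y hy => by
    rw [rt_pow hl0]; exact mem_L.1 hy _ (frob_spec hH W).1
  set c : Pl E → ℕ := fun W =>
    (-kum l (rt l (x : E)) (frob H W) / kum l (rt l (u W : E)) (frob H W)).val with hc
  have hne : ∀ y : Eˣ, rt l (y : E) ≠ 0 := fun y => rt_ne_zero hl0 y.ne_zero
  have hP : ∏ W ∈ T, rt l (u W : E) ^ c W ≠ 0 :=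
    Finset.prod_ne_zero_iff.2 fun W _ => pow_ne_zero _ (hne _)
  have hpow : (rt l (x : E) * ∏ W ∈ T, rt l (u W : E) ^ c W) ^ l =
      ((x * ∏ W ∈ T, u W ^ c W : Eˣ) : E) := by
    rw [mul_pow, rt_pow hl0, ← Finset.prod_pow]
    push_cast
    congr 1
    exact Finset.prod_congr rfl fun W _ => by rw [← pow_mul, mul_comm, pow_mul, rt_pow hl0]
  have hU : ∏ W ∈ T, u W ^ c W ∈ SU H S :=
    Subgroup.prod_mem _ fun W hW => Subgroup.pow_mem _ (hu W hW) _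
  refine ⟨_, hU, Units.mk0 _ (mul_ne_zero (hne x) hP), Units.ext (by simpa using hpow),
    fun W hW => ?_⟩
  have h1 : ∀ V ∈ T, frob H W ((rt l (u V : E) ^ c V) ^ l) = (rt l (u V : E) ^ c V) ^ l := by
    intro V hV
    rw [← pow_mul, mul_comm, pow_mul, map_pow, hfix W (hu V hV).1]
  rw [Units.val_mk0, ← kum_eq_zero_iff hl0 (mul_ne_zero (hne x) hP)
    (by rw [hpow]; exact mem_L.1 ((LU H).mul_mem hx hU.1) _ (frob_spec hH W).1),
    kum_mul_left hl0 (hne x) hP (hfix W hx)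
      (by rw [← Finset.prod_pow, map_prod]; exact Finset.prod_congr rfl h1),
    kum_prod_left hl0 T (fun V _ => pow_ne_zero _ (hne _)) h1, Finset.sum_eq_single W]
  · have h2 : kum l (rt l (u W : E)) (frob H W) ≠ 0 := fun h =>
      hu1 W hW ((kum_eq_zero_iff hl0 (hne _) (hfix W (hu W hW).1)).1 h)
    rw [kum_pow_left hl0 (hne _) (hfix W (hu W hW).1), hc]
    simp only [ZMod.natCast_val, ZMod.cast_id', id_eq]
    rw [div_mul_cancel₀ _ h2, add_neg_cancel]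
  · intro V hV hVW
    rw [kum_pow_left hl0 (hne _) (hfix W (hu V hV).1),
      (kum_eq_zero_iff hl0 (hne _) (hfix W (hu V hV).1)).2 (hu2 V hV W hW hVW.symm), mul_zero]
  · exact fun h => absurd hW h

theorem key_lemma {H : Subgroup Gal(E/F)} (hH : IsOpen (H : Set Gal(E/F))) (hi : HasI H) {l : ℕ}
    (hl : l.Prime) (hl2 : l ≠ 2) (hμ : H ≤ FixMu F E l) {M : ℕ} (hM : M ≠ 0) (hlM : l ^ 3 ∣ M)
    (hgen : ∀ a ∈ DivP H 1, ∃ x ∈ LU H, ∀ W : Pl E, ¬ W.v (M : E) < 1 → dv x W = a W)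
    (T : Finset (Pl E)) (hT : ∀ W ∈ T, ¬ W.v (M : E) < 1)
    (hT' : ∀ W ∈ T, ∀ W' ∈ T, Same H W W' → W = W')
    (hdual : ∀ W ∈ T, ∃ u ∈ SU H {W : Pl E | W.v (M : E) < 1},
      frob H W (rt l (u : E)) ≠ rt l (u : E) ∧
        ∀ W' ∈ T, W' ≠ W → frob H W' (rt l (u : E)) = rt l (u : E))
    {b : Eˣ} (hb : b ∈ SU H ({W : Pl E | W.v (M : E) < 1} ∪ orbs H T))
    (hb' : b ∈ Pw (LU H) l ⊔ rayU H (M : E)) : b ∈ Pw (LU H) l := by
  have _ := hl2
  have _ := hT'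
  have hl0 := hl.ne_zero
  by_contra hcon
  set β := rt l (b : E) with hβ
  have hβl : β ^ l = b := rt_pow hl0 _
  have hβL : β ^ l ∈ L H := hβl ▸ hb.1
  obtain ⟨σ, hσ, hσβ⟩ : ∃ σ ∈ H, σ β ≠ β := by
    by_contra h
    push Not at h
    exact hcon ⟨Units.mk0 β (rt_ne_zero hl0 b.ne_zero), mem_L.2 h, Units.ext (by simpa using hβl)⟩
  have hc := cycExt_stab hH hl hμ hβL hσ hσβ
  have hc' : ∀ g ∈ H, g ∉ H ⊓ stab F β → CycExt H (H ⊓ stab F β) g l := fun g hg hg' =>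
    cycExt_stab hH hl hμ hβL hg fun h => hg' ⟨hg, h⟩
  obtain ⟨π, hπ, hπ0, hπv⟩ := key_pi hH hM T
  have hun : Unram H (H ⊓ stab F β) π := by
    intro W hW τ hτ
    rw [hπv, not_or] at hW
    refine ⟨hτ.2, Ine_fix_of_pow (key_not_dvd hlM hW.1) hτ.1 (key_v_root hl0 ?_)
      (mem_L.1 hβL τ hτ.2)⟩
    rw [hβl]
    exact hb.2 W fun h => h.elim hW.1 hW.2
  obtain ⟨N, hN, hidx⟩ := fi hc hi hπ hπ0 hun
  have hπN : π ^ N ∈ L H := pow_mem hπ N
  have hπv' : ∀ W : Pl E, W.v (π ^ N) < 1 ↔ W.v (M : E) < 1 ∨ W ∈ orbs H T := fun W => by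
    rw [← hπv, map_pow, pow_lt_one_iff_of_nonneg (by simp) hN]
  have hML : (M : E) ∈ L H := natCast_mem _ M
  suffices h : nIdx H (H ⊓ stab F β) (π ^ N) = 1 by
    rw [h] at hidx
    exact absurd hl.two_le (by omega)
  rw [nIdx, Subgroup.relIndex_eq_one]
  intro a ha
  obtain ⟨x₀, hx₀, hx₀'⟩ := hgen a (DivP_le_one ha)
  obtain ⟨u, hu, ρ, hρ, hρ'⟩ := key_adjust hH hl T hdual hx₀
  set x := x₀ * u with hx
  have hx1 : x ∈ LU H := (LU H).mul_mem hx₀ hu.1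
  have hx2 : ∀ W : Pl E, ¬ W.v (M : E) < 1 → dv x W = a W := fun W hW => by
    rw [hx, map_mul, Dv.mul_apply, hx₀' W hW, mul_eq_left]
    exact Units.ext (hu.2 W hW)
  have hρL : ∀ g ∈ H, g ((ρ : E) ^ l) = (ρ : E) ^ l := fun g hg => by
    rw [← Units.val_pow_eq_pow_val, hρ]; exact mem_L.1 hx1 g hg
  have hT1 : ∀ W ∈ T, Dec F W ⊓ H ≤ stab F (ρ : E) := by
    intro W hW
    refine (frob_spec hH W).dec_le hH (isOpen_stab _) (hρ' W hW) fun τ hτ => ?_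
    refine Ine_fix_of_pow (key_not_dvd hlM (hT W hW)) hτ.1 (key_v_root hl0 ?_) (hρL τ hτ.2)
    have h1 := hx2 W (hT W hW)
    rw [divb_eq_one hπN ha ((hπv' W).2 (Or.inr ⟨W, hW, Same.refl H W⟩))] at h1
    rw [← Units.val_pow_eq_pow_val, hρ]
    exact congrArg Units.val h1
  have hloc : ∀ W : Pl E, W.v (π ^ N) < 1 →
      Dec F W ⊓ H ≤ H ⊓ stab F β ∨ Dec F W ⊓ H ≤ stab F (ρ : E) := by
    intro W hW
    rcases (hπv' W).1 hW with h | ⟨W₀, hW₀, g, hg, rfl⟩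
    · exact Or.inl (key_split hl0 hμ hlM hb' h)
    · refine Or.inr fun d hd => ?_
      have h1 : (g⁻¹ * d * g) (ρ : E) = ρ := hT1 W₀ hW₀
        ⟨mem_Dec_smul.1 hd.1, H.mul_mem (H.mul_mem (H.inv_mem hg) hd.2) hg⟩
      refine (fix_root_iff (ρ := g (ρ : E)) hl0 ?_ (hμ hd.2)).1 ?_
      · rw [← map_pow, hρL g hg]
      · have := congrArg g h1
        simpa using this
  obtain ⟨z, hz, hz'⟩ := key_norm hc hc' hπN (pow_ne_zero N hπ0) hx1 hρ hloc
  have hri : (H ⊓ stab F β).relIndex H ≠ 0 := hc.idx ▸ hl0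
  have e1 : a = cut (π ^ N) (dv x) := by
    ext1 W
    rw [cut_apply]
    split_ifs with h
    · exact divb_eq_one hπN ha h
    · exact (hx2 W fun h' => h ((hπv' W).2 (Or.inl h'))).symm
  have hray : dv (x / nm Eˣ H (H ⊓ stab F β) z) ∈ Ray H (π ^ N) := ⟨_, hz', rfl⟩
  have e2 : a = dv (x / nm Eˣ H (H ⊓ stab F β) z) *
      nm (Dv E) H (H ⊓ stab F β) (cut (π ^ N) (dv z)) := by
    rw [← cut_nm hri hπN, ← dv_nm hri, ← cut_of_mem_DivP hπN (Ray_le_DivP hH hπN hray),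
      ← map_mul, ← map_mul, div_mul_cancel, ← e1]
  rw [e2]
  exact Subgroup.mul_mem_sup hray ⟨_, cut_mem_DivP hc.isOpen (L_anti hc.le hπN)
    (dv_mem_DivP_one hc.isOpen hz), rfl⟩

end Crest.Agent.R018
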