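import Crest.Agent.R018.FDT
import Crest.Agent.R018.H90

/-!
# R018 / KeyT

Choice of the auxiliary places `T`.  `X / X^l` is a finite `ZMod l`-vector space; extend the (nonzero) class of `a` to a basis `u_0 = a, u_1, …, u_t`.
`h ↦ (kum l (rt l u_j) h)_j` is a homomorphism `H → (ZMod l)^{t+1}`, onto: otherwise a nonzero linear form `c` kills the image, so `∏ (rt l u_j)^{c_j}` is fixed
by `H`, so `∏ u_j^{c_j} ∈ X^l` by saturation.  Pick `g_i ↦ e_i` (`i ≥ 1`) and `W_i` by `fdt'` with `U' = H ⊓ ⨅ stab (rt l u_j)`, with new residue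
characteristics each time.  `frob H W_i` moves `rt l u_i` by `IsFrob.dec_le`.
-/

set_option autoImplicit false
set_option linter.unusedSectionVars false

noncomputable section

namespace Crest.Agent.R018

open scoped NNReal Classical

variable {F E : Type*} [Field F] [NumberField F] [Field E] [CharZero E] [Algebra F E]
  [IsGalois F E] [RadCl E]

/-- linear algebra: dual family adapted to a vector. -/
theorem keyT_lin {k V : Type*} [Field k] [AddCommGroup V] [Module k V] [FiniteDimensional k V]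
    (φ : Module.Dual k V) {a : V} (ha : φ a ≠ 0) :
    ∃ t : ℕ, Module.finrank k V = t + 1 ∧ ∃ e : Fin t → V, ∃ f : Fin t → Module.Dual k V,
      (∀ i, f i a = 0) ∧ (∀ i, f i (e i) ≠ 0) ∧ ∀ i j, i ≠ j → f i (e j) = 0 := by
  have hφ : φ ≠ 0 := fun h => ha (by rw [h]; rfl)
  have hr := Module.Dual.finrank_ker_add_one_of_ne_zero hφ
  let b := Module.finBasis k (LinearMap.ker φ)
  let π : V →ₗ[k] LinearMap.ker φ :=
    LinearMap.codRestrict _ (LinearMap.id - ((φ a)⁻¹ • φ).smulRight a) (fun v => by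
      simp only [LinearMap.mem_ker, LinearMap.sub_apply, LinearMap.id_apply,
        LinearMap.smulRight_apply, LinearMap.smul_apply, map_sub, map_smul, smul_eq_mul]
      field_simp
      ring)
  have hπa : π a = 0 := by
    apply Subtype.ext
    change a - ((φ a)⁻¹ • φ) a • a = 0
    rw [LinearMap.smul_apply, smul_eq_mul, inv_mul_cancel₀ ha, one_smul, sub_self]
  have hπ : ∀ v : LinearMap.ker φ, π v = v := by
    intro v
    apply Subtype.ext
    change (v : V) - ((φ a)⁻¹ • φ) v • a = v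
    rw [LinearMap.smul_apply, LinearMap.mem_ker.1 v.2, smul_zero, zero_smul, sub_zero]
  refine ⟨_, hr.symm, fun i => b i, fun i => b.coord i ∘ₗ π, fun i => ?_, fun i => ?_,
    fun i j hij => ?_⟩
  · rw [LinearMap.comp_apply, hπa, map_zero]
  · rw [LinearMap.comp_apply, hπ]
    simp
  · rw [LinearMap.comp_apply, hπ]
    simp [hij.symm]

/-- duality for a finite elementary abelian group. -/
theorem keyT_add {V Γ : Type*} [AddCommGroup V] [Finite V] [Group Γ] {l : ℕ} [Fact l.Prime]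
    [Module (ZMod l) V] (χ : Γ → V →+ ZMod l) (h2 : ∀ g h, χ (g * h) = χ g + χ h)
    (h3 : ∀ v, (∀ g, χ g v = 0) → v = 0) {a : V} {σ : Γ} (hb : χ σ a ≠ 0) :
    ∃ t : ℕ, l ^ (t + 1) = Nat.card V ∧ ∃ e : Fin t → V, ∃ g : Fin t → Γ,
      (∀ i, χ (g i) a = 0) ∧ (∀ i, χ (g i) (e i) ≠ 0) ∧ ∀ i j, i ≠ j → χ (g i) (e j) = 0 := by
  have : Module.Finite (ZMod l) V := Module.Finite.of_finite
  let Φ : Additive Γ →+ Module.Dual (ZMod l) V :=
    AddMonoidHom.mk' (fun g => (χ (Additive.toMul g)).toZModLinearMap l) (fun g h => by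
      refine LinearMap.ext fun q => ?_
      rw [toMul_add, h2]
      simp)
  let R : Submodule (ZMod l) (Module.Dual (ZMod l) V) := AddSubgroup.toZModSubmodule l Φ.range
  have hR : R = ⊤ := by
    suffices h : R.dualCoannihilator = ⊥ by
      rw [← Subspace.dualCoannihilator_dualAnnihilator_eq (W := R), h, Submodule.dualAnnihilator_bot]
    rw [eq_bot_iff]
    intro q hq
    rw [Submodule.mem_dualCoannihilator] at hq
    rw [Submodule.mem_bot]
    exact h3 q fun g => hq (Φ (Additive.ofMul g)) ⟨Additive.ofMul g, rfl⟩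
  obtain ⟨t, ht, e, f, hf1, hf2, hf3⟩ := keyT_lin (Φ (Additive.ofMul σ)) (a := a) hb
  have hf : ∀ i, ∃ g : Γ, ∀ v, χ g v = f i v := by
    intro i
    have : f i ∈ R := by rw [hR]; trivial
    obtain ⟨g, hg⟩ := this
    exact ⟨Additive.toMul g, fun v => by rw [← hg]; rfl⟩
  choose g hg using hf
  refine ⟨t, ?_, e, g, fun i => ?_, fun i => ?_, fun i j hij => ?_⟩
  · have h4 := Module.natCard_eq_pow_finrank (K := ZMod l) (V := V)
    rw [ht, Nat.card_zmod] at h4
    exact h4.symm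
  · rw [hg, hf1]
  · rw [hg]; exact hf2 i
  · rw [hg]; exact hf3 i j hij

/-- abstract Kummer duality. -/
theorem keyT_abs {M Γ : Type*} [CommGroup M] [Group Γ] {l : ℕ} (hl : l.Prime) (X : Subgroup M)
    (H : Subgroup Γ) (b : Γ → M → ZMod l)
    (h1 : ∀ g ∈ H, ∀ u ∈ X, ∀ v ∈ X, b g (u * v) = b g u + b g v)
    (h2 : ∀ g ∈ H, ∀ h ∈ H, ∀ u ∈ X, b (g * h) u = b g u + b h u)
    (h3 : ∀ u ∈ X, (∀ g ∈ H, b g u = 0) → u ∈ Pw X l)
    (hi : (Pw X l).relIndex X ≠ 0) {a : M} (ha : a ∈ X) {σ : Γ} (hσ : σ ∈ H) (hb : b σ a ≠ 0) :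
    ∃ t : ℕ, l ^ (t + 1) = (Pw X l).relIndex X ∧ ∃ u : Fin t → M, ∃ g : Fin t → Γ,
      (∀ i, u i ∈ X) ∧ (∀ i, g i ∈ H) ∧ (∀ i, b (g i) a = 0) ∧ (∀ i, b (g i) (u i) ≠ 0) ∧
      ∀ i j, i ≠ j → b (g i) (u j) = 0 := by
  have hfin : Finite (X ⧸ (Pw X l).subgroupOf X) := Nat.finite_of_card_ne_zero hi
  have hsurj : ∀ q : Additive (X ⧸ (Pw X l).subgroupOf X), ∃ x : X,
      Additive.ofMul (QuotientGroup.mk x : X ⧸ (Pw X l).subgroupOf X) = q := fun q =>
    QuotientGroup.mk_surjective (Additive.toMul q)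
  have hQ : ∀ q : Additive (X ⧸ (Pw X l).subgroupOf X), l • q = 0 := by
    intro q
    obtain ⟨x, rfl⟩ := hsurj q
    rw [← ofMul_pow, ← QuotientGroup.mk_pow, ofMul_eq_zero, QuotientGroup.eq_one_iff]
    exact ⟨x, x.2, rfl⟩
  -- the characters
  let χ0 : H → (X →* Multiplicative (ZMod l)) := fun g =>
    MonoidHom.mk' (fun u => Multiplicative.ofAdd (b g u)) (fun u v => by
      rw [← ofAdd_add, ← h1 g g.2 u u.2 v v.2]; rfl)
  have hχ0 : ∀ g : H, (Pw X l).subgroupOf X ≤ (χ0 g).ker := by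
    rintro g x ⟨y, hy, hxy⟩
    have e : x = (⟨y, hy⟩ : X) ^ l := Subtype.ext hxy.symm
    rw [MonoidHom.mem_ker, e, map_pow]
    apply Multiplicative.toAdd.injective
    rw [toAdd_pow, nsmul_eq_mul, ZMod.natCast_self, zero_mul, toAdd_one]
  let χ : H → Additive (X ⧸ (Pw X l).subgroupOf X) →+ ZMod l := fun g =>
    MonoidHom.toAdditiveLeft (QuotientGroup.lift _ (χ0 g) (hχ0 g))
  have hχ : ∀ (g : H) (x : X),
      χ g (Additive.ofMul (QuotientGroup.mk x : X ⧸ (Pw X l).subgroupOf X)) = b g x :=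
    fun g x => rfl
  have : Fact l.Prime := ⟨hl⟩
  obtain ⟨t, ht, e, g, hf1, hf2, hf3⟩ := @keyT_add _ _ _ _ _ _ _ (AddCommGroup.zmodModule hQ) χ
    (fun g h => by
      refine AddMonoidHom.ext fun q => ?_
      obtain ⟨x, rfl⟩ := hsurj q
      rw [AddMonoidHom.add_apply, hχ, hχ, hχ]
      exact h2 _ g.2 _ h.2 x x.2) (fun q hq => by
      obtain ⟨x, rfl⟩ := hsurj q
      rw [ofMul_eq_zero, QuotientGroup.eq_one_iff]
      exact h3 x x.2 fun g hg => hq ⟨g, hg⟩)
    (Additive.ofMul (QuotientGroup.mk ⟨a, ha⟩)) ⟨σ, hσ⟩ hb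
  choose x hx using fun i => hsurj (e i)
  refine ⟨t, ht, fun i => x i, fun i => g i, fun i => (x i).2, fun i => (g i).2, hf1,
    fun i => ?_, fun i j hij => ?_⟩
  · rw [← hχ, hx]; exact hf2 i
  · rw [← hχ, hx]; exact hf3 i j hij

/-- choice of places with distinct residue characteristics. -/
theorem keyT_choose {α : Type*} (p : α → ℕ) {t : ℕ} (P : Fin t → α → Prop)
    (h : ∀ i, ∀ B : Finset ℕ, ∃ W, p W ∉ B ∧ P i W) (B : Finset ℕ) :
    ∃ W : Fin t → α, (∀ i, p (W i) ∉ B ∧ P i (W i)) ∧ Function.Injective fun i => p (W i) := by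
  induction t with
  | zero => exact ⟨Fin.elim0, fun i => i.elim0, fun i => i.elim0⟩
  | succ t ih =>
    obtain ⟨W, hW, hinj⟩ := ih (fun i => P i.succ) (fun i => h i.succ)
    obtain ⟨W0, h0, h0'⟩ := h 0 (B ∪ Finset.univ.image fun i => p (W i))
    simp only [Finset.mem_union, Finset.mem_image, Finset.mem_univ, true_and, not_or,
      not_exists] at h0
    refine ⟨Fin.cons W0 W, fun i => ?_, fun i j hij => ?_⟩
    · refine Fin.cases ?_ (fun i => ?_) i
      · exact ⟨h0.1, h0'⟩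
      · exact hW i
    · induction i using Fin.cases with
      | zero =>
        induction j using Fin.cases with
        | zero => rfl
        | succ j => exact absurd (Eq.symm hij) (h0.2 j)
      | succ i =>
        induction j using Fin.cases with
        | zero => exact absurd hij (h0.2 i)
        | succ j => exact congrArg Fin.succ (hinj hij)

theorem exists_keyT {H : Subgroup Gal(E/F)} (hH : IsOpen (H : Set Gal(E/F))) {l : ℕ} (hl : l.Prime)
    (hμ : H ≤ FixMu F E l) (X : Subgroup Eˣ) (hX : X ≤ LU H)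
    (hsat : ∀ w ∈ LU H, w ^ l ∈ X → w ∈ X) (hi : (Pw X l).relIndex X ≠ 0) {a : Eˣ} (ha : a ∈ X)
    {σ : Gal(E/F)} (hσ : σ ∈ H) (hmove : σ (rt l (a : E)) ≠ rt l (a : E)) (B : Finset ℕ) :
    ∃ T : Finset (Pl E), l ^ (T.card + 1) = (Pw X l).relIndex X ∧ (∀ W ∈ T, W.p ∉ B) ∧
      (∀ W ∈ T, ∀ W' ∈ T, W.p = W'.p → W = W') ∧ (∀ W ∈ T, Dec F W ⊓ H ≤ stab F (rt l (a : E))) ∧
      ∀ W ∈ T, ∃ u ∈ X, frob H W (rt l (u : E)) ≠ rt l (u : E) ∧
        ∀ W' ∈ T, W' ≠ W → frob H W' (rt l (u : E)) = rt l (u : E) := by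
  have hl0 := hl.ne_zero
  have hr0 : ∀ u : Eˣ, rt l (u : E) ≠ 0 := fun u => rt_ne_zero hl0 u.ne_zero
  have hfix : ∀ g ∈ H, ∀ u ∈ X, g (rt l (u : E) ^ l) = rt l (u : E) ^ l := by
    intro g hg u hu
    rw [rt_pow hl0]
    exact mem_L.1 (hX hu) g hg
  have hz : ∀ g ∈ H, ∀ u ∈ X, kum l (rt l (u : E)) g = 0 ↔ g (rt l (u : E)) = rt l (u : E) :=
    fun g hg u hu => kum_eq_zero_iff hl0 (hr0 u) (hfix g hg u hu)
  obtain ⟨t, ht, u, g, hu, hg, h1, h2, h3⟩ := keyT_abs hl X H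
    (fun g u => kum l (rt l (u : E)) g) (fun g hg u hu v hv => by
      rw [← kum_mul_left hl0 (hr0 u) (hr0 v) (hfix g hg u hu) (hfix g hg v hv)]
      refine kum_root_indep hl0 (hr0 _) ?_ (hμ hg) (hfix g hg _ (X.mul_mem hu hv))
      rw [mul_pow, rt_pow hl0, rt_pow hl0, rt_pow hl0, Units.val_mul])
    (fun g hg h hh u hu => (chom_kum hl0 (hr0 u) hμ (by rw [rt_pow hl0]; exact hX hu)).1 g hg h hh)
    (fun u hu h => by
      have hw : Units.mk0 _ (hr0 u) ∈ LU H := mem_L.2 fun g hg => (hz g hg u hu).1 (h g hg)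
      have e : Units.mk0 _ (hr0 u) ^ l = u := Units.ext (by
        rw [Units.val_pow_eq_pow_val, Units.val_mk0, rt_pow hl0])
      exact ⟨_, hsat _ hw (by rw [e]; exact hu), e⟩)
    hi ha hσ (fun h => hmove ((hz σ hσ a ha).1 h))
  let U' : Subgroup Gal(E/F) := (H ⊓ stab F (rt l (a : E))) ⊓ ⨅ j, stab F (rt l (u j : E))
  have hU' : IsOpen (U' : Set Gal(E/F)) := by
    refine isOpen_inf (isOpen_inf hH (isOpen_stab _)) ?_
    rw [Subgroup.coe_iInf]
    exact isOpen_iInter_of_finite fun j => isOpen_stab _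
  have hUH : U' ≤ H := fun x hx => hx.1.1
  have hUa : U' ≤ stab F (rt l (a : E)) := fun x hx => hx.1.2
  have hUu : ∀ j, U' ≤ stab F (rt l (u j : E)) := fun j x hx => Subgroup.mem_iInf.1 hx.2 j
  obtain ⟨W, hW, hinj⟩ := keyT_choose (fun W : Pl E => W.p)
    (fun i W => Ine F W ≤ U' ∧ (∀ d ∈ Dec F W, ∃ k : ℕ, (g i ^ k)⁻¹ * d ∈ U') ∧
      ∃ δ ∈ Dec F W, (g i)⁻¹ * δ ∈ U') (fun i B => fdt' hU' (g i) B) B
  have hWinj : Function.Injective W := fun i j h => hinj (by simp only [h])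
  have hdec : ∀ i, ∀ S : Subgroup Gal(E/F), U' ≤ S → g i ∈ S → Dec F (W i) ≤ S := by
    intro i S hS hgS d hd
    obtain ⟨k, hk⟩ := (hW i).2.2.1 d hd
    have := S.mul_mem (S.pow_mem hgS k) (hS hk)
    rwa [mul_inv_cancel_left] at this
  refine ⟨Finset.univ.image W, ?_, ?_, ?_, ?_, ?_⟩
  · rw [Finset.card_image_of_injective _ hWinj, Finset.card_univ, Fintype.card_fin, ht]
  · intro V hV
    obtain ⟨i, -, rfl⟩ := Finset.mem_image.1 hV
    exact (hW i).1
  · intro V hV V' hV' h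
    obtain ⟨i, -, rfl⟩ := Finset.mem_image.1 hV
    obtain ⟨j, -, rfl⟩ := Finset.mem_image.1 hV'
    rw [hinj h]
  · intro V hV
    obtain ⟨i, -, rfl⟩ := Finset.mem_image.1 hV
    exact inf_le_left.trans (hdec i _ hUa ((hz _ (hg i) a ha).1 (h1 i)))
  · intro V hV
    obtain ⟨i, -, rfl⟩ := Finset.mem_image.1 hV
    refine ⟨u i, hu i, fun h => ?_, fun V' hV' hne => ?_⟩
    · have hle := (frob_spec hH (W i)).dec_le hH (isOpen_stab (rt l (u i : E))) h
        (inf_le_left.trans ((hW i).2.1.trans (hUu i)))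
      obtain ⟨δ, hδ, hδ'⟩ := (hW i).2.2.2
      have hδH : δ ∈ H := by
        have := H.mul_mem (hg i) (hUH hδ')
        rwa [mul_inv_cancel_left] at this
      have h4 := (stab F (rt l (u i : E))).mul_mem (hle ⟨hδ, hδH⟩)
        ((stab F (rt l (u i : E))).inv_mem (hUu i hδ'))
      rw [mul_inv_rev, inv_inv, mul_inv_cancel_left] at h4
      exact h2 i ((hz _ (hg i) _ (hu i)).2 h4)
    · obtain ⟨j, -, rfl⟩ := Finset.mem_image.1 hV'
      have hji : j ≠ i := fun h => hne (by rw [h])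
      exact hdec j _ (hUu i) ((hz _ (hg j) _ (hu i)).1 (h3 j i hji)) (frob_spec hH (W j)).2.1

end Crest.Agent.R018
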