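import Crest.Agent.R018.W0
import Crest.Agent.R018.Apx
import Crest.Agent.R018.Plog

/-!
# R018 / Llog

Local logarithm at a place `V ∣ l` on elements fixed by `Dec V`.  By `dense` (with `H = ⊤`, `L ⊤ = ℚ`) every `x ∈ L (Dec V)` with `V.v x ≤ 1` is congruent mod `l^k` to a unique
`c_k ∈ ZMod (l^k)`; `exists_padic_of_compat` gives a ring homomorphism-like map `e` to `ℤ_[l]`; `lg = plog l ∘ e` (`plog_spec`, `zmod_eq_one_of_pow_sub_one`).
`w0_log`: if `B ≠ 0` take `c0` with `B c0` of minimal valuation, so `lg (α c0 i) = ∑_{c ≠ c0} b c * lg (α c i)`, `b c ∈ ℤ_[l]`; approximate `b c` by naturals mod `l^K`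
(`PadicInt.appr`), then `α c0 i / ∏ α c i ^ n_c ≡ 1 mod l^{K+1}`, contradicting `w0`.
`lin_rep`: the image of `R` in `(ZMod (l^N))^Σ` is everything, so `μ mod l^k` is a linear form `b^{(k)}` in the `Lg σ`; the `b^{(k)}` are unique, hence compatible.
-/

set_option autoImplicit false
set_option linter.unusedSectionVars false

noncomputable section

namespace Crest.Agent.R018

open scoped NNReal Classical

variable {Ω : Type*} [Field Ω] [CharZero Ω] [IsAlgClosed Ω] [IsGalois ℚ Ω]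

/-- specification of the local logarithm. -/
def LlogSpec (V : Pl Ω) (l : ℕ) [Fact l.Prime] (lg : Ω → ℤ_[l]) : Prop :=
  (∀ x ∈ L (Dec ℚ V), ∀ y ∈ L (Dec ℚ V), V.v (x - 1) ≤ V.v (l : Ω) → V.v (y - 1) ≤ V.v (l : Ω) →
    lg (x * y) = lg x + lg y) ∧
  (∀ x ∈ L (Dec ℚ V), V.v (x - 1) ≤ V.v (l : Ω) → ∀ k : ℕ,
    (PadicInt.toZModPow k (lg x) = 0 ↔ V.v (x - 1) ≤ V.v (l : Ω) ^ (k + 1))) ∧
  IsUnit (lg (1 + l))

theorem llog_v_int (V : Pl Ω) (k : ℕ) (n : ℤ) :
    V.v (n : Ω) ≤ V.v (V.p : Ω) ^ k ↔ ((V.p ^ k : ℕ) : ℤ) ∣ n := by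
  constructor
  · induction k generalizing n with
    | zero => intro _; simp
    | succ k ih =>
      intro h
      have h1 : V.v (n : Ω) < 1 :=
        h.trans_lt (pow_lt_one₀ (zero_le) V.v_p_lt_one (Nat.succ_ne_zero k))
      have h2 : V.p ∣ n.natAbs := by
        rw [← V.v_natCast_lt_one_iff]
        obtain ⟨m, rfl | rfl⟩ := n.eq_nat_or_neg <;> simpa using h1
      obtain ⟨m, rfl⟩ := Int.natCast_dvd.2 h2
      push_cast at h
      rw [map_mul, pow_succ'] at h
      have h3 := ih m (le_of_mul_le_mul_left h V.v_p_pos)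
      rw [pow_succ']; push_cast at h3 ⊢
      exact mul_dvd_mul_left _ h3
  · rintro ⟨m, rfl⟩
    push_cast
    rw [map_mul, map_pow]
    exact mul_le_of_le_one_right' (V.v_intCast_le_one m)

theorem llog_exists_int (V : Pl Ω) {x : Ω} (hx : x ∈ L (Dec ℚ V)) (h1 : V.v x ≤ 1) (k : ℕ) :
    ∃ n : ℤ, V.v (x - n) ≤ V.v (V.p : Ω) ^ k := by
  have hπ : V.v (V.p : Ω) ^ k ≤ 1 := pow_le_one₀ (zero_le) V.v_p_lt_one.le
  obtain ⟨y, hy, -, hyx⟩ := dense (F := ℚ) (H := ⊤) (by simp) V (x := x) (by simpa using hx)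
    (pow_pos V.v_p_pos k)
  obtain ⟨q, rfl⟩ := mem_L_top.1 hy
  have hq : algebraMap ℚ Ω q * (q.den : Ω) = (q.num : Ω) := by
    rw [← map_natCast (algebraMap ℚ Ω), ← map_mul, Rat.mul_den_eq_num, map_intCast]
  have hy1 : V.v (algebraMap ℚ Ω q) ≤ 1 := by
    have e : algebraMap ℚ Ω q = (algebraMap ℚ Ω q - x) + x := by ring
    rw [e]
    exact (V.v.map_add _ _).trans (max_le (hyx.le.trans hπ) h1)
  have hden : ¬ V.p ∣ q.den := by
    intro hd
    have h2 : V.v (q.num : Ω) < 1 := by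
      rw [← hq, map_mul]
      exact mul_lt_one_of_nonneg_of_lt_one_right hy1 (zero_le) (V.v_natCast_lt_one_iff.2 hd)
    have h3 : V.p ∣ q.num.natAbs := by
      rw [← V.v_natCast_lt_one_iff]
      obtain ⟨m, hm | hm⟩ := q.num.eq_nat_or_neg <;> rw [hm] at h2 ⊢ <;> simpa using h2
    exact V.hp.one_lt.ne' (Nat.eq_one_of_dvd_coprimes q.reduced h3 hd)
  have hc : Nat.Coprime (V.p ^ k) q.den :=
    Nat.Coprime.pow_left k ((Nat.Prime.coprime_iff_not_dvd V.hp).2 hden)
  obtain ⟨a, b, hab⟩ := Nat.isCoprime_iff_coprime.2 hc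
  have hab' : (a : Ω) * (V.p : Ω) ^ k + (b : Ω) * (q.den : Ω) = 1 := by
    exact_mod_cast congrArg (Int.cast : ℤ → Ω) hab
  refine ⟨b * q.num, ?_⟩
  have e : x - ((b * q.num : ℤ) : Ω) =
      -(algebraMap ℚ Ω q - x) + algebraMap ℚ Ω q * a * (V.p : Ω) ^ k := by
    push_cast
    rw [← hq]
    linear_combination (-algebraMap ℚ Ω q) * hab'
  rw [e]
  refine (V.v.map_add _ _).trans (max_le (by rw [Valuation.map_neg]; exact hyx.le) ?_)
  rw [map_mul, map_mul, map_pow]
  exact mul_le_of_le_one_left' (mul_le_one' hy1 (V.v_intCast_le_one a))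

theorem llog_exists_emb {l : ℕ} [Fact l.Prime] (V : Pl Ω) (hV : V.p = l) (x : Ω) :
    ∃ u : ℤ_[l], x ∈ L (Dec ℚ V) → V.v x ≤ 1 → ∀ (k : ℕ) (n : ℤ),
      (PadicInt.toZModPow k u = n ↔ V.v (x - n) ≤ V.v (l : Ω) ^ k) := by
  subst hV
  by_cases h : x ∈ L (Dec ℚ V) ∧ V.v x ≤ 1
  swap
  · exact ⟨0, fun h1 h2 => absurd ⟨h1, h2⟩ h⟩
  choose n hn using llog_exists_int V h.1 h.2
  have key : ∀ (k : ℕ) (m : ℤ), ((n k : ℤ) : ZMod (V.p ^ k)) = m ↔
      V.v (x - m) ≤ V.v (V.p : Ω) ^ k := by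
    intro k m
    rw [ZMod.intCast_eq_intCast_iff_dvd_sub, ← llog_v_int]
    push_cast
    constructor
    · intro h1
      have e : x - m = (x - n k) - (m - n k) := by ring
      rw [e]
      exact (V.v.map_sub _ _).trans (max_le (hn k) h1)
    · intro h1
      have e : (m : Ω) - n k = (x - n k) - (x - m) := by ring
      rw [e]
      exact (V.v.map_sub _ _).trans (max_le (hn k) h1)
  obtain ⟨u, hu⟩ := exists_padic_of_compat (l := V.p) (fun k => ((n k : ℤ) : ZMod (V.p ^ k)))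
    fun k => by
      rw [map_intCast, eq_comm, key]
      exact (hn (k + 1)).trans (pow_le_pow_right_of_le_one' V.v_p_lt_one.le (Nat.le_succ k))
  exact ⟨u, fun _ _ k m => by rw [hu, key]⟩

theorem llog_v_le_one {V : Pl Ω} {x : Ω} {n : ℕ} (h : V.v (x - 1) ≤ V.v (n : Ω)) : V.v x ≤ 1 := by
  have e : x = (x - 1) + 1 := by ring
  rw [e]
  exact (V.v.map_add _ _).trans (max_le (h.trans (V.v_natCast_le_one n)) (by simp))

theorem llog_v_eq_one {V : Pl Ω} {x : Ω} (h : V.v (x - 1) ≤ V.v (V.p : Ω)) : V.v x = 1 := by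
  have e : x = 1 + (x - 1) := by ring
  rw [e, V.v.map_one_add_of_lt (h.trans_lt V.v_p_lt_one)]

/-- the principal units fixed by the decomposition group. -/
def llogU (V : Pl Ω) : Subgroup Ωˣ where
  carrier := {x | (x : Ω) ∈ L (Dec ℚ V) ∧ V.v ((x : Ω) - 1) ≤ V.v (V.p : Ω)}
  one_mem' := ⟨(L _).one_mem, by simp⟩
  mul_mem' := by
    rintro a b ⟨ha, ha'⟩ ⟨hb, hb'⟩
    refine ⟨(L _).mul_mem ha hb, ?_⟩
    have e : ((a * b : Ωˣ) : Ω) - 1 = (a : Ω) * (b - 1) + (a - 1) := by push_cast; ring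
    rw [e]
    refine (V.v.map_add _ _).trans (max_le ?_ ha')
    rw [map_mul, llog_v_eq_one ha', one_mul]; exact hb'
  inv_mem' := by
    rintro a ⟨ha, ha'⟩
    refine ⟨by rw [Units.val_inv_eq_inv_val]; exact (L _).inv_mem ha, ?_⟩
    have e : (a : Ω) * (((a⁻¹ : Ωˣ) : Ω) - 1) = -((a : Ω) - 1) := by
      rw [mul_sub, Units.mul_inv]; ring
    have := congrArg V.v e
    rw [map_mul, llog_v_eq_one ha', one_mul, Valuation.map_neg] at this
    rw [this]; exact ha'

section ahom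
variable {M A : Type*} [CommGroup M] [CommRing A] {R : Subgroup M} {f : M → A}

theorem llog_ahom_one (h : AHom R f) : f 1 = 0 := by
  have := h 1 R.one_mem 1 R.one_mem
  simpa using this

theorem llog_ahom_pow (h : AHom R f) {x : M} (hx : x ∈ R) (n : ℕ) : f (x ^ n) = n * f x := by
  induction n with
  | zero => simp [llog_ahom_one h]
  | succ n ih => rw [pow_succ, h _ (R.pow_mem hx n) _ hx, ih]; push_cast; ring

theorem llog_ahom_prod (h : AHom R f) {ι : Type*} (s : Finset ι) {x : ι → M}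
    (hx : ∀ i ∈ s, x i ∈ R) : f (∏ i ∈ s, x i) = ∑ i ∈ s, f (x i) := by
  induction s using Finset.induction_on with
  | empty => simp [llog_ahom_one h]
  | insert a s ha ih =>
    rw [Finset.prod_insert ha, Finset.sum_insert ha, h _ (hx a (by simp)) _
      (R.prod_mem fun i hi => hx i (by simp [hi])), ih fun i hi => hx i (by simp [hi])]

theorem llog_ahom_div (h : AHom R f) {x y : M} (hx : x ∈ R) (hy : y ∈ R) :
    f (x / y) = f x - f y := by
  have := h _ (R.div_mem hx hy) _ hy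
  rw [div_mul_cancel] at this
  rw [this]; ring

end ahom

theorem llog_appr {l : ℕ} [Fact l.Prime] (z : ℤ_[l]) (k : ℕ) :
    ∃ n : ℕ, PadicInt.toZModPow k (n : ℤ_[l]) = PadicInt.toZModPow k z := by
  obtain ⟨n, hn⟩ := ZMod.natCast_zmod_surjective (PadicInt.toZModPow k z)
  exact ⟨n, by rw [map_natCast]; exact hn⟩

theorem llog_zero_mono {l : ℕ} [Fact l.Prime] {z : ℤ_[l]} {k N : ℕ} (h : k ≤ N)
    (hz : PadicInt.toZModPow N z = 0) : PadicInt.toZModPow k z = 0 := by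
  rw [← PadicInt.cast_toZModPow k N h, hz, ZMod.cast_zero]

theorem llog_exists_min {l : ℕ} [Fact l.Prime] {C : Type*} (B : C → ℤ_[l]) (s : Finset C)
    (hs : s.Nonempty) : ∃ c0 ∈ s, ∀ c ∈ s, B c0 ∣ B c := by
  induction hs using Finset.Nonempty.cons_induction with
  | singleton a => exact ⟨a, by simp, by simp⟩
  | cons a s ha hs ih =>
    obtain ⟨c0, h0, h1⟩ := ih
    rcases ValuationRing.dvd_total (B a) (B c0) with h | h
    · refine ⟨a, by simp, fun c hc => ?_⟩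
      rcases Finset.mem_cons.1 hc with rfl | hc
      · exact dvd_rfl
      · exact h.trans (h1 c hc)
    · refine ⟨c0, by simp [h0], fun c hc => ?_⟩
      rcases Finset.mem_cons.1 hc with rfl | hc
      · exact h
      · exact h1 c hc

theorem exists_llog {l : ℕ} [Fact l.Prime] (hl2 : l ≠ 2) (V : Pl Ω) (hV : V.p = l) :
    ∃ lg, LlogSpec V l lg := by
  choose e he using llog_exists_emb V hV
  obtain ⟨p1, p2, p3⟩ := plog_spec hl2
  have hp : l.Prime := Fact.out
  have hone : ∀ x ∈ L (Dec ℚ V), V.v (x - 1) ≤ V.v (l : Ω) → PadicInt.toZModPow 1 (e x) = 1 := by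
    intro x hx h1
    have := (he x hx (llog_v_le_one h1) 1 1).2 (by simpa using h1)
    simpa using this
  have hunit : ∀ x ∈ L (Dec ℚ V), V.v (x - 1) ≤ V.v (l : Ω) → IsUnit (e x) := by
    intro x hx h1
    by_contra hu
    have h2 : e x ∈ RingHom.ker (PadicInt.toZModPow 1 : ℤ_[l] →+* ZMod (l ^ 1)) := by
      rw [PadicInt.ker_toZModPow, pow_one, ← PadicInt.maximalIdeal_eq_span_p]
      exact hu
    rw [RingHom.mem_ker, hone x hx h1] at h2
    have : Fact (1 < l ^ 1) := ⟨by simpa using hp.one_lt⟩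
    exact one_ne_zero h2
  refine ⟨fun x => plog l (e x), fun x hx y hy h1 h2 => ?_, fun x hx h1 k => ?_, ?_⟩
  · have hx1 := llog_v_le_one h1
    have hy1 := llog_v_le_one h2
    have : e (x * y) = e x * e y := by
      refine PadicInt.ext_of_toZModPow.1 fun k => ?_
      obtain ⟨a, ha⟩ := ZMod.intCast_surjective (PadicInt.toZModPow k (e x))
      obtain ⟨b, hb⟩ := ZMod.intCast_surjective (PadicInt.toZModPow k (e y))
      rw [map_mul, ← ha, ← hb, ← Int.cast_mul,
        he _ ((L _).mul_mem hx hy) (by rw [map_mul]; exact mul_le_one' hx1 hy1)]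
      have e1 : x * y - ((a * b : ℤ) : Ω) = x * (y - b) + b * (x - a) := by push_cast; ring
      rw [e1]
      refine (V.v.map_add _ _).trans (max_le ?_ ?_) <;> rw [map_mul]
      · exact (mul_le_of_le_one_left' hx1).trans ((he y hy hy1 k b).1 hb.symm)
      · exact (mul_le_of_le_one_left' (V.v_intCast_le_one b)).trans ((he x hx hx1 k a).1 ha.symm)
    beta_reduce
    rw [this, p1 _ _ (hunit x hx h1) (hunit y hy h2)]
  · have h3 := he x hx (llog_v_le_one h1) (k + 1) 1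
    rw [Int.cast_one, Int.cast_one] at h3
    beta_reduce
    rw [p2 _ (hunit x hx h1), ← h3, map_pow]
    refine ⟨fun h => zmod_eq_one_of_pow_sub_one (Nat.succ_ne_zero k) h ?_, fun h => by rw [h, one_pow]⟩
    obtain ⟨a, ha⟩ := ZMod.intCast_surjective (PadicInt.toZModPow (k + 1) (e x))
    have h4 : PadicInt.toZModPow 1 (e x) = a := by
      rw [← PadicInt.cast_toZModPow 1 (k + 1) (by omega), ← ha,
        ZMod.cast_intCast (pow_dvd_pow l (by omega))]
    rw [hone x hx h1, ← Int.cast_one, ZMod.intCast_eq_intCast_iff_dvd_sub, pow_one] at h4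
    rw [← ha, map_intCast, ← Int.cast_one, eq_comm, ZMod.intCast_eq_intCast_iff_dvd_sub]
    exact h4
  · have hx : (1 + l : Ω) ∈ L (Dec ℚ V) := (L _).add_mem (L _).one_mem (natCast_mem _ l)
    have h1 : V.v ((1 + l : Ω) - 1) ≤ V.v (l : Ω) := by simp
    have : e (1 + l) = 1 + l := by
      refine PadicInt.ext_of_toZModPow.1 fun k => ?_
      rw [(he _ hx (llog_v_le_one h1) k (1 + l)).2 (by simp)]
      simp
    beta_reduce
    rw [this]; exact p3

universe v in
theorem w0_log (n : ℕ) : ∃ m : ℕ, ∀ (l : ℕ) [Fact l.Prime] (V : Pl Ω) (lg : Ω → ℤ_[l]), V.p = l →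
    LlogSpec V l lg → ∀ (C : Type v) [Fintype C], Fintype.card C ≤ n → ∀ α : C → Fin m → Ωˣ,
    (∀ c i, IsIntegral ℤ (α c i : Ω)) →
    (∀ e : C → Fin m → ℤ, ∏ c, ∏ i, α c i ^ e c i = 1 → e = 0) →
    (∀ c i, (α c i : Ω) ∈ L (Dec ℚ V)) → (∀ c i, V.v ((α c i : Ω) - 1) ≤ V.v (l : Ω)) →
    ∀ B : C → ℤ_[l], (∀ i, ∑ c, B c * lg (α c i) = 0) → B = 0 := by
  obtain ⟨m, hm⟩ := w0 n
  refine ⟨m, fun l _ V lg hV hlg C _ hC α hint hind hL h1 B hB => ?_⟩
  subst hV
  by_contra hne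
  obtain ⟨c1, hc1⟩ := Function.ne_iff.1 hne
  obtain ⟨c0, -, hc0⟩ := llog_exists_min B Finset.univ ⟨c1, Finset.mem_univ _⟩
  choose d hd using fun c => hc0 c (Finset.mem_univ c)
  have hB0 : B c0 ≠ 0 := fun h => hc1 (by rw [hd c1, h, zero_mul]; rfl)
  obtain ⟨K, hK⟩ := hm V C hC c0 α hint hind h1
  choose b hb using fun c => llog_appr (-d c) K
  refine hK ⟨b, fun i => ?_⟩
  have hA : AHom (llogU V) fun x : Ωˣ => lg x := fun x hx y hy => hlg.1 _ hx.1 _ hy.1 hx.2 hy.2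
  have hα : ∀ c, α c i ∈ llogU V := fun c => ⟨hL c i, h1 c i⟩
  have hy : ∏ c ∈ Finset.univ.erase c0, α c i ^ b c ∈ llogU V :=
    (llogU V).prod_mem fun c _ => (llogU V).pow_mem (hα c) _
  have hz := (llogU V).div_mem (hα c0) hy
  have e1 : lg (α c0 i) = ∑ c ∈ Finset.univ.erase c0, -d c * lg (α c i) := by
    have := hB i
    rw [← Finset.add_sum_erase _ _ (Finset.mem_univ c0),
      Finset.sum_congr rfl (g := fun c => B c0 * (d c * lg (α c i)))
        (fun c _ => by rw [hd c, mul_assoc]), ← Finset.mul_sum, ← mul_add] at this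
    have h2 := (mul_eq_zero.1 this).resolve_left hB0
    simp only [neg_mul, Finset.sum_neg_distrib]
    exact eq_neg_of_add_eq_zero_left h2
  have e2 := llog_ahom_div hA (hα c0) hy
  rw [llog_ahom_prod hA _ fun c _ => (llogU V).pow_mem (hα c) _,
    Finset.sum_congr rfl fun c _ => llog_ahom_pow hA (hα c) (b c)] at e2
  have e3 := (hlg.2.1 _ hz.1 hz.2 K).1 (by
    beta_reduce at e2
    rw [e2, e1, map_sub, map_sum, map_sum, sub_eq_zero]
    exact Finset.sum_congr rfl fun c _ => by rw [map_mul, map_mul, hb])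
  have e4 : (α c0 i : Ω) - ∏ c ∈ Finset.univ.erase c0, (α c i : Ω) ^ b c =
      ((∏ c ∈ Finset.univ.erase c0, α c i ^ b c : Ωˣ) : Ω) *
        (((α c0 i / ∏ c ∈ Finset.univ.erase c0, α c i ^ b c : Ωˣ) : Ω) - 1) := by
    rw [mul_sub, ← Units.val_mul, mul_div_cancel, mul_one, Units.coe_prod]
    simp only [Units.val_pow_eq_pow_val]
  rw [e4, map_mul, llog_v_eq_one hy.2, one_mul]
  exact e3.trans (pow_le_pow_right_of_le_one' V.v_p_lt_one.le (Nat.le_succ K))

theorem lin_rep {M : Type*} [CommGroup M] (R : Subgroup M) {l : ℕ} [Fact l.Prime] {I : Type*} [Fintype I]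
    (Lg : I → M → ℤ_[l]) (μ : M → ℤ_[l]) (hLg : ∀ i, AHom R (Lg i)) (hμ : AHom R μ)
    (hdense : ∀ (N : ℕ) (i0 : I), ∃ x ∈ R, IsUnit (Lg i0 x) ∧
      ∀ i, i ≠ i0 → PadicInt.toZModPow N (Lg i x) = 0)
    (hcont : ∀ k : ℕ, ∃ N : ℕ, ∀ x ∈ R, (∀ i, PadicInt.toZModPow N (Lg i x) = 0) →
      PadicInt.toZModPow k (μ x) = 0) :
    ∃ b : I → ℤ_[l], ∀ x ∈ R, μ x = ∑ i, b i * Lg i x := by
  let S : ℕ → Set (I → ℤ_[l]) := fun k =>
    {b | ∀ x ∈ R, PadicInt.toZModPow k (μ x - ∑ i, b i * Lg i x) = 0}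
  have hcl : ∀ k, IsClosed (S k) := by
    intro k
    have e : S k = ⋂ x ∈ R, {b : I → ℤ_[l] | ‖μ x - ∑ i, b i * Lg i x‖ ≤ (l : ℝ) ^ (-k : ℤ)} := by
      ext b
      simp only [S, Set.mem_iInter, Set.mem_ofPred_eq, PadicInt.norm_le_pow_iff_mem_span_pow,
        ← PadicInt.ker_toZModPow, RingHom.mem_ker]
    rw [e]
    exact isClosed_biInter fun x _ => isClosed_le (by fun_prop) continuous_const
  have hne : ∀ k, (S k).Nonempty := by
    intro k
    obtain ⟨N, hN⟩ := hcont k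
    choose y hyR hyu hy0 using hdense (max N k)
    choose w hw using fun i => (hyu i).exists_right_inv
    refine ⟨fun i => μ (y i) * w i, fun x hx => ?_⟩
    choose n hn using fun i => llog_appr (Lg i x * w i) (max N k)
    have hP : ∏ i, y i ^ n i ∈ R := R.prod_mem fun i _ => R.pow_mem (hyR i) _
    have hf : ∀ {f : M → ℤ_[l]}, AHom R f → f (x / ∏ i, y i ^ n i) = f x - ∑ i, n i * f (y i) := by
      intro f hf
      rw [llog_ahom_div hf hx hP, llog_ahom_prod hf _ fun i _ => R.pow_mem (hyR i) _,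
        Finset.sum_congr rfl fun i _ => llog_ahom_pow hf (hyR i) (n i)]
    have h1 := hN _ (R.div_mem hx hP) fun j => llog_zero_mono (le_max_left N k) (by
      rw [hf (hLg j), map_sub, map_sum, Finset.sum_eq_single j, map_mul, hn, ← map_mul, mul_assoc,
        mul_comm (w j), hw, mul_one, sub_self]
      · intro i _ hij
        rw [map_mul, hy0 i j hij.symm, mul_zero]
      · simp)
    have h2 : PadicInt.toZModPow k (∑ i, n i * μ (y i) - ∑ i, μ (y i) * w i * Lg i x) = 0 := by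
      refine llog_zero_mono (le_max_right N k) ?_
      rw [map_sub, map_sum, map_sum, sub_eq_zero]
      refine Finset.sum_congr rfl fun i _ => ?_
      rw [map_mul, hn, ← map_mul]
      congr 1; ring
    rw [hf hμ] at h1
    rw [← sub_add_sub_cancel _ (∑ i, n i * μ (y i)), map_add, h1, h2, add_zero]
  obtain ⟨b, hb⟩ := IsCompact.nonempty_iInter_of_sequence_nonempty_isCompact_isClosed S
    (fun k b hb x hx => llog_zero_mono (Nat.le_succ k) (hb x hx)) hne (hcl 0).isCompact hcl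
  refine ⟨b, fun x hx => sub_eq_zero.1 (PadicInt.ext_of_toZModPow.1 fun k => ?_)⟩
  rw [map_zero]
  exact Set.mem_iInter.1 hb k x hx

end Crest.Agent.R018
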