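import Crest.Agent.R018.U2
import Crest.Agent.R018.Frob
import Crest.Agent.R018.SetupB

/-!
# R018 / N1

(N1) eigen-characters mod `N = l^k` (`k = 0` is trivial).  `ψ g = cyc N g / (ε g mod N) ∈ (ZMod N)ˣ` (cyclic: `ZMod.isCyclic_units_of_prime_pow`), `U_ψ` its kernel on `U`
(open: contains `Uε ⊓ FixMu N`), `CycExt U U_ψ σ n` (`exists_cycExt_of_mhom`), `u` from `exists_lift_exact`, eigen-units from `exists_eigen_units`.  For such `x` let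
`a⁰ = kum N (rt N x)` on `U' = Uε ⊓ FixMu N` (normal in `U`, contains the commutators of `U`, `U' ≤ U_ψ`); `γ x = x^{ψγ} w^N` for all `γ ∈ U` gives
`a⁰ (γ y γ⁻¹) = ε γ · a⁰ y` (`kum_conj`).  Extend: `a y = (ε δ - 1)⁻¹ a⁰ (δ y δ⁻¹ y⁻¹)` for `y ∈ Uε` (`isUnit_sub_one_of_pow_eq_one`); it is additive, extends `a⁰`,
`a (δ y δ⁻¹) = ε δ · a y`; for general `γ`, `f y = a (γ y γ⁻¹) - ε γ · a y` vanishes on `U'` and satisfies `f (δ y δ⁻¹) = ε δ · f y = f y`, so `f = 0`.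
Unramified: `τ ∈ Ine W ⊓ Uε` lies in `U'` and fixes `rt N x`.  Distinct: if `a⁰_x = a⁰_{x'}` then `w = rt x / rt x'` is fixed by `U'`; `m0 = [U_ψ : U']` divides `l - 1`-power
(on `U_ψ`, `cyc = ε`; it is prime to `l`), and `(x/x')^{m0} = (nm U_ψ U' w)^N`, so `x / x'` is an `N`-th power in `LU U_ψ`.
-/

set_option autoImplicit false
set_option linter.unusedSectionVars false

noncomputable section

namespace Crest.Agent.R018

open scoped NNReal Classical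

variable {F E : Type*} [Field F] [NumberField F] [Field E] [CharZero E] [Algebra F E]
  [IsGalois F E] [RadCl E]

/-- extension of an eigen-character (pure group theory). -/
theorem n1_extend {Γ R : Type*} [Group Γ] [CommRing R] {U Uε U' : Subgroup Γ} {e a0 : Γ → R}
    (h1 : ∀ y ∈ Uε, e y = 1) (hle : Uε ≤ U) (hle' : U' ≤ Uε)
    (hcomm : ∀ g ∈ U, ∀ h ∈ U, g * h * g⁻¹ * h⁻¹ ∈ U') (ha0 : AHom U' a0)
    (hconj : ∀ γ ∈ U, ∀ y ∈ U', a0 (γ * y * γ⁻¹) = e γ * a0 y) {δ : Γ} (hδ : δ ∈ U)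
    (hu : IsUnit (e δ - 1)) :
    ∃ a : Γ → R, AHom Uε a ∧ (∀ y ∈ U', a y = a0 y) ∧
      ∀ γ ∈ U, ∀ y ∈ Uε, a (γ * y * γ⁻¹) = e γ * a y := by
  obtain ⟨t, ht⟩ := hu.exists_left_inv
  have hn : ∀ γ ∈ U, ∀ y ∈ U', γ * y * γ⁻¹ ∈ U' := by
    intro γ hγ y hy
    have := U'.mul_mem (hcomm γ hγ y (hle (hle' hy))) hy
    simpa using this
  have hadd : AHom Uε (fun y => t * a0 (δ * y * δ⁻¹ * y⁻¹)) := by
    intro y hy z hz
    have e1 : δ * (y * z) * δ⁻¹ * (y * z)⁻¹ =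
        (δ * y * δ⁻¹ * y⁻¹) * (y * (δ * z * δ⁻¹ * z⁻¹) * y⁻¹) := by group
    simp only
    rw [e1, ha0 _ (hcomm δ hδ y (hle hy)) _ (hn y (hle hy) _ (hcomm δ hδ z (hle hz))),
      hconj y (hle hy) _ (hcomm δ hδ z (hle hz)), h1 y hy]
    ring
  have hext : ∀ y ∈ U', t * a0 (δ * y * δ⁻¹ * y⁻¹) = a0 y := by
    intro y hy
    rw [ha0 _ (hn δ hδ y hy) _ (U'.inv_mem hy), hconj δ hδ y hy, ha0.map_inv hy]
    linear_combination (a0 y) * ht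
  refine ⟨fun y => t * a0 (δ * y * δ⁻¹ * y⁻¹), hadd, hext, fun γ hγ y hy => ?_⟩
  have hyU := hle hy
  have hφ : ∀ g ∈ U, ∀ h ∈ U, a0 (g * h * y * (g * h)⁻¹ * y⁻¹) =
      e g * a0 (h * y * h⁻¹ * y⁻¹) + a0 (g * y * g⁻¹ * y⁻¹) := by
    intro g hg h hh
    have e1 : g * h * y * (g * h)⁻¹ * y⁻¹ =
        (g * (h * y * h⁻¹ * y⁻¹) * g⁻¹) * (g * y * g⁻¹ * y⁻¹) := by group
    rw [e1, ha0 _ (hn g hg _ (hcomm h hh y hyU)) _ (hcomm g hg y hyU), hconj g hg _ (hcomm h hh y hyU)]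
  have hκ := hcomm γ hγ δ hδ
  have k1 := hφ γ hγ δ hδ
  have k2 := hφ δ hδ γ hγ
  have k3 := hφ _ (hle (hle' hκ)) _ (U.mul_mem hδ hγ)
  have e2 : γ * δ * γ⁻¹ * δ⁻¹ * (δ * γ) = γ * δ := by group
  have k4 : a0 (γ * δ * γ⁻¹ * δ⁻¹ * y * (γ * δ * γ⁻¹ * δ⁻¹)⁻¹ * y⁻¹) = 0 := by
    have e3 : γ * δ * γ⁻¹ * δ⁻¹ * y * (γ * δ * γ⁻¹ * δ⁻¹)⁻¹ * y⁻¹ =
        (γ * δ * γ⁻¹ * δ⁻¹) * (y * (γ * δ * γ⁻¹ * δ⁻¹)⁻¹ * y⁻¹) := by group
    rw [e3, ha0 _ hκ _ (hn y hyU _ (U'.inv_mem hκ)), hconj y hyU _ (U'.inv_mem hκ), h1 y hy,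
      ha0.map_inv hκ]
    ring
  rw [e2, h1 _ (hle' hκ), k4, k1, k2] at k3
  have e4 : γ * y * γ⁻¹ = (γ * y * γ⁻¹ * y⁻¹) * y := by group
  have k5 := hadd _ (hle' (hcomm γ hγ y hyU)) y hy
  rw [← e4] at k5
  simp only at k5 ⊢
  rw [k5, hext _ (hcomm γ hγ y hyU)]
  linear_combination (-t) * k3 - a0 (γ * y * γ⁻¹ * y⁻¹) * ht

/-- Sah's lemma for Kummer cocycles. -/
theorem n1_sah {H H' : Subgroup Gal(E/F)} {N : ℕ} (hN : N ≠ 0) {w : E} (hw : w ≠ 0)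
    (hfix : ∀ g ∈ H, g (w ^ N) = w ^ N) (hfix' : ∀ g ∈ H', g w = w) (hμ : H' ≤ FixMu F E N)
    (hle : H' ≤ H) (hcomm : ∀ g ∈ H, ∀ h ∈ H, g * h * g⁻¹ * h⁻¹ ∈ H')
    (hu : ∀ g ∈ H, g ∉ H' → IsUnit (cyc N g - 1)) :
    ∃ w' : E, w' ^ N = w ^ N ∧ ∀ g ∈ H, g w' = w' := by
  by_cases hH : ∀ g ∈ H, g ∈ H'
  · exact ⟨w, rfl, fun g hg => hfix' g (hH g hg)⟩
  push Not at hH
  obtain ⟨g0, hg0, hg0'⟩ := hH
  obtain ⟨t, ht⟩ := (hu g0 hg0 hg0').exists_left_inv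
  have hz := zeta_prim (E := E) hN
  have hz0 : zeta E N ≠ 0 := hz.ne_zero hN
  have hzN : zeta E N ^ N = 1 := hz.pow_eq_one
  have hzfix : ∀ g : Gal(E/F), g (zeta E N ^ N) = zeta E N ^ N := fun g => by rw [hzN, map_one]
  have hkz : ∀ g : Gal(E/F), kum N (zeta E N) g = cyc N g - 1 := by
    intro g
    have h1 := kum_spec hN hz0 (hzfix g)
    rw [← pow_succ] at h1
    have h2 := (cyc_eq_natCast_iff hN g _).2 h1
    rw [h2]
    push_cast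
    rw [cb_cast_val hN]
    ring
  obtain ⟨m, hm⟩ : ∃ m : ℕ, (m : ZMod N) = -(t * kum N w g0) := ⟨_, cb_cast_val hN _⟩
  have hpow : (w * zeta E N ^ m) ^ N = w ^ N := by
    rw [mul_pow, ← pow_mul, mul_comm m N, pow_mul, hzN, one_pow, mul_one]
  refine ⟨w * zeta E N ^ m, hpow, fun g hg => ?_⟩
  have hzm : g ((zeta E N ^ m) ^ N) = (zeta E N ^ m) ^ N := by
    rw [← pow_mul, mul_comm m N, pow_mul, hzN, one_pow, map_one]
  rw [← kum_eq_zero_iff hN (mul_ne_zero hw (pow_ne_zero _ hz0)) (by rw [hpow]; exact hfix g hg),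
    kum_mul_left hN hw (pow_ne_zero _ hz0) (hfix g hg) hzm, kum_pow_left hN hz0 (hzfix g), hkz, hm]
  have hκ := hcomm g hg g0 hg0
  have k1 := kum_mul_right hN hw (hfix g hg) (hfix g0 hg0)
  have k2 := kum_mul_right hN hw (hfix g0 hg0) (hfix g hg)
  have k3 := kum_mul_right hN hw (hfix _ (hle hκ)) (hfix _ (H.mul_mem hg0 hg))
  have e2 : g * g0 * g⁻¹ * g0⁻¹ * (g0 * g) = g * g0 := by group
  rw [e2, (kum_eq_zero_iff hN hw (hfix _ (hle hκ))).2 (hfix' _ hκ), (mem_FixMu_iff hN).1 (hμ hκ),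
    k1, k2] at k3
  linear_combination (-t) * k3 - kum N w g * ht

/-- the eigen-relation propagates from the generator to the whole group. -/
theorem n1_eigen {H H' : Subgroup Gal(E/F)} {σ : Gal(E/F)} {n : ℕ} (h : CycExt H H' σ n) {N u : ℕ}
    {ψ : Gal(E/F) → (ZMod N)ˣ} (hψ : MHom H ψ) (hker : ∀ x ∈ H', ψ x = 1)
    (hu : (u : ZMod N) = ψ σ) {x w : Eˣ} (hx : x ∈ LU H') (hw : w ∈ LU H')
    (hσ : σ • x = x ^ u * w ^ N) {γ : Gal(E/F)} (hγ : γ ∈ H) :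
    ∃ m : ℕ, (m : ZMod N) = ψ γ ∧ ∃ w' ∈ LU H', γ • x = x ^ m * w' ^ N := by
  have key : ∀ i : ℕ, ∃ m : ℕ, (m : ZMod N) = ψ (σ ^ i) ∧
      ∃ w' ∈ LU H', σ ^ i • x = x ^ m * w' ^ N := by
    intro i
    induction i with
    | zero => exact ⟨1, by simp [hψ.1], 1, (LU H').one_mem, by simp⟩
    | succ i ih =>
      obtain ⟨m, hm, w', hw', e⟩ := ih
      refine ⟨u * m, ?_, w ^ m * σ • w', (LU H').mul_mem ((LU H').pow_mem hw m)
        (mem_LU_iff_smul.2 (h.smul_fixed (mem_LU_iff_smul.1 hw') h.mem)), ?_⟩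
      · rw [pow_succ', hψ.2 _ h.mem _ (H.pow_mem h.mem i)]
        push_cast
        rw [hu, hm]
      · rw [pow_succ', mul_smul, e, smul_mul', smul_pow', smul_pow', hσ, mul_pow, mul_pow, ← pow_mul,
          ← pow_mul, ← pow_mul, mul_comm N m, mul_assoc]
  obtain ⟨i, hi⟩ := h.gen γ hγ
  obtain ⟨m, hm, w', hw', e⟩ := key i
  have e1 : γ = σ ^ i * ((σ ^ i)⁻¹ * γ) := by group
  refine ⟨m, ?_, w', hw', ?_⟩
  · rw [hm]
    conv_rhs => rw [e1, hψ.2 _ (H.pow_mem h.mem i) _ (h.le hi), hker _ hi, mul_one]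
  · rw [← e]
    conv_lhs => rw [e1, mul_smul, mem_LU_iff_smul.1 hx _ hi]

theorem exists_eigen_chom {U Uε : Subgroup Gal(E/F)} (hUε : IsOpen (Uε : Set Gal(E/F))) (hi : HasI U)
    {l : ℕ} [Fact l.Prime] (hl2 : l ≠ 2) {ε : Gal(E/F) → ℤ_[l]} (hε : MHom U ε)
    (hpow : ∀ u ∈ U, ε u ^ (l - 1) = 1) (hker : ∀ x, x ∈ Uε ↔ x ∈ U ∧ ε x = 1)
    {δ : Gal(E/F)} (hδ : δ ∈ U) (hδ' : ε δ ≠ 1) (k : ℕ) :
    ∃ s : Finset (Gal(E/F) → ZMod (l ^ k)), (l ^ k) ^ (deg U / 2 - 1) ≤ s.card ∧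
      (∀ a ∈ s, CHom Uε a ∧
        (∀ u ∈ U, ∀ x ∈ Uε, a (u * x * u⁻¹) = PadicInt.toZModPow k (ε u) * a x) ∧
        ∀ W : Pl E, W.p ≠ l → ∀ τ ∈ Ine F W, τ ∈ Uε → a τ = 0) ∧
      ∀ a ∈ s, ∀ a' ∈ s, (∀ x ∈ Uε, a x = a' x) → a = a' := by
  have hl : l.Prime := Fact.out
  rcases eq_or_ne k 0 with rfl | hk
  · refine ⟨{fun _ => 0}, by rw [Finset.card_singleton, pow_zero, one_pow], ?_, ?_⟩
    · intro a ha
      rw [Finset.mem_singleton.1 ha]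
      exact ⟨⟨fun _ _ _ _ => (add_zero _).symm, ⊤, by simp, fun _ _ _ => rfl⟩,
        fun _ _ _ _ => (mul_zero _).symm,
        fun _ _ _ _ _ => rfl⟩
    · intro a ha a' ha' _
      rw [Finset.mem_singleton.1 ha, Finset.mem_singleton.1 ha']
  have hN : l ^ k ≠ 0 := pow_ne_zero _ hl.ne_zero
  haveI : Nontrivial (ZMod (l ^ k)) :=
    ZMod.nontrivial_iff.2 (Nat.one_lt_pow hk hl.one_lt).ne'
  haveI : IsCyclic (ZMod (l ^ k))ˣ := ZMod.isCyclic_units_of_prime_pow l hl hl2 k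
  set e : Gal(E/F) → ZMod (l ^ k) := fun g => PadicInt.toZModPow k (ε g) with he
  have hl1 : l - 1 ≠ 0 := by have := hl.two_le; omega
  have heU : ∀ g ∈ U, IsUnit (e g) := fun g hg =>
    (IsUnit.of_pow_eq_one (hpow g hg) hl1).map (PadicInt.toZModPow k)
  have hem : ∀ g ∈ U, ∀ h ∈ U, e (g * h) = e g * e h := fun g hg h hh => by
    simp only [he, hε.2 g hg h hh, map_mul]
  have he1 : ∀ g, ε g = 1 → e g = 1 := fun g hg => by simp only [he, hg, map_one]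
  have heu : ∀ g ∈ U, ε g ≠ 1 → IsUnit (e g - 1) := fun g hg hg' => by
    have := (isUnit_sub_one_of_pow_eq_one (hpow g hg) hg').map (PadicInt.toZModPow k)
    rwa [map_sub, map_one] at this
  set eu : Gal(E/F) → (ZMod (l ^ k))ˣ := fun g => if h : IsUnit (e g) then h.unit else 1 with heudef
  have heu' : ∀ g ∈ U, (eu g : ZMod (l ^ k)) = e g := fun g hg => by
    simp only [heudef, dif_pos (heU g hg), IsUnit.unit_spec]
  set ψ : Gal(E/F) → (ZMod (l ^ k))ˣ := fun g => (isUnit_cyc hN g).unit * (eu g)⁻¹ with hψdef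
  have hψe : ∀ g ∈ U, (ψ g : ZMod (l ^ k)) * e g = cyc (l ^ k) g := fun g hg => by
    rw [← heu' g hg, ← Units.val_mul]
    simp only [hψdef, inv_mul_cancel_right, IsUnit.unit_spec]
  have hψ1 : ∀ g ∈ U, (ψ g = 1 ↔ e g = cyc (l ^ k) g) := fun g hg => by
    constructor
    · intro h
      rw [← hψe g hg, h, Units.val_one, one_mul]
    · intro h
      refine Units.ext ((heU g hg).mul_right_cancel ?_)
      rw [hψe g hg, Units.val_one, one_mul, h]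
  have hψ : MHom U ψ := by
    refine ⟨(hψ1 1 U.one_mem).2 (by rw [he1 1 hε.1, cyc_one hN]), fun g hg h hh => ?_⟩
    refine Units.ext ((heU _ (U.mul_mem hg hh)).mul_right_cancel ?_)
    rw [hψe _ (U.mul_mem hg hh), hem g hg h hh, cyc_mul hN, ← hψe g hg, ← hψe h hh,
      Units.val_mul (ψ g) (ψ h)]
    ring
  obtain ⟨Uψ, hUψ⟩ := hψ.exists_ker
  set U' : Subgroup Gal(E/F) := Uε ⊓ FixMu F E (l ^ k) with hU'
  have hU'o : IsOpen (U' : Set Gal(E/F)) := isOpen_inf hUε (isOpen_FixMu _)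
  have hεU : Uε ≤ U := fun x hx => ((hker x).1 hx).1
  have hU'ψ : U' ≤ Uψ := fun x hx => (hUψ x).2 ⟨hεU hx.1, (hψ1 x (hεU hx.1)).2 (by
    rw [he1 x ((hker x).1 hx.1).2, (mem_FixMu_iff hN).1 hx.2])⟩
  have hψU : Uψ ≤ U := fun x hx => ((hUψ x).1 hx).1
  have hcomm : ∀ g ∈ U, ∀ h ∈ U, g * h * g⁻¹ * h⁻¹ ∈ U' := by
    intro g hg h hh
    refine ⟨(hker _).2 ⟨U.mul_mem (U.mul_mem (U.mul_mem hg hh) (U.inv_mem hg)) (U.inv_mem hh), ?_⟩,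
      commutator_mem_FixMu hN g h⟩
    have a1 := hε.2 g hg g⁻¹ (U.inv_mem hg)
    have a2 := hε.2 h hh h⁻¹ (U.inv_mem hh)
    rw [mul_inv_cancel, hε.1] at a1 a2
    rw [hε.2 _ (U.mul_mem (U.mul_mem hg hh) (U.inv_mem hg)) _ (U.inv_mem hh),
      hε.2 _ (U.mul_mem hg hh) _ (U.inv_mem hg), hε.2 g hg h hh]
    linear_combination (-(ε h * ε h⁻¹)) * a1 - a2
  obtain ⟨σ, n, hcyc, hord⟩ := exists_cycExt_of_mhom (Subgroup.isOpen_mono hU'ψ hU'o) hψ hUψ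
  obtain ⟨u, hu2, hu, hd1, hd2⟩ := exists_lift_exact hl hl2 hk (ψ σ)
  rw [hord] at hd1 hd2
  obtain ⟨s0, hcard, hs0, hinj⟩ := exists_eigen_units hcyc hi hl hu2 hd1 hd2
  have hρ0 : ∀ x : Eˣ, rt (l ^ k) (x : E) ≠ 0 := fun x => rt_ne_zero hN x.ne_zero
  have hρfix : ∀ x ∈ s0, ∀ g ∈ Uψ, g (rt (l ^ k) (x : E) ^ l ^ k) = rt (l ^ k) (x : E) ^ l ^ k := by
    intro x hx g hg
    rw [rt_pow hN]
    exact mem_L.1 (hs0 x hx).1.1 g hg
  have hA : ∀ x : Eˣ, ∃ a : Gal(E/F) → ZMod (l ^ k), x ∈ s0 → AHom Uε a ∧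
      (∀ y ∈ U', a y = kum (l ^ k) (rt (l ^ k) (x : E)) y) ∧
      ∀ γ ∈ U, ∀ y ∈ Uε, a (γ * y * γ⁻¹) = e γ * a y := by
    intro x
    by_cases hx : x ∈ s0
    swap
    · exact ⟨0, fun h => absurd h hx⟩
    obtain ⟨hxU, w, hw, hσ⟩ := hs0 x hx
    have hc := chom_kum (H := U') hN (hρ0 x) inf_le_right
      (mem_L.2 fun g hg => hρfix x hx g (hU'ψ hg))
    obtain ⟨a, ha⟩ := n1_extend (U := U) (Uε := Uε) (U' := U') (e := e)
      (fun y hy => he1 y ((hker y).1 hy).2) hεU inf_le_left hcomm hc.1 (fun γ hγ y hy => by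
        obtain ⟨m, hm, w', hw', e1⟩ := n1_eigen hcyc hψ (fun x hx => ((hUψ x).1 hx).2) hu hxU.1 hw.1
          hσ (U.inv_mem hγ)
        have e2 : (γ⁻¹ (rt (l ^ k) (x : E))) ^ l ^ k = (rt (l ^ k) (x : E) ^ m * (w' : E)) ^ l ^ k := by
          rw [← map_pow, rt_pow hN, mul_pow, ← pow_mul, mul_comm m, pow_mul, rt_pow hN]
          have := congrArg Units.val e1
          simpa using this
        have f1 := hρfix x hx y (hU'ψ hy)
        have f2 : y (w' : E) = w' := mem_L.1 hw' y (hU'ψ hy)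
        have f3 : y ((w' : E) ^ l ^ k) = (w' : E) ^ l ^ k := by rw [map_pow, f2]
        have f4 : y ((rt (l ^ k) (x : E) ^ m) ^ l ^ k) = (rt (l ^ k) (x : E) ^ m) ^ l ^ k := by
          rw [← pow_mul, mul_comm m, pow_mul, map_pow, f1]
        have f5 : y ((γ⁻¹ (rt (l ^ k) (x : E))) ^ l ^ k) = (γ⁻¹ (rt (l ^ k) (x : E))) ^ l ^ k := by
          rw [e2, mul_pow, map_mul, f3, f4]
        rw [kum_conj hN (hρ0 x) γ f5,
          kum_root_indep hN ((map_ne_zero _).2 (hρ0 x)) e2 hy.2 f5,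
          kum_mul_left hN (pow_ne_zero _ (hρ0 x)) w'.ne_zero f4 f3, kum_pow_left hN (hρ0 x) f1,
          (kum_eq_zero_iff hN w'.ne_zero f3).2 f2, add_zero, hm, ← mul_assoc]
        congr 1
        have g1 := hψ.2 _ hγ _ (U.inv_mem hγ)
        rw [mul_inv_cancel, hψ.1] at g1
        have g2 : (ψ γ : ZMod (l ^ k)) * ψ γ⁻¹ = 1 := by rw [← Units.val_mul, ← g1, Units.val_one]
        rw [← hψe γ hγ]
        linear_combination (e γ) * g2) hδ (heu δ hδ hδ')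
    exact ⟨a, fun _ => ha⟩
  choose A hA using hA
  have hinj' : ∀ x ∈ s0, ∀ x' ∈ s0, (∀ y ∈ Uε, A x y = A x' y) → x = x' := by
    intro x hx x' hx' h
    have hw0 : rt (l ^ k) (x : E) / rt (l ^ k) (x' : E) ≠ 0 := div_ne_zero (hρ0 x) (hρ0 x')
    obtain ⟨w', hw1, hw2⟩ := n1_sah (H := Uψ) (H' := U') hN hw0
      (fun g hg => by rw [div_pow, map_div₀, hρfix x hx g hg, hρfix x' hx' g hg])
      (fun g hg => by
        have k1 := h g hg.1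
        rw [(hA x hx).2.1 g hg, (hA x' hx').2.1 g hg] at k1
        rw [map_div₀, kum_spec hN (hρ0 x) (hρfix x hx g (hU'ψ hg)),
          kum_spec hN (hρ0 x') (hρfix x' hx' g (hU'ψ hg)), k1,
          mul_div_mul_left _ _ (pow_ne_zero _ ((zeta_prim (E := E) hN).ne_zero hN))])
      inf_le_right hU'ψ (fun g hg h hh => hcomm g (hψU hg) h (hψU hh)) (fun g hg hg' => by
        have k1 := (hψ1 g (hψU hg)).1 ((hUψ g).1 hg).2
        rw [← k1]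
        refine heu g (hψU hg) fun hc => hg' ⟨(hker g).2 ⟨hψU hg, hc⟩, (mem_FixMu_iff hN).2 ?_⟩
        rw [← k1, he1 g hc])
    rw [div_pow, rt_pow hN, rt_pow hN] at hw1
    have hw'0 : w' ≠ 0 := by
      rintro rfl
      rw [zero_pow hN] at hw1
      exact div_ne_zero x.ne_zero x'.ne_zero hw1.symm
    refine hinj x hx x' hx' (Units.mk0 w' hw'0) (mem_L.2 hw2) (Units.ext ?_)
    rw [Units.val_mul, Units.val_pow_eq_pow_val, Units.val_mk0, hw1, mul_div_cancel₀ _ x'.ne_zero]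
  refine ⟨s0.image A, ?_, ?_, ?_⟩
  · rw [Finset.card_image_of_injOn fun x hx x' hx' h => hinj' x hx x' hx' fun y _ => by rw [h]]
    exact hcard
  · intro a ha
    obtain ⟨x, hx, rfl⟩ := Finset.mem_image.1 ha
    obtain ⟨a1, a2, a3⟩ := hA x hx
    refine ⟨⟨a1, ?_⟩, a3, fun W hW τ hτ hτ' => ?_⟩
    · obtain ⟨M, hM, hM'⟩ := locZ_kum (l ^ k) hN (hρ0 x) U'
      exact ⟨U' ⊓ M, isOpen_inf hU'o hM, fun y _ hy => by rw [a2 y hy.1, hM' y hy.1 hy.2]⟩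
    · have hp : ¬ W.p ∣ l ^ k := fun hc =>
        hW ((Nat.prime_dvd_prime_iff_eq W.hp hl).1 (W.hp.dvd_of_dvd_pow hc))
      have hτU : τ ∈ U' := ⟨hτ', Ine_le_FixMu hp hτ⟩
      have f1 := hρfix x hx τ (hU'ψ hτU)
      rw [a2 τ hτU, kum_eq_zero_iff hN (hρ0 x) f1]
      refine Ine_fix_of_pow hp hτ ?_ f1
      have f2 : W.v (rt (l ^ k) (x : E)) ^ l ^ k = 1 := by
        rw [← map_pow, rt_pow hN]
        exact (hs0 x hx).1.2 W (Set.notMem_empty W)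
      exact (pow_eq_one_iff_of_nonneg (by simp) hN).1 f2
  · intro a ha a' ha' h
    obtain ⟨x, hx, rfl⟩ := Finset.mem_image.1 ha
    obtain ⟨x', hx', rfl⟩ := Finset.mem_image.1 ha'
    rw [hinj' x hx x' hx' h]

end Crest.Agent.R018
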