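import Crest.Agent.R018.Tame

/-!
# R018 / NN

(NN) `kummer`: `χ = kum l ϖ` on `D`, `κ = kum l ρ` on `D'`, `z = ρ^l ∈ L D'`.  `B = valGrp D V`.  `v ϖ ∉ B` (else `ϖ / c` is a unit whose `l`-th power is fixed by `σ`, so `σ` fixes it:
`Ine_fix_of_pow`), `(v ϖ)^l ∈ B`, `(v z)^l = v (∏ σ^i z) ∈ B`.  Both are rational powers of `v p` (`Pl.rat_val`), so they generate a cyclic subgroup `⟨b0⟩ ≤ B`:
`(v z)^l = b0^m`, `(v ϖ)^l = b0^n`, `l ∤ n`; with `j n ≡ m mod l`, `z = ϖ^j c u`, `c ∈ L D`, `u ∈ L D'` a unit.  `∏_{i<l} σ^i ϖ = ϖ^l` (`l` odd), `∏ σ^i u / u^l ≡ 1`, so by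
`hensel` it is `w^l`, `w ∈ L D'`.  Thus `(∏ σ^i ρ)^l = (ϖ^j c u w)^l`, so `D'` fixes `∏ σ^i ρ` (`fix_root_iff`); conclude with `kum_prod_left`, `kum_conj`.
-/

set_option autoImplicit false
set_option linter.unusedSectionVars false

noncomputable section

namespace Crest.Agent.R018

open scoped NNReal Classical

variable {F E : Type*} [Field F] [NumberField F] [Field E] [CharZero E] [Algebra F E]
  [IsGalois F E] [RadCl E]

theorem nn_cyc {A : Type*} [CommGroup A] (B : Subgroup A) (γ : A) {l : ℕ} (hl : l.Prime) {m n : ℤ}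
    (hm : (γ ^ m) ^ l ∈ B) (hn : (γ ^ n) ^ l ∈ B) (hn' : γ ^ n ∉ B) :
    ∃ j : ℤ, γ ^ m / (γ ^ n) ^ j ∈ B := by
  obtain ⟨d, key⟩ : ∃ d : ℤ, ∀ k : ℤ, γ ^ k ∈ B ↔ d ∣ k :=
    ⟨orderOf (QuotientGroup.mk γ : A ⧸ B), fun k => by
      rw [orderOf_dvd_iff_zpow_eq_one, ← QuotientGroup.mk_zpow, QuotientGroup.eq_one_iff]⟩
  rw [← zpow_natCast, ← zpow_mul, key] at hm hn
  rw [key] at hn'
  have hg : 0 < Int.gcd d n := by
    rw [Int.gcd_pos_iff]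
    right
    rintro rfl
    exact hn' (dvd_zero _)
  obtain ⟨d1, n1, hcop, hd1, hn1⟩ := Int.exists_gcd_one hg
  have hg0 : (Int.gcd d n : ℤ) ≠ 0 := by exact_mod_cast hg.ne'
  have hbez := Int.gcd_eq_gcd_ab d n
  generalize (Int.gcd d n : ℤ) = g at hd1 hn1 hg0 hbez
  have h1 : d1 ∣ (l : ℤ) := by
    have h2 : d1 * g ∣ (n1 * l) * g := by
      rw [← hd1, mul_right_comm, ← hn1]
      exact hn
    exact (Int.isCoprime_iff_gcd_eq_one.2 hcop).dvd_of_dvd_mul_left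
      ((mul_dvd_mul_iff_right hg0).1 h2)
  have hl' : Prime (l : ℤ) := Nat.prime_iff_prime_int.1 hl
  have h3 : (l : ℤ) ∣ d1 := by
    obtain ⟨e, he⟩ := h1
    rcases hl'.irreducible.isUnit_or_isUnit he with h | h
    · exfalso
      apply hn'
      rw [hd1, hn1]
      exact mul_dvd_mul_right h.dvd _
    · exact (IsUnit.dvd_mul_right h).1 (he ▸ dvd_rfl)
  have h4 : g ∣ m := by
    have h5 : g * l ∣ m * l := by
      refine dvd_trans ?_ hm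
      rw [hd1, mul_comm]
      exact mul_dvd_mul_right h3 _
    exact (mul_dvd_mul_iff_right hl'.ne_zero).1 h5
  obtain ⟨m', hm'⟩ := h4
  refine ⟨Int.gcdB d n * m', ?_⟩
  rw [← zpow_mul, div_eq_mul_inv, ← zpow_sub, key]
  refine ⟨Int.gcdA d n * m', ?_⟩
  rw [hm', hbez]
  ring

theorem nn_comm (F : Type*) [Field F] [NumberField F] [Algebra F E] [IsGalois F E] (V : Pl E)
    (x y : Eˣ) : ∃ (γ : ℝ≥0ˣ) (m n : ℤ), V.vU x = γ ^ m ∧ V.vU y = γ ^ n := by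
  have := isAlgebraic_rat F E
  obtain ⟨b1, hb1, a1, h1⟩ := V.rat_val x.ne_zero
  obtain ⟨b2, hb2, a2, h2⟩ := V.rat_val y.ne_zero
  have hb : b1 * b2 ≠ 0 := (Nat.mul_pos hb1 hb2).ne'
  have hp : (V.p : E) ≠ 0 := by exact_mod_cast V.hp.ne_zero
  have hr : V.v (V.p : E) = V.v (rt (b1 * b2) (V.p : E)) ^ ((b1 : ℤ) * b2) := by
    rw [← Nat.cast_mul, zpow_natCast, ← map_pow, rt_pow hb]
  refine ⟨V.vU (Units.mk0 _ (rt_ne_zero hb hp)), b2 * a1, b1 * a2, ?_, ?_⟩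
  · apply Units.ext
    rw [Units.val_zpow_eq_zpow_val, Pl.coe_vU, Pl.coe_vU, Units.val_mk0,
      ← pow_left_inj₀ (by simp) (by simp) hb1.ne', h1]
    conv_lhs => rw [hr]
    rw [← zpow_natCast, ← zpow_mul, ← zpow_mul]
    congr 1
    ring
  · apply Units.ext
    rw [Units.val_zpow_eq_zpow_val, Pl.coe_vU, Pl.coe_vU, Units.val_mk0,
      ← pow_left_inj₀ (by simp) (by simp) hb2.ne', h2]
    conv_lhs => rw [hr]
    rw [← zpow_natCast, ← zpow_mul, ← zpow_mul]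
    congr 1
    ring

theorem nn_prod_lt (V : Pl E) {ι : Type*} (s : Finset ι) {f : ι → E}
    (h : ∀ i ∈ s, V.v (f i - 1) < 1) : V.v (∏ i ∈ s, f i - 1) < 1 := by
  induction s using Finset.induction_on with
  | empty => simp
  | insert a s ha ih =>
    rw [Finset.prod_insert ha]
    have h1 := h a (Finset.mem_insert_self _ _)
    have h2 := ih fun i hi => h i (Finset.mem_insert_of_mem hi)
    have e : f a * ∏ i ∈ s, f i - 1 =
        (f a - 1) * (∏ i ∈ s, f i - 1) + ((f a - 1) + (∏ i ∈ s, f i - 1)) := by ring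
    rw [e]
    refine lt_of_le_of_lt (V.v.map_add _ _) (max_lt ?_
      (lt_of_le_of_lt (V.v.map_add _ _) (max_lt h1 h2)))
    rw [map_mul]
    exact mul_lt_one_of_nonneg_of_lt_one_left (by simp) h1 h2.le

theorem nn_norm_root {l : ℕ} (hl : l.Prime) (hl2 : l ≠ 2) {σ : Gal(E/F)} (hσ : σ ∈ FixMu F E l)
    {ϖ : E} (h0 : ϖ ≠ 0) (h : σ (ϖ ^ l) = ϖ ^ l) :
    ∏ i ∈ Finset.range l, (σ ^ i) ϖ = ϖ ^ l := by
  have h1 : (σ ϖ / ϖ) ^ l = 1 := by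
    rw [div_pow, ← map_pow, h, div_self (pow_ne_zero _ h0)]
  have h2 : σ (σ ϖ / ϖ) = σ ϖ / ϖ := fix_of_mem_FixMu hl.ne_zero hσ h1
  have h3 : σ ϖ = σ ϖ / ϖ * ϖ := by field_simp
  generalize σ ϖ / ϖ = η at h1 h2 h3
  have h4 : ∀ i : ℕ, (σ ^ i) ϖ = η ^ i * ϖ := by
    intro i
    induction i with
    | zero => simp
    | succ i ih =>
      rw [pow_succ', AlgEquiv.mul_apply, ih, map_mul, map_pow, h2, h3]
      ring
  simp only [h4]
  rw [Finset.prod_mul_distrib, Finset.prod_pow_eq_pow_sum, Finset.prod_const, Finset.card_range,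
    Finset.sum_range_id]
  obtain ⟨k, hk⟩ := hl.odd_of_ne_two hl2
  have h5 : l * (l - 1) / 2 = l * k := by
    rw [show l - 1 = 2 * k by omega, ← mul_assoc, mul_right_comm]
    exact Nat.mul_div_cancel _ (by norm_num)
  rw [h5, pow_mul, h1, one_pow, one_mul]

theorem nn {V : Pl E} {l : ℕ} (hl : l.Prime) (hl2 : l ≠ 2) (hV : V.p ≠ l) {D D' : Subgroup Gal(E/F)}
    (hD : D ≤ Dec F V) (hμ : D ≤ FixMu F E l) {χ : Gal(E/F) → ZMod l} (hχ : CHom D χ)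
    {σ : Gal(E/F)} (hσ : σ ∈ Ine F V) (hσ' : σ ∈ D) (hχσ : χ σ ≠ 0)
    (hD' : ∀ x, x ∈ D' ↔ x ∈ D ∧ χ x = 0) {κ : Gal(E/F) → ZMod l} (hκ : CHom D' κ) :
    ∀ h ∈ D', ∑ i ∈ Finset.range l, κ ((σ ^ i)⁻¹ * h * σ ^ i) = 0 := by
  have : Fact l.Prime := ⟨hl⟩
  have hl0 : l ≠ 0 := hl.ne_zero
  have hVl : ¬ V.p ∣ l := fun h => hV ((Nat.prime_dvd_prime_iff_eq V.hp hl).1 h)
  have hle : D' ≤ D := fun x hx => ((hD' x).1 hx).1
  have hconj : ∀ g ∈ D, ∀ x ∈ D', g⁻¹ * x * g ∈ D' := by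
    intro g hg x hx
    refine (hD' _).2 ⟨D.mul_mem (D.mul_mem (D.inv_mem hg) (hle hx)) hg, ?_⟩
    have := hχ.1.map_conj (D.inv_mem hg) (hle hx)
    rw [inv_inv] at this
    rw [this, ((hD' x).1 hx).2]
  have hsm : ∀ g ∈ D, ∀ y ∈ L D', g y ∈ L D' := by
    intro g hg y hy
    refine mem_L.2 fun x hx => ?_
    have := mem_L.1 hy _ (hconj g hg x hx)
    have h2 := congrArg g this
    simpa [AlgEquiv.mul_apply] using h2
  have hσl : σ ^ l ∈ D' := by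
    refine (hD' _).2 ⟨D.pow_mem hσ' l, ?_⟩
    rw [hχ.1.map_pow hσ', nsmul_eq_mul, ZMod.natCast_self, zero_mul]
  have hgen : ∀ g ∈ D, ∃ i : ℕ, (σ ^ i)⁻¹ * g ∈ D' := by
    intro g hg
    refine ⟨(χ g / χ σ).val, (hD' _).2 ⟨D.mul_mem (D.inv_mem (D.pow_mem hσ' _)) hg, ?_⟩⟩
    rw [hχ.1 _ (D.inv_mem (D.pow_mem hσ' _)) _ hg, hχ.1.map_inv (D.pow_mem hσ' _),
      hχ.1.map_pow hσ', nsmul_eq_mul, ZMod.natCast_zmod_val, div_mul_cancel₀ _ hχσ, neg_add_cancel]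
  have hnorm : ∀ y ∈ L D', y ≠ 0 → ∏ i ∈ Finset.range l, (σ ^ i) y ∈ L D := by
    intro y hy hy0
    have h1 : ∏ i ∈ Finset.range l, (σ ^ i) y ∈ L D' :=
      prod_mem fun i _ => hsm _ (D.pow_mem hσ' i) y hy
    have h2 : σ (∏ i ∈ Finset.range l, (σ ^ i) y) = ∏ i ∈ Finset.range l, (σ ^ i) y := by
      have h3 := Finset.prod_range_succ (fun i => (σ ^ i) y) l
      rw [Finset.prod_range_succ', mem_L.1 hy _ hσl] at h3
      simp only [pow_zero, AlgEquiv.one_apply] at h3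
      rw [map_prod]
      refine Eq.trans (Finset.prod_congr rfl fun i _ => ?_) (mul_right_cancel₀ hy0 h3)
      rw [pow_succ', AlgEquiv.mul_apply]
    have h3 : ∀ i : ℕ, (σ ^ i) (∏ i ∈ Finset.range l, (σ ^ i) y) =
        ∏ i ∈ Finset.range l, (σ ^ i) y := by
      intro i
      induction i with
      | zero => simp
      | succ i ih => rw [pow_succ, AlgEquiv.mul_apply, h2, ih]
    refine mem_L.2 fun g hg => ?_
    obtain ⟨i, hi⟩ := hgen g hg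
    have h4 := congrArg (σ ^ i) (mem_L.1 h1 _ hi)
    rw [h3, ← AlgEquiv.mul_apply, mul_inv_cancel_left] at h4
    exact h4
  obtain ⟨ϖ, hϖ0, hϖl, hϖ⟩ := kummer hl0 hμ hχ
  obtain ⟨ρ, hρ0, hρl, hρ⟩ := kummer hl0 (hle.trans hμ) hκ
  have hϖ' : ϖ ∈ L D' := mem_L.2 fun g hg =>
    (kum_eq_zero_iff hl0 hϖ0 (mem_L.1 hϖl g (hle hg))).1 (by rw [hϖ g (hle hg), ((hD' g).1 hg).2])
  have hz0 : ρ ^ l ≠ 0 := pow_ne_zero _ hρ0
  -- the value of `z = ρ ^ l`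
  obtain ⟨j, c, hc, hc0, hv⟩ : ∃ (j : ℤ) (c : E), c ∈ L D ∧ c ≠ 0 ∧
      V.v (ρ ^ l / (ϖ ^ j * c)) = 1 := by
    obtain ⟨γ, m, n, hm, hn⟩ := nn_comm F V (Units.mk0 _ hz0) (Units.mk0 _ hϖ0)
    have h1 : (γ ^ m) ^ l ∈ valGrp D V := by
      have hN0 : ∏ i ∈ Finset.range l, (σ ^ i) (ρ ^ l) ≠ 0 :=
        Finset.prod_ne_zero_iff.2 fun i _ => (map_ne_zero _).2 hz0
      refine ⟨Units.mk0 _ hN0, hnorm _ hρl hz0, ?_⟩
      apply Units.ext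
      rw [← hm, Units.val_pow_eq_pow_val, Pl.coe_vU, Pl.coe_vU, Units.val_mk0, Units.val_mk0,
        map_prod, Finset.prod_congr rfl fun i _ => mem_Dec_iff.1 (hD (D.pow_mem hσ' i)) (ρ ^ l),
        Finset.prod_const, Finset.card_range]
    have h2 : (γ ^ n) ^ l ∈ valGrp D V := by
      refine ⟨Units.mk0 _ hϖ0 ^ l, ?_, by rw [map_pow, hn]⟩
      change ((Units.mk0 _ hϖ0 ^ l : Eˣ) : E) ∈ L D
      simpa using hϖl
    have h3 : γ ^ n ∉ valGrp D V := by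
      rintro ⟨c, hc, hc'⟩
      have hc1 : (c : E) ∈ L D := hc
      have h4 : V.v (c : E) = V.v ϖ := by
        have := congrArg Units.val (hc'.trans hn.symm)
        simpa using this
      have h5 : V.v (ϖ / c) = 1 := by
        rw [map_div₀, h4, div_self ((map_ne_zero _).2 hϖ0)]
      have h6 : σ (ϖ / c) = ϖ / c := by
        refine Ine_fix_of_pow hVl hσ h5 ?_
        rw [div_pow, map_div₀, mem_L.1 hϖl σ hσ', map_pow, mem_L.1 hc1 σ hσ']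
      rw [map_div₀, mem_L.1 hc1 σ hσ', div_left_inj' c.ne_zero] at h6
      apply hχσ
      rw [← hϖ σ hσ']
      exact (kum_eq_zero_iff hl0 hϖ0 (mem_L.1 hϖl σ hσ')).2 h6
    obtain ⟨j, c, hc, hc'⟩ := nn_cyc _ γ hl h1 h2 h3
    refine ⟨j, c, hc, c.ne_zero, ?_⟩
    rw [← hm, ← hn] at hc'
    have h4 := congrArg Units.val hc'
    rw [Units.val_div_eq_div_val, Units.val_zpow_eq_zpow_val, Pl.coe_vU, Pl.coe_vU, Pl.coe_vU,
      Units.val_mk0, Units.val_mk0] at h4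
    have h5 : V.v (ρ ^ l) ≠ 0 := (map_ne_zero _).2 hz0
    have h6 : V.v ϖ ^ j ≠ 0 := zpow_ne_zero _ ((map_ne_zero _).2 hϖ0)
    rw [map_div₀, map_mul, map_zpow₀, h4]
    field_simp
  have hu0 : ρ ^ l / (ϖ ^ j * c) ≠ 0 := div_ne_zero hz0 (mul_ne_zero (zpow_ne_zero _ hϖ0) hc0)
  have hzu : ρ ^ l = ϖ ^ j * c * (ρ ^ l / (ϖ ^ j * c)) := by
    have := zpow_ne_zero j hϖ0
    field_simp
  generalize ρ ^ l / (ϖ ^ j * c) = u at hv hu0 hzu
  have hN : (∏ i ∈ Finset.range l, (σ ^ i) (ρ ^ l)) / (ρ ^ l) ^ l =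
      ∏ i ∈ Finset.range l, (σ ^ i) u / u := by
    have h1 := nn_norm_root hl hl2 (hμ hσ') hϖ0 (mem_L.1 hϖl σ hσ')
    have h2 : ∀ i ∈ Finset.range l, (σ ^ i) (ρ ^ l) = ((σ ^ i) ϖ) ^ j * c * (σ ^ i) u := by
      intro i _
      rw [hzu, map_mul, map_mul, map_zpow₀, mem_L.1 hc _ (D.pow_mem hσ' i)]
    rw [Finset.prod_congr rfl h2, Finset.prod_mul_distrib, Finset.prod_mul_distrib,
      Finset.prod_zpow, h1, Finset.prod_div_distrib, hzu]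
    simp only [Finset.prod_const, Finset.card_range]
    rw [mul_pow, mul_pow, ← zpow_natCast ϖ, ← zpow_mul, mul_comm (l : ℤ) j, zpow_mul,
      zpow_natCast]
    have := zpow_ne_zero j hϖ0
    field_simp
  have hlt : V.v ((∏ i ∈ Finset.range l, (σ ^ i) (ρ ^ l)) / (ρ ^ l) ^ l - 1) <
      V.v (l : E) ^ 2 := by
    rw [V.v_natCast_eq_one hVl, one_pow, hN]
    refine nn_prod_lt V _ fun i _ => ?_
    rw [div_sub_one hu0, map_div₀, hv, div_one]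
    exact ((Ine F V).pow_mem hσ i).2 u hv.le
  obtain ⟨w, hw, hw'⟩ := hensel (F := F) V hl0 hlt
  intro h hh
  have hfix : ∀ i : ℕ, h (((σ ^ i) ρ) ^ l) = ((σ ^ i) ρ) ^ l := fun i => by
    rw [← map_pow]
    exact mem_L.1 (hsm _ (D.pow_mem hσ' i) _ hρl) h hh
  have h1 : ∀ i ∈ Finset.range l, κ ((σ ^ i)⁻¹ * h * σ ^ i) = kum l ((σ ^ i) ρ) h := by
    intro i _
    rw [← hρ _ (hconj _ (D.pow_mem hσ' i) h hh)]
    have h2 := kum_conj hl0 hρ0 (σ ^ i)⁻¹ (g := h) (by rw [inv_inv]; exact hfix i)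
    rw [inv_inv] at h2
    rw [h2, (mem_FixMu_iff hl0).1 (hμ (D.inv_mem (D.pow_mem hσ' i))), one_mul]
  have hP : (∏ i ∈ Finset.range l, (σ ^ i) ρ) ^ l = ∏ i ∈ Finset.range l, (σ ^ i) (ρ ^ l) := by
    rw [← Finset.prod_pow]
    exact Finset.prod_congr rfl fun i _ => (map_pow _ _ _).symm
  have hNh : h (∏ i ∈ Finset.range l, (σ ^ i) (ρ ^ l)) = ∏ i ∈ Finset.range l, (σ ^ i) (ρ ^ l) :=
    mem_L.1 (hnorm _ hρl hz0) h (hle hh)
  have hzh : h (ρ ^ l) = ρ ^ l := mem_L.1 hρl h hh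
  rw [Finset.sum_congr rfl h1,
    ← kum_prod_left hl0 _ (fun i _ => (map_ne_zero _).2 hρ0) fun i _ => hfix i,
    kum_eq_zero_iff hl0 (Finset.prod_ne_zero_iff.2 fun i _ => (map_ne_zero _).2 hρ0)
      (by rw [hP, hNh])]
  have h3 : (∏ i ∈ Finset.range l, (σ ^ i) ρ) ^ l = (ρ ^ l * w) ^ l := by
    rw [hP, mul_pow, hw, mul_div_cancel₀ _ (pow_ne_zero _ hz0)]
  rw [fix_root_iff hl0 h3 (hμ (hle hh)), map_mul, hzh,
    hw' h (hD (hle hh)) (by rw [map_div₀, hNh, map_pow, hzh])]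

end Crest.Agent.R018
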