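import Crest.Agent.R018.Rig

/-!
# R018 / OneOrb

`Γ = Gam V H` (closed, `≤ FixMu l`).  `ext_char` gives `z, z' ∈ L Γ` whose roots are moved by `γ ∈ Dec W ⊓ Γ`, `γ' ∈ Dec W' ⊓ Γ`.  By `exists_three`, some
`y'' = y^a z^b z'^c` has its `l`-th root moved by `α σ`, `γ`, `γ'` (`kum_mul_left`, `kum_pow_left`, `kum_root_indep`).  If `W, W'` are not `Γ`-conjugate, `approx_two_closed`
gives `b` with `x = 1 + b^l y''` satisfying `W'.v (x - 1) < W'.v l ^ 2` and `W.v (x / (b^l y'') - 1) < W.v l ^ 2`; `rig_one`: `x = y''^j c^l`; `hensel` at `W'` gives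
`j ≡ 0`, at `W` gives `j ≡ 1 mod l`.
-/

set_option autoImplicit false
set_option linter.unusedSectionVars false

noncomputable section

namespace Crest.Agent.R018

open scoped NNReal Classical

variable {Ω F E : Type*} [Field Ω] [CharZero Ω] [IsAlgClosed Ω] [IsGalois ℚ Ω]
  [Field F] [NumberField F] [Field E] [CharZero E] [Algebra F E] [IsGalois F E] [RadCl E]

theorem oneOrb_three {K : Type*} [Field K] (h2 : (2 : K) ≠ 0) (f g h : Fin 3 → K) (hf : f ≠ 0)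
    (hg : g ≠ 0) (hh : h ≠ 0) : ∃ a : Fin 3 → K, a ⬝ᵥ f ≠ 0 ∧ a ⬝ᵥ g ≠ 0 ∧ a ⬝ᵥ h ≠ 0 := by
  have one : ∀ f : Fin 3 → K, f ≠ 0 → ∃ u : Fin 3 → K, u ⬝ᵥ f ≠ 0 := fun f hf => by
    obtain ⟨i, hi⟩ := Function.ne_iff.1 hf
    exact ⟨Pi.single i 1, by simpa using hi⟩
  obtain ⟨u, hu⟩ := one f hf
  obtain ⟨v, hv⟩ := one g hg
  obtain ⟨w, hw⟩ := one h hh
  obtain ⟨a, ha1, ha2⟩ : ∃ a : Fin 3 → K, a ⬝ᵥ f ≠ 0 ∧ a ⬝ᵥ g ≠ 0 := by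
    by_cases h1 : u ⬝ᵥ g = 0
    · by_cases h2 : v ⬝ᵥ f = 0
      · exact ⟨u + v, by rwa [add_dotProduct, h2, add_zero], by rwa [add_dotProduct, h1, zero_add]⟩
      · exact ⟨v, h2, hv⟩
    · exact ⟨u, hu, h1⟩
  by_cases ha3 : a ⬝ᵥ h = 0
  swap
  · exact ⟨a, ha1, ha2, ha3⟩
  have hp : (a + w) ⬝ᵥ h ≠ 0 := by rwa [add_dotProduct, ha3, zero_add]
  have hm : (a - w) ⬝ᵥ h ≠ 0 := by rwa [sub_dotProduct, ha3, zero_sub, neg_ne_zero]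
  have two : ∀ k : Fin 3 → K, a ⬝ᵥ k ≠ 0 → (a + w) ⬝ᵥ k = 0 → (a - w) ⬝ᵥ k ≠ 0 := fun k h1 h3 h4 => by
    rw [add_dotProduct] at h3
    rw [sub_dotProduct] at h4
    exact mul_ne_zero h2 h1 (by linear_combination h3 + h4)
  by_cases h1 : w ⬝ᵥ f = 0
  · by_cases h3 : (a + w) ⬝ᵥ g = 0
    · exact ⟨a - w, by rwa [sub_dotProduct, h1, sub_zero], two g ha2 h3, hm⟩
    · exact ⟨a + w, by rwa [add_dotProduct, h1, add_zero], h3, hp⟩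
  · by_cases h4 : w ⬝ᵥ g = 0
    · by_cases h3 : (a + w) ⬝ᵥ f = 0
      · exact ⟨a - w, two f ha1 h3, by rwa [sub_dotProduct, h4, sub_zero], hm⟩
      · exact ⟨a + w, h3, by rwa [add_dotProduct, h4, add_zero], hp⟩
    · exact ⟨w, h1, h4, hw⟩

theorem oneOrb_kum_prod {N : ℕ} (hN : N ≠ 0) {y : Fin 3 → E} (hy0 : ∀ i, y i ≠ 0) (a : Fin 3 → ℕ)
    {g : Gal(E/F)} (hμ : g ∈ FixMu F E N) (hg : ∀ i, g (y i) = y i) :
    kum N (rt N (∏ i, y i ^ a i)) g = ∑ i, (a i : ZMod N) * kum N (rt N (y i)) g := by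
  have h0 : ∏ i, y i ^ a i ≠ 0 := Finset.prod_ne_zero_iff.2 fun i _ => pow_ne_zero _ (hy0 i)
  have h1 : ∀ i, (rt N (y i) ^ a i) ^ N = y i ^ a i := fun i => by
    rw [← pow_mul, mul_comm, pow_mul, rt_pow hN]
  rw [kum_root_indep hN (rt_ne_zero hN h0) (ρ' := ∏ i, rt N (y i) ^ a i)
    (by rw [rt_pow hN, ← Finset.prod_pow]; exact Finset.prod_congr rfl fun i _ => (h1 i).symm) hμ
    (by rw [rt_pow hN, map_prod]; exact Finset.prod_congr rfl fun i _ => by rw [map_pow, hg]),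
    kum_prod_left hN _ (fun i _ => pow_ne_zero _ (rt_ne_zero hN (hy0 i)))
      (fun i _ => by rw [h1, map_pow, hg])]
  exact Finset.sum_congr rfl fun i _ =>
    kum_pow_left hN (rt_ne_zero hN (hy0 i)) (by rw [rt_pow hN, hg]) _

theorem oneOrb_kum_mul {N : ℕ} (hN : N ≠ 0) {ρ t : E} (hρ : ρ ≠ 0) (ht : t ≠ 0) {g : Gal(E/F)}
    (hg : g (ρ ^ N) = ρ ^ N) (hgt : g t = t) (i : ℕ) :
    kum N (ρ ^ i * t) g = i * kum N ρ g := by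
  have h1 : g (t ^ N) = t ^ N := by rw [map_pow, hgt]
  rw [kum_mul_left hN (pow_ne_zero _ hρ) ht
    (by rw [← pow_mul, mul_comm i N, pow_mul, map_pow, hg]) h1, kum_pow_left hN hρ hg,
    (kum_eq_zero_iff hN ht h1).2 hgt, add_zero]

theorem oneOrb_cmp {N : ℕ} (hN : N ≠ 0) {ρ t t' : E} (hρ : ρ ≠ 0) (ht : t ≠ 0) (ht' : t' ≠ 0)
    {g : Gal(E/F)} (hμ : g ∈ FixMu F E N) (hg : g (ρ ^ N) = ρ ^ N) (hgt : g t = t) (hgt' : g t' = t')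
    {i j : ℕ} (h : (ρ ^ i * t) ^ N = (ρ ^ j * t') ^ N) :
    (i : ZMod N) * kum N ρ g = j * kum N ρ g := by
  rw [← oneOrb_kum_mul hN hρ ht hg hgt, ← oneOrb_kum_mul hN hρ ht' hg hgt']
  refine kum_root_indep hN (mul_ne_zero (pow_ne_zero _ hρ) ht) h hμ ?_
  rw [mul_pow, ← pow_mul, mul_comm i N, pow_mul, map_mul, map_pow, hg, map_pow, hgt]

theorem oneOrb_Gam_le (S : Setup Ω F E) {l : ℕ} (V : Pl Ω) {H : Subgroup Gal(Ω/ℚ)}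
    (hH : S.Small l H) : S.Gam V H ≤ FixMu F E l :=
  (S.img_le_of_le_pre (inf_le_right.trans hH.2.2)).trans inf_le_left

namespace Setup
variable (S : Setup Ω F E)

/-- `(ZMod l)^3` is not a union of three hyperplanes (`3 l² - 2 < l³`). -/
theorem _root_.Crest.Agent.R018.exists_three {l : ℕ} (hl : l.Prime) (hl2 : l ≠ 2)
    (f g h : Fin 3 → ZMod l) (hf : f ≠ 0) (hg : g ≠ 0) (hh : h ≠ 0) :
    ∃ a : Fin 3 → ℕ, ∑ i, (a i : ZMod l) * f i ≠ 0 ∧ ∑ i, (a i : ZMod l) * g i ≠ 0 ∧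
      ∑ i, (a i : ZMod l) * h i ≠ 0 := by
  have : Fact l.Prime := ⟨hl⟩
  have h2 : (2 : ZMod l) ≠ 0 := fun h0 => hl2 ((Nat.prime_dvd_prime_iff_eq hl Nat.prime_two).1
    ((ZMod.natCast_eq_zero_iff 2 l).1 (by exact_mod_cast h0)))
  obtain ⟨a, h1⟩ := oneOrb_three h2 f g h hf hg hh
  refine ⟨fun i => (a i).val, ?_⟩
  simp only [ZMod.natCast_zmod_val]
  exact h1

theorem oneOrb {l : ℕ} (hl : l.Prime) (hl2 : l ≠ 2) {V : Pl Ω} (hV : V.p ≠ l) {H : Subgroup Gal(Ω/ℚ)}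
    (hA : S.Adm l V H) {W W' : Pl E} (hW : S.Orb l V H W) (hW' : S.Orb l V H W') :
    Same (S.Gam V H) W W' := by
  have : Fact l.Prime := ⟨hl⟩
  have hN := hl.ne_zero
  obtain ⟨hH, y, σ, hy0, hyL, hσ, hσH, hm⟩ := hA
  have hΓ : IsClosed (S.Gam V H : Set Gal(E/F)) := S.isClosed_Gam V (isClosed_of_isOpen hH.1)
  have hμ : S.Gam V H ≤ FixMu F E l := oneOrb_Gam_le S V hH
  have hs : S.α σ ∈ S.Gam V H := ⟨σ, ⟨Ine_le_Dec V hσ, hσH⟩, (hH.2.2 hσH).1, rfl⟩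
  obtain ⟨κ, hκ, γ, hγ, hκγ⟩ := hW
  obtain ⟨κ', hκ', γ', hγ', hκγ'⟩ := hW'
  obtain ⟨z, hz0, hzL, hz⟩ := ext_char hΓ hN hμ W hκ
  obtain ⟨z', hz0', hzL', hz'⟩ := ext_char hΓ hN hμ W' hκ'
  let yv : Fin 3 → E := ![y, z, z']
  have hyv0 : ∀ i, yv i ≠ 0 := fun i => by fin_cases i <;> assumption
  have hyvL : ∀ i, yv i ∈ L (S.Gam V H) := fun i => by fin_cases i <;> assumption
  obtain ⟨a, h1, h2, h3⟩ := exists_three hl hl2 (fun i => kum l (rt l (yv i)) (S.α σ))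
    (fun i => kum l (rt l (yv i)) γ) (fun i => kum l (rt l (yv i)) γ')
    (fun h0 => hm ((kum_eq_zero_iff hN (rt_ne_zero hN hy0)
      (by rw [rt_pow hN, mem_L.1 hyL _ hs])).1 (congrFun h0 0)))
    (fun h0 => hκγ ((hz γ hγ).symm.trans (congrFun h0 1)))
    (fun h0 => hκγ' ((hz' γ' hγ').symm.trans (congrFun h0 2)))
  rw [← oneOrb_kum_prod hN hyv0 a (hμ hs) fun i => mem_L.1 (hyvL i) _ hs] at h1
  rw [← oneOrb_kum_prod hN hyv0 a (hμ hγ.2) fun i => mem_L.1 (hyvL i) _ hγ.2] at h2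
  rw [← oneOrb_kum_prod hN hyv0 a (hμ hγ'.2) fun i => mem_L.1 (hyvL i) _ hγ'.2] at h3
  have hY0 : ∏ i, yv i ^ a i ≠ 0 := Finset.prod_ne_zero_iff.2 fun i _ => pow_ne_zero _ (hyv0 i)
  have hYL : ∏ i, yv i ^ a i ∈ L (S.Gam V H) := prod_mem fun i _ => pow_mem (hyvL i) _
  generalize ∏ i, yv i ^ a i = Y at h1 h2 h3 hY0 hYL
  have hρ0 : rt l Y ≠ 0 := rt_ne_zero hN hY0
  have hρ : rt l Y ^ l = Y := rt_pow hN Y
  have hfix : ∀ g ∈ S.Gam V H, g (rt l Y ^ l) = rt l Y ^ l := fun g hg => by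
    rw [hρ, mem_L.1 hYL _ hg]
  have hD : S.AdmD l V H Y σ :=
    ⟨hY0, hYL, hσ, hσH, fun h0 => h1 ((kum_eq_zero_iff hN hρ0 (hfix _ hs)).2 h0)⟩
  by_contra hns
  have hl0 : (l : E) ≠ 0 := Nat.cast_ne_zero.2 hN
  have hv : ∀ (U : Pl E) (x : E), x ≠ 0 → 0 < U.v x := fun U x hx => (Valuation.pos_iff _).2 hx
  obtain ⟨b, hbL, hb0, hb1, hb2⟩ := approx_two_closed hΓ hns
    (ε := min 1 (min (W'.v (l : E) ^ 2 / W'.v Y) (W.v (l : E) ^ 2 * W.v Y)))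
    (lt_min one_pos (lt_min (div_pos (pow_pos (hv _ _ hl0) _) (hv _ _ hY0))
      (mul_pos (pow_pos (hv _ _ hl0) _) (hv _ _ hY0))))
  rw [lt_min_iff, lt_min_iff] at hb1 hb2
  have e1 : W'.v (1 + b ^ l * Y - 1) < W'.v (l : E) ^ 2 := by
    rw [add_sub_cancel_left, map_mul, _root_.map_pow, ← lt_div_iff₀ (hv _ _ hY0)]
    exact (pow_le_of_le_one zero_le hb2.1.le hN).trans_lt hb2.2.1
  have hbY : b ^ l * Y ≠ 0 := mul_ne_zero (pow_ne_zero _ hb0) hY0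
  have e2 : W.v ((1 + b ^ l * Y) / (b ^ l * Y) - 1) < W.v (l : E) ^ 2 := by
    have e : (1 + b ^ l * Y) / (b ^ l * Y) - 1 = b⁻¹ ^ l / Y := by
      rw [inv_pow]; field_simp; ring
    rw [e, map_div₀, _root_.map_pow, div_lt_iff₀ (hv _ _ hY0)]
    exact (pow_le_of_le_one zero_le hb1.1.le hN).trans_lt hb1.2.2
  have hx0 : 1 + b ^ l * Y ≠ 0 := fun h0 => by
    rw [h0, zero_sub, Valuation.map_neg, _root_.map_one] at e1
    exact absurd (e1.trans_le (pow_le_one₀ zero_le (W'.v_natCast_le_one l))) (lt_irrefl _)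
  have hxL : 1 + b ^ l * Y ∈ L (S.Gam V H) := add_mem (one_mem _) (mul_mem (pow_mem hbL _) hYL)
  obtain ⟨j, c, hcL, hc⟩ := S.rig_one hl hl2 hV hH hD hbL hx0
  have hc0 : c ≠ 0 := fun h0 => hx0 (by rw [hc, h0, zero_pow hN, mul_zero])
  have hx : (rt l Y ^ j * c) ^ l = 1 + b ^ l * Y := by
    rw [hc, mul_pow, ← pow_mul, mul_comm j l, pow_mul, hρ]
  obtain ⟨w', hw', hfw'⟩ := hensel (F := F) W' hN e1
  obtain ⟨w, hw, hfw⟩ := hensel (F := F) W hN e2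
  have hw0' : w' ≠ 0 := fun h0 => hx0 (by rw [← hw', h0, zero_pow hN])
  have hw0 : w ≠ 0 := fun h0 => div_ne_zero hx0 hbY (by rw [← hw, h0, zero_pow hN])
  have k1 := oneOrb_cmp hN hρ0 hw0' hc0 (hμ hγ'.2) (hfix _ hγ'.2)
    (hfw' _ hγ'.1 (mem_L.1 hxL _ hγ'.2)) (mem_L.1 hcL _ hγ'.2) (i := 0) (j := j)
    (by rw [hx, pow_zero, one_mul, hw'])
  have k2 := oneOrb_cmp hN hρ0 (mul_ne_zero hw0 hb0) hc0 (hμ hγ.2) (hfix _ hγ.2)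
    (by rw [map_mul, mem_L.1 hbL _ hγ.2,
      hfw _ hγ.1 (mem_L.1 (div_mem hxL (mul_mem (pow_mem hbL _) hYL)) _ hγ.2)])
    (mem_L.1 hcL _ hγ.2) (i := 1) (j := j)
    (by rw [hx, pow_one, mul_pow, mul_pow, hw, hρ]; field_simp)
  rw [Nat.cast_zero, zero_mul] at k1
  have hj : (j : ZMod l) = 0 := (mul_eq_zero.1 k1.symm).resolve_right h3
  rw [hj, zero_mul, Nat.cast_one, one_mul] at k2
  exact h2 k2

theorem orb_of_same {l : ℕ} {V : Pl Ω} {H : Subgroup Gal(Ω/ℚ)} {W W' : Pl E}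
    (h : Same (S.Gam V H) W W') (hW : S.Orb l V H W) : S.Orb l V H W' := by
  obtain ⟨g, hg, rfl⟩ := h
  obtain ⟨κ, ⟨hκ, N, hN, hκN⟩, γ, hγ, hκγ⟩ := hW
  have hm : ∀ x ∈ Dec F (g • W) ⊓ S.Gam V H, g⁻¹ * x * g ∈ Dec F W ⊓ S.Gam V H := fun x hx =>
    ⟨mem_Dec_smul.1 hx.1, (S.Gam V H).mul_mem ((S.Gam V H).mul_mem ((S.Gam V H).inv_mem hg) hx.2) hg⟩
  refine ⟨fun x => κ (g⁻¹ * x * g), ⟨fun x hx y hy => ?_, _, isOpen_conj hN g, fun x hx hxN => ?_⟩,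
    g * γ * g⁻¹, ⟨mem_Dec_smul.2 ?_,
      (S.Gam V H).mul_mem ((S.Gam V H).mul_mem hg hγ.2) ((S.Gam V H).inv_mem hg)⟩, ?_⟩
  · simp only
    rw [← hκ _ (hm x hx) _ (hm y hy)]
    congr 1
    group
  · exact hκN _ (hm x hx) (by simpa using hxN)
  · have e : g⁻¹ * (g * γ * g⁻¹) * g = γ := by group
    rw [e]; exact hγ.1
  · have e : g⁻¹ * (g * γ * g⁻¹) * g = γ := by group
    simp only
    rw [e]; exact hκγ

theorem orb_of_move {l : ℕ} (hl : l.Prime) {V : Pl Ω} {H : Subgroup Gal(Ω/ℚ)} (hH : S.Small l H) {y : E}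
    (hy0 : y ≠ 0) (hy : y ∈ L (S.Gam V H)) {W : Pl E} {γ : Gal(E/F)} (hγ : γ ∈ Dec F W ⊓ S.Gam V H)
    (hm : γ (rt l y) ≠ rt l y) : S.Orb l V H W := by
  have hN := hl.ne_zero
  have hμ : S.Gam V H ≤ FixMu F E l := oneOrb_Gam_le S V hH
  have hρ0 : rt l y ≠ 0 := rt_ne_zero hN hy0
  have hfix : ∀ g ∈ S.Gam V H, g (rt l y ^ l) = rt l y ^ l := fun g hg => by
    rw [rt_pow hN, mem_L.1 hy _ hg]
  refine ⟨kum l (rt l y), ⟨fun x hx z hz => ?_, locZ_kum l hN hρ0 _⟩, γ, hγ,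
    fun h0 => hm ((kum_eq_zero_iff hN hρ0 (hfix _ hγ.2)).1 h0)⟩
  rw [kum_mul_right hN hρ0 (hfix _ hx.2) (hfix _ hz.2), (mem_FixMu_iff hN).1 (hμ hx.2), one_mul]

end Setup

end Crest.Agent.R018
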