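import Crest.Agent.R018.OneOrb
import Crest.Agent.R018.ExOrb

/-!
# R018 / OrbMono

`N = H'.normalCore`; in the finite group `Gal ⧸ N` let `Q' ≤ Q` be the images of `Dec V ⊓ H' ≤ Dec V ⊓ H`, `P'` a Sylow `l`-subgroup of `Q'`, `P ≥ P'` one of `Q`
(`IsPGroup.exists_le_sylow`, `Sylow.not_dvd_index`), `M' ≤ M` their preimages (open, `M' ≤ H'`, `M ≤ H`).  `adm_of_coprime`: `σ` permutes the cosets `(Dec V ⊓ H) / (Dec V ⊓ M)`, whose number is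
prime to `l`, so some orbit has length `m` prime to `l`: `σ' = t⁻¹ σ^m t ∈ M ⊓ Ine V`, and `kum l (rt l y) (α σ') = m · kum l (rt l y) (α σ) ≠ 0`.
`exOrb` for `(M', y')` gives `W1` in `Orb M'` and `Orb H'`; by `oneOrb`, `W` is `Gam H'`-conjugate to `W1`.  `W1 ∈ Orb M`: `A = Dec W1 ⊓ Gam M ⊵ A_N = Dec W1 ⊓ Gam N` with
`l`-group quotient; if `A = A_N` then `A = Dec W1 ⊓ Gam M'`; otherwise a non-trivial finite `l`-group has a non-trivial hom to `ZMod l` (`exists_hom_of_pgroup`), and it is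
continuous since `Gam N` is open in `Gam M` (`exists_open_sep` with `Z = Gam M \\ Gam N`, closed since `Gam N` is closed of finite index).  `exOrb` for `(M, y)` gives
`W2 ∈ Orb M ∩ Orb H`; `oneOrb` for `M` and `orb_of_same` finish.
-/

set_option autoImplicit false
set_option linter.unusedSectionVars false

noncomputable section

namespace Crest.Agent.R018

open scoped NNReal Classical

variable {Ω F E : Type*} [Field Ω] [CharZero Ω] [IsAlgClosed Ω] [IsGalois ℚ Ω]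
  [Field F] [NumberField F] [Field E] [CharZero E] [Algebra F E] [IsGalois F E] [RadCl E]

/-- some power of `σ` of exponent prime to `l` is conjugate into a subgroup of index prime to `l`. -/
theorem om_conj_pow {G : Type*} [Group G] {l : ℕ} (K : Subgroup G) (hi : ¬ l ∣ K.index) (σ : G) :
    ∃ t : G, ∃ m : ℕ, ¬ l ∣ m ∧ t⁻¹ * σ ^ m * t ∈ K := by
  have h0 : K.index ≠ 0 := fun h => hi (h ▸ dvd_zero l)
  have : K.FiniteIndex := ⟨h0⟩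
  have : Fintype (Quotient (MulAction.orbitRel (Subgroup.zpowers σ) (G ⧸ K))) := Fintype.ofFinite _
  rw [Subgroup.index_eq_sum_minimalPeriod K σ] at hi
  have : ∃ q : Quotient (MulAction.orbitRel (Subgroup.zpowers σ) (G ⧸ K)),
      ¬ l ∣ Function.minimalPeriod (σ • ·) q.out := by
    by_contra hc
    push Not at hc
    exact hi (Finset.dvd_sum fun q _ => hc q)
  obtain ⟨q, hq⟩ := this
  exact ⟨q.out.out, _, hq, QuotientGroup.out_conj_pow_minimalPeriod_mem K σ q.out⟩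

/-- Sylow subgroups modulo a normal subgroup of finite index. -/
theorem om_sylow {G : Type*} [Group G] {l : ℕ} (hl : l.Prime) {N D M0 : Subgroup G} [N.Normal]
    (hN : N.index ≠ 0) (hle : M0 ≤ D ⊔ N) (hp : ∀ x ∈ M0, ∃ k : ℕ, x ^ l ^ k ∈ N) :
    ∃ M : Subgroup G, M0 ≤ M ∧ N ≤ M ∧ M ≤ D ⊔ N ∧ (∀ x ∈ M, ∃ k : ℕ, x ^ l ^ k ∈ N) ∧
      ¬ l ∣ M.relIndex D := by
  have : Fact l.Prime := ⟨hl⟩
  have : N.FiniteIndex := ⟨hN⟩
  set π := QuotientGroup.mk' N with hπ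
  set Q : Subgroup (G ⧸ N) := D.map π with hQ
  have hcm : Q.comap π = D ⊔ N := by
    rw [hQ, Subgroup.comap_map_eq, hπ, QuotientGroup.ker_mk']
  have h0 : IsPGroup l ((M0.map π).subgroupOf Q) := by
    rintro ⟨⟨q, hq⟩, x, hx, hxq⟩
    obtain ⟨k, hk⟩ := hp x hx
    refine ⟨k, Subtype.ext (Subtype.ext ?_)⟩
    change q ^ l ^ k = 1
    have hxq' : π x = q := hxq
    rw [← hxq', ← map_pow]
    exact (QuotientGroup.eq_one_iff _).2 hk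
  obtain ⟨P, hP⟩ := h0.exists_le_sylow
  refine ⟨((P : Subgroup Q).map Q.subtype).comap π, fun x hx => ?_, fun x hx => ?_, ?_, ?_, ?_⟩
  · have hxQ : π x ∈ Q := by
      have := hle hx
      rw [← hcm] at this
      exact this
    exact ⟨⟨π x, hxQ⟩, hP ⟨x, hx, rfl⟩, rfl⟩
  · have : π x = 1 := (QuotientGroup.eq_one_iff _).2 hx
    rw [Subgroup.mem_comap, this]
    exact Subgroup.one_mem _
  · rw [← hcm]
    exact Subgroup.comap_mono (Subgroup.map_subtype_le _)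
  · rintro x ⟨q, hq, hqx⟩
    obtain ⟨k, hk⟩ := P.isPGroup' ⟨q, hq⟩
    refine ⟨k, (QuotientGroup.eq_one_iff _).1 ?_⟩
    have h1 : (q : G ⧸ N) ^ l ^ k = 1 := congrArg (fun z : (P : Subgroup Q) => ((z : Q) : G ⧸ N)) hk
    have h2 : (q : G ⧸ N) = π x := hqx
    rw [h2, ← map_pow] at h1
    exact h1
  · rw [Subgroup.relIndex_comap, ← hQ, Subgroup.relIndex, Subgroup.subgroupOf,
      Subgroup.comap_map_eq_self_of_injective Q.subtype_injective]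
    exact P.not_dvd_index

namespace Setup
variable (S : Setup Ω F E)

theorem _root_.Crest.Agent.R018.exists_hom_of_pgroup {Γ : Type*} [Group Γ] {l : ℕ} (hl : l.Prime)
    {A B : Subgroup Γ} (hle : B ≤ A) (hn : ∀ a ∈ A, ∀ b ∈ B, a * b * a⁻¹ ∈ B) (hi : B.relIndex A ≠ 0)
    (hp : ∀ a ∈ A, ∃ k : ℕ, a ^ l ^ k ∈ B) (hne : ¬ A ≤ B) :
    ∃ κ : Γ → ZMod l, AHom A κ ∧ (∀ b ∈ B, κ b = 0) ∧ ∃ a ∈ A, κ a ≠ 0 := by
  have : Fact l.Prime := ⟨hl⟩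
  have hnorm : (B.subgroupOf A).Normal := ⟨fun b hb a => hn a a.2 b hb⟩
  have : (B.subgroupOf A).FiniteIndex := ⟨hi⟩
  have hQ : IsPGroup l (A ⧸ B.subgroupOf A) := by
    intro q
    obtain ⟨a, rfl⟩ := QuotientGroup.mk_surjective q
    obtain ⟨k, hk⟩ := hp a a.2
    exact ⟨k, by rw [← QuotientGroup.mk_pow]; exact (QuotientGroup.eq_one_iff _).2 hk⟩
  obtain ⟨n, hn'⟩ := IsPGroup.iff_card.1 hQ
  have hn0 : n ≠ 0 := by
    rintro rfl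
    rw [pow_zero] at hn'
    exact hne (Subgroup.relIndex_eq_one.1 hn')
  obtain ⟨m, rfl⟩ := Nat.exists_eq_succ_of_ne_zero hn0
  obtain ⟨K, hK⟩ := Sylow.exists_subgroup_card_pow_prime (G := A ⧸ B.subgroupOf A) l (n := m)
    (by rw [hn']; exact pow_dvd_pow l (Nat.le_succ m))
  have hKi : K.index = l := by
    have h := K.card_mul_index
    rw [hK, hn', pow_succ] at h
    exact Nat.eq_of_mul_eq_mul_left (pow_pos hl.pos m) h
  have : K.Normal := Subgroup.normal_of_index_eq_minFac_card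
    (by rw [hKi, hn', hl.pow_minFac (Nat.succ_ne_zero m)])
  have hc : Nat.card ((A ⧸ B.subgroupOf A) ⧸ K) = l := hKi
  have hc' : Nat.card (Multiplicative (ZMod l)) = l := by simp
  let e := mulEquivOfPrimeCardEq hc hc'
  let φ : A →* Multiplicative (ZMod l) :=
    e.toMonoidHom.comp ((QuotientGroup.mk' K).comp (QuotientGroup.mk' (B.subgroupOf A)))
  have hφ : Function.Surjective φ :=
    e.surjective.comp ((QuotientGroup.mk'_surjective K).comp (QuotientGroup.mk'_surjective _))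
  refine ⟨fun x => if h : x ∈ A then Multiplicative.toAdd (φ ⟨x, h⟩) else 0, ?_, ?_, ?_⟩
  · intro x hx y hy
    simp only [dif_pos hx, dif_pos hy, dif_pos (A.mul_mem hx hy)]
    rw [← toAdd_mul, ← map_mul]
    rfl
  · intro b hb
    simp only [dif_pos (hle hb)]
    have : QuotientGroup.mk' (B.subgroupOf A) ⟨b, hle hb⟩ = 1 := (QuotientGroup.eq_one_iff _).2 hb
    simp only [φ, MonoidHom.comp_apply, this, _root_.map_one, toAdd_one]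
  · obtain ⟨a, ha⟩ := hφ (Multiplicative.ofAdd 1)
    refine ⟨a, a.2, ?_⟩
    simp only [dif_pos a.2, Subtype.coe_eta, ha, toAdd_ofAdd]
    exact one_ne_zero

theorem om_Gam_mono (V : Pl Ω) {H H' : Subgroup Gal(Ω/ℚ)} (h : H' ≤ H) : S.Gam V H' ≤ S.Gam V H :=
  S.img_mono (inf_le_inf_left _ h)

theorem om_small_mono {l : ℕ} {H M : Subgroup Gal(Ω/ℚ)} (hH : S.Small l H)
    (hM : IsOpen (M : Set Gal(Ω/ℚ))) (hle : M ≤ H) : S.Small l M :=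
  ⟨hM, hle.trans hH.2.1, hle.trans hH.2.2⟩

/-- `Gam N` is open in `Gam M`. -/
theorem om_open (V : Pl Ω) {M N : Subgroup Gal(Ω/ℚ)} [N.Normal] (hN : IsOpen (N : Set Gal(Ω/ℚ)))
    (hle : N ≤ M) (hM : M ≤ S.G0) :
    ∃ U : Subgroup Gal(E/F), IsOpen (U : Set Gal(E/F)) ∧ ∀ a ∈ S.Gam V M, a ∈ U → a ∈ S.Gam V N := by
  set K : Subgroup Gal(Ω/ℚ) := (Dec ℚ V ⊓ M) ⊓ S.pre (S.Gam V N) with hK
  have hKo : IsOpen ((K ⊔ N : Subgroup Gal(Ω/ℚ)) : Set Gal(Ω/ℚ)) :=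
    Subgroup.isOpen_mono le_sup_right hN
  have hMo : IsOpen (M : Set Gal(Ω/ℚ)) := Subgroup.isOpen_mono hle hN
  have hZc : IsClosed (((Dec ℚ V : Set Gal(Ω/ℚ)) ∩ (M : Set Gal(Ω/ℚ))) ∩
      ((K ⊔ N : Subgroup Gal(Ω/ℚ)) : Set Gal(Ω/ℚ))ᶜ) :=
    ((isClosed_Dec V).inter (isClosed_of_isOpen hMo)).inter hKo.isClosed_compl
  have hZ := hZc.isCompact.image_of_continuousOn (S.continuousOn.mono fun x hx => hM hx.1.2)
  obtain ⟨U, hU, -, hUZ⟩ := exists_open_sep (S.isClosed_Gam V (isClosed_of_isOpen hN)) hZ (by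
    rintro _ ⟨d, ⟨hd, hd'⟩, rfl⟩ h
    exact hd' (Subgroup.mem_sup_left (show d ∈ K from ⟨hd, hM hd.2, h⟩)))
  refine ⟨U, hU, ?_⟩
  rintro _ ⟨d, hd, hd0, rfl⟩ hdU
  have hdK : d ∈ K ⊔ N := by
    by_contra hc
    exact hUZ _ ⟨d, ⟨hd, hc⟩, rfl⟩ hdU
  rw [← SetLike.mem_coe, Subgroup.mul_normal] at hdK
  obtain ⟨k, hk, n, hn, rfl⟩ := hdK
  have hk' : k ∈ K := hk
  have hn' : n ∈ N := hn
  have hnD : n ∈ Dec ℚ V := ((Dec ℚ V).mul_mem_cancel_left hk'.1.1).1 hd.1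
  change S.α (k * n) ∈ _
  rw [S.mul k hk'.2.1 n (hM (hle hn'))]
  exact Subgroup.mul_mem _ hk'.2.2 ⟨n, ⟨hnD, hn'⟩, hM (hle hn'), rfl⟩

/-- going up along an `l`-extension. -/
theorem om_up {l : ℕ} (hl : l.Prime) {V : Pl Ω} {M M' N : Subgroup Gal(Ω/ℚ)} [hNn : N.Normal]
    (hN : IsOpen (N : Set Gal(Ω/ℚ))) (h1 : N ≤ M') (h2 : M' ≤ M) (hM : M ≤ S.G0)
    (hp : ∀ x ∈ M, ∃ k : ℕ, x ^ l ^ k ∈ N) {W : Pl E} (hW : S.Orb l V M' W) : S.Orb l V M W := by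
  by_cases hAB : Dec F W ⊓ S.Gam V M ≤ Dec F W ⊓ S.Gam V N
  · obtain ⟨κ, hκ, γ, hγ, hγ0⟩ := hW
    exact ⟨κ, hκ.mono (hAB.trans (inf_le_inf_left _ (S.om_Gam_mono V h1))), γ,
      inf_le_inf_left _ (S.om_Gam_mono V h2) hγ, hγ0⟩
  obtain ⟨U, hU, hU'⟩ := S.om_open V hN (h1.trans h2) hM
  have hUB : ∀ a ∈ Dec F W ⊓ S.Gam V M, a ∈ U → a ∈ Dec F W ⊓ S.Gam V N :=
    fun a ha haU => ⟨ha.1, hU' a ha.2 haU⟩
  obtain ⟨κ, hκ, hκ0, a, ha, ha0⟩ := exists_hom_of_pgroup hl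
    (A := Dec F W ⊓ S.Gam V M) (B := Dec F W ⊓ S.Gam V N)
    (inf_le_inf_left _ (S.om_Gam_mono V (h1.trans h2)))
    (by
      rintro _ ⟨ha, d, hd, hd0, rfl⟩ _ ⟨hb, e, he, he0, rfl⟩
      refine ⟨Subgroup.mul_mem _ (Subgroup.mul_mem _ ha hb) (Subgroup.inv_mem _ ha),
        d * e * d⁻¹, ⟨Subgroup.mul_mem _ (Subgroup.mul_mem _ hd.1 he.1) (Subgroup.inv_mem _ hd.1),
          hNn.conj_mem e he.2 d⟩,
        S.G0.mul_mem (S.G0.mul_mem hd0 he0) (S.G0.inv_mem hd0), S.map_conj hd0 he0⟩)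
    (by
      have h := relIndex_ne_zero_of_isOpen hU (Dec F W ⊓ S.Gam V M)
      rw [← Subgroup.inf_relIndex_right] at h
      intro h0
      exact h (Subgroup.relIndex_eq_zero_of_le_left (fun x hx => hUB x hx.2 hx.1) h0))
    (by
      rintro _ ⟨ha, d, hd, hd0, rfl⟩
      obtain ⟨k, hk⟩ := hp d hd.2
      exact ⟨k, Subgroup.pow_mem _ ha _, d ^ l ^ k, ⟨Subgroup.pow_mem _ hd.1 _, hk⟩,
        S.G0.pow_mem hd0 _, S.map_pow hd0 _⟩)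
    hAB
  exact ⟨κ, ⟨hκ, U, hU, fun x hx hxU => hκ0 x (hUB x hx hxU)⟩, a, ha, ha0⟩

theorem adm_of_coprime {l : ℕ} (hl : l.Prime) {V : Pl Ω} {H M : Subgroup Gal(Ω/ℚ)} (hH : S.Small l H)
    (hM : IsOpen (M : Set Gal(Ω/ℚ))) (hle : M ≤ H) {y : E} {σ : Gal(Ω/ℚ)} (hA : S.AdmD l V H y σ)
    (hi : ¬ l ∣ (Dec ℚ V ⊓ M).relIndex (Dec ℚ V ⊓ H)) :
    S.Small l M ∧ ∃ σ', S.AdmD l V M y σ' := by
  refine ⟨S.om_small_mono hH hM hle, ?_⟩
  have : Fact l.Prime := ⟨hl⟩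
  obtain ⟨hy0, hy, hσI, hσH, hσ⟩ := hA
  have hσD : σ ∈ Dec ℚ V ⊓ H := ⟨Ine_le_Dec V hσI, hσH⟩
  obtain ⟨t, m, hm, ht⟩ := om_conj_pow _ hi ⟨σ, hσD⟩
  have ht' : (t : Gal(Ω/ℚ))⁻¹ * σ ^ m * t ∈ Dec ℚ V ⊓ M := ht
  have hG : H ≤ S.G0 := hH.2.2.trans (S.pre_le_G0 _)
  have hρ : rt l y ≠ 0 := rt_ne_zero hl.ne_zero hy0
  have hΓ : S.Gam V H ≤ FixMu F E l :=
    (S.img_le_of_le_pre (inf_le_right.trans hH.2.2)).trans inf_le_left
  have hy' : rt l y ^ l ∈ L (S.Gam V H) := by rw [rt_pow hl.ne_zero]; exact hy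
  have hκ : AHom (S.Gam V H) (kum l (rt l y)) := (chom_kum hl.ne_zero hρ hΓ hy').1
  have hmem : ∀ d ∈ Dec ℚ V ⊓ H, S.α d ∈ S.Gam V H := fun d hd => ⟨d, hd, hG hd.2, rfl⟩
  have hz : ∀ d ∈ Dec ℚ V ⊓ H, kum l (rt l y) (S.α d) = 0 ↔ S.α d (rt l y) = rt l y :=
    fun d hd => kum_eq_zero_iff hl.ne_zero hρ (mem_L.1 hy' _ (hmem d hd))
  refine ⟨(t : Gal(Ω/ℚ))⁻¹ * σ ^ m * t, hy0, L_anti (S.om_Gam_mono V hle) hy, ?_, ht'.2, ?_⟩
  · have := conj_mem_Ine ((Dec ℚ V).inv_mem t.2.1) ((Ine ℚ V).pow_mem hσI m)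
    rwa [inv_inv] at this
  · intro h
    rw [← hz _ ⟨ht'.1, hle ht'.2⟩] at h
    have h2 := S.map_conj (S.G0.inv_mem (hG t.2.2)) (S.G0.pow_mem (hG hσH) m)
    rw [inv_inv] at h2
    rw [h2, hκ.map_conj (hmem _ (Subgroup.inv_mem _ t.2)) (hmem _ (Subgroup.pow_mem _ hσD m)),
      S.map_pow (hG hσH), hκ.map_pow (hmem _ hσD), nsmul_eq_mul, mul_eq_zero] at h
    rcases h with h | h
    · exact hm ((ZMod.natCast_eq_zero_iff m l).1 h)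
    · exact hσ ((hz σ hσD).1 h)

theorem orbMono {l : ℕ} (hl : l.Prime) (hl2 : l ≠ 2) {V : Pl Ω} (hV : V.p ≠ l)
    {H H' : Subgroup Gal(Ω/ℚ)} (hA : S.Adm l V H) (hA' : S.Adm l V H') (hle : H' ≤ H) {W : Pl E}
    (hW : S.Orb l V H' W) : S.Orb l V H W := by
  obtain ⟨hH, y, σ, hy⟩ := hA
  obtain ⟨hH', y', σ', hy'⟩ := hA'
  have hN : IsOpen (H'.normalCore : Set Gal(Ω/ℚ)) := isOpen_normalCore hH'.1
  have hNi := index_ne_zero_of_isOpen hN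
  have hNH : H'.normalCore ≤ H' := H'.normalCore_le
  have hidx : ∀ M K : Subgroup Gal(Ω/ℚ),
      (Dec ℚ V ⊓ M).relIndex (Dec ℚ V ⊓ K) = M.relIndex (Dec ℚ V ⊓ K) := by
    intro M K
    rw [← Subgroup.inf_relIndex_right (Dec ℚ V ⊓ M), ← Subgroup.inf_relIndex_right M]
    congr 1
    ext x
    simp only [Subgroup.mem_inf]
    tauto
  obtain ⟨M', -, hNM', hM'le, hM'p, hM'i⟩ := om_sylow hl (D := Dec ℚ V ⊓ H') (M0 := H'.normalCore)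
    hNi le_sup_right (fun x hx => ⟨0, by simpa using hx⟩)
  obtain ⟨M, hM'M, hNM, hMle, hMp, hMi⟩ := om_sylow hl (D := Dec ℚ V ⊓ H) (M0 := M')
    hNi (hM'le.trans (sup_le_sup_right (inf_le_inf_left _ hle) _)) hM'p
  have hM'H : M' ≤ H' := hM'le.trans (sup_le inf_le_right hNH)
  have hMH : M ≤ H := hMle.trans (sup_le inf_le_right (hNH.trans hle))
  obtain ⟨hsM', τ', hτ'⟩ := S.adm_of_coprime hl hH' (Subgroup.isOpen_mono hNM' hN) hM'H hy'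
    (by rw [hidx]; exact hM'i)
  obtain ⟨hsM, τ, hτ⟩ := S.adm_of_coprime hl hH (Subgroup.isOpen_mono hNM hN) hMH hy
    (by rw [hidx]; exact hMi)
  obtain ⟨W1, γ1, hγ1, hm1⟩ := S.exOrb hl hl2 hV hsM' hτ'
  obtain ⟨W2, γ2, hγ2, hm2⟩ := S.exOrb hl hl2 hV hsM hτ
  have o1 : S.Orb l V M' W1 := S.orb_of_move hl hsM' hτ'.1 hτ'.2.1 hγ1 hm1
  have o1' : S.Orb l V H' W1 := S.orb_of_move hl hH' hy'.1 hy'.2.1
    (inf_le_inf_left _ (S.om_Gam_mono V hM'H) hγ1) hm1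
  have o2 : S.Orb l V M W2 := S.orb_of_move hl hsM hτ.1 hτ.2.1 hγ2 hm2
  have o2' : S.Orb l V H W2 := S.orb_of_move hl hH hy.1 hy.2.1
    (inf_le_inf_left _ (S.om_Gam_mono V hMH) hγ2) hm2
  have o1M : S.Orb l V M W1 :=
    S.om_up hl hN hNM' hM'M (hsM.2.2.trans (S.pre_le_G0 _)) hMp o1
  have s1 : Same (S.Gam V H) W1 W :=
    (S.oneOrb hl hl2 hV ⟨hH', y', σ', hy'⟩ o1' hW).mono (S.om_Gam_mono V hle)
  have s2 : Same (S.Gam V H) W2 W1 :=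
    (S.oneOrb hl hl2 hV ⟨hsM, y, τ, hτ⟩ o2 o1M).mono (S.om_Gam_mono V hMH)
  exact S.orb_of_same (s2.trans s1) o2'

end Setup

end Crest.Agent.R018
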