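import Crest.Agent.R018.Herb
import Crest.Agent.R018.Class
import Crest.Agent.R018.Hensel

/-!
# R018 / P1

(P1) `[k^× : k^{×l} ray(M)] ≤ l^{2 s + deg}`.  Work in `Eˣ ⧸ rayU H M`, `X` = image of `LU H`.  `Φ x = (expo at W)_{W ∈ s'}` where `s' ⊆ s` are the places dividing `M`
(define `Φ` on the subgroup `X` itself, i.e. apply `relIndex_pw_le` to the group `↥X` or to `LU H ⧸ ..`); its kernel is finite (`rayU_relIndex`).
So the index is `≤ l^{card s} |X[l]|`.  For `x ∈ LU H` with `x^l ∈ rayU H M` and `W ∣ M`, `exists_root_close` (applied to `u = x^l`, roots `ζ x`) gives a unique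
`ζ_W ∈ μ_l` with `W.v (x - ζ_W) · W.v l ≤ W.v M` (`W.v M < W.v l ^ 2`, `v_le_v_one_sub`): at most `l^{card s}` possibilities; for `x, x'` with the same `ζ`'s,
`y = (x/x' - 1) l / M` lies in `R = {y ∈ L H | W.v y ≤ 1 ∀ W ∣ M}` and the class of `x/x'` is determined by `y mod l R`; finally
`|R / l R| ≤ |𝓞 / l 𝓞| = l^{deg}` (`c y ∈ 𝓞` for an integer `c` prime to `l`; `𝓞 (L H)` is free of rank `deg H`).
-/

set_option autoImplicit false
set_option linter.unusedSectionVars false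

noncomputable section

namespace Crest.Agent.R018

open scoped NNReal Classical

variable {F E : Type*} [Field F] [NumberField F] [Field E] [CharZero E] [Algebra F E]
  [IsGalois F E] [RadCl E]

/-- clearing denominators by an integer prime to `l`. -/
theorem p1_denom (F : Type*) [Field F] [NumberField F] [Algebra F E] [IsGalois F E]
    {l : ℕ} (hl : l.Prime) {y : E} (hy : ∀ W : Pl E, W.p = l → W.v y ≤ 1) :
    ∃ c : ℕ, ¬ l ∣ c ∧ ∀ W : Pl E, W.v ((c : E) * y) ≤ 1 := by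
  have := isAlgebraic_rat F E
  rcases eq_or_ne y 0 with rfl | hy0
  · exact ⟨1, fun h => hl.one_lt.ne' (Nat.dvd_one.1 h), fun W => by simp⟩
  obtain ⟨n, hn, h⟩ := exists_nat_v_le (inv_ne_zero hy0)
  obtain ⟨a, c, hc, rfl⟩ := Nat.exists_eq_pow_mul_and_not_dvd hn l hl.ne_one
  refine ⟨c, hc, fun W => ?_⟩
  by_cases hW : W.p = l
  · rw [map_mul]
    exact mul_le_one' (W.v_natCast_le_one c) (hy W hW)
  · have h1 : W.v (l : E) = 1 := W.v_natCast_eq_one fun h' =>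
      hW ((Nat.prime_dvd_prime_iff_eq W.hp hl).1 h')
    have h2 := h W
    have hv : 0 < W.v y := pos_iff_ne_zero.2 ((map_ne_zero _).2 hy0)
    push_cast at h2
    rw [map_mul, map_pow, h1, one_pow, one_mul, map_inv₀, ← one_div, le_div_iff₀ hv] at h2
    rwa [map_mul]

open NumberField in
/-- `|R / l R| ≤ l^deg`. -/
theorem card_le_pow_deg {H : Subgroup Gal(E/F)} (hH : IsOpen (H : Set Gal(E/F))) {l : ℕ} (hl : l.Prime)
    (t : Finset E) (ht : ∀ y ∈ t, y ∈ L H ∧ ∀ W : Pl E, W.p = l → W.v y ≤ 1)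
    (hd : ∀ y ∈ t, ∀ y' ∈ t, (∀ W : Pl E, W.p = l → W.v (y - y') ≤ W.v (l : E)) → y = y') :
    t.card ≤ l ^ deg H := by
  have := numberField_L hH
  choose! c hc hc' using fun y (hy : y ∈ t) => p1_denom F hl (ht y hy).2
  have hC : ¬ l ∣ ∏ y ∈ t, c y := fun h => by
    obtain ⟨y, hy, h'⟩ := (Prime.dvd_finsetProd_iff hl.prime _).1 h
    exact hc y hy h'
  set C : ℕ := ∏ y ∈ t, c y with hCdef
  have hint : ∀ y ∈ t, IsIntegral ℤ ((C : E) * y) := fun y hy => by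
    refine isIntegral_of_v_le_one F fun W => ?_
    rw [hCdef, ← Finset.prod_erase_mul _ _ hy, Nat.cast_mul, mul_assoc, map_mul]
    exact mul_le_one' (W.v_natCast_le_one _) (hc' y hy W)
  have hint' : ∀ y : t, IsIntegral ℤ
      (⟨(C : E) * y, (L H).mul_mem (natCast_mem _ C) (ht y y.2).1⟩ : L H) := fun y =>
    (isIntegral_algHom_iff ((L H).val.restrictScalars ℤ) (fun a b h => Subtype.ext h)).1 (hint y y.2)
  let I : Ideal (𝓞 (L H)) := Ideal.span {(l : 𝓞 (L H))}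
  have hcard : Nat.card (𝓞 (L H) ⧸ I) = l ^ deg H := by
    rw [← Submodule.cardQuot_apply, ← Ideal.absNorm_apply, Ideal.absNorm_span_natCast,
      RingOfIntegers.rank, finrank_rat_L hH]
  have hfin : Finite (𝓞 (L H) ⧸ I) :=
    Nat.finite_of_card_ne_zero (by rw [hcard]; exact pow_ne_zero _ hl.ne_zero)
  let f : t → 𝓞 (L H) ⧸ I := fun y => Ideal.Quotient.mk I ⟨_, hint' y⟩
  have hf : Function.Injective f := fun y y' e => by
    obtain ⟨z, hz⟩ := Ideal.mem_span_singleton'.1 (Ideal.Quotient.eq.1 e)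
    have hz' : ((z : L H) : E) * (l : E) = (C : E) * ((y : E) - y') := by
      have := congrArg (fun a : 𝓞 (L H) => ((a : L H) : E)) hz
      simp only [map_mul, map_natCast] at this
      rw [mul_sub]
      exact this
    refine Subtype.ext (hd y y.2 y' y'.2 fun W hW => ?_)
    have h1 := congrArg W.v hz'
    rw [map_mul, map_mul, W.v_natCast_eq_one (n := C) (by rw [hW]; exact hC), one_mul] at h1
    rw [← h1]
    exact mul_le_of_le_one_left' (W.v_le_one_of_isIntegral (tr_int z))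
  rw [← hcard, ← Nat.card_eq_finsetCard]
  exact Nat.card_le_card_of_injective f hf

/-- elements close to each other at the places dividing `M`. -/
theorem p1_fiber {H : Subgroup Gal(E/F)} (hH : IsOpen (H : Set Gal(E/F))) {l : ℕ} (hl : l.Prime)
    {M : ℕ} (hM : M ≠ 0) (hlM : l ∣ M) (T : Finset Eˣ)
    (hT : ∀ x ∈ T, x ∈ LU H ∧ ∀ W : Pl E, W.v (M : E) < 1 → W.v (x : E) = 1)
    (hc : ∀ x ∈ T, ∀ x' ∈ T, ∀ W : Pl E, W.v (M : E) < 1 →
      W.v ((x : E) - x') * W.v (l : E) ≤ W.v (M : E))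
    (hsep : ∀ x ∈ T, ∀ x' ∈ T, x⁻¹ * x' ∈ rayU H (M : E) → x = x') : T.card ≤ l ^ deg H := by
  rcases T.eq_empty_or_nonempty with rfl | ⟨x0, hx0⟩
  · simp
  have hM0 : (M : E) ≠ 0 := Nat.cast_ne_zero.2 hM
  have hl0 : (l : E) ≠ 0 := Nat.cast_ne_zero.2 hl.ne_zero
  have hvM : ∀ W : Pl E, 0 < W.v (M : E) := fun W => pos_iff_ne_zero.2 ((map_ne_zero _).2 hM0)
  have hvl : ∀ W : Pl E, 0 < W.v (l : E) := fun W => pos_iff_ne_zero.2 ((map_ne_zero _).2 hl0)
  let y : Eˣ → E := fun x => ((x : E) - x0) * l / M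
  have key : ∀ x ∈ T, ∀ x' ∈ T, (∀ W : Pl E, W.p = l → W.v (y x - y x') ≤ W.v (l : E)) → x = x' := by
    intro x hx x' hx' h
    refine hsep x hx x' hx' ⟨(LU H).mul_mem ((LU H).inv_mem (hT x hx).1) (hT x' hx').1,
      fun W hW => ?_⟩
    have e1 : ((x⁻¹ * x' : Eˣ) : E) - 1 = (x : E)⁻¹ * (-((x : E) - x')) := by
      rw [Units.val_mul, Units.val_inv_eq_inv_val]; field_simp; ring
    rw [e1, map_mul, map_inv₀, (hT x hx).2 W hW, inv_one, one_mul, Valuation.map_neg]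
    by_cases hWl : W.p = l
    · have h1 := h W hWl
      have e2 : y x - y x' = ((x : E) - x') * l / M := by simp only [y]; ring
      rw [e2, map_div₀, map_mul, div_le_iff₀ (hvM W), mul_comm (W.v (l : E))] at h1
      exact le_of_mul_le_mul_right h1 (hvl W)
    · have h1 : W.v (l : E) = 1 := W.v_natCast_eq_one fun h' =>
        hWl ((Nat.prime_dvd_prime_iff_eq W.hp hl).1 h')
      simpa [h1] using hc x hx x' hx' W hW
  have hinj : Set.InjOn y T := fun x hx x' hx' e => key x hx x' hx' fun W _ => by simp [e]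
  rw [← Finset.card_image_of_injOn hinj]
  refine card_le_pow_deg hH hl _ (fun z hz => ?_) fun z hz z' hz' h => ?_
  · obtain ⟨x, hx, rfl⟩ := Finset.mem_image.1 hz
    refine ⟨(L H).div_mem ((L H).mul_mem ((L H).sub_mem (hT x hx).1 (hT x0 hx0).1)
      (natCast_mem _ l)) (natCast_mem _ M), fun W hW => ?_⟩
    have h1 := hc x hx x0 hx0 W (W.v_natCast_lt_one_iff.2 (hW ▸ hlM))
    simp only [y]
    rwa [map_div₀, map_mul, div_le_one (hvM W)]
  · obtain ⟨x, hx, rfl⟩ := Finset.mem_image.1 hz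
    obtain ⟨x', hx', rfl⟩ := Finset.mem_image.1 hz'
    rw [key x hx x' hx' h]

theorem p1_lt {l : ℕ} (hl : l.Prime) {M : ℕ} (hlM : l ^ 3 ∣ M) {W : Pl E} (hW : W.v (M : E) < 1) :
    W.v (M : E) < W.v (l : E) ^ 2 := by
  by_cases hWl : W.p = l
  · obtain ⟨m, rfl⟩ := hlM
    have h0 : 0 < W.v (l : E) := hWl ▸ W.v_p_pos
    have h1 : W.v (l : E) < 1 := hWl ▸ W.v_p_lt_one
    push_cast
    rw [map_mul, map_pow]
    calc W.v (l : E) ^ 3 * W.v (m : E) ≤ W.v (l : E) ^ 3 :=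
          mul_le_of_le_one_right' (W.v_natCast_le_one m)
      _ < W.v (l : E) ^ 2 := pow_lt_pow_right_of_lt_one₀ h0 h1 (by norm_num)
  · have h1 : W.v (l : E) = 1 := W.v_natCast_eq_one fun h' =>
      hWl ((Nat.prime_dvd_prime_iff_eq W.hp hl).1 h')
    rwa [h1, one_pow]

/-- counting the `l`-torsion of `L H^× / ray(M)`. -/
theorem p1_tors {H : Subgroup Gal(E/F)} (hH : IsOpen (H : Set Gal(E/F))) {l : ℕ} (hl : l.Prime)
    {M : ℕ} (hM : M ≠ 0) (hlM : l ^ 3 ∣ M) (s : Finset (Pl E)) (hs0 : ∀ W ∈ s, W.v (M : E) < 1)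
    (hs : ∀ W : Pl E, W.v (M : E) < 1 → W ∈ orbs H s) (T : Finset Eˣ)
    (hT : ∀ x ∈ T, x ∈ LU H ∧ x ^ l ∈ rayU H (M : E))
    (hsep : ∀ x ∈ T, ∀ x' ∈ T, x⁻¹ * x' ∈ rayU H (M : E) → x = x') :
    T.card ≤ l ^ deg H * l ^ s.card := by
  have : NeZero l := ⟨hl.ne_zero⟩
  obtain ⟨ζ, hζ⟩ := RadCl.prim (E := E) l hl.ne_zero
  have hvζ : ∀ W : Pl E, W.v ζ = 1 := fun W => by
    have := congrArg W.v hζ.pow_eq_one
    rw [map_pow, map_one] at this
    exact (pow_eq_one_iff_of_nonneg zero_le hl.ne_zero).1 this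
  have hex : ∀ x ∈ T, ∀ W : s, ∃ i : Fin l,
      W.1.v (ζ ^ (i : ℕ) * x - 1) * W.1.v (l : E) ≤ W.1.v (M : E) := by
    intro x hx W
    have h1 := (hT x hx).2.2 W (hs0 W W.2)
    rw [Units.val_pow_eq_pow_val] at h1
    obtain ⟨w, hw, hw'⟩ := exists_root_close W.1 hl.ne_zero (h1.trans_lt (p1_lt hl hlM (hs0 W W.2)))
    have h2 : (w / x) ^ l = 1 := by
      rw [div_pow, hw, div_self (pow_ne_zero _ x.ne_zero)]
    obtain ⟨i, hi, e⟩ := hζ.eq_pow_of_pow_eq_one h2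
    refine ⟨⟨i, hi⟩, ?_⟩
    simp only
    rw [e, div_mul_cancel₀ _ x.ne_zero]
    exact hw'.trans h1
  choose! a ha using hex
  have h1 := Finset.card_le_mul_card_image (f := a) T (l ^ deg H) fun b _ => by
    refine p1_fiber hH hl hM ((dvd_pow_self l (by norm_num)).trans hlM) _ (fun x hx => ?_)
      (fun x hx x' hx' W hW => ?_) fun x hx x' hx' =>
        hsep x (Finset.mem_filter.1 hx).1 x' (Finset.mem_filter.1 hx').1
    · have hx := (Finset.mem_filter.1 hx).1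
      refine ⟨(hT x hx).1, fun W hW => ?_⟩
      have h2 := v_eq_one_of_mem_rayU (hT x hx).2 hW
      rw [Units.val_pow_eq_pow_val, map_pow] at h2
      exact (pow_eq_one_iff_of_nonneg zero_le hl.ne_zero).1 h2
    · obtain ⟨hx, e⟩ := Finset.mem_filter.1 hx
      obtain ⟨hx', e'⟩ := Finset.mem_filter.1 hx'
      obtain ⟨W', hW', hsame⟩ := hs W hW
      rw [← hsame.v_eq ((L H).sub_mem (hT x hx).1 (hT x' hx').1), ← hsame.v_eq (natCast_mem _ l),
        ← hsame.v_eq (natCast_mem _ M)]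
      have h2 := ha x hx ⟨W', hW'⟩
      have h3 := ha x' hx' ⟨W', hW'⟩
      rw [e] at h2
      rw [e'] at h3
      simp only at h2 h3
      have e4 : W'.v ((x : E) - x') = W'.v ((ζ ^ (b ⟨W', hW'⟩ : ℕ) * x - 1) -
          (ζ ^ (b ⟨W', hW'⟩ : ℕ) * x' - 1)) := by
        rw [sub_sub_sub_cancel_right, ← mul_sub, map_mul, map_pow, hvζ, one_pow, one_mul]
      rw [e4]
      refine (mul_le_mul_left (W'.v.map_sub _ _) _).trans ?_
      rw [max_mul]
      exact max_le h2 h3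
  refine h1.trans (Nat.mul_le_mul_left _ ?_)
  refine (Finset.card_le_univ _).trans ?_
  simp

/-- the exponent at `W` as a homomorphism on `L H^×`. -/
def p1Expo {H : Subgroup Gal(E/F)} (hH : IsOpen (H : Set Gal(E/F))) (s : Finset (Pl E)) :
    LU H →* Multiplicative (s → ℤ) where
  toFun x := Multiplicative.ofAdd fun W => expo H W.1 (W.1.vU x)
  map_one' := by
    rw [← ofAdd_zero]
    congr 1
    funext W
    simpa using expo_zpow hH W.1 0
  map_mul' x y := by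
    rw [← ofAdd_add]
    congr 1
    funext W
    apply unif_zpow_injective hH W.1
    simp only [Pi.add_apply]
    rw [zpow_add, unif_zpow_expo hH ⟨_, x.2, rfl⟩, unif_zpow_expo hH ⟨_, y.2, rfl⟩,
      unif_zpow_expo hH ⟨_, (x * y).2, rfl⟩, Subgroup.coe_mul, map_mul]

theorem p1Expo_eq_one_iff {H : Subgroup Gal(E/F)} (hH : IsOpen (H : Set Gal(E/F)))
    (s : Finset (Pl E)) (x : LU H) :
    p1Expo hH s x = 1 ↔ ∀ W ∈ s, W.v ((x : Eˣ) : E) = 1 := by
  constructor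
  · intro h W hW
    have h1 : expo H W (W.vU x) = 0 := congrFun (congrArg Multiplicative.toAdd h) ⟨W, hW⟩
    have h2 := unif_zpow_expo hH (W := W) ⟨_, x.2, rfl⟩
    rw [h1, zpow_zero] at h2
    rw [← Pl.coe_vU, ← h2, Units.val_one]
  · intro h
    rw [← ofAdd_zero]
    refine congrArg Multiplicative.ofAdd (funext fun W => ?_)
    have h1 : W.1.vU x = 1 := Units.ext (h W W.2)
    rw [h1]
    simpa using expo_zpow hH W.1 0

theorem p1_group {G : Type*} [CommGroup G] (A R S : Subgroup G) {ι : Type*} [Fintype ι]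
    (φ : A →* Multiplicative (ι → ℤ)) (hR : ∀ x : A, (x : G) ∈ R → φ x = 1)
    (hS : ∀ x : A, φ x = 1 → (x : G) ∈ S) (hSA : S ≤ A) (hfin : R.relIndex S ≠ 0) {l : ℕ}
    (hl : l ≠ 0) (n : ℕ) (hT : ∀ T : Finset G, (∀ x ∈ T, x ∈ A ∧ x ^ l ∈ R) →
      (∀ x ∈ T, ∀ x' ∈ T, x⁻¹ * x' ∈ R → x = x') → T.card ≤ n) :
    (Pw A l ⊔ R).relIndex A ≤ l ^ Fintype.card ι * n := by
  let Φ : A ⧸ R.subgroupOf A →* Multiplicative (ι → ℤ) :=
    QuotientGroup.lift (R.subgroupOf A) φ fun x hx => hR x hx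
  have hker : Finite ↥((⊤ : Subgroup (A ⧸ R.subgroupOf A)) ⊓ Φ.ker) := by
    have : Finite (S ⧸ R.subgroupOf S) := Nat.finite_of_card_ne_zero hfin
    let f : (S ⧸ R.subgroupOf S) → A ⧸ R.subgroupOf A :=
      fun q => QuotientGroup.mk ⟨(q.out : G), hSA q.out.2⟩
    refine ((Set.finite_range f).subset fun q hq => ?_).to_subtype
    obtain ⟨x, rfl⟩ := QuotientGroup.mk_surjective q
    have h2 : (x : G) ∈ S := hS x hq.2
    refine ⟨QuotientGroup.mk ⟨x, h2⟩, QuotientGroup.eq.2 ?_⟩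
    have h3 := QuotientGroup.eq.1 (QuotientGroup.out_eq' (QuotientGroup.mk ⟨x, h2⟩ :
      S ⧸ R.subgroupOf S))
    exact h3
  have h1 := (relIndex_pw_le (M := A ⧸ R.subgroupOf A) (X := ⊤) (ι := ι) Φ hker hl).2
  have h2 : (Pw A l ⊔ R).relIndex A = (Pw (⊤ : Subgroup (A ⧸ R.subgroupOf A)) l).relIndex ⊤ := by
    rw [Subgroup.relIndex_top_right, ← Subgroup.index_comap_of_surjective _
      (QuotientGroup.mk'_surjective (R.subgroupOf A)), Subgroup.relIndex]
    congr 1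
    ext x
    simp only [Subgroup.mem_subgroupOf, Subgroup.mem_comap, Subgroup.mem_sup, Subgroup.mem_map,
      Subgroup.mem_top, true_and, powMonoidHom_apply, QuotientGroup.mk'_apply]
    constructor
    · rintro ⟨_, ⟨z, hz, rfl⟩, r, hr, e⟩
      refine ⟨QuotientGroup.mk ⟨z, hz⟩, ?_⟩
      rw [← QuotientGroup.mk_pow]
      refine QuotientGroup.eq.2 ?_
      change (z ^ l)⁻¹ * (x : G) ∈ R
      rw [← e, inv_mul_cancel_left]; exact hr
    · rintro ⟨q, hq⟩
      obtain ⟨z, rfl⟩ := QuotientGroup.mk_surjective q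
      rw [← QuotientGroup.mk_pow] at hq
      have h3' := QuotientGroup.eq.1 hq
      have h3 : ((z : G) ^ l)⁻¹ * (x : G) ∈ R := h3'
      exact ⟨_, ⟨z, z.2, rfl⟩, _, h3, mul_inv_cancel_left _ _⟩
  have h3 : Nat.card ↥((⊤ : Subgroup (A ⧸ R.subgroupOf A)) ⊓
      (powMonoidHom l : A ⧸ R.subgroupOf A →* A ⧸ R.subgroupOf A).ker) ≤ n := by
    by_cases hf : Finite ↥((⊤ : Subgroup (A ⧸ R.subgroupOf A)) ⊓
      (powMonoidHom l : A ⧸ R.subgroupOf A →* A ⧸ R.subgroupOf A).ker)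
    swap
    · have := not_finite_iff_infinite.1 hf
      rw [Nat.card_eq_zero_of_infinite]
      exact Nat.zero_le _
    have := Fintype.ofFinite ↥((⊤ : Subgroup (A ⧸ R.subgroupOf A)) ⊓
      (powMonoidHom l : A ⧸ R.subgroupOf A →* A ⧸ R.subgroupOf A).ker)
    let g : ↥((⊤ : Subgroup (A ⧸ R.subgroupOf A)) ⊓
      (powMonoidHom l : A ⧸ R.subgroupOf A →* A ⧸ R.subgroupOf A).ker) → G :=
      fun q => ((q.1.out : A) : G)
    have key : ∀ q q', (g q)⁻¹ * g q' ∈ R → q = q' := fun q q' h => by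
      refine Subtype.ext ?_
      rw [← q.1.out_eq, ← q'.1.out_eq]
      exact QuotientGroup.eq.2 h
    have hg : Function.Injective g := fun q q' e => key q q' (by
      rw [e, inv_mul_cancel]; exact one_mem _)
    rw [Nat.card_eq_fintype_card, ← Finset.card_univ, ← Finset.card_image_of_injective _ hg]
    refine hT _ (fun x hx => ?_) fun x hx x' hx' h => ?_
    · obtain ⟨q, -, rfl⟩ := Finset.mem_image.1 hx
      refine ⟨q.1.out.2, ?_⟩
      have h4 : q.1 ^ l = 1 := q.2.2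
      rw [← q.1.out_eq] at h4
      exact (QuotientGroup.eq_one_iff (N := R.subgroupOf A) (q.1.out ^ l)).1 h4
    · obtain ⟨q, -, rfl⟩ := Finset.mem_image.1 hx
      obtain ⟨q', -, rfl⟩ := Finset.mem_image.1 hx'
      rw [key q q' h]
  rw [h2]
  exact h1.trans (Nat.mul_le_mul_left _ h3)

theorem p1_aux {H : Subgroup Gal(E/F)} (hH : IsOpen (H : Set Gal(E/F))) {l : ℕ} (hl : l.Prime)
    {M : ℕ} (hM : M ≠ 0) (hlM : l ^ 3 ∣ M) (s : Finset (Pl E)) (hs0 : ∀ W ∈ s, W.v (M : E) < 1)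
    (hs : ∀ W : Pl E, W.v (M : E) < 1 → W ∈ orbs H s) :
    (Pw (LU H) l ⊔ rayU H (M : E)).relIndex (LU H) ≤ l ^ (2 * s.card + deg H) := by
  have hM0 : (M : E) ≠ 0 := Nat.cast_ne_zero.2 hM
  have hML : (M : E) ∈ L H := natCast_mem _ M
  refine (p1_group (LU H) (rayU H (M : E)) (SU H {W | ¬ W.v (M : E) < 1}) (p1Expo hH s)
    (fun x hx => (p1Expo_eq_one_iff hH s x).2 fun W hW => v_eq_one_of_mem_rayU hx (hs0 W hW))
    (fun x hx => ⟨x.2, fun W hW => ?_⟩) (fun x hx => hx.1) (rayU_relIndex hH hML hM0) hl.ne_zero _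
    (p1_tors hH hl hM hlM s hs0 hs)).trans (le_of_eq ?_)
  · obtain ⟨W', hW', hsame⟩ := hs W (by simpa using hW)
    rw [← hsame.v_eq x.2]
    exact (p1Expo_eq_one_iff hH s x).1 hx W' hW'
  · rw [Fintype.card_coe]; ring

theorem p1 {H : Subgroup Gal(E/F)} (hH : IsOpen (H : Set Gal(E/F))) {l : ℕ} (hl : l.Prime) {M : ℕ}
    (hM : M ≠ 0) (hlM : l ^ 3 ∣ M) (s : Finset (Pl E)) (hs : ∀ W : Pl E, W.v (M : E) < 1 → W ∈ orbs H s) :
    (Pw (LU H) l ⊔ rayU H (M : E)).relIndex (LU H) ≤ l ^ (2 * s.card + deg H) := by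
  refine (p1_aux hH hl hM hlM (s.filter fun W => W.v (M : E) < 1)
    (fun W hW => (Finset.mem_filter.1 hW).2) fun W hW => ?_).trans
    (Nat.pow_le_pow_right hl.pos (by have := Finset.card_filter_le s fun W => W.v (M : E) < 1; omega))
  obtain ⟨W', hW', hsame⟩ := hs W hW
  exact ⟨W', Finset.mem_filter.2 ⟨hW', by rw [hsame.v_eq (natCast_mem _ M)]; exact hW⟩, hsame⟩

end Crest.Agent.R018
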