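import Crest.Agent.R018.Art
import Crest.Agent.R018.SI

/-!
# R018 / PF

(PF) reciprocity for cyclotomic extensions, and (AK).  Let `χ0 g = Additive.ofMul (isUnit_cyc g).unit ∈ Additive (ZMod m)ˣ` (additive on `⊤`, unramified
outside `m` by `Ine_le_FixMu`).  `art H χ0 (dv x) = art ⊤ χ0 (dv (nm ⊤ H x))` (`art_nm`, `dv_nm`); `r = nm ⊤ H x` is a rational number in `rayU ⊤ m`
(`nm_mem_rayU`), positive (`nm_trans` through `FixMu 4`, whose fixed field is `ℚ(i)`: `nm (a + b i) = a² + b²`); for positive rationals prime to `m`,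
`art ⊤ χ0 (dv r) = r mod m` (`dv p = bas ⊤ W_p`, `unif_top_rat`, `exists_smul_eq_of_p_eq`, `IsFrob.cyc_eq`, `resCard_top_rat`), and `r ≡ 1 mod m`.
Then `exists_art_eq` transfers to `χ`.  `ak`: `Ray ⊔ NDiv ≤ K` (`pf`, `art_nm`), `[DivP : K] = l^k` (`exists_artKer`), `[DivP : Ray ⊔ NDiv] ≤ l^k` (`si`).
-/

set_option autoImplicit false
set_option linter.unusedSectionVars false

noncomputable section

namespace Crest.Agent.R018

open scoped NNReal Classical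

variable {Ω : Type*} [Field Ω] [CharZero Ω] [IsAlgClosed Ω] [IsGalois ℚ Ω]
variable {A : Type*} [AddCommGroup A] {H H' : Subgroup Gal(Ω/ℚ)} {χ : Gal(Ω/ℚ) → A}

theorem pf_i_sq : zeta Ω 4 ^ 2 = -1 := by
  have h := zeta_prim (E := Ω) (N := 4) (by norm_num)
  have h2 : IsPrimitiveRoot (zeta Ω 4 ^ 2) 2 := h.pow (by norm_num) (by norm_num)
  exact h2.eq_neg_one_of_two_right

theorem pf_i_ne : zeta Ω 4 ≠ 0 := by
  intro h
  have := pf_i_sq (Ω := Ω)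
  rw [h] at this
  norm_num at this

theorem pf_pm (g : Gal(Ω/ℚ)) : g (zeta Ω 4) = zeta Ω 4 ∨ g (zeta Ω 4) = - zeta Ω 4 := by
  have : (g (zeta Ω 4)) ^ 2 = zeta Ω 4 ^ 2 := by rw [← map_pow, pf_i_sq]; simp
  exact sq_eq_sq_iff_eq_or_eq_neg.1 this

theorem pf_exists_c : ∃ c : Gal(Ω/ℚ), c (zeta Ω 4) = - zeta Ω 4 := by
  by_contra hc
  push Not at hc
  have : zeta Ω 4 ∈ L (⊤ : Subgroup Gal(Ω/ℚ)) :=
    mem_L.2 fun g _ => (pf_pm g).resolve_right (hc g)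
  obtain ⟨a, ha⟩ := mem_L_top.1 this
  have h2 := pf_i_sq (Ω := Ω)
  rw [← ha, ← map_pow] at h2
  have : a ^ 2 = -1 := by
    apply (algebraMap ℚ Ω).injective; rw [h2]; simp
  nlinarith [sq_nonneg a]

theorem pf_nm4 {y : Ωˣ} (hy : y ∈ LU (FixMu ℚ Ω 4)) :
    ∃ r : ℚ, 0 < r ∧ ((nm Ωˣ ⊤ (FixMu ℚ Ω 4) y : Ωˣ) : Ω) = r := by
  obtain ⟨c, hc⟩ := pf_exists_c (Ω := Ω)
  have hi0 := pf_i_ne (Ω := Ω)
  have hne : - zeta Ω 4 ≠ zeta Ω 4 := cb_neg_ne hi0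
  have hc1 : (1 : Gal(Ω/ℚ)) ≠ c := by
    intro h; rw [← h] at hc; exact hne hc.symm
  have hcinv : c⁻¹ (zeta Ω 4) = - zeta Ω 4 := by
    have : c⁻¹ (c (zeta Ω 4)) = zeta Ω 4 := by simp
    rw [hc, map_neg] at this
    exact neg_eq_iff_eq_neg.1 this
  have hy' : ∀ g : Gal(Ω/ℚ), g (zeta Ω 4) = zeta Ω 4 → g (y : Ω) = y :=
    fun g hg => mem_L.1 hy g hg
  have hprod : nm Ωˣ ⊤ (FixMu ℚ Ω 4) y = y * c • y := by
    rw [nm_eq_prod ({1, c} : Finset Gal(Ω/ℚ)) (fun _ _ => Subgroup.mem_top _) ?_ (mem_LU_iff_smul.1 hy),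
      Finset.prod_pair hc1, one_smul]
    intro h _
    rcases pf_pm h with hh | hh
    · refine ⟨1, ⟨by simp, by simpa [mem_FixMu] using hh⟩, ?_⟩
      rintro t ⟨ht, ht'⟩
      rcases Finset.mem_insert.1 ht with rfl | ht
      · rfl
      · rw [Finset.mem_singleton] at ht
        subst ht
        rw [mem_FixMu, AlgEquiv.mul_apply, hh, hcinv] at ht'
        exact absurd ht' hne
    · refine ⟨c, ⟨by simp, ?_⟩, ?_⟩
      · rw [mem_FixMu, AlgEquiv.mul_apply, hh, map_neg, hcinv, neg_neg]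
      · rintro t ⟨ht, ht'⟩
        rcases Finset.mem_insert.1 ht with rfl | ht
        · rw [mem_FixMu, inv_one, one_mul, hh] at ht'
          exact absurd ht' hne
        · exact Finset.mem_singleton.1 ht
  have hg : ∀ g : Gal(Ω/ℚ), (g (zeta Ω 4) = zeta Ω 4 ∧ g (y : Ω) = y ∧ g (c y) = c y) ∨
      (g (zeta Ω 4) = - zeta Ω 4 ∧ g (y : Ω) = c y ∧ g (c y) = y) := by
    intro g
    rcases pf_pm g with hh | hh
    · refine Or.inl ⟨hh, hy' g hh, ?_⟩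
      have := hy' (c⁻¹ * g * c) (by
        rw [AlgEquiv.mul_apply, AlgEquiv.mul_apply, hc, map_neg, hh, map_neg, hcinv, neg_neg])
      have h2 := congrArg c this
      simpa using h2
    · refine Or.inr ⟨hh, ?_, ?_⟩
      · have := hy' (c⁻¹ * g) (by rw [AlgEquiv.mul_apply, hh, map_neg, hcinv, neg_neg])
        have h2 := congrArg c this
        simpa using h2
      · have := hy' (g * c) (by rw [AlgEquiv.mul_apply, hc, map_neg, hh, neg_neg])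
        simpa using this
  have ha : ((y : Ω) + c y) / 2 ∈ L (⊤ : Subgroup Gal(Ω/ℚ)) := by
    refine mem_L.2 fun g _ => ?_
    rcases hg g with ⟨-, h1, h2⟩ | ⟨-, h1, h2⟩
    · rw [map_div₀, map_add, h1, h2, map_ofNat]
    · rw [map_div₀, map_add, h1, h2, map_ofNat, add_comm]
  have hb : ((y : Ω) - c y) / (2 * zeta Ω 4) ∈ L (⊤ : Subgroup Gal(Ω/ℚ)) := by
    refine mem_L.2 fun g _ => ?_
    rcases hg g with ⟨h0, h1, h2⟩ | ⟨h0, h1, h2⟩
    · rw [map_div₀, map_sub, map_mul, h0, h1, h2, map_ofNat]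
    · rw [map_div₀, map_sub, map_mul, h0, h1, h2, map_ofNat]
      field_simp
      ring
  obtain ⟨a, ha⟩ := mem_L_top.1 ha
  obtain ⟨b, hb⟩ := mem_L_top.1 hb
  have key : ((y * c • y : Ωˣ) : Ω) = ((a ^ 2 + b ^ 2 : ℚ) : Ω) := by
    have e1 : (a : Ω) = ((y : Ω) + c y) / 2 := ha
    have e2 : (b : Ω) = ((y : Ω) - c y) / (2 * zeta Ω 4) := hb
    push_cast
    rw [e1, e2, div_pow, div_pow, mul_pow, pf_i_sq, coe_smul_units]
    ring
  refine ⟨a ^ 2 + b ^ 2, ?_, by rw [hprod, key]⟩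
  refine lt_of_le_of_ne (by positivity) fun h => ?_
  rw [← h] at key
  exact (y * c • y).ne_zero (key.trans Rat.cast_zero)

theorem nm_top_pos (hH : IsOpen (H : Set Gal(Ω/ℚ))) (hi : HasI H) {x : Ωˣ} (hx : x ∈ LU H) :
    ∃ r : ℚ, 0 < r ∧ ((nm Ωˣ ⊤ H x : Ωˣ) : Ω) = r := by
  rw [← nm_trans (H := ⊤) (H' := FixMu ℚ Ω 4) (H'' := H) hi le_top
    (relIndex_ne_zero_of_isOpen hH _) (mem_LU_iff_smul.1 hx)]
  exact pf_nm4 (nm_mem_LU (relIndex_ne_zero_of_isOpen hH _) hx)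

/-- the mod `m` cyclotomic character, additively. -/
def pfChi {m : ℕ} (hm : m ≠ 0) (g : Gal(Ω/ℚ)) : Additive (ZMod m)ˣ :=
  Additive.ofMul (isUnit_cyc hm g).unit

theorem pfChi_val {m : ℕ} (hm : m ≠ 0) (g : Gal(Ω/ℚ)) :
    ((Additive.toMul (pfChi hm g) : (ZMod m)ˣ) : ZMod m) = cyc m g := rfl

theorem pf_add_ext {m : ℕ} {a b : Additive (ZMod m)ˣ}
    (h : ((Additive.toMul a : (ZMod m)ˣ) : ZMod m) = ((Additive.toMul b : (ZMod m)ˣ) : ZMod m)) :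
    a = b := Additive.toMul.injective (Units.ext h)

theorem pfChi_ahom {m : ℕ} (hm : m ≠ 0) (H : Subgroup Gal(Ω/ℚ)) : AHom H (pfChi (Ω := Ω) hm) := by
  intro x _ y _
  apply pf_add_ext
  rw [toMul_add, Units.val_mul, pfChi_val, pfChi_val, pfChi_val, cyc_mul hm]

theorem pfChi_eq_zero {m : ℕ} (hm : m ≠ 0) {g : Gal(Ω/ℚ)} :
    pfChi hm g = 0 ↔ g ∈ FixMu ℚ Ω m := by
  rw [mem_FixMu_iff hm]
  constructor
  · intro h
    rw [← pfChi_val hm, h]; rfl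
  · intro h
    apply pf_add_ext
    rw [pfChi_val, h]; rfl

theorem pf_isOpen_top : IsOpen ((⊤ : Subgroup Gal(Ω/ℚ)) : Set Gal(Ω/ℚ)) := by
  simp

theorem pf_mem_top {u : Ωˣ} {r : ℚ} (hu : (u : Ω) = r) : u ∈ LU (⊤ : Subgroup Gal(Ω/ℚ)) :=
  mem_L_top.2 ⟨r, hu.symm⟩

theorem pf_dv_prime {W : Pl Ω} {u : Ωˣ} (hu : (u : Ω) = W.p) :
    dv u = bas (⊤ : Subgroup Gal(Ω/ℚ)) W := by
  ext W'
  rw [dv_apply, Pl.coe_vU, hu]
  unfold bas
  split_ifs with h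
  · rw [unif_top_rat, W.vp, h.p_eq, W'.vp]
  · have : ¬ W'.p ∣ W.p := by
      intro hd
      obtain ⟨g, hg⟩ := exists_smul_eq_of_p_eq (V := W) (V' := W')
        ((Nat.prime_dvd_prime_iff_eq W'.hp W.hp).1 hd).symm
      exact h ⟨g, trivial, hg⟩
    rw [W'.v_natCast_eq_one this]; rfl

theorem pf_art_nat {m : ℕ} (hm : m ≠ 0) (n : ℕ) : n.Coprime m → ∀ u : Ωˣ, (u : Ω) = n →
    ((Additive.toMul (art ⊤ (pfChi (Ω := Ω) hm) (dv u)) : (ZMod m)ˣ) : ZMod m) = n := by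
  induction n using induction_on_primes with
  | zero => intro _ u hu; exact absurd (hu.trans Nat.cast_zero) u.ne_zero
  | one =>
    intro _ u hu
    have : u = 1 := Units.ext (by simpa using hu)
    rw [this, map_one, art_one pf_isOpen_top]; simp
  | prime_mul p a hp ih =>
    intro hc u hu
    have hp0 : (p : Ω) ≠ 0 := by exact_mod_cast hp.ne_zero
    have ha0 : (a : Ω) ≠ 0 := by
      intro h
      apply u.ne_zero
      rw [hu]; push_cast; rw [h, mul_zero]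
    have e : u = Units.mk0 _ hp0 * Units.mk0 _ ha0 := Units.ext (by rw [hu]; simp)
    obtain ⟨W, hW⟩ := exists_pl Ω hp
    have hpm : ¬ W.p ∣ m := by
      rw [hW]; exact (Nat.Prime.coprime_iff_not_dvd hp).1 (Nat.Coprime.coprime_mul_right hc)
    have h1 : dv (Units.mk0 _ hp0) = bas (⊤ : Subgroup Gal(Ω/ℚ)) W :=
      pf_dv_prime (by rw [hW]; rfl)
    rw [e, map_mul, art_mul pf_isOpen_top _
      (dv_mem_DivP_one pf_isOpen_top (pf_mem_top (r := p) (by simp)))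
      (dv_mem_DivP_one pf_isOpen_top (pf_mem_top (r := a) (by simp))), toMul_add, Units.val_mul,
      ih (Nat.Coprime.coprime_mul_left hc) (Units.mk0 _ ha0) rfl, h1,
      art_bas pf_isOpen_top (pfChi_ahom hm ⊤)
        (fun τ hτ _ => (pfChi_eq_zero hm).2 (Ine_le_FixMu hpm hτ)),
      pfChi_val, (frob_spec pf_isOpen_top W).cyc_eq hpm, resCard_top_rat, hW]
    push_cast; rfl

theorem pf_dvd {m : ℕ} (hm : m ≠ 0) {k : ℤ} (h : ∀ W : Pl Ω, W.v (k : Ω) ≤ W.v (m : Ω)) :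
    (m : ℤ) ∣ k := by
  have hm0 : (m : Ω) ≠ 0 := by exact_mod_cast hm
  have h1 : IsIntegral ℤ (algebraMap ℚ Ω ((k : ℚ) / m)) := by
    refine isIntegral_of_v_le_one ℚ fun W => ?_
    have : algebraMap ℚ Ω ((k : ℚ) / m) = (k : Ω) / m := by simp
    rw [this, map_div₀]
    exact div_le_one_of_le₀ (h W) zero_le
  rw [isIntegral_algebraMap_iff (algebraMap ℚ Ω).injective] at h1
  obtain ⟨z, hz⟩ := IsIntegrallyClosed.algebraMap_eq_of_integral h1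
  refine ⟨z, ?_⟩
  have hm' : (m : ℚ) ≠ 0 := by exact_mod_cast hm
  have : (k : ℚ) = m * z := by
    have e : (z : ℚ) = k / m := by simpa using hz
    rw [e]; field_simp
  exact_mod_cast this

theorem pf_art_rat {m : ℕ} (hm : m ≠ 0) {u : Ωˣ} {r : ℚ} (hr : 0 < r) (hu : (u : Ω) = r)
    (hray : u ∈ rayU (⊤ : Subgroup Gal(Ω/ℚ)) (m : Ω)) :
    art ⊤ (pfChi (Ω := Ω) hm) (dv u) = 0 := by
  obtain ⟨n, hn⟩ := Int.eq_ofNat_of_zero_le (Rat.num_pos.2 hr).le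
  have hnd : n.Coprime r.den := by
    have := r.reduced
    rwa [hn, Int.natAbs_natCast] at this
  have hd0 : (r.den : Ω) ≠ 0 := by exact_mod_cast r.den_nz
  have hmul : (u : Ω) * r.den = n := by
    rw [hu]
    have : r * r.den = (n : ℚ) := by rw [Rat.mul_den_eq_num, hn]; simp
    exact_mod_cast this
  have hn0 : (n : Ω) ≠ 0 := by rw [← hmul]; exact mul_ne_zero u.ne_zero hd0
  have hv : ∀ W : Pl Ω, W.v (m : Ω) < 1 → W.v (n : Ω) = W.v (r.den : Ω) := by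
    intro W hW
    rw [← hmul, map_mul, v_eq_one_of_mem_rayU hray hW, one_mul]
  have hboth : ∀ W : Pl Ω, W.v (m : Ω) < 1 → ¬ W.p ∣ n ∧ ¬ W.p ∣ r.den := by
    intro W hW
    have hiff : W.p ∣ n ↔ W.p ∣ r.den := by
      rw [← W.v_natCast_lt_one_iff, ← W.v_natCast_lt_one_iff, hv W hW]
    have : ¬ W.p ∣ n := fun h =>
      W.hp.one_lt.ne' (Nat.eq_one_of_dvd_coprimes hnd h (hiff.1 h))
    exact ⟨this, fun h => this (hiff.2 h)⟩
  have hcn : n.Coprime m := by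
    refine Nat.Coprime.symm (Nat.coprime_of_dvd fun p hp hpm => ?_)
    obtain ⟨W, rfl⟩ := exists_pl Ω hp
    exact (hboth W (W.v_natCast_lt_one_iff.2 hpm)).1
  have hcd : r.den.Coprime m := by
    refine Nat.Coprime.symm (Nat.coprime_of_dvd fun p hp hpm => ?_)
    obtain ⟨W, rfl⟩ := exists_pl Ω hp
    exact (hboth W (W.v_natCast_lt_one_iff.2 hpm)).2
  have hdvd : (m : ℤ) ∣ (n : ℤ) - r.den := by
    refine pf_dvd (Ω := Ω) hm fun W => ?_
    by_cases hW : W.v (m : Ω) < 1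
    · have e : (((n : ℤ) - r.den : ℤ) : Ω) = ((u : Ω) - 1) * r.den := by
        push_cast; rw [← hmul]; ring
      rw [e, map_mul, W.v_natCast_eq_one (hboth W hW).2, mul_one]
      exact hray.2 W hW
    · exact le_trans (W.v_intCast_le_one _) (not_lt.1 hW)
  have hcong : (n : ZMod m) = (r.den : ZMod m) := by
    have := (ZMod.intCast_zmod_eq_zero_iff_dvd _ m).2 hdvd
    push_cast at this
    exact sub_eq_zero.1 this
  have e : u * Units.mk0 _ hd0 = Units.mk0 _ hn0 := Units.ext hmul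
  have h1 := pf_art_nat hm n hcn (Units.mk0 _ hn0) rfl
  have h2 := pf_art_nat hm r.den hcd (Units.mk0 _ hd0) rfl
  have h3 := pf_add_ext (h1.trans (hcong.trans h2.symm))
  rw [← e, map_mul, art_mul pf_isOpen_top _
      (dv_mem_DivP_one pf_isOpen_top (pf_mem_top hu))
      (dv_mem_DivP_one pf_isOpen_top (pf_mem_top (r := r.den) (by simp)))] at h3
  exact add_eq_right.1 h3

theorem pf (hH : IsOpen (H : Set Gal(Ω/ℚ))) (hi : HasI H) {m : ℕ} (hm : m ≠ 0) (hχ : AHom H χ)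
    (hker : ∀ g ∈ H, g ∈ FixMu ℚ Ω m → χ g = 0) {x : Ωˣ} (hx : x ∈ rayU H (m : Ω)) :
    art H χ (dv x) = 0 := by
  have hfix : ∀ W : Pl Ω, ¬ W.v (m : Ω) < 1 → Ine ℚ W ≤ FixMu ℚ Ω m := fun W hW =>
    Ine_le_FixMu fun h => hW (W.v_natCast_lt_one_iff.2 h)
  have ha : dv x ∈ DivP H (m : Ω) := Ray_le_DivP hH (natCast_mem _ m) ⟨x, hx, rfl⟩
  have hrel := relIndex_ne_zero_of_isOpen hH ⊤
  obtain ⟨g, hg, h1, h2⟩ := exists_art_eq hH hχ (pfChi_ahom hm H)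
    (fun W hW τ hτ hτ' => hker τ hτ' (hfix W hW hτ))
    (fun W hW τ hτ _ => (pfChi_eq_zero hm).2 (hfix W hW hτ)) ha
  obtain ⟨r, hr, hr'⟩ := nm_top_pos hH hi hx.1
  have h3 := pf_art_rat hm hr hr' (nm_mem_rayU hrel (natCast_mem _ m) hx)
  rw [dv_nm hrel, art_nm hH le_top (pfChi_ahom hm ⊤)
    (fun W hW τ hτ _ => (pfChi_eq_zero hm).2 (hfix W hW hτ)) ha, h2] at h3
  rw [h1]
  exact hker g hg ((pfChi_eq_zero hm).1 h3)

theorem ak {σ : Gal(Ω/ℚ)} {l k : ℕ} (h : CycExt H H' σ (l ^ k)) (hi : HasI H) (hl : l.Prime)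
    (hl2 : l ≠ 2) {m : ℕ} (hm : m ≠ 0) (hcyc : H ⊓ FixMu ℚ Ω m ≤ H') (hχ : AHom H χ)
    (hker : ∀ x ∈ H, (χ x = 0 ↔ x ∈ H')) {π : Ω} (hπ : π ∈ L H) (h0 : π ≠ 0)
    (hmπ : ∀ W : Pl Ω, W.v (m : Ω) < 1 → W.v π ≤ W.v (m : Ω)) {a : Dv Ω} (ha : a ∈ DivP H π)
    (ha0 : art H χ a = 0) : a ∈ Ray H π ⊔ NDiv H H' π := by
  have hH := h.isOpen_top
  have hu : Unram H H' π := by
    intro W hW τ hτ
    refine hcyc ⟨hτ.2, Ine_le_FixMu (fun hd => hW ?_) hτ.1⟩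
    have h1 := W.v_natCast_lt_one_iff.2 hd
    exact (hmπ W h1).trans_lt h1
  obtain ⟨K, hK, hKi⟩ := exists_artKer h hχ hker h0 hu
  have hle : Ray H π ⊔ NDiv H H' π ≤ K := by
    refine sup_le ?_ ?_
    · rintro _ ⟨x, hx, rfl⟩
      refine (hK _).2 ⟨Ray_le_DivP hH hπ ⟨x, hx, rfl⟩, ?_⟩
      exact pf hH hi hm hχ (fun g hg hg' => (hker g hg).2 (hcyc ⟨hg, hg'⟩))
        (rayU_mono hmπ le_rfl hx)
    · rintro _ ⟨b, hb, rfl⟩
      refine (hK _).2 ⟨NDiv_le_DivP h.isOpen h.le ⟨b, hb, rfl⟩, ?_⟩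
      rw [art_nm h.isOpen h.le hχ (fun W hW τ hτ hτ' => (hker τ hτ').2 (hu W hW ⟨hτ, hτ'⟩)) hb]
      unfold art
      refine finsum_eq_zero_of_forall_eq_zero fun O => ?_
      have hf := (frob_spec h.isOpen O.out).1
      rw [(hker _ (h.le hf)).2 hf, smul_zero]
  have hKle : K ≤ DivP H π := fun b hb => ((hK b).1 hb).1
  have hmul := Subgroup.relIndex_mul_relIndex _ _ _ hle hKle
  have hsi : nIdx H H' π ≤ l ^ k := si h hi hl hl2 hπ h0
  have hne : nIdx H H' π ≠ 0 := nIdx_ne_zero hH hπ h0 H'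
  unfold nIdx at hsi hne
  rw [hKi] at hmul
  have hpos : 0 < l ^ k := pow_pos hl.pos k
  have h1 : (Ray H π ⊔ NDiv H H' π).relIndex K = 1 := by
    have hx0 : (Ray H π ⊔ NDiv H H' π).relIndex K ≠ 0 := by
      intro h0'; rw [h0', zero_mul] at hmul; exact hne hmul.symm
    have hx1 : (Ray H π ⊔ NDiv H H' π).relIndex K ≤ 1 := by
      rw [← hmul] at hsi
      exact Nat.le_of_mul_le_mul_right (by simpa using hsi) hpos
    omega
  exact Subgroup.relIndex_eq_one.1 h1 ((hK a).2 ⟨ha, ha0⟩)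

end Crest.Agent.R018
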