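import Crest.Agent.R018.Top

/-!
# R018 / PlEx

Existence of places.  `rat_val`: in the minimal polynomial of `x` over `ℚ` two terms have the same value (ultrametric), and
`W.v` of a nonzero rational is an integral power of `W.v p` (`Pl.v_natCast_eq_one`).
`exists_pl_extend`: extend the valuation subring of `W0` along `ι` (e.g. `LocalSubring.exists_le_valuationSubring` /
`Ideal.image_subset_nonunits_valuationSubring` applied to the image of `W0.v.valuationSubring` and its maximal ideal) to a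
valuation subring `A` of `E` with `ι⁻¹ A = ` the valuation ring of `W0`; its valuation `w` satisfies `w p < 1` and, as in
`rat_val`, `w x ^ b = w p ^ a`; define `v x = p ^ (-a / b)` (real power).  Equivalent normalised places of `K` agree (`rat_val`).
-/

set_option autoImplicit false
set_option linter.unusedSectionVars false

noncomputable section

namespace Crest.Agent.R018

open scoped NNReal Classical

variable {E : Type*} [Field E] [CharZero E] [Algebra.IsAlgebraic ℚ E]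

section aux
variable {Γ : Type*} [LinearOrderedCommGroupWithZero Γ]

theorem px_nat_le (w : Valuation E Γ) (n : ℕ) : w (n : E) ≤ 1 := by
  induction n with
  | zero => simp
  | succ n ih =>
    push_cast
    exact le_trans (w.map_add _ _) (max_le ih (by simp))

theorem px_int_le (w : Valuation E Γ) (n : ℤ) : w (n : E) ≤ 1 := by
  obtain ⟨m, rfl | rfl⟩ := n.eq_nat_or_neg
  · simpa using px_nat_le w m
  · simpa using px_nat_le w m

theorem px_nat_eq (w : Valuation E Γ) {p : ℕ} (hp : p.Prime) (hw : w (p : E) < 1) {n : ℕ}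
    (hn : ¬ p ∣ n) : w (n : E) = 1 := by
  refine le_antisymm (px_nat_le w n) (not_lt.1 fun h => ?_)
  have hc : Nat.Coprime p n := (Nat.Prime.coprime_iff_not_dvd hp).2 hn
  obtain ⟨a, b, hab⟩ := Nat.isCoprime_iff_coprime.2 hc
  have h1 : (a : E) * (p : E) + (b : E) * (n : E) = 1 := by
    exact_mod_cast congrArg (Int.cast : ℤ → E) hab
  have h2 : w ((a : E) * (p : E) + (b : E) * (n : E)) < 1 := by
    refine lt_of_le_of_lt (w.map_add _ _) (max_lt ?_ ?_)
    · rw [map_mul]; exact (mul_le_of_le_one_left' (px_int_le w a)).trans_lt hw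
    · rw [map_mul]; exact (mul_le_of_le_one_left' (px_int_le w b)).trans_lt h
  rw [h1] at h2; simp at h2

theorem px_nat (w : Valuation E Γ) {p : ℕ} (hp : p.Prime) (hw : w (p : E) < 1) {n : ℕ}
    (hn : n ≠ 0) : w (n : E) = w (p : E) ^ padicValNat p n := by
  conv_lhs => rw [← Nat.ordProj_mul_ordCompl_eq_self n p]
  rw [Nat.cast_mul, map_mul, px_nat_eq w hp hw (Nat.not_dvd_ordCompl hp hn), mul_one,
    Nat.cast_pow, map_pow, Nat.factorization_def n hp]

theorem px_rat (w : Valuation E Γ) {p : ℕ} (hp : p.Prime) (hw : w (p : E) < 1) {q : ℚ}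
    (hq : q ≠ 0) : w (q : E) = w (p : E) ^ padicValRat p q := by
  have h0 : w (p : E) ≠ 0 := (Valuation.ne_zero_iff w).2 (Nat.cast_ne_zero.2 hp.ne_zero)
  have h1 : w ((q.num : ℤ) : E) = w (q.num.natAbs : E) := by
    rcases Int.natAbs_eq q.num with h | h
    · conv_lhs => rw [h]
      rw [Int.cast_natCast]
    · conv_lhs => rw [h]
      rw [Int.cast_neg, Int.cast_natCast, Valuation.map_neg]
  rw [Rat.cast_def, map_div₀, h1, px_nat w hp hw (Int.natAbs_ne_zero.2 (Rat.num_ne_zero.2 hq)),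
    px_nat w hp hw q.den_nz, padicValRat, padicValInt, zpow_sub₀ h0, zpow_natCast, zpow_natCast]

theorem px_val (w : Valuation E Γ) {p : ℕ} (hp : p.Prime) (hw : w (p : E) < 1) {x : E}
    (hx : x ≠ 0) : ∃ b : ℕ, 0 < b ∧ ∃ a : ℤ, w x ^ b = w (p : E) ^ a := by
  have h0 : w (p : E) ≠ 0 := (Valuation.ne_zero_iff w).2 (Nat.cast_ne_zero.2 hp.ne_zero)
  have hx0 : w x ≠ 0 := (Valuation.ne_zero_iff w).2 hx
  obtain ⟨f, hf, hfx⟩ := Algebra.IsAlgebraic.isAlgebraic (R := ℚ) x
  rw [Polynomial.aeval_def, Polynomial.eval₂_eq_sum, Polynomial.sum_def] at hfx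
  set t : ℕ → E := fun i => algebraMap ℚ E (f.coeff i) * x ^ i with ht
  have hv : ∀ i ∈ f.support, w (t i) = w (p : E) ^ padicValRat p (f.coeff i) * w x ^ i := by
    intro i hi
    simp only [ht, map_mul, map_pow, eq_ratCast]
    rw [px_rat w hp hw (Polynomial.mem_support_iff.1 hi)]
  obtain ⟨j, hj, hmax⟩ := f.support.exists_max_image (fun i => w (t i))
    (Polynomial.support_nonempty.2 hf)
  have : ∃ i ∈ f.support, i ≠ j ∧ w (t i) = w (t j) := by
    by_contra hc
    push Not at hc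
    have := w.map_sum_eq_of_lt (f := t) hj fun i hi => by
      obtain ⟨h1, h2⟩ := Finset.mem_sdiff.1 hi
      exact lt_of_le_of_ne (hmax i h1) (hc i h1 (by simpa using h2))
    rw [hfx, map_zero, hv j hj] at this
    exact mul_ne_zero (zpow_ne_zero _ h0) (pow_ne_zero _ hx0) this.symm
  obtain ⟨i, hi, hij, he⟩ := this
  rw [hv i hi, hv j hj] at he
  have key : ∀ (i j : ℕ) (a b : ℤ), i < j → w (p : E) ^ a * w x ^ i = w (p : E) ^ b * w x ^ j →
      ∃ b : ℕ, 0 < b ∧ ∃ a : ℤ, w x ^ b = w (p : E) ^ a := by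
    intro i j a b hlt he
    obtain ⟨k, rfl⟩ := Nat.exists_eq_add_of_lt hlt
    refine ⟨k + 1, k.succ_pos, a - b, ?_⟩
    rw [add_assoc, pow_add, mul_left_comm, mul_comm] at he
    rw [zpow_sub₀ h0, mul_left_cancel₀ (pow_ne_zero _ hx0) he,
      mul_div_cancel_left₀ _ (zpow_ne_zero _ h0)]
  rcases lt_or_gt_of_ne hij with h | h
  · exact key _ _ _ _ h he
  · exact key _ _ _ _ h he.symm

theorem px_cmp {u v c : Γ} (hc0 : c ≠ 0) (hc : c < 1) {b b' : ℕ} (hb : 0 < b) (hb' : 0 < b')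
    {a a' : ℤ} (h : u ^ b = c ^ a) (h' : v ^ b' = c ^ a') : u ≤ v ↔ a' * b ≤ a * b' := by
  rw [← pow_le_pow_iff_left₀ zero_le zero_le (mul_pos hb hb').ne', pow_mul, h, mul_comm b b',
    pow_mul, h', ← zpow_natCast, ← zpow_natCast, ← zpow_mul, ← zpow_mul,
    zpow_le_zpow_iff_right_of_lt_one₀ (zero_lt_iff.2 hc0) hc]

theorem px_prime (w : Valuation E Γ) {n : ℕ} (hn : n ≠ 0) (hw : w (n : E) < 1) :
    ∃ p : ℕ, p.Prime ∧ w (p : E) < 1 := by
  induction n using induction_on_primes with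
  | zero => exact absurd rfl hn
  | one => simp at hw
  | prime_mul p a hp ih =>
    by_cases h : w (p : E) < 1
    · exact ⟨p, hp, h⟩
    · refine ih (right_ne_zero_of_mul hn) ?_
      rwa [Nat.cast_mul, map_mul, le_antisymm (px_nat_le w p) (not_lt.1 h), one_mul] at hw

theorem px_exists_vs {R : Type*} [CommRing R] (φ : R →+* E) (hφ : Function.Injective φ)
    (I : Ideal R) (hI : I ≠ ⊤) :
    ∃ A : ValuationSubring E, (∀ x, φ x ∈ A) ∧ ∀ x ∈ I, A.valuation (φ x) < 1 := by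
  have hb : Function.Bijective φ.rangeRestrict :=
    ⟨fun x y h => hφ (congrArg Subtype.val h), φ.rangeRestrict_surjective⟩
  obtain ⟨A, h1, h2⟩ := Ideal.image_subset_nonunits_valuationSubring (I.map φ.rangeRestrict)
    (by rwa [Ne, Ideal.map_eq_top_of_bijective _ hb])
  exact ⟨A, fun x => h1 ⟨x, rfl⟩, fun x hx => h2 ⟨_, Ideal.mem_map_of_mem _ hx, rfl⟩⟩

end aux

theorem Pl.v_ratCast (W : Pl E) {q : ℚ} (hq : q ≠ 0) :
    W.v (q : E) = W.v (W.p : E) ^ padicValRat W.p q := by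
  exact px_rat W.v W.hp W.v_p_lt_one hq

theorem Pl.rat_val (W : Pl E) {x : E} (hx : x ≠ 0) :
    ∃ b : ℕ, 0 < b ∧ ∃ a : ℤ, W.v x ^ b = W.v (W.p : E) ^ a := by
  exact px_val W.v W.hp W.v_p_lt_one hx

/-- two places with the same valuation ring are equal. -/
theorem Pl.eq_of_le_one_iff {W W' : Pl E} (h : ∀ x, W.v x ≤ 1 ↔ W'.v x ≤ 1) : W = W' := by
  have he : W.v.IsEquiv W'.v := Valuation.isEquiv_iff_val_le_one.2 (h _)
  have hp : W.p = W'.p := ((Nat.prime_dvd_prime_iff_eq W'.hp W.hp).1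
    (W'.v_natCast_lt_one_iff.1 (he.lt_one_iff_lt_one.1 W.v_p_lt_one))).symm
  refine Pl.ext' (fun x => ?_) hp
  by_cases hx : x = 0
  · simp [hx]
  obtain ⟨b, hb, a, h1⟩ := W.rat_val hx
  have h2 : W'.v (x ^ b) = W'.v ((W.p : E) ^ a) :=
    he.eq_iff.1 (by rw [map_pow, map_zpow₀, h1])
  rw [map_pow, map_zpow₀, hp, W'.vp, ← hp, ← W.vp, ← h1] at h2
  exact (pow_left_injective hb.ne' h2).symm

/-- a valuation subring `A` of `E` in which `p` is a non-unit comes from a place. -/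
theorem exists_pl_of_valuationSubring (A : ValuationSubring E) {p : ℕ} (hp : p.Prime)
    (hA : A.valuation (p : E) < 1) : ∃ W : Pl E, W.p = p ∧ ∀ x, W.v x ≤ 1 ↔ x ∈ A := by
  set w := A.valuation with hw
  set c : ℝ≥0 := (p : ℝ≥0)⁻¹ with hc
  have hc0 : c ≠ 0 := inv_ne_zero (Nat.cast_ne_zero.2 hp.ne_zero)
  have hc1 : c < 1 := inv_lt_one_of_one_lt₀ (by exact_mod_cast hp.one_lt)
  have hp0 : (p : E) ≠ 0 := Nat.cast_ne_zero.2 hp.ne_zero
  have h0 : w (p : E) ≠ 0 := (Valuation.ne_zero_iff w).2 hp0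
  let R : E → ℝ≥0 → Prop := fun x t =>
    ∃ b : ℕ, 0 < b ∧ ∃ a : ℤ, w x ^ b = w (p : E) ^ a ∧ t ^ b = c ^ a
  have hex : ∀ x : E, x ≠ 0 → ∃ t, R x t := by
    intro x hx
    obtain ⟨b, hb, a, h1⟩ := px_val w hp hA hx
    exact ⟨(c ^ a) ^ ((b : ℝ)⁻¹), b, hb, a, h1, NNReal.rpow_inv_natCast_pow _ hb.ne'⟩
  have hle : ∀ {x y t s}, R x t → R y s → (w x ≤ w y ↔ t ≤ s) := by
    rintro x y t s ⟨b, hb, a, h1, h2⟩ ⟨b', hb', a', h1', h2'⟩
    rw [px_cmp h0 hA hb hb' h1 h1', px_cmp hc0 hc1 hb hb' h2 h2']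
  have huniq : ∀ {x t s}, R x t → R x s → t = s := fun h h' =>
    le_antisymm ((hle h h').1 le_rfl) ((hle h' h).1 le_rfl)
  have hmul : ∀ {x y t s}, R x t → R y s → R (x * y) (t * s) := by
    rintro x y t s ⟨b, hb, a, h1, h2⟩ ⟨b', hb', a', h1', h2'⟩
    refine ⟨b * b', mul_pos hb hb', a * b' + a' * b, ?_, ?_⟩
    · rw [map_mul, mul_pow, pow_mul, h1, mul_comm b b', pow_mul, h1', zpow_add₀ h0, zpow_mul,
        zpow_mul, zpow_natCast, zpow_natCast]
    · rw [mul_pow, pow_mul, h2, mul_comm b b', pow_mul, h2', zpow_add₀ hc0, zpow_mul,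
        zpow_mul, zpow_natCast, zpow_natCast]
  have hne : ∀ {x t}, R x t → t ≠ 0 := by
    rintro x t ⟨b, hb, a, -, h2⟩ rfl
    rw [zero_pow hb.ne'] at h2
    exact zpow_ne_zero _ hc0 h2.symm
  let v : E → ℝ≥0 := fun x => if hx : x = 0 then 0 else (hex x hx).choose
  have hv0 : v 0 = 0 := dif_pos rfl
  have hv : ∀ x, x ≠ 0 → R x (v x) := fun x hx => by
    simp only [v, dif_neg hx]
    exact (hex x hx).choose_spec
  have hv1 : v 1 = 1 := huniq (hv 1 one_ne_zero) ⟨1, one_pos, 0, by simp, by simp⟩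
  have hvp : v p = c := huniq (hv p hp0) ⟨1, one_pos, 1, by simp, by simp⟩
  have hvle : ∀ x y, w x ≤ w y ↔ v x ≤ v y := by
    intro x y
    by_cases hx : x = 0
    · simp [hx, hv0]
    by_cases hy : y = 0
    · simp [hy, hv0, hx, hne (hv x hx)]
    exact hle (hv x hx) (hv y hy)
  let V : Valuation E ℝ≥0 :=
    { toFun := v
      map_zero' := hv0
      map_one' := hv1
      map_mul' := fun x y => by
        by_cases hx : x = 0
        · simp [hx, hv0]
        by_cases hy : y = 0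
        · simp [hy, hv0]
        exact huniq (hv _ (mul_ne_zero hx hy)) (hmul (hv x hx) (hv y hy))
      map_add_le_max' := fun x y => by
        rcases le_max_iff.1 (w.map_add x y) with h | h
        · exact le_max_of_le_left ((hvle _ _).1 h)
        · exact le_max_of_le_right ((hvle _ _).1 h) }
  refine ⟨⟨V, p, hp, hvp⟩, rfl, fun x => ?_⟩
  change v x ≤ 1 ↔ _
  rw [← hv1, ← hvle, map_one, hw, A.valuation_le_one_iff]

theorem exists_pl_extend {K : Type*} [Field K] (ι : K →+* E) (W0 : Pl K) :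
    ∃ W : Pl E, W.comap ι = W0 := by
  have : CharZero K := ι.charZero
  have : Algebra.IsAlgebraic ℚ K := ⟨fun x =>
    (isAlgebraic_algHom_iff ι.toRatAlgHom ι.injective).1
      (Algebra.IsAlgebraic.isAlgebraic (ι x))⟩
  obtain ⟨A, h1, h2⟩ := px_exists_vs (ι.comp W0.v.valuationSubring.subtype)
    (ι.injective.comp Subtype.val_injective) (IsLocalRing.maximalIdeal _)
    (IsLocalRing.maximalIdeal.isMaximal _).ne_top
  have h3 : ∀ x, W0.v x < 1 → A.valuation (ι x) < 1 := fun x hx =>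
    h2 ⟨x, hx.le⟩ ((Valuation.mem_maximalIdeal_iff (v := W0.v)).2 hx)
  obtain ⟨W, -, hW⟩ := exists_pl_of_valuationSubring A W0.hp
    (by simpa using h3 _ W0.v_p_lt_one)
  refine ⟨W, Pl.eq_of_le_one_iff fun x => ?_⟩
  rw [Pl.comap_v, hW]
  refine ⟨fun hx => ?_, fun hx => h1 ⟨x, hx⟩⟩
  rcases W0.v.val_le_one_or_val_inv_lt_one x with h | h
  · exact h
  · rcases A.mem_nonunits_iff_or.1 (h3 _ h) with h | h
    · have : x = 0 := by simpa using h
      simp [this]
    · exact absurd (by simpa using hx) h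

variable (E) in
theorem exists_pl {p : ℕ} (hp : p.Prime) : ∃ W : Pl E, W.p = p := by
  obtain ⟨A, -, h2⟩ := px_exists_vs (Int.castRingHom E) Int.cast_injective
    (Ideal.span {(p : ℤ)}) (by
      rw [Ne, Ideal.span_singleton_eq_top]
      exact (Nat.prime_iff_prime_int.1 hp).not_isUnit)
  obtain ⟨W, hW, -⟩ := exists_pl_of_valuationSubring A hp
    (by simpa using h2 _ (Ideal.subset_span rfl))
  exact ⟨W, hW⟩

open NumberField IsDedekindDomain in
theorem exists_pl_prime {F : Type*} [Field F] [Algebra F E] (K : IntermediateField F E)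
    [NumberField K] (𝔭 : HeightOneSpectrum (𝓞 K)) : ∃ W : Pl E, W.prime K = 𝔭 := by
  let φ : 𝓞 K →+* E := (K.val : K →+* E).comp (algebraMap (𝓞 K) K)
  obtain ⟨A, -, h2⟩ := px_exists_vs φ
    ((K.val : K →+* E).injective.comp RingOfIntegers.coe_injective) 𝔭.asIdeal 𝔭.isPrime.ne_top
  obtain ⟨p, hp, hA⟩ := px_prime A.valuation (n := Ideal.absNorm 𝔭.asIdeal)
    (fun h => 𝔭.ne_bot (Ideal.absNorm_eq_zero_iff.1 h))
    (by simpa using h2 _ (Ideal.absNorm_mem _))
  obtain ⟨W, -, hW⟩ := exists_pl_of_valuationSubring A hp hA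
  have he : W.v.IsEquiv A.valuation :=
    Valuation.isEquiv_iff_val_le_one.2 (by intro x; rw [hW, A.valuation_le_one_iff])
  refine ⟨W, HeightOneSpectrum.ext (𝔭.isMaximal.eq_of_le (W.prime K).isPrime.ne_top
    fun x hx => ?_).symm⟩
  exact (W.mem_prime K x).2 (he.lt_one_iff_lt_one.2 (h2 x hx))

/-- some positive integer is a multiple of `π`. -/
theorem exists_nat_v_le {π : E} (hπ : π ≠ 0) : ∃ M : ℕ, M ≠ 0 ∧ ∀ W : Pl E, W.v (M : E) ≤ W.v π := by
  have h1 : IsAlgebraic ℤ π⁻¹ :=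
    (IsFractionRing.isAlgebraic_iff ℤ ℚ E).2 (Algebra.IsAlgebraic.isAlgebraic _)
  obtain ⟨y, hy, h2⟩ := h1.exists_integral_multiple
  refine ⟨y.natAbs, Int.natAbs_ne_zero.2 hy, fun W => ?_⟩
  have h3 := W.v_le_one_of_isIntegral h2
  have h4 : W.v (y.natAbs : E) = W.v (y : E) := by
    rcases Int.natAbs_eq y with h | h
    · conv_rhs => rw [h]
      rw [Int.cast_natCast]
    · conv_rhs => rw [h]
      rw [Int.cast_neg, Int.cast_natCast, Valuation.map_neg]
  rw [zsmul_eq_mul, map_mul, map_inv₀,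
    mul_inv_le_iff₀ (zero_lt_iff.2 ((Valuation.ne_zero_iff _).2 hπ)), one_mul] at h3
  rwa [h4]

/-- a nonzero element is a unit at the places above almost all primes. -/
theorem finite_p_v_ne_one {x : E} (hx : x ≠ 0) :
    ∃ B : Finset ℕ, ∀ W : Pl E, W.p ∉ B → W.v x = 1 := by
  obtain ⟨M, hM, h1⟩ := exists_nat_v_le hx
  obtain ⟨N, hN, h2⟩ := exists_nat_v_le (inv_ne_zero hx)
  refine ⟨(M * N).primeFactors, fun W hW => ?_⟩
  have h3 : ¬ W.p ∣ M * N := fun h =>
    hW (Nat.mem_primeFactors.2 ⟨W.hp, h, mul_ne_zero hM hN⟩)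
  have h4 := h1 W
  have h5 := h2 W
  rw [W.v_natCast_eq_one fun h => h3 (h.mul_right _)] at h4
  rw [W.v_natCast_eq_one fun h => h3 (h.mul_left _), map_inv₀,
    one_le_inv₀ (zero_lt_iff.2 ((Valuation.ne_zero_iff _).2 hx))] at h5
  exact le_antisymm h5 h4

end Crest.Agent.R018
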