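/-!
# Row 18 / S0024 (Uchida's Hom-conjecture): plan of the proof

Notation: `G1 = Gal(Ω/ℚ)` (`Ω` an algebraic closure of `E₁`), `G2 = Gal(E/F)` (`E = E₂` is radically closed), a `Setup` is
`α : G0 → G2` continuous with open image, `G0 ≤ G1` open.  All number fields are fixed fields `L H` of open subgroups.

* Dictionary (files Top, Plog, CycB, Nm, H90, SetupB, PlEx, Bridge, Trans, Ram, Apx, Frob, Tower, DivB, Class, Hensel, CycSurj,
  Zeta1, Zeta2, FDT, KLem, Emb, UnitA): places, Frobenius, approximation, class groups, Frobenius density, Kummer theory.
* Class field theory (Herb, HI, LocB, U1, FI, P1, SUc, KeyT, Key, SIK, Mono, SI, Art, PF, Recip): first and second inequality for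
  cyclic `l`-extensions in ideal form, Hasse norm theorem for unramified extensions of prime degree, Artin reciprocity over `ℚ`-ambient.
* Selmer bounds and eigen-characters (U2, Sel, N1, N2).
* Transcendence (ZeroEst, DetDiv, W0, Llog, LinRep, WR1, WR): an `l`-adic "Waldschmidt" statement: a `ℤ_l`-character killing many
  decomposition groups is killed by averaging over one of them.
* Local correspondence (Tame, NN, AdmEx, Rig, OneOrb, ExOrb, OrbMono, LL1, LL2): if `α(I_V)` has non-trivial `l`-part then `α(D_V)` lies
  in a unique decomposition group `D_W` (rigidity + Hasse norm theorem).
* Global steps (Sep, Core, Ext, GC, Fib, ExcCount, StepE1, StepE, StepF, StepG1, StepG2, Final):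
  Fib: boundedly many residue characteristics `p_V` are related to one `W`;  ExcCount: few `W` are missed by the `l`-correspondence;
  StepE: `α` is compatible with the `l`-adic cyclotomic character for most `l`;  StepF: almost all `W` are related to a `V` with
  the same residue characteristic;  StepG: compare `α` with the pull-back along embeddings `ι : E → Ω`.
Each file states its lemmas with the proof in the doc-string.
-/
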