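import Crest.Agent.R018.PF
import Crest.Agent.R018.ArtinL

/-!
# R018 / Recip

(R) Artin reciprocity.  `ker_art_le`: write `a = ∏_{W ∈ s} bas H W ^ e_W` (`eq_prod_bas`, `W ∤ π`); take `s0, M, HW` from `artin_lemma`, `π2 = π M`,
`H_F = H ⊓ ⨅_{W ∈ s} HW W ∋ s0`, `b_F ∈ DivP H_F π2` with `art H_F χ b_F = χ s0 = χ σ` (`art_surj`), `b = nm H H_F b_F`.  With `χ (frob H W) = d_W • χ σ`,
`A_W = bas (HW W) W / (nm (HW W) H_F b_F)^{d_W}` has `art (HW W) χ A_W = 0` (`art_bas`, `art_nm`, `AHom.eq_of_isFrob`, `nm_bas_of_dec_le`), so by `ak` (with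
`CycExt.restrict`) and `nm_mem_ray_sup_ndiv`, `bas H W / b^{d_W} ∈ Ray H π ⊔ NDiv H H' π`.  `art H χ a = 0` means `l^j ∣ ∑ e_W d_W`, and `b^{l^j} ∈ NDiv`.
`recip`: `exists_cycExt_of_chom`, `fi` gives `N`; the kernel `K` of `art` on `DivP H (π^N)` has index `l^j` (`exists_artKer`), `K ≤ Ray ⊔ NDiv` whose index is
`≥ l^j`, so equality.
-/

set_option autoImplicit false
set_option linter.unusedSectionVars false

noncomputable section

namespace Crest.Agent.R018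

open scoped NNReal Classical

variable {Ω : Type*} [Field Ω] [CharZero Ω] [IsAlgClosed Ω] [IsGalois ℚ Ω]
variable {H H' : Subgroup Gal(Ω/ℚ)} {π : Ω}

theorem ker_art_le {A : Type*} [AddCommGroup A] {χ : Gal(Ω/ℚ) → A} {σ : Gal(Ω/ℚ)} {l j : ℕ}
    (h : CycExt H H' σ (l ^ j)) (hi : HasI H) (hl : l.Prime) (hl2 : l ≠ 2) (hχ : AHom H χ)
    (hker : ∀ x ∈ H, (χ x = 0 ↔ x ∈ H')) (hπ : π ∈ L H) (h0 : π ≠ 0) (hint : ∀ W : Pl Ω, W.v π ≤ 1)
    (hu : Unram H H' π) {a : Dv Ω} (ha : a ∈ DivP H π) (ha0 : art H χ a = 0) :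
    a ∈ Ray H π ⊔ NDiv H H' π := by
  have hH := h.isOpen_top
  obtain ⟨hfix, -, hone, B, hB⟩ := (mem_DivP_iff hH hπ).1 ha
  obtain ⟨s, hs, horb⟩ := exists_orbit_reps_set hH {W | a W ≠ 1}
    (fun W hW W' hWW' => by
      change a W' ≠ 1
      rw [← divb_same hfix hWW']
      exact hW) B (fun W hW => by
      by_contra hn
      exact hW (hB W hn))
  have hsπ : ∀ W ∈ s, ¬ W.v π < 1 := by
    intro W hW hlt
    have : W ∈ orbs H s := ⟨W, hW, Same.refl H W⟩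
    rw [horb] at this
    exact this (hone W hlt)
  have hprod := eq_prod_bas hH (DivP_le_one ha) s hs (fun W hW => by
    rw [horb] at hW
    exact not_not.1 hW)
  set e : Pl Ω → ℤ := fun W => expo H W (a W) with he
  obtain ⟨s0, hs0, hs0', M, hM, hMs, HW, hHW⟩ := artin_lemma h hl s fun W hW => hu W (hsπ W hW)
  have hπ2 : π * (M : Ω) ∈ L H := mul_mem hπ (natCast_mem _ M)
  have h02 : π * (M : Ω) ≠ 0 := mul_ne_zero h0 (Nat.cast_ne_zero.2 hM)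
  have hle1 : ∀ W : Pl Ω, W.v (π * M) ≤ W.v π := fun W => by
    rw [map_mul]; exact mul_le_of_le_one_right' (W.v_natCast_le_one M)
  have hle2 : ∀ W : Pl Ω, W.v (π * M) ≤ W.v (M : Ω) := fun W => by
    rw [map_mul]; exact mul_le_of_le_one_left' (hint W)
  have hsπ2 : ∀ W ∈ s, ¬ W.v (π * M) < 1 := fun W hW => by
    rw [map_mul, W.v_natCast_eq_one (hMs W hW), mul_one]
    exact hsπ W hW
  have hine : ∀ W : Pl Ω, ¬ W.v π < 1 → ∀ τ ∈ Ine ℚ W, τ ∈ H → χ τ = 0 :=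
    fun W hW τ hτ hτ' => (hker τ hτ').2 (hu W hW ⟨hτ, hτ'⟩)
  have hine2 : ∀ W : Pl Ω, ¬ W.v (π * M) < 1 → ∀ τ ∈ Ine ℚ W, τ ∈ H → χ τ = 0 :=
    fun W hW => hine W fun hlt => hW ((hle1 W).trans_lt hlt)
  have hval : ∀ g ∈ H, ∀ g' ∈ H, g⁻¹ * g' ∈ H' → χ g' = χ g := by
    intro g hg g' hg' hh
    have := hχ g hg _ (h.le hh)
    rwa [mul_inv_cancel_left, (hker _ (h.le hh)).2 hh, add_zero] at this
  set HF : Subgroup Gal(Ω/ℚ) := H ⊓ ⨅ W ∈ s, HW W with hHF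
  have hFo : IsOpen (HF : Set Gal(Ω/ℚ)) := by
    refine isOpen_inf hH ?_
    simp only [Subgroup.coe_iInf]
    exact isOpen_biInter_finset fun W hW => (hHW W hW).1
  have hFH : HF ≤ H := inf_le_left
  have hFW : ∀ W ∈ s, HF ≤ HW W := fun W hW => inf_le_right.trans (biInf_le _ hW)
  have hs0F : s0 ∈ HF := Subgroup.mem_inf.2 ⟨hs0,
    Subgroup.mem_iInf.2 fun W => Subgroup.mem_iInf.2 fun hW => (hHW W hW).2.2.1⟩
  obtain ⟨bF, hbF, hbF'⟩ := art_surj (π := π * M) hFo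
    (⟨hχ.mono hFH, H', h.isOpen, fun x hx hx' => (hker x (hFH hx)).2 hx'⟩ : CHom HF χ) h02
    (fun W hW τ hτ hτ' => hine2 W hW τ hτ (hFH hτ')) hs0F
  rw [hval σ h.mem s0 hs0 hs0'] at hbF'
  set b := nm (Dv Ω) H HF bF with hb
  have hbD : b ∈ DivP H π :=
    DivP_mono (fun W hW => (hle1 W).trans_lt hW) (NDiv_le_DivP hFo hFH ⟨bF, hbF, rfl⟩)
  choose! d hd using fun W : Pl Ω => h.gen _ (frob_spec hH W).1
  have hd' : ∀ W, χ (frob H W) = (d W : ℤ) • χ σ := fun W => by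
    rw [hval _ (H.pow_mem h.mem _) _ (frob_spec hH W).1 (hd W), hχ.map_pow h.mem, natCast_zsmul]
  have key : ∀ W ∈ s, bas H W * b ^ (-(d W : ℤ)) ∈ Ray H π ⊔ NDiv H H' π := by
    intro W hW
    obtain ⟨ho, hle, hs0W, hdec, hcyc⟩ := hHW W hW
    obtain ⟨hq, -, hnm⟩ := nm_bas_of_dec_le ho hle hdec
    have hineW : ∀ V : Pl Ω, ¬ V.v (π * M) < 1 → ∀ τ ∈ Ine ℚ V, τ ∈ HW W → χ τ = 0 :=
      fun V hV τ hτ hτ' => hine2 V hV τ hτ (hle hτ')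
    have hbW : nm (Dv Ω) (HW W) HF bF ∈ DivP (HW W) (π * M) := NDiv_le_DivP hFo (hFW W hW) ⟨bF, hbF, rfl⟩
    have hbas : bas (HW W) W ∈ DivP (HW W) (π * M) := bas_mem_DivP (hsπ2 W hW)
    have hart : art (HW W) χ (bas (HW W) W * nm (Dv Ω) (HW W) HF bF ^ (-(d W : ℤ))) = 0 := by
      rw [art_mul ho χ (DivP_le_one hbas) (zpow_mem (DivP_le_one hbW) _), art_zpow ho χ (DivP_le_one hbW),
        art_nm hFo (hFW W hW) (hχ.mono hle) hineW hbF, hbF', art_bas ho (hχ.mono hle) (hineW W (hsπ2 W hW)),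
        hχ.eq_of_isFrob (hine W (hsπ W hW)) hle (frob_spec hH W) (frob_spec ho W) (f := 1) (by rw [hq, pow_one]),
        one_smul, hd', neg_smul, add_neg_cancel]
    have h1 := ak (h.restrict hle ho hs0W hs0') (hle.trans hi) hl hl2 hM (le_inf inf_le_left hcyc)
      (hχ.mono hle) (fun x hx => (hker x (hle hx)).trans ⟨fun hx' => ⟨hx, hx'⟩, fun hx' => hx'.2⟩)
      (L_anti hle hπ2) h02 (fun V _ => hle2 V) (mul_mem hbas (zpow_mem hbW _)) hart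
    have h2 := nm_mem_ray_sup_ndiv (π := π) h.isOpen h.le ho hle hπ2 (fun V _ => hle1 V) h1
    rwa [map_mul, map_zpow, hnm, nm_trans (hFW W hW) hle (relIndex_ne_zero_of_isOpen hFo H)
      (fun g hg => smul_of_mem_DivP hbF hg)] at h2
  have hsum : (∑ W ∈ s, d W * e W) • χ σ = 0 := by
    rw [hprod, art_prod hH χ s fun W hW => zpow_mem (DivP_le_one (bas_mem_DivP (hsπ W hW))) _] at ha0
    rw [Finset.sum_smul, ← ha0]
    refine Finset.sum_congr rfl fun W hW => ?_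
    rw [art_zpow hH χ (DivP_le_one (bas_mem_DivP (hsπ W hW))), art_bas hH hχ (hine W (hsπ W hW)), hd',
      smul_smul, mul_comm]
  obtain ⟨c, hc⟩ : ((l ^ j : ℕ) : ℤ) ∣ ∑ W ∈ s, d W * e W := by
    rw [Int.natCast_dvd, ← h.pow_mem_iff, ← hker _ (H.pow_mem h.mem _), hχ.map_pow h.mem]
    exact natAbs_nsmul_eq_zero.2 hsum
  have hfin : a = (∏ W ∈ s, (bas H W * b ^ (-(d W : ℤ))) ^ e W) * (b ^ H'.relIndex H) ^ c := by
    have hz : b ^ (∑ W ∈ s, d W * e W) = ∏ W ∈ s, b ^ (d W * e W) :=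
      map_sum (zmultiplesHom (Additive (Dv Ω)) (Additive.ofMul b)) _ _
    rw [h.idx, ← zpow_natCast, ← zpow_mul, ← hc, hz, ← Finset.prod_mul_distrib]
    conv_lhs => rw [hprod]
    refine Finset.prod_congr rfl fun W _ => ?_
    rw [mul_zpow, ← zpow_mul, mul_assoc, ← zpow_add, neg_mul, neg_add_cancel, zpow_zero, mul_one]
  rw [hfin]
  exact mul_mem (prod_mem fun W hW => zpow_mem (key W hW) _)
    (zpow_mem (Subgroup.mem_sup_right (pow_mem_NDiv h.isOpen h.le hπ hbD)) _)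

theorem recip (hH : IsOpen (H : Set Gal(Ω/ℚ))) (hi : HasI H) {l k : ℕ} (hl : l.Prime) (hl2 : l ≠ 2)
    {χ : Gal(Ω/ℚ) → ZMod (l ^ k)} (hχ : CHom H χ) (hπ : π ∈ L H) (h0 : π ≠ 0)
    (hint : ∀ W : Pl Ω, W.v π ≤ 1)
    (hu : ∀ W : Pl Ω, ¬ W.v π < 1 → ∀ τ ∈ Ine ℚ W, τ ∈ H → χ τ = 0) :
    ∃ N : ℕ, N ≠ 0 ∧ ∀ x ∈ rayU H (π ^ N), art H χ (dv x) = 0 := by
  obtain ⟨H', σ, j, h, hH'⟩ := exists_cycExt_of_chom hH hl hχ
  have hker : ∀ x ∈ H, χ x = 0 ↔ x ∈ H' := fun x hx => by rw [hH']; exact ⟨fun h0 => ⟨hx, h0⟩, fun h0 => h0.2⟩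
  have hU : Unram H H' π := fun W hW τ hτ => (hker τ hτ.2).1 (hu W hW τ hτ.1 hτ.2)
  obtain ⟨N, hN, hidx⟩ := fi h hi hπ h0 hU
  have hπN : π ^ N ∈ L H := pow_mem hπ N
  have h0N : π ^ N ≠ 0 := pow_ne_zero N h0
  have hUN : Unram H H' (π ^ N) := fun W hW => hU W fun hlt => hW (by
    rw [map_pow]; exact pow_lt_one₀ (by simp) hlt hN)
  obtain ⟨K, hK, hKi⟩ := exists_artKer h hχ.1 hker h0N hUN
  have h1 : K ≤ Ray H (π ^ N) ⊔ NDiv H H' (π ^ N) := fun a ha =>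
    ker_art_le h hi hl hl2 hχ.1 hker hπN h0N (fun W => by rw [map_pow]; exact pow_le_one' (hint W) N) hUN
      ((hK a).1 ha).1 ((hK a).1 ha).2
  have h2 : Ray H (π ^ N) ⊔ NDiv H H' (π ^ N) ≤ DivP H (π ^ N) :=
    sup_le (Ray_le_DivP hH hπN) (NDiv_le_DivP h.isOpen h.le)
  have h3 := Subgroup.relIndex_mul_relIndex K _ _ h1 h2
  rw [hKi] at h3
  change _ * nIdx H H' (π ^ N) = _ at h3
  have h4 : K.relIndex (Ray H (π ^ N) ⊔ NDiv H H' (π ^ N)) = 1 := by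
    have hn : 0 < l ^ j := pow_pos hl.pos j
    set m := K.relIndex (Ray H (π ^ N) ⊔ NDiv H H' (π ^ N))
    rcases m with _ | _ | m
    · omega
    · rfl
    · nlinarith
  refine ⟨N, hN, fun x hx => ((hK _).1 (Subgroup.relIndex_eq_one.1 h4 ?_)).2⟩
  exact Subgroup.mem_sup_left ⟨x, hx, rfl⟩

end Crest.Agent.R018
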