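import Crest.Agent.R018.NN
import Crest.Agent.R018.AdmEx

/-!
# R018 / Rig

(Rig) `ρ = rt l y`, `D = Dec V ⊓ H`, `χ = kum l ρ ∘ α` (`chom_comp` with `U = Gam V H`), `D' = ker`, `α D' = Gam ⊓ stab ρ`, `κ = kum l (rt l z) ∘ α`.  `nn` and `kum_conj`
show that `w = ∏ s^i (rt l z)` (`s = α σ`) is fixed by `Gam ⊓ stab ρ`; `w^l` is fixed by `s`; choose `j` with `kum w s = j kum ρ s`; then `c = w / ρ^j` is fixed by `s` and by
`Gam ⊓ stab ρ`, which generate `Gam`.  `rig_one`: `z = 1 + b ρ`, `∏_{i<l} (1 + b ζ^{a i} ρ) = 1 + b^l y` (`l` odd; `X^l - 1 = ∏ (X - ζ^i)`).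
-/

set_option autoImplicit false
set_option linter.unusedSectionVars false

noncomputable section

namespace Crest.Agent.R018

open scoped NNReal Classical

variable {Ω F E : Type*} [Field Ω] [CharZero Ω] [IsAlgClosed Ω] [IsGalois ℚ Ω]
  [Field F] [NumberField F] [Field E] [CharZero E] [Algebra F E] [IsGalois F E] [RadCl E]

/-- the Galois-theoretic part of `rig`. -/
theorem rig_aux {l : ℕ} (hl : l.Prime) {Γ : Subgroup Gal(E/F)} (hμ : Γ ≤ FixMu F E l) {y : E}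
    (hy0 : y ≠ 0) (hy : y ∈ L Γ) {s : Gal(E/F)} (hs : s ∈ Γ) (hmove : s (rt l y) ≠ rt l y) {z : E}
    (hz0 : z ≠ 0) (hz : z ∈ L (Γ ⊓ stab F (rt l y)))
    (hN : ∀ h ∈ Γ ⊓ stab F (rt l y),
      ∑ i ∈ Finset.range l, kum l (rt l z) ((s ^ i)⁻¹ * h * s ^ i) = 0) :
    ∃ j : ℕ, ∃ c ∈ L Γ, ∏ i ∈ Finset.range l, (s ^ i) z = y ^ j * c ^ l := by
  have : Fact l.Prime := ⟨hl⟩
  have hl0 := hl.ne_zero
  have hρ0 : rt l y ≠ 0 := rt_ne_zero hl0 hy0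
  have hτ0 : rt l z ≠ 0 := rt_ne_zero hl0 hz0
  have hρ : rt l y ^ l = y := rt_pow hl0 y
  have hτ : rt l z ^ l = z := rt_pow hl0 z
  set ρ := rt l y with hρdef
  set τ := rt l z with hτdef
  have hρL : ρ ^ l ∈ L Γ := by rw [hρ]; exact hy
  have hk : AHom Γ (kum l ρ) := (chom_kum hl0 hρ0 hμ hρL).1
  have hker : ∀ g ∈ Γ, kum l ρ g = 0 ↔ g ∈ stab F ρ := fun g hg =>
    kum_eq_zero_iff hl0 hρ0 (mem_L.1 hρL g hg)
  have hks : kum l ρ s ≠ 0 := fun h => hmove ((hker s hs).1 h)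
  have hconj : ∀ h ∈ Γ ⊓ stab F ρ, ∀ t ∈ Γ, t⁻¹ * h * t ∈ Γ ⊓ stab F ρ := by
    intro h hh t ht
    have h1 : t⁻¹ * h * t ∈ Γ := Γ.mul_mem (Γ.mul_mem (Γ.inv_mem ht) hh.1) ht
    refine ⟨h1, (hker _ h1).1 ?_⟩
    have := hk.map_conj (Γ.inv_mem ht) hh.1
    rw [inv_inv] at this
    rw [this]
    exact (hker h hh.1).2 hh.2
  have hfix : ∀ h ∈ Γ ⊓ stab F ρ, ∀ i : ℕ, h ((s ^ i) τ ^ l) = (s ^ i) τ ^ l := by
    intro h hh i
    have h1 := congrArg (s ^ i) (mem_L.1 hz _ (hconj h hh _ (Γ.pow_mem hs i)))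
    rw [← map_pow, hτ, ← h1, ← AlgEquiv.mul_apply, ← AlgEquiv.mul_apply, ← AlgEquiv.mul_apply]
    rw [← AlgEquiv.mul_apply] at h1
    simp only [mul_assoc, mul_inv_cancel_left] at h1 ⊢
    rw [AlgEquiv.mul_apply, h1, ← AlgEquiv.mul_apply, h1]
  set w := ∏ i ∈ Finset.range l, (s ^ i) τ with hw
  have hw0 : w ≠ 0 := Finset.prod_ne_zero_iff.2 fun i _ => (map_ne_zero _).2 hτ0
  have hwl : w ^ l = ∏ i ∈ Finset.range l, (s ^ i) z := by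
    rw [hw, ← Finset.prod_pow]
    exact Finset.prod_congr rfl fun i _ => by rw [← map_pow, hτ]
  have hw' : ∀ h ∈ Γ ⊓ stab F ρ, h w = w := by
    intro h hh
    have h1 : h (w ^ l) = w ^ l := by
      rw [hw, ← Finset.prod_pow, map_prod]
      exact Finset.prod_congr rfl fun i _ => hfix h hh i
    rw [← kum_eq_zero_iff hl0 hw0 h1, hw, kum_prod_left hl0 _ (fun i _ => (map_ne_zero _).2 hτ0)
      (fun i _ => hfix h hh i), ← hN h hh]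
    refine Finset.sum_congr rfl fun i _ => ?_
    have h2 := kum_conj hl0 hτ0 (s ^ i)⁻¹ (g := h) (by rw [inv_inv]; exact hfix h hh i)
    rw [inv_inv, (mem_FixMu_iff hl0).1 (hμ (Γ.inv_mem (Γ.pow_mem hs i))), one_mul] at h2
    exact h2.symm
  have hsl : s ^ l ∈ Γ ⊓ stab F ρ := by
    refine ⟨Γ.pow_mem hs l, (hker _ (Γ.pow_mem hs l)).1 ?_⟩
    rw [hk.map_pow hs, nsmul_eq_mul, ZMod.natCast_self, zero_mul]
  have hsw : s (w ^ l) = w ^ l := by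
    rw [hwl, map_prod]
    have h1 := Finset.prod_range_succ (fun i => (s ^ i) z) l
    have h2 := Finset.prod_range_succ' (fun i => (s ^ i) z) l
    rw [mem_L.1 hz _ hsl] at h1
    rw [h1, pow_zero, AlgEquiv.one_apply] at h2
    rw [mul_right_cancel₀ hz0 h2]
    exact Finset.prod_congr rfl fun i _ => by rw [pow_succ', AlgEquiv.mul_apply]
  set j := (kum l w s / kum l ρ s).val with hj
  have hsρ : s (ρ ^ l) = ρ ^ l := mem_L.1 hρL s hs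
  have hsc : s (w / ρ ^ j) = w / ρ ^ j := by
    have h1 := kum_spec hl0 hw0 hsw
    have h2 := kum_spec hl0 (pow_ne_zero j hρ0) (g := s)
      (by rw [← pow_mul, mul_comm j l, pow_mul, map_pow, hsρ])
    rw [kum_pow_left hl0 hρ0 hsρ, hj, ZMod.natCast_zmod_val, div_mul_cancel₀ _ hks, ← hj] at h2
    rw [map_div₀, h1, h2, mul_div_mul_left _ _ (pow_ne_zero _ ((zeta_prim hl0).ne_zero hl0))]
  refine ⟨j, w / ρ ^ j, mem_L.2 fun g hg => ?_, ?_⟩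
  · have h1 : (s ^ (kum l ρ g / kum l ρ s).val)⁻¹ * g ∈ Γ :=
      Γ.mul_mem (Γ.inv_mem (Γ.pow_mem hs _)) hg
    have h2 : (s ^ (kum l ρ g / kum l ρ s).val)⁻¹ * g ∈ stab F ρ := by
      rw [← hker _ h1, hk _ (Γ.inv_mem (Γ.pow_mem hs _)) _ hg, hk.map_inv (Γ.pow_mem hs _),
        hk.map_pow hs, nsmul_eq_mul, ZMod.natCast_zmod_val, div_mul_cancel₀ _ hks, neg_add_cancel]
    have h3 : (s ^ (kum l ρ g / kum l ρ s).val)⁻¹ * g ∈ stab F (w / ρ ^ j) := by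
      rw [mem_stab, map_div₀, map_pow, hw' _ ⟨h1, h2⟩, mem_stab.1 h2]
    have h4 := (stab F (w / ρ ^ j)).mul_mem
      ((stab F (w / ρ ^ j)).pow_mem (mem_stab.2 hsc) (kum l ρ g / kum l ρ s).val) h3
    rwa [mul_inv_cancel_left] at h4
  · rw [← hwl, div_pow, ← pow_mul, mul_comm j l, pow_mul, hρ,
      mul_div_cancel₀ _ (pow_ne_zero _ hy0)]

namespace Setup
variable (S : Setup Ω F E)

theorem rig_Gam_le {l : ℕ} (V : Pl Ω) {H : Subgroup Gal(Ω/ℚ)} (hH : S.Small l H) :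
    S.Gam V H ≤ FixMu F E l :=
  (S.img_le_of_le_pre (inf_le_right.trans hH.2.2)).trans inf_le_left

theorem rig_mem_Gam {l : ℕ} {V : Pl Ω} {H : Subgroup Gal(Ω/ℚ)} (hH : S.Small l H)
    {d : Gal(Ω/ℚ)} (hd : d ∈ Dec ℚ V ⊓ H) : d ∈ S.pre (S.Gam V H) :=
  ⟨(hH.2.2 hd.2).1, d, hd, (hH.2.2 hd.2).1, rfl⟩

theorem rig {l : ℕ} (hl : l.Prime) (hl2 : l ≠ 2) {V : Pl Ω} (hV : V.p ≠ l) {H : Subgroup Gal(Ω/ℚ)}
    (hH : S.Small l H) {y : E} {σ : Gal(Ω/ℚ)} (hA : S.AdmD l V H y σ) {z : E} (hz0 : z ≠ 0)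
    (hz : z ∈ L (S.Gam V H ⊓ stab F (rt l y))) :
    ∃ j : ℕ, ∃ c ∈ L (S.Gam V H), ∏ i ∈ Finset.range l, (S.α σ ^ i) z = y ^ j * c ^ l := by
  obtain ⟨hy0, hy, hσI, hσH, hmove⟩ := hA
  have hl0 := hl.ne_zero
  have hμ := S.rig_Gam_le V hH
  have hσD : σ ∈ Dec ℚ V ⊓ H := ⟨Ine_le_Dec V hσI, hσH⟩
  have hσ0 : σ ∈ S.G0 := (S.rig_mem_Gam hH hσD).1
  have hρ0 : rt l y ≠ 0 := rt_ne_zero hl0 hy0
  have hρL : rt l y ^ l ∈ L (S.Gam V H) := by rw [rt_pow hl0]; exact hy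
  have hker : ∀ g ∈ S.Gam V H, kum l (rt l y) g = 0 ↔ g ∈ stab F (rt l y) := fun g hg =>
    kum_eq_zero_iff hl0 hρ0 (mem_L.1 hρL g hg)
  refine rig_aux hl hμ hy0 hy (S.rig_mem_Gam hH hσD).2 hmove hz0 hz ?_
  rintro _ ⟨⟨d, hd, hd0, rfl⟩, hd'⟩
  have hχ : CHom (Dec ℚ V ⊓ H) (fun g => kum l (rt l y) (S.α g)) :=
    S.chom_comp (fun g hg => S.rig_mem_Gam hH hg) (chom_kum hl0 hρ0 hμ hρL)
  obtain ⟨D', hD'⟩ := hχ.1.exists_ker
  have hκ : CHom D' (fun g => kum l (rt l z) (S.α g)) := by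
    refine S.chom_comp (U := S.Gam V H ⊓ stab F (rt l y)) (fun g hg => ?_)
      (chom_kum hl0 (rt_ne_zero hl0 hz0) (inf_le_left.trans hμ) (by rw [rt_pow hl0]; exact hz))
    obtain ⟨h1, h2⟩ := (hD' g).1 hg
    have h3 := S.rig_mem_Gam hH h1
    exact ⟨h3.1, h3.2, (hker _ h3.2).1 h2⟩
  have key := nn hl hl2 hV inf_le_left (inf_le_right.trans hH.2.1) hχ hσI hσD
    (fun h => hmove ((hker _ (S.rig_mem_Gam hH hσD).2).1 h)) hD' hκ d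
    ((hD' d).2 ⟨hd, (hker _ (S.rig_mem_Gam hH hd).2).2 hd'⟩)
  rw [← key]
  refine Finset.sum_congr rfl fun i _ => ?_
  have hi := S.G0.pow_mem hσ0 i
  rw [S.mul _ (S.G0.mul_mem (S.G0.inv_mem hi) hd0) _ hi, S.mul _ (S.G0.inv_mem hi) _ hd0,
    S.map_inv hi, S.map_pow hσ0]

theorem rig_one {l : ℕ} (hl : l.Prime) (hl2 : l ≠ 2) {V : Pl Ω} (hV : V.p ≠ l) {H : Subgroup Gal(Ω/ℚ)}
    (hH : S.Small l H) {y : E} {σ : Gal(Ω/ℚ)} (hA : S.AdmD l V H y σ) {b : E}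
    (hb : b ∈ L (S.Gam V H)) (h0 : 1 + b ^ l * y ≠ 0) :
    ∃ j : ℕ, ∃ c ∈ L (S.Gam V H), 1 + b ^ l * y = y ^ j * c ^ l := by
  have hl0 := hl.ne_zero
  have hμ := S.rig_Gam_le V hH
  have hs : S.α σ ∈ S.Gam V H := (S.rig_mem_Gam hH ⟨Ine_le_Dec V hA.2.2.1, hA.2.2.2.1⟩).2
  have hρ0 : rt l y ≠ 0 := rt_ne_zero hl0 hA.1
  have hρ : rt l y ^ l = y := rt_pow hl0 y
  have hmove := hA.2.2.2.2
  set s := S.α σ with hsdef
  set ρ := rt l y with hρdef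
  have hξl : (s ρ / ρ) ^ l = 1 := by
    rw [div_pow, ← _root_.map_pow, hρ, mem_L.1 hA.2.1 s hs, div_self hA.1]
  have hξ1 : s ρ / ρ ≠ 1 := fun h => hmove (by rwa [div_eq_one_iff_eq hρ0] at h)
  have hξ : IsPrimitiveRoot (s ρ / ρ) l := by
    have : Fact l.Prime := ⟨hl⟩
    rw [← orderOf_eq_prime hξl hξ1]
    exact IsPrimitiveRoot.orderOf _
  have hpow : ∀ i : ℕ, (s ^ i) ρ = (s ρ / ρ) ^ i * ρ := by
    intro i
    induction i with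
    | zero => simp
    | succ i ih =>
      rw [pow_succ', AlgEquiv.mul_apply, ih, map_mul, _root_.map_pow, fix_of_mem_FixMu hl0 (hμ hs) hξl,
        pow_succ, mul_assoc, div_mul_cancel₀ _ hρ0]
  have hprod : ∏ i ∈ Finset.range l, (s ^ i) (1 + b * ρ) = 1 + b ^ l * y := by
    have h1 := congrArg (Polynomial.eval 1) (X_pow_sub_C_eq_prod hξ hl.pos (α := -(b * ρ)) rfl)
    simp only [Polynomial.eval_sub, Polynomial.eval_pow, Polynomial.eval_X, Polynomial.eval_C,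
      Polynomial.eval_prod] at h1
    rw [(hl.odd_of_ne_two hl2).neg_pow, one_pow, sub_neg_eq_add, mul_pow, hρ] at h1
    rw [h1]
    refine Finset.prod_congr rfl fun i _ => ?_
    rw [map_add, _root_.map_one, map_mul, hpow, mem_L.1 hb _ ((S.Gam V H).pow_mem hs i)]
    ring
  have hz0 : 1 + b * ρ ≠ 0 := by
    intro h
    rw [← hprod, h] at h0
    exact h0 (Finset.prod_eq_zero (Finset.mem_range.2 hl.pos) (map_zero _))
  rw [← hprod]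
  refine S.rig hl hl2 hV hH hA hz0 (mem_L.2 fun g hg => ?_)
  rw [map_add, _root_.map_one, map_mul, mem_L.1 hb g hg.1, mem_stab.1 hg.2]

end Setup

end Crest.Agent.R018
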