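import Crest.Agent.R018.Herb
import Crest.Agent.R018.Class
import Crest.Agent.R018.UnitA

/-!
# R018 / SUc

(SU) `|U_S / U_S^l| ≥ l^{s + r}`, `r = deg H / 2`.  `U_S → ℤ^s` (exponents at the `W ∈ s`) has image of finite index (`exists_class_exp`) and kernel the
global units; these contain with finite index the image of `ℤ^r / ℤκ` (`exists_units` with `H' = H`, `σ = 1`, `n = 1`).  Use `hq_map`, `hq_mul_of_le` for the pair
`(powMonoidHom l, 1)`: `hq 1 (pow l) X = [X : X^l]`, `hq (pow l) 1 X = |X[l]|`; `|U_S[l]| = l` since `μ_l ⊆ L H`.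
-/

set_option autoImplicit false
set_option linter.unusedSectionVars false

noncomputable section

namespace Crest.Agent.R018

open scoped NNReal Classical

variable {F E : Type*} [Field F] [NumberField F] [Field E] [CharZero E] [Algebra F E]
  [IsGalois F E] [RadCl E]

theorem suc_abs {A : Type*} [AddCommGroup A] {ι : Type*} [Fintype ι] (ψ : (ι → ℤ) →ₗ[ℤ] A)
    (κ : ι → ℤ) (hker : ∀ c, ψ c = 0 → ∃ t : ℤ, c = t • κ)
    (hidx : Finite (A ⧸ LinearMap.range ψ)) :
    Module.Finite ℤ A ∧ Fintype.card ι ≤ Module.finrank ℤ A + 1 := by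
  have hfin : Module.Finite ℤ A := Module.Finite.of_submodule_quotient (LinearMap.range ψ)
  refine ⟨hfin, ?_⟩
  have h1 := (LinearMap.ker ψ).finrank_quotient_add_finrank
  rw [ψ.quotKerEquivRange.finrank_eq, Module.finrank_pi] at h1
  have h2 : Module.finrank ℤ (LinearMap.ker ψ) ≤ 1 := by
    have h3 : LinearMap.ker ψ ≤ Submodule.span ℤ {κ} := fun c hc => by
      obtain ⟨t, rfl⟩ := hker c hc
      exact Submodule.smul_mem _ _ (Submodule.mem_span_singleton_self κ)
    refine (Submodule.finrank_mono h3).trans ?_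
    simpa using finrank_span_le_card (R := ℤ) ({κ} : Set (ι → ℤ))
  have h4 := Submodule.finrank_le (LinearMap.range ψ)
  omega

theorem suc_pw_top (G : Type*) [CommGroup G] [Module.Finite ℤ (Additive G)] {l : ℕ} (hl : l ≠ 0) :
    (Pw (⊤ : Subgroup G) l).relIndex ⊤ = l ^ Module.finrank ℤ (Additive G) *
      Nat.card ↥((⊤ : Subgroup G) ⊓ (powMonoidHom l : G →* G).ker) ∧
      Finite ↥((⊤ : Subgroup G) ⊓ (powMonoidHom l : G →* G).ker) := by
  let T := Submodule.torsion ℤ (Additive G)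
  let b := Module.finBasis ℤ (Additive G ⧸ T)
  let φ := b.equivFun.toLinearMap ∘ₗ T.mkQ
  have hT : Finite T := Module.finite_of_fg_torsion T (Submodule.torsion_isTorsion)
  have hr : Module.finrank ℤ (Additive G ⧸ T) = Module.finrank ℤ (Additive G) :=
    finrank_quotient_eq_of_le_torsion le_rfl
  have h := relIndex_pw_eq (X := (⊤ : Subgroup G))
    (AddMonoidHom.toMultiplicativeRight φ.toAddMonoidHom) ?_ ?_ hl
  · rwa [Fintype.card_fin, hr] at h
  · refine Finite.of_injective (fun x => (⟨Additive.ofMul x.1, ?_⟩ : T)) fun x y e => ?_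
    · have h1 : φ (Additive.ofMul x.1) = 0 := x.2.2
      simpa [φ] using h1
    · have e' := congrArg Subtype.val e
      exact Subtype.ext (Additive.ofMul.injective e')
  · have : Subgroup.map (AddMonoidHom.toMultiplicativeRight φ.toAddMonoidHom) ⊤ = ⊤ := by
      refine Subgroup.map_top_of_surjective _ fun y => ?_
      obtain ⟨x, hx⟩ := (b.equivFun.surjective.comp T.mkQ_surjective) y.toAdd
      exact ⟨x.toMul, congrArg Multiplicative.ofAdd hx⟩
    rw [this, Subgroup.index_top]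
    exact one_ne_zero

theorem suc_main {M : Type*} [CommGroup M] {X : Subgroup M} {ι : Type*} [Fintype ι] (y : ι → M)
    (hy : ∀ i, y i ∈ X) (hidx : (Subgroup.closure (Set.range y)).relIndex X ≠ 0) (κ : ι → ℤ)
    (hrel : ∀ c : ι → ℤ, ∏ i, y i ^ c i = 1 → ∃ t : ℤ, c = t • κ) {l : ℕ} (hl : l ≠ 0) {ζ : M}
    (hζ : ζ ∈ X) (ho : orderOf ζ = l) :
    (Pw X l).relIndex X ≠ 0 ∧ l ^ Fintype.card ι ≤ (Pw X l).relIndex X := by
  let ψ : (ι → ℤ) →ₗ[ℤ] Additive X :=
    Fintype.linearCombination ℤ fun i => Additive.ofMul (⟨y i, hy i⟩ : X)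
  have hψ : ∀ c, ((ψ c).toMul : M) = ∏ i, y i ^ c i := fun c => by
    simp [ψ, Fintype.linearCombination_apply, toMul_sum]
  have hq : Finite (Additive X ⧸ LinearMap.range ψ) := by
    have h1 : ((Subgroup.closure (Set.range y)).subgroupOf X).toAddSubgroup ≤
        (LinearMap.range ψ).toAddSubgroup := fun x hx => by
      obtain ⟨c, hc⟩ := Subgroup.mem_closure_range_iff_of_fintype.1
        (show (x.toMul : M) ∈ Subgroup.closure (Set.range y) from hx)
      exact ⟨c, Additive.toMul.injective (Subtype.ext ((hψ c).trans hc.symm))⟩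
    have h2 : (LinearMap.range ψ).toAddSubgroup.index ≠ 0 := fun h =>
      hidx (by
        have := AddSubgroup.index_dvd_of_le h1
        rw [h, zero_dvd_iff, Subgroup.index_toAddSubgroup] at this
        exact this)
    exact Nat.finite_of_card_ne_zero h2
  obtain ⟨hfin, hrk⟩ := suc_abs ψ κ (fun c hc => hrel c (by rw [← hψ, hc]; rfl)) hq
  obtain ⟨h1, h2⟩ := suc_pw_top X hl
  have e : (Pw X l).relIndex X = (Pw (⊤ : Subgroup X) l).relIndex ⊤ := by
    rw [Subgroup.relIndex_top_right, Subgroup.relIndex]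
    congr 1
    ext x
    constructor
    · rintro ⟨z, hz, e⟩
      exact ⟨⟨z, hz⟩, trivial, Subtype.ext e⟩
    · rintro ⟨z, -, rfl⟩
      exact ⟨z, z.2, rfl⟩
  have h3 : l ≤ Nat.card ↥((⊤ : Subgroup X) ⊓ (powMonoidHom l : X →* X).ker) := by
    have ho' : orderOf (⟨ζ, hζ⟩ : X) = l := by rw [← ho, ← Subgroup.orderOf_coe]
    have h4 : Subgroup.zpowers (⟨ζ, hζ⟩ : X) ≤ ⊤ ⊓ (powMonoidHom l : X →* X).ker := by
      rw [Subgroup.zpowers_le]
      exact ⟨trivial, by rw [← ho']; exact pow_orderOf_eq_one _⟩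
    have h5 := Subgroup.card_le_of_le h4
    rwa [Nat.card_zpowers, ho'] at h5
  rw [e, h1]
  have hl0 : 0 < l := Nat.pos_of_ne_zero hl
  refine ⟨(Nat.mul_pos (pow_pos hl0 _) (hl0.trans_le h3)).ne', ?_⟩
  refine (Nat.pow_le_pow_right hl0 hrk).trans ?_
  rw [pow_succ]
  exact Nat.mul_le_mul_left _ h3

theorem su_index {H : Subgroup Gal(E/F)} (hH : IsOpen (H : Set Gal(E/F))) (hi : HasI H) {l : ℕ}
    (hl : l.Prime) (hμ : H ≤ FixMu F E l) (s : Finset (Pl E))
    (hs : ∀ W ∈ s, ∀ W' ∈ s, Same H W W' → W = W') :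
    (Pw (SU H (orbs H s)) l).relIndex (SU H (orbs H s)) ≠ 0 ∧
      l ^ (s.card + deg H / 2) ≤ (Pw (SU H (orbs H s)) l).relIndex (SU H (orbs H s)) := by
  have hc : CycExt H H 1 1 := ⟨hH, le_rfl, fun h hh x hx => H.mul_mem (H.mul_mem hh hx) (H.inv_mem hh),
    H.one_mem, Subgroup.relIndex_self H, fun h hh => ⟨0, by simpa using hh⟩⟩
  obtain ⟨u, hu, hidx, κ, -, hκ⟩ := exists_units hc hi
  obtain ⟨h, h0, hh⟩ := exists_class_exp hH
  choose x hx hx' using fun W : Pl E => hh (bas H W) (bas_mem_DivP (by simp))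
  have hbas : ∀ W ∈ s, ∀ c : s → ℤ, ∀ hW : W ∈ s,
      W.vU (∏ V : s, x V ^ c V) = unif H W ^ ((h : ℤ) * c ⟨W, hW⟩) := fun W _ c hW => by
    rw [map_prod, Finset.prod_eq_single ⟨W, hW⟩]
    · rw [map_zpow, ← dv_apply, hx', Dv.pow_apply, bas, if_pos (Same.refl _ _), zpow_mul,
        zpow_natCast]
    · intro V _ hV
      rw [map_zpow, ← dv_apply, hx', Dv.pow_apply, bas, if_neg, one_pow, one_zpow]
      exact fun e => hV (Subtype.ext (hs _ V.2 _ hW e))
    · simp
  have hxS : ∀ V : s, x V ∈ SU H (orbs H s) := fun V => ⟨hx V, fun W hW => by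
    rw [← Pl.coe_vU, ← dv_apply, hx', Dv.pow_apply, bas, if_neg, one_pow, Units.val_one]
    exact fun e => hW ⟨V, V.2, e⟩⟩
  have hUS : SU H ∅ ≤ SU H (orbs H s) := fun z hz => ⟨hz.1, fun W _ => hz.2 W (by simp)⟩
  have hζ := zeta_prim (E := E) hl.ne_zero
  have hζ0 : zeta E l ≠ 0 := hζ.ne_zero hl.ne_zero
  have key := suc_main (X := SU H (orbs H s)) (Sum.elim (fun V : s => x V) u) ?_ ?_
    (Sum.elim 0 κ) ?_ hl.ne_zero (ζ := Units.mk0 _ hζ0) ?_ ?_
  · simpa using key
  · rintro (V | j)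
    · exact hxS V
    · exact hUS (hu j)
  · set X' := Subgroup.closure (Set.range (Sum.elim (fun V : s => x V) u))
    refine Subgroup.relIndex_ne_zero_trans (K := SU H ∅ ⊔ X') ?_ ?_
    · rw [Subgroup.relIndex_sup_right]
      refine fun e => hidx (Subgroup.relIndex_eq_zero_of_le_left (Subgroup.closure_mono ?_) e)
      rintro _ ⟨j, i, rfl⟩
      exact ⟨Sum.inr j, by simp⟩
    have : NeZero h := ⟨h0⟩
    refine class_fin _ _ (fun z (W : s) => ((expo H W (W.1.vU z) : ℤ) : ZMod h)) fun z z' e => ?_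
    have hk : ∀ W : s, ∃ k : ℤ, W.1.vU ((z : Eˣ)⁻¹ * z') = unif H W ^ ((h : ℤ) * k) := fun W => by
      obtain ⟨k, hk⟩ := (ZMod.intCast_eq_intCast_iff_dvd_sub _ _ _).1 (congrFun e W)
      refine ⟨k, ?_⟩
      rw [map_mul, map_inv, ← unif_zpow_expo hH (W := W) ⟨z, z.2.1, rfl⟩,
        ← unif_zpow_expo hH (W := W) ⟨z', z'.2.1, rfl⟩, ← zpow_neg, ← zpow_add, neg_add_eq_sub, hk]
    choose k hk using hk
    have hp : ∏ V : s, x V ^ k V ∈ SU H (orbs H s) :=
      Subgroup.prod_mem _ fun V _ => Subgroup.zpow_mem _ (hxS V) _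
    have hq := (SU H (orbs H s)).div_mem
      ((SU H (orbs H s)).mul_mem ((SU H (orbs H s)).inv_mem z.2) z'.2) hp
    rw [← div_mul_cancel ((z : Eˣ)⁻¹ * z') (∏ V : s, x V ^ k V)]
    refine Subgroup.mul_mem_sup ⟨hq.1, fun W _ => ?_⟩ (Subgroup.prod_mem _ fun V _ =>
      Subgroup.zpow_mem _ (Subgroup.subset_closure (Set.mem_range_self (Sum.inl V))) _)
    by_cases hW : W ∈ orbs H s
    · obtain ⟨W', hW', e'⟩ := hW
      rw [← e'.v_eq hq.1, ← Pl.coe_vU, Units.val_eq_one, map_div, hk ⟨W', hW'⟩, hbas W' hW' k hW',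
        div_self']
    · exact hq.2 W hW
  · intro c hc
    rw [Fintype.prod_sum_type] at hc
    simp only [Sum.elim_inl, Sum.elim_inr] at hc
    have h1 : ∀ V : s, c (Sum.inl V) = 0 := fun V => by
      have h2 := congrArg V.1.vU hc
      have h3 : V.1.vU (∏ j, u j ^ c (Sum.inr j)) = 1 := by
        rw [← Units.val_eq_one, Pl.coe_vU]
        exact (Subgroup.prod_mem (SU H ∅) fun j _ => Subgroup.zpow_mem _ (hu j) _).2 _ (by simp)
      rw [map_mul, h3, mul_one, map_one, hbas V V.2 (fun V => c (Sum.inl V)) V.2,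
        ← zpow_zero (unif H V.1)] at h2
      have h4 := unif_zpow_injective hH V.1 h2
      exact (mul_eq_zero.1 h4).resolve_left (by exact_mod_cast h0)
    simp only [h1, zpow_zero, Finset.prod_const_one, one_mul] at hc
    obtain ⟨t, ht⟩ := (hκ fun j _ => c (Sum.inr j)).1 (by simpa using hc)
    refine ⟨t, funext ?_⟩
    rintro (V | j)
    · simp [h1]
    · simpa using ht j 0
  · refine ⟨mem_L.2 fun g hg => hμ hg, fun W _ => ?_⟩
    have h1 : W.v (zeta E l) ^ l = 1 := by rw [← map_pow, hζ.pow_eq_one, map_one]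
    exact (pow_eq_one_iff_of_nonneg zero_le hl.ne_zero).1 h1
  · rw [← orderOf_units]
    exact hζ.eq_orderOf.symm

end Crest.Agent.R018
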