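import Crest.Agent.R018.Key
import Crest.Agent.R018.KeyT
import Crest.Agent.R018.P1
import Crest.Agent.R018.SUc

/-!
# R018 / SIK

Second inequality, Kummer case.  `kummer` + `CycExt.exists_chi` give `a ∈ LU H` with `H' = H ⊓ stab (rt l a)`.  `M0 = l^3 ∏ p` over the primes of
`exists_class_gen` and `finite_p_v_ne_one a`.  For `M0 ∣ M` let `S = {W ∣ M} = orbs H s` (`exists_orbit_reps_set`), `X = SU H S`, `T` from `exists_keyT` with
`B` = prime factors of `M`.  `θ : LU H → DivP H M / (Ray ⊔ NDiv)`, `x ↦ cut M (dv x)` is onto, and its kernel contains `Pw (LU H) l` (`pow_mem_NDiv`),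
`rayU H M`, and `U_{S ∪ T} = SU H (orbs H (s ∪ T))` (`eq_prod_bas`, `nm_bas_of_dec_le`).  With `A = Pw (LU H) l ⊔ rayU H M`:
`nIdx · [A U_{ST} : A] ≤ [LU H : A] ≤ l^{2s + 2r}` (`p1`, `two_dvd_deg`), `[A U_{ST} : A] = [U_{ST} : U_{ST}^l] ≥ l^{s + t + r}` (`key_lemma`, `su_index`), and
`l^{t+1} ≥ l^{s + r}` (`su_index`).
-/

set_option autoImplicit false
set_option linter.unusedSectionVars false

noncomputable section

namespace Crest.Agent.R018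

open scoped NNReal Classical

variable {F E : Type*} [Field F] [NumberField F] [Field E] [CharZero E] [Algebra F E]
  [IsGalois F E] [RadCl E]
variable {H H' : Subgroup Gal(E/F)} {σ : Gal(E/F)} {n : ℕ} {π : E}

theorem sik_sat {S : Set (Pl E)} {l : ℕ} (hl : l ≠ 0) {w : Eˣ} (hw : w ∈ LU H)
    (h : w ^ l ∈ SU H S) : w ∈ SU H S := by
  refine ⟨hw, fun W hW => ?_⟩
  have h1 := h.2 W hW
  rw [Units.val_pow_eq_pow_val, map_pow] at h1
  exact (pow_eq_one_iff_of_nonneg zero_le hl).1 h1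

theorem sik_orbs_union (s T : Finset (Pl E)) : orbs H (s ∪ T) = orbs H s ∪ orbs H T := by
  ext W
  simp only [orbs, Finset.mem_union, Set.mem_ofPred_eq, Set.mem_union, or_and_right, exists_or]

/-- the map `x ↦ cut M (dv x)` bounds the norm index. -/
theorem sik_nIdx_le (hH : IsOpen (H : Set Gal(E/F))) (hπ : π ∈ L H)
    (hgen : ∀ a ∈ DivP H 1, ∃ x ∈ LU H, ∀ W : Pl E, ¬ W.v π < 1 → dv x W = a W) {A : Subgroup Eˣ}
    (hA : A.relIndex (LU H) ≠ 0) (hle : ∀ x ∈ A, cut π (dv x) ∈ Ray H π ⊔ NDiv H H' π) :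
    nIdx H H' π ≤ A.relIndex (LU H) := by
  have h1 : (LU H).map ((cut π).comp dv) = DivP H π := by
    refine le_antisymm ?_ fun a ha => ?_
    · rintro _ ⟨x, hx, rfl⟩
      exact cut_mem_DivP hH hπ (dv_mem_DivP_one hH hx)
    · obtain ⟨x, hx, hxa⟩ := hgen a (DivP_le_one ha)
      refine ⟨x, hx, Dv.ext fun W => ?_⟩
      rw [MonoidHom.comp_apply, cut_apply]
      split_ifs with hW
      · exact (divb_eq_one hπ ha hW).symm
      · exact hxa W hW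
  rw [nIdx, ← h1, ← Subgroup.relIndex_comap]
  exact Subgroup.relIndex_le_of_le_left (fun x hx => hle x hx) hA

theorem si_kummer {l : ℕ} (h : CycExt H H' σ l) (hi : HasI H) (hl : l.Prime) (hl2 : l ≠ 2)
    (hμ : H ≤ FixMu F E l) :
    ∃ M0 : ℕ, M0 ≠ 0 ∧ ∀ M : ℕ, M ≠ 0 → M0 ∣ M → nIdx H H' (M : E) ≤ l := by
  have hH := h.isOpen_top
  have hl0 := hl.ne_zero
  have := isAlgebraic_rat F E
  obtain ⟨χ, hχ, hχσ, hχ0⟩ := h.exists_chi
  obtain ⟨ρ, hρ0, hρL, hρk⟩ := kummer hl0 hμ hχ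
  obtain ⟨a, ha⟩ : ∃ a : Eˣ, (a : E) = ρ ^ l := ⟨Units.mk0 _ (pow_ne_zero l hρ0), rfl⟩
  have haL : a ∈ LU H := by rw [mem_LU, ha]; exact hρL
  have hfix : ∀ g ∈ H, g (rt l (a : E)) = rt l (a : E) ↔ χ g = 0 := by
    intro g hg
    rw [fix_root_iff hl0 (ρ' := ρ) (by rw [rt_pow hl0, ha]) (hμ hg),
      ← kum_eq_zero_iff hl0 hρ0 (mem_L.1 hρL g hg), hρk g hg]
  have hmove : σ (rt l (a : E)) ≠ rt l (a : E) := by
    have : Fact (1 < l) := ⟨hl.one_lt⟩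
    rw [Ne, hfix σ h.mem, hχσ]
    exact one_ne_zero
  obtain ⟨P, hP⟩ := exists_class_gen hH
  obtain ⟨Ba, hBa⟩ := finite_p_v_ne_one (E := E) a.ne_zero
  refine ⟨l ^ 3 * ∏ p ∈ (P ∪ Ba).filter Nat.Prime, p, mul_ne_zero (pow_ne_zero _ hl0)
    (Finset.prod_ne_zero_iff.2 fun p hp => (Finset.mem_filter.1 hp).2.ne_zero), fun M hM hM0 => ?_⟩
  have hlM : l ^ 3 ∣ M := (Dvd.intro _ rfl).trans hM0
  have hdiv : ∀ W : Pl E, W.p ∈ P ∪ Ba → W.v (M : E) < 1 := fun W hW =>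
    W.v_natCast_lt_one_iff.2 ((Finset.dvd_prod_of_mem (fun p => p)
      (Finset.mem_filter.2 ⟨hW, W.hp⟩)).trans ((Dvd.intro_left _ rfl).trans hM0))
  have hπ : (M : E) ∈ L H := natCast_mem _ M
  have hM' : (M : E) ≠ 0 := by exact_mod_cast hM
  have hgen : ∀ b ∈ DivP H 1, ∃ x ∈ LU H, ∀ W : Pl E, ¬ W.v (M : E) < 1 → dv x W = b W := by
    intro b hb
    obtain ⟨x, hx, hxb⟩ := hP b hb
    exact ⟨x, hx, fun W hW => hxb W fun h' => hW (hdiv W (Finset.mem_union_left _ h'))⟩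
  obtain ⟨s, hs, hsS⟩ := class_reps hH hπ hM'
  have hS : orbs H s = {W : Pl E | W.v (M : E) < 1} := Set.ext hsS
  obtain ⟨hX0, hX1⟩ := su_index hH hi hl hμ s hs
  have haX : a ∈ SU H (orbs H s) :=
    ⟨haL, fun W hW => hBa W fun h' => hW ((hsS W).2 (hdiv W (Finset.mem_union_right _ h')))⟩
  obtain ⟨T, hTc, hTB, hTp, hTD, hTd⟩ := exists_keyT hH hl hμ (SU H (orbs H s)) (fun _ hx => hx.1)
    (fun w hw h' => sik_sat hl0 hw h') hX0 haX h.mem hmove M.primeFactors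
  have hT : ∀ W ∈ T, ¬ W.v (M : E) < 1 := fun W hW h' =>
    hTB W hW (Nat.mem_primeFactors.2 ⟨W.hp, W.v_natCast_lt_one_iff.1 h', hM⟩)
  have hT' : ∀ W ∈ T, ∀ W' ∈ T, Same H W W' → W = W' := fun W hW W' hW' h' =>
    hTp W hW W' hW' h'.p_eq
  have hsM : ∀ W ∈ s, W.v (M : E) < 1 := fun W hW => (hsS W).1 ⟨W, hW, Same.refl _ _⟩
  have hsT : ∀ W ∈ s ∪ T, ∀ W' ∈ s ∪ T, Same H W W' → W = W' := by
    intro W hW W' hW' h'
    rcases Finset.mem_union.1 hW with h1 | h1 <;> rcases Finset.mem_union.1 hW' with h2 | h2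
    · exact hs W h1 W' h2 h'
    · exact absurd (h'.v_eq hπ ▸ hsM W h1) (hT W' h2)
    · exact absurd (h'.symm.v_eq hπ ▸ hsM W' h2) (hT W h1)
    · exact hT' W h1 W' h2 h'
  have hcard : (s ∪ T).card = s.card + T.card :=
    Finset.card_union_of_disjoint (Finset.disjoint_left.2 fun W h1 h2 => hT W h2 (hsM W h1))
  obtain ⟨-, hU1⟩ := su_index hH hi hl hμ (s ∪ T) hsT
  rw [sik_orbs_union, hS, hcard] at hU1
  rw [hS] at hTd
  obtain ⟨U, hU⟩ : ∃ U, U = SU H ({W : Pl E | W.v (M : E) < 1} ∪ orbs H T) := ⟨_, rfl⟩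
  obtain ⟨A, hA⟩ : ∃ A, A = Pw (LU H) l ⊔ rayU H (M : E) := ⟨_, rfl⟩
  have hUL : U ≤ LU H := hU ▸ fun _ hx => hx.1
  have hAL : A ≤ LU H := by
    rw [hA]
    refine sup_le ?_ fun _ hx => hx.1
    rintro _ ⟨x, hx, rfl⟩
    exact pow_mem hx l
  have hAU : A ⊓ U = Pw U l := by
    refine le_antisymm (fun b hb => ?_) ?_
    · obtain ⟨w, hw, rfl⟩ := key_lemma hH hi hl hl2 hμ hM hlM hgen T hT hT' hTd (hU ▸ hb.2) (hA ▸ hb.1)
      exact ⟨w, hU ▸ sik_sat hl0 hw (hU ▸ hb.2), rfl⟩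
    · rintro _ ⟨x, hx, rfl⟩
      exact ⟨hA ▸ Subgroup.mem_sup_left ⟨x, hUL hx, rfl⟩, pow_mem hx l⟩
  have hA0 : A.relIndex (LU H) ≠ 0 := hA ▸ pw_sup_rayU_relIndex hH hπ hM' hl0
  have hA1 : A.relIndex (LU H) ≤ l ^ (2 * s.card + deg H) :=
    hA ▸ p1 hH hl hM hlM s fun W hW => (hsS W).2 hW
  have hmul : (Pw U l).relIndex U * (U ⊔ A).relIndex (LU H) = A.relIndex (LU H) := by
    rw [← hAU, Subgroup.inf_relIndex_right, ← Subgroup.relIndex_sup_right U A]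
    exact Subgroup.relIndex_mul_relIndex _ _ _ le_sup_right (sup_le hUL hAL)
  have hN : nIdx H H' (M : E) ≤ (U ⊔ A).relIndex (LU H) := by
    refine sik_nIdx_le hH hπ hgen (fun h0 => hA0 (by rw [← hmul, h0, mul_zero])) ?_
    change U ⊔ A ≤ (Ray H (M : E) ⊔ NDiv H H' (M : E)).comap ((cut (M : E)).comp dv)
    rw [hA]
    refine sup_le (fun x hx => ?_) (sup_le ?_ fun x hx => ?_)
    · rw [hU] at hx
      have h1 : cut (M : E) (dv x) ∈ DivP H (M : E) := cut_mem_DivP hH hπ (dv_mem_DivP_one hH hx.1)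
      have h2 := eq_prod_bas hH (DivP_le_one h1) T hT' fun W hW => by
        rw [cut_apply]
        split_ifs with h3
        · rfl
        · exact Units.ext (hx.2 W fun h4 => h4.elim h3 hW)
      change cut (M : E) (dv x) ∈ Ray H (M : E) ⊔ NDiv H H' (M : E)
      rw [h2]
      refine Subgroup.mem_sup_right (prod_mem fun W hW => zpow_mem ?_ _)
      refine ⟨bas H' W, bas_mem_DivP (hT W hW), (nm_bas_of_dec_le h.isOpen h.le fun g hg => ?_).2.2⟩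
      exact (hχ0 g hg.2).1 ((hfix g hg.2).1 (hTD W hW hg))
    · rintro _ ⟨x, hx, rfl⟩
      change cut (M : E) (dv (x ^ l)) ∈ Ray H (M : E) ⊔ NDiv H H' (M : E)
      rw [map_pow, map_pow]
      refine Subgroup.mem_sup_right ?_
      have := pow_mem_NDiv h.isOpen h.le hπ (cut_mem_DivP hH hπ (dv_mem_DivP_one hH hx))
      rwa [h.idx] at this
    · change cut (M : E) (dv x) ∈ Ray H (M : E) ⊔ NDiv H H' (M : E)
      rw [cut_of_mem_DivP hπ (Ray_le_DivP hH hπ ⟨x, hx, rfl⟩)]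
      exact Subgroup.mem_sup_left ⟨x, hx, rfl⟩
  obtain ⟨r, hr⟩ := two_dvd_deg hH hi
  rw [← hU] at hU1
  rw [← hTc, Nat.pow_le_pow_iff_right hl.one_lt] at hX1
  rw [hr] at hU1 hX1 hA1
  rw [Nat.mul_div_cancel_left _ two_pos] at hU1 hX1
  have h1 : l ^ (s.card + T.card + r) * nIdx H H' (M : E) ≤ l ^ (s.card + T.card + r) * l := by
    calc _ ≤ (Pw U l).relIndex U * (U ⊔ A).relIndex (LU H) := Nat.mul_le_mul hU1 hN
      _ ≤ l ^ (2 * s.card + 2 * r) := hmul ▸ hA1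
      _ ≤ l ^ (s.card + T.card + r + 1) := Nat.pow_le_pow_right hl.pos (by omega)
      _ = _ := pow_succ _ _
  exact Nat.le_of_mul_le_mul_left h1 (pow_pos hl.pos _)

end Crest.Agent.R018
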