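import Crest.Agent.R018.StepE1
import Crest.Agent.R018.ExcCount
import Crest.Agent.R018.CycSurj

/-!
# R018 / StepE

(Psi) `H1 = (G0 ⊓ FixMu (4 · (G0.index)!)).normalCore`, `(U, H)` a good pair, `B0 = {primes ≤ max 2 G0.index} ∪ primeFactors h0 ∪ B(exists_cyc_surj U)`.  Let `l ∉ B0` be split for `H1`:
every prime `r ≤ G0.index` divides `l - 1` (`dvd_sub_one_of_dec_le`), and so does `2`.  `kummer` (`N = 2`, `mem_FixMu_two`) gives `y0` for the quadratic character of `cyc l` on `U`; `neumann`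
gives `y ∈ LU U` with `y`, `y y0` generic.  `exists_gen_elt` gives `g`.  For a finite set `P` of primes, `exists_tl_rel` gives `V`, `V.p ∉ P`; taking `P ⊇` the sets of `bad_finite`
(all primes `r ≤ G0.index`) and of `exists_ine_le G0`, `ll3_one` and `dec_le_of_good` give `Dec V ≤ G0`, and `ll3`, `lcyc_eq_of_cyc_eq` show that `λ = lcyc ∘ α - lcyc` kills
`Dec V`.  `exists_family` and `wr` for `H1`: `T ⊆ Dec V ≤ G0`, so `|T| λ = 0` on `H1`, and `λ = 0` on `G0` (`eq_zero_of_open`).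
`exists_tl_rel`: above each `p ∈ P` there are finitely many `G0`-orbits of `V`, each with `Tl` has a unique `W` (`ll1_unique`, `rel_smul`, `tl_smul`); put these `W.p`, `l` and the
exceptional primes in `B`; `fdt'` for `U ⊓ stab (rt 2 y) ⊓ FixMu l` and `g`.
-/

set_option autoImplicit false
set_option linter.unusedSectionVars false

noncomputable section

namespace Crest.Agent.R018

open scoped NNReal Classical

variable {Ω F E : Type*} [Field Ω] [CharZero Ω] [IsAlgClosed Ω] [IsGalois ℚ Ω]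
  [Field F] [NumberField F] [Field E] [CharZero E] [Algebra F E] [IsGalois F E] [RadCl E]

namespace Setup
variable (S : Setup Ω F E)

/-- an element of `U` fixing `√y` whose cyclotomic character generates `(ZMod l)ˣ`. -/
theorem _root_.Crest.Agent.R018.exists_gen_elt {U : Subgroup Gal(E/F)} {l : ℕ} (hl : l.Prime)
    (hsurj : ∀ u : ZMod l, IsUnit u → ∃ h ∈ U, cyc l h = u) {y y0 : E} (hy0 : y ≠ 0) (hy00 : y0 ≠ 0)
    (hy : y ∈ L U) (hy' : y0 ∈ L U) (hsq : ∀ u ∈ U, (u (rt 2 y0) = rt 2 y0 ↔ ∃ w, cyc l u = w ^ 2))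
    (hl2 : l ≠ 2) (hne : ∃ u ∈ U, u (rt 2 (y * y0)) ≠ rt 2 (y * y0)) :
    ∃ g ∈ U, g (rt 2 y) = rt 2 y ∧ ∀ r : ℕ, r.Prime → r ∣ l - 1 → ¬ ∃ w, cyc l g = w ^ r := by
  have : Fact l.Prime := ⟨hl⟩
  have hl0 := hl.ne_zero
  obtain ⟨ζ, hζ⟩ := IsCyclic.exists_generator (α := (ZMod l)ˣ)
  have hord : orderOf ζ = l - 1 := by
    rw [orderOf_eq_card_of_forall_mem_zpowers hζ, Nat.card_eq_fintype_card, ZMod.card_units]
  have hnp : ∀ r : ℕ, r.Prime → r ∣ l - 1 → ¬ ∃ w, (ζ : ZMod l) = w ^ r := by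
    rintro r hr ⟨m, hm⟩ ⟨w, hw⟩
    have hw0 : w ≠ 0 := by
      rintro rfl
      rw [zero_pow hr.ne_zero] at hw
      exact ζ.ne_zero hw
    have h1 : ζ ^ m = 1 := by
      apply Units.ext
      rw [Units.val_pow_eq_pow_val, hw, ← pow_mul, ← hm, ZMod.pow_card_sub_one_eq_one hw0,
        Units.val_one]
    have h2 := orderOf_dvd_of_pow_eq_one h1
    have h3 := hl.two_le
    have h4 := hr.two_le
    have hm0 : 0 < m := Nat.pos_of_ne_zero (by rintro rfl; omega)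
    have := Nat.le_of_dvd hm0 h2
    rw [hord, hm] at this
    nlinarith
  obtain ⟨h, hU, hh⟩ := hsurj ζ ζ.isUnit
  by_cases hfix : h (rt 2 y) = rt 2 y
  · exact ⟨h, hU, hfix, by rw [hh]; exact hnp⟩
  have hsg : ∀ u ∈ U, sg ℤ (y * y0) u = sg ℤ y u * sg ℤ y0 u := fun u hu =>
    sg_mul_left ℤ hy0 hy00 (mem_L.1 hy u hu) (mem_L.1 hy' u hu)
  have h2 : 2 ∣ l - 1 := (hl.even_sub_one hl2).two_dvd
  have hh0 : ¬ h (rt 2 y0) = rt 2 y0 := by
    rw [hsq h hU, hh]; exact hnp 2 Nat.prime_two h2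
  have hh1 : h ∈ stab F (rt 2 (y * y0)) := by
    by_contra hc
    have := hsg h hU
    simp only [sg, if_neg hfix, if_neg hh0, if_neg (mt mem_stab.2 hc)] at this
    norm_num at this
  obtain ⟨u, hu, hune⟩ := hne
  obtain ⟨k, hk⟩ := (mem_powers_iff_mem_zpowers.2 (hζ (isUnit_cyc hl0 u).unit))
  have hk' : (ζ : ZMod l) ^ k = cyc l u := by
    rw [← Units.val_pow_eq_pow_val]
    exact congrArg Units.val hk
  have hn : u⁻¹ * h ^ k ∈ U := U.mul_mem (U.inv_mem hu) (U.pow_mem hU k)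
  have hn1 : cyc l (u⁻¹ * h ^ k) = 1 := by
    rw [cyc_mul hl0, cyc_pow hl0, hh, hk', cyc_inv_mul hl0]
  have hn2 : ¬ (u⁻¹ * h ^ k) (rt 2 (y * y0)) = rt 2 (y * y0) := fun hc =>
    hune (mem_stab.1 (inv_mem_iff.1 ((Subgroup.mul_mem_cancel_right _
      ((stab F _).pow_mem hh1 k)).1 (mem_stab.2 hc))))
  have hn3 : (u⁻¹ * h ^ k) (rt 2 y0) = rt 2 y0 := (hsq _ hn).2 ⟨1, by rw [hn1, one_pow]⟩
  have hn4 : ¬ (u⁻¹ * h ^ k) (rt 2 y) = rt 2 y := fun hc => by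
    have := hsg _ hn
    simp only [sg, if_neg hn2, if_pos hn3, if_pos hc] at this
    norm_num at this
  refine ⟨h * (u⁻¹ * h ^ k), U.mul_mem hU hn, ?_, ?_⟩
  · by_contra hc
    have := sg_mul_right ℤ hy0 (mem_L.1 hy h hU) (mem_L.1 hy _ hn)
    simp only [sg, if_neg hfix, if_neg hn4, if_neg hc] at this
    norm_num at this
  · rw [cyc_mul hl0, hn1, mul_one, hh]; exact hnp

theorem exists_tl_rel {l : ℕ} (hl : l.Prime) (hl2 : l ≠ 2)
    (hexc : ∃ P : Finset ℕ, ∀ W : Pl E, S.Exc l W → W.p ∈ P) {U1 : Subgroup Gal(E/F)}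
    (hU1 : IsOpen (U1 : Set Gal(E/F))) {g : Gal(E/F)} (hg : g ∈ U1) (P : Finset ℕ) :
    ∃ (V : Pl Ω) (W : Pl E), V.p ∉ P ∧ S.Tl l V ∧ S.Rel V W ∧ W.p ≠ l ∧ Dec F W ≤ U1 ∧
      ∃ δ ∈ Dec F W, cyc l δ = cyc l g := by
  obtain ⟨Pe, hPe⟩ := hexc
  obtain ⟨s, -, -, -, hs⟩ := exists_orbit_reps_finset (F := ℚ) S.open0 P
  have hch : ∀ V : Pl Ω, ∃ q : ℕ, S.Tl l V → ∀ W, S.Rel V W → W.p = q := by
    intro V
    by_cases hT : S.Tl l V
    · obtain ⟨W, hW⟩ := S.ll1 hl hl2 hT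
      exact ⟨W.p, fun _ W' hW' => by rw [S.ll1_unique hl hl2 hT hW' hW]⟩
    · exact ⟨0, fun h => absurd h hT⟩
  choose q hq using hch
  obtain ⟨W, hWB, -, hD, δ, hδ, hδ'⟩ := fdt' (isOpen_inf hU1 (isOpen_FixMu l)) g
    (insert l (Pe ∪ s.image q))
  simp only [Finset.mem_insert, Finset.mem_union, not_or] at hWB
  obtain ⟨V, hT, hR⟩ : ∃ V : Pl Ω, S.Tl l V ∧ S.Rel V W := by
    by_contra hc
    exact hWB.2.1 (hPe W hc)
  refine ⟨V, W, fun hV => ?_, hT, hR, hWB.1, fun d hd => ?_, δ, hδ, ?_⟩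
  · obtain ⟨V0, hV0, h, hh, rfl⟩ := hs V hV
    have hT0 := (S.tl_smul hh).1 hT
    have hR0 : S.Rel V0 ((S.α h)⁻¹ • W) := (S.rel_smul hh).1 (by rwa [smul_inv_smul])
    exact hWB.2.2 (Finset.mem_image.2 ⟨V0, hV0, (hq V0 hT0 _ hR0).symm⟩)
  · obtain ⟨i, hi⟩ := hD d hd
    exact (Subgroup.mul_mem_cancel_left _ (U1.inv_mem (U1.pow_mem hg i))).1 hi.1
  · have h1 := (mem_FixMu_iff hl.ne_zero).1 hδ'.2
    rw [← mul_inv_cancel_left g δ, cyc_mul hl.ne_zero, h1, mul_one]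

theorem stepE (hS : S.Maxl) : ∃ (H1 : Subgroup Gal(Ω/ℚ)) (B0 : Finset ℕ),
    IsOpen (H1 : Set Gal(Ω/ℚ)) ∧ ∀ (l : ℕ) [Fact l.Prime], l ∉ B0 → Split H1 l → S.Psi l := by
  set N := 4 * S.G0.index.factorial with hN
  have hN0 : N ≠ 0 := mul_ne_zero four_ne_zero (Nat.factorial_ne_zero _)
  set H1 := (S.G0 ⊓ FixMu ℚ Ω N).normalCore with hH1
  have hH1o : IsOpen (H1 : Set Gal(Ω/ℚ)) := isOpen_normalCore (isOpen_inf S.open0 (isOpen_FixMu N))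
  have hH1G : H1 ≤ S.G0 := (Subgroup.normalCore_le _).trans inf_le_left
  have hH1N : H1 ≤ FixMu ℚ Ω N := (Subgroup.normalCore_le _).trans inf_le_right
  obtain ⟨U, -, hUH⟩ := S.exists_good_pair hS (U0 := ⊤) isOpen_univ
  obtain ⟨H, -, hG⟩ := hUH ⊤ isOpen_univ
  obtain ⟨g0, h0, hh0, hBC⟩ := S.stepBC hS
  obtain ⟨Bs, hBs⟩ := exists_cyc_surj hG.openU
  obtain ⟨Bi, hBi⟩ := exists_ine_le (F := ℚ) S.open0
  refine ⟨H1, Finset.range (S.G0.index + 3) ∪ h0.primeFactors ∪ Bs, hH1o, fun l hl hlB hsp => ?_⟩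
  have hp : l.Prime := hl.out
  simp only [Finset.mem_union, Finset.mem_range, not_or, not_lt] at hlB
  obtain ⟨⟨hl1, hl2⟩, hl3⟩ := hlB
  have hl2' : l ≠ 2 := by omega
  have hlN : N ∣ l - 1 := by
    have := isAlgebraic_rat ℚ Ω
    obtain ⟨V0, rfl⟩ := exists_pl Ω hp
    refine dvd_sub_one_of_dec_le V0 (fun h => ?_) ((hsp V0 rfl).trans hH1N)
    rcases (Nat.Prime.dvd_mul hp).1 h with h | h
    · exact hl2' ((Nat.prime_dvd_prime_iff_eq hp Nat.prime_two).1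
        (hp.dvd_of_dvd_pow (n := 2) h))
    · have := (hp.dvd_factorial).1 h
      omega
  have hr1 : ∀ r : ℕ, r.Prime → r ≤ S.G0.index → r ∣ l - 1 := fun r hr h =>
    ((hr.dvd_factorial.2 h).mul_left 4).trans hlN
  have h2 : 2 ∣ l - 1 := (hp.even_sub_one hl2').two_dvd
  -- the quadratic character
  obtain ⟨χ, hχ1, hχ2, hχ3, hχ4⟩ := exists_chr (l := l) hp Nat.prime_two h2 h2
  have hχ5 : ∀ u : Gal(E/F), χ (cyc l u) = 1 ∨ χ (cyc l u) = -1 := fun u =>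
    sq_eq_one_iff.1 (hχ3 _ (isUnit_cyc hp.ne_zero u))
  have hne : (-1 : ℤ_[l]) ≠ 1 := by norm_num
  have hf : CHom U (fun u : Gal(E/F) => if χ (cyc l u) = 1 then (0 : ZMod 2) else 1) := by
    refine ⟨fun x _ y _ => ?_, FixMu F E l, isOpen_FixMu l, fun x _ hx => ?_⟩
    · simp only [cyc_mul hp.ne_zero, hχ2]
      rcases hχ5 x with h | h <;> rcases hχ5 y with h' | h' <;> simp [h, h', hne]
      rfl
    · simp only [(mem_FixMu_iff hp.ne_zero).1 hx, hχ1, if_true]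
  obtain ⟨ρ, hρ0, hρ, hkum⟩ := kummer two_ne_zero (fun u _ => mem_FixMu_two u) hf
  have hsq : ∀ u ∈ U, (u (rt 2 (ρ ^ 2)) = rt 2 (ρ ^ 2) ↔ ∃ w, cyc l u = w ^ 2) := by
    intro u hu
    rw [fix_root_iff two_ne_zero (rt_pow two_ne_zero _) (mem_FixMu_two u),
      ← kum_eq_zero_iff two_ne_zero hρ0 (mem_L.1 hρ u hu), hkum u hu,
      ← hχ4 _ (isUnit_cyc hp.ne_zero u)]
    simp
  -- generic elements
  obtain ⟨sZ, hZ1, hZ2⟩ := hG.cover
  set y0 : Eˣ := Units.mk0 (ρ ^ 2) (pow_ne_zero _ hρ0) with hy0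
  obtain ⟨y, hy, hyZ⟩ : ∃ y ∈ LU U, ∀ Z ∈ sZ, y ∉ Z ∧ y0 * y ∉ Z := by
    by_contra hc
    push Not at hc
    obtain ⟨i, hi, hi'⟩ := neumann (LU U) (sZ ×ˢ (Finset.univ : Finset Bool))
      (fun i => if i.2 then y0 else 1) (fun i => i.1) fun y hy => by
        obtain ⟨Z, hZ, h⟩ := hc y hy
        by_cases hyZ : y ∈ Z
        · exact ⟨(Z, false), by simpa using hZ, by simpa using hyZ⟩
        · exact ⟨(Z, true), by simpa using hZ, by simpa using h hyZ⟩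
    exact hi' (hZ1 _ (Finset.mem_product.1 hi).1)
  have hgen : S.Gen U H (y : E) := hZ2 y hy fun Z hZ => (hyZ Z hZ).1
  have hgen' : S.Gen U H ((y : E) * ρ ^ 2) := by
    have := hZ2 (y0 * y) ((LU U).mul_mem hρ hy) fun Z hZ => (hyZ Z hZ).2
    rwa [Units.val_mul, mul_comm] at this
  obtain ⟨g, hgU, hg1, hg2⟩ := exists_gen_elt hp
    (hBs l hp.ne_zero fun p hp' hd => by
      rwa [(Nat.prime_dvd_prime_iff_eq hp' hp).1 hd]) y.ne_zero (pow_ne_zero 2 hρ0) hy hρ hsq hl2'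
    hgen'.1
  have hbad : ∀ r : ℕ, ∃ P : Finset ℕ, r.Prime → r ≤ S.G0.index →
      ∀ (V : Pl Ω) (W : Pl E), S.Rel V W → Dec F W ≤ U ⊓ stab F (rt 2 (y : E)) →
      (∃ δ ∈ Dec F W, ¬ ∃ w, cyc l δ = w ^ r) →
      (∀ d ∈ Dec ℚ V, d ∈ S.G0 → ∃ w, cyc l (S.α d) = w ^ r) → V.p ∈ P := by
    intro r
    by_cases hr : r.Prime ∧ r ≤ S.G0.index
    · obtain ⟨P, hP⟩ := S.bad_finite hG hp hr.1 (hr1 r hr.1 hr.2) y.ne_zero (pow_ne_zero 2 hρ0)
        hy hρ hgen hgen' hsq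
      exact ⟨P, fun _ _ => hP⟩
    · exact ⟨∅, fun h1 h2 => absurd ⟨h1, h2⟩ hr⟩
  choose Pb hPb using hbad
  have hfam : ∀ T : Finset ℕ, ∃ V : Pl Ω, (V.p ≠ l ∧ Dec ℚ V ≤ S.G0 ∧
      ∀ d ∈ Dec ℚ V, lcyc l (S.α d) = lcyc l d) ∧ V.p ∉ T := by
    intro T
    obtain ⟨V, W, hV, hT, hR, hW, hD, δ, hδ, hδ'⟩ := S.exists_tl_rel hp hl2'
      (hBC l hl2' fun h => hl2 (Nat.mem_primeFactors.2 ⟨hp, h, hh0⟩)).1
      (isOpen_inf hG.openU (isOpen_stab (rt 2 (y : E)))) ⟨hgU, hg1⟩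
      (T ∪ Bi ∪ (Finset.range (S.G0.index + 1)).biUnion Pb)
    simp only [Finset.mem_union, Finset.mem_biUnion, Finset.mem_range, not_or, not_exists,
      not_and] at hV
    have hDV : Dec ℚ V ≤ S.G0 := by
      refine dec_le_of_good S.open0 (hBi V hV.1.2) hp hT.1 fun r hr hri => ?_
      by_contra hc
      push Not at hc
      refine hV.2 r (by omega) (hPb r hr hri V W hR hD
        ⟨δ, hδ, by rw [hδ']; exact hg2 r hr (hr1 r hr hri)⟩ fun d hd hd' => ?_)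
      rw [S.ll3_one hp hl2' hT hW hR hd hd']
      exact hc d hd hd'
    exact ⟨V, ⟨hT.1, hDV, fun d hd =>
      lcyc_eq_of_cyc_eq fun k => S.ll3 hp hl2' hT hW hR k hd (hDV hd)⟩, hV.1.1⟩
  obtain ⟨B, hB⟩ := wr Ω H1.index
  obtain ⟨s, hs1, hs2, hs3⟩ := exists_family _ (fun V : Pl Ω => V.p) hfam B
  have hlam : ZHom l S.G0 fun x => lcyc l (S.α x) - lcyc l x :=
    (S.zhom_comp (U := ⊤) (fun x hx => ⟨hx, trivial⟩) (zhom_lcyc hl2' ⊤)).sub (zhom_lcyc hl2' _)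
  obtain ⟨V, hV, T, hT1, hT2, hT3⟩ := hB H1 inferInstance hH1o le_rfl
    (hH1N.trans (FixMu_anti (dvd_mul_right 4 _) hN0)) l hl2' hsp _ (hlam.mono hH1G) s hs1.ge hs3
    (fun V hV => (hs2 V hV).1) fun V hV d hd _ => sub_eq_zero.2 ((hs2 V hV).2.2 d hd)
  intro x hx
  refine sub_eq_zero.1 (eq_zero_of_open hH1o hlam.1 (fun h hh hh' => ?_) x hx)
  have := hT3 h hh'
  rw [Finset.sum_congr rfl fun t ht => hlam.1.map_conj ((hs2 V hV).2.1 (hT2 t ht)) hh,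
    Finset.sum_const, nsmul_eq_mul] at this
  exact (mul_eq_zero.1 this).resolve_left
    (Nat.cast_ne_zero.2 (Finset.card_ne_zero_of_mem hT1))

end Setup

end Crest.Agent.R018
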