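import Crest.Agent.R018.Frob
import Crest.Agent.R018.Nm
import Crest.Agent.R018.Apx

/-!
# R018 / Tower

Ramification index and residue degree in a tower `H' ≤ H` of open subgroups: `e f = [Dec ⊓ H : Dec ⊓ H']`.
Suggested route: for `N ≤ H` open normal (in `G`), `L N / L H` is finite Galois with group `H / N`; Mathlib
(`Mathlib/NumberTheory/RamificationInertia/Galois.lean`, `HilbertTheory.lean`: `Ideal.ncard_primesOver_mul_ramificationIdxIn_mul_inertiaDegIn`,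
`Ideal.card_stabilizer_eq`, `Ideal.card_inertia_eq_ramificationIdxIn`; `IsGaloisGroup`) gives `g e f = [H : N]`, and `g = [H : (Dec ⊓ H) N]`
(`prime_eq_iff_same`), so `e f = [Dec ⊓ H : Dec ⊓ N]`.  `unif H W = unif N W ^ e` and `resCard N W = resCard H W ^ f` come from
`v_eq_unif_zpow`, `resCard_eq_absNorm`.  Divide the relations for `(H, N)` and `(H', N)`.
An elementary alternative for `e f = [D : D']`: with `H1 = (Dec ⊓ H) ⊔ N` one has `e = f = 1` for `H1 ≤ H` by `dense`, and there is a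
single place of `L N` above `W|L H1`, so `𝓞_N,W` is free of rank `[H1 : N]` over the DVR `𝓞_{H1,W}` and `𝓞/ϖ𝓞` has `q^{[H1:N]} = (q^f)^e` elements.
`f = [Dec ⊓ H : (Ine ⊓ H)(Dec ⊓ H')]` follows from the Frobenius lemmas; hence `e = [Ine ⊓ H : Ine ⊓ H']`, which gives `unif_eq_of_ine_le`.
`nm_bas`: evaluate at a place; the number of cosets `t H'` with `t⁻¹ • W` conjugate to `W` under `H'` is `[Dec ⊓ H : Dec ⊓ H']`.
-/

set_option autoImplicit false
set_option linter.unusedSectionVars false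

noncomputable section

namespace Crest.Agent.R018

open scoped NNReal Classical

variable {F E : Type*} [Field F] [NumberField F] [Field E] [CharZero E] [Algebra F E]
  [IsGalois F E]
variable {H H' : Subgroup Gal(E/F)}

section rel
open NumberField IsDedekindDomain

theorem tw_liesOver {K K' : IntermediateField F E} [NumberField K] [NumberField K'] [Algebra K K']
    (halg : ∀ x : K, ((algebraMap K K' x : K') : E) = x) (W : Pl E) :
    (W.prime K').asIdeal.LiesOver (W.prime K).asIdeal := by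
  constructor
  ext x
  rw [Ideal.under_def, Ideal.mem_comap, Pl.mem_prime, Pl.mem_prime]
  have e : (((algebraMap (𝓞 K) (𝓞 K') x : 𝓞 K') : K') : E) = ((x : K) : E) := by
    rw [← halg]
    rfl
  rw [e]

theorem tw_rel1 (hH : IsOpen (H : Set Gal(E/F))) (hH' : IsOpen (H' : Set Gal(E/F)))
    [NumberField (L H)] [NumberField (L H')] [Algebra (L H) (L H')]
    (halg : ∀ x : L H, ((algebraMap (L H) (L H') x : L H') : E) = x) (W : Pl E) :
    unif H W = unif H' W ^ ((W.prime (L H)).asIdeal.ramificationIdx' (W.prime (L H')).asIdeal) ∧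
    resCard H' W = resCard H W ^ ((W.prime (L H)).asIdeal.inertiaDeg' (W.prime (L H')).asIdeal) := by
  have := tw_liesOver halg W
  constructor
  · obtain ⟨π, hπ⟩ := (W.prime (L H)).valuation_exists_uniformizer (L H)
    have hπ0 := bridge_unif_ne_zero hπ
    have h1 := v_eq_unif_zpow hH W hπ0
    have h2 := v_eq_unif_zpow hH' W (x := algebraMap (L H) (L H') π) ((map_ne_zero _).2 hπ0)
    rw [← HeightOneSpectrum.valuation_liesOver (L H') (W.prime (L H)) (W.prime (L H')), hπ, halg,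
      h1, hπ, ← WithZero.exp_nsmul] at h2
    apply Units.ext
    simpa using h2
  · rw [resCard_eq_absNorm, resCard_eq_absNorm]
    exact Ideal.absNorm_eq_pow_inertiaDeg'_of_liesOver _ _ (W.prime (L H)).isPrime
      (W.prime (L H)).ne_bot

theorem tw_finrank (hH : IsOpen (H : Set Gal(E/F))) (hH' : IsOpen (H' : Set Gal(E/F)))
    (hle : H' ≤ H) [Algebra (L H) (L H')]
    (halg : ∀ x : L H, ((algebraMap (L H) (L H') x : L H') : E) = x) :
    Module.finrank (L H) (L H') = H'.relIndex H := by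
  have : IsScalarTower F (L H) (L H') := IsScalarTower.of_algebraMap_eq fun x => by
    apply Subtype.ext
    rw [halg]
    rfl
  have h1 := Module.finrank_mul_finrank F (L H) (L H')
  rw [finrank_L hH, finrank_L hH', ← Subgroup.relIndex_mul_index hle, mul_comm] at h1
  exact Nat.eq_of_mul_eq_mul_right (Nat.pos_of_ne_zero (index_ne_zero_of_isOpen hH)) h1

theorem tw_two_le (hH : IsOpen (H : Set Gal(E/F))) (W : Pl E) : 2 ≤ resCard H W := by
  obtain ⟨f, hf, -, h⟩ := exists_resCard_eq_pow hH W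
  rw [h]
  exact W.hp.two_le.trans (Nat.le_self_pow hf.ne' _)

theorem tw_unif_inj (hH : IsOpen (H : Set Gal(E/F))) (W : Pl E) {a b : ℕ}
    (h : unif H W ^ a = unif H W ^ b) : a = b := by
  have := unif_zpow_injective hH W (a₁ := (a : ℤ)) (a₂ := (b : ℤ)) (by simpa using h)
  exact_mod_cast this

theorem tw_res_inj (hH : IsOpen (H : Set Gal(E/F))) (W : Pl E) {a b : ℕ}
    (h : resCard H W ^ a = resCard H W ^ b) : a = b :=
  Nat.pow_right_injective (tw_two_le hH W) h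

theorem tw_exists (hH' : IsOpen (H' : Set Gal(E/F))) (hle : H' ≤ H) (W : Pl E) :
    ∃ e f : ℕ, 0 < e ∧ 0 < f ∧ unif H W = unif H' W ^ e ∧ resCard H' W = resCard H W ^ f := by
  have hH : IsOpen (H : Set Gal(E/F)) := Subgroup.isOpen_mono hle hH'
  have := numberField_L hH
  have := numberField_L hH'
  let : Algebra (L H) (L H') := (IntermediateField.inclusion (L_anti hle)).toAlgebra
  have halg : ∀ x : L H, ((algebraMap (L H) (L H') x : L H') : E) = x := fun x => rfl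
  have := tw_liesOver halg W
  obtain ⟨h1, h2⟩ := tw_rel1 hH hH' halg W
  exact ⟨_, _, Nat.pos_of_ne_zero (Ideal.IsDedekindDomain.ramificationIdx'_ne_zero_of_liesOver _
    (W.prime (L H)).ne_bot), Ideal.inertiaDeg'_pos' _ _, h1, h2⟩

set_option linter.deprecated false in
theorem tw_rel2 {N : Subgroup Gal(E/F)} [hn : N.Normal] (hN : IsOpen (N : Set Gal(E/F)))
    (hle : N ≤ H) (W : Pl E) {e f : ℕ} (he : unif H W = unif N W ^ e)
    (hf : resCard N W = resCard H W ^ f) : e * f = N.relIndex (Dec F W ⊓ H) := by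
  have hH : IsOpen (H : Set Gal(E/F)) := Subgroup.isOpen_mono hle hN
  have := numberField_L hH
  have := numberField_L hN
  let : Algebra (L H) (L N) := (IntermediateField.inclusion (L_anti hle)).toAlgebra
  have halg : ∀ x : L H, ((algebraMap (L H) (L N) x : L N) : E) = x := fun x => rfl
  set H1 := (Dec F W ⊓ H) ⊔ N with hH1
  have h1le : H1 ≤ H := sup_le inf_le_right hle
  have h1o : IsOpen (H1 : Set Gal(E/F)) := Subgroup.isOpen_mono le_sup_right hN
  have h1i := relIndex_ne_zero_of_isOpen h1o H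
  obtain ⟨s, -, hs1, hs2, hs3⟩ := exists_reps h1i
  set 𝔭 := W.prime (L H) with h𝔭
  have hmax : 𝔭.asIdeal.IsMaximal := 𝔭.isMaximal
  have hconj : ∀ g x : Gal(E/F), x ∈ N ↔ g * x * g⁻¹ ∈ N := fun g x =>
    ⟨fun h => hn.conj_mem x h g, fun h => by simpa [mul_assoc] using hn.conj_mem _ h g⁻¹⟩
  have hp : ∀ t ∈ H, (t • W).prime (L H) = 𝔭 := fun t ht =>
    ((prime_eq_iff_same hH).2 ⟨t, ht, rfl⟩).symm
  have hsum := Ideal.sum_ramification_inertia (𝓞 (L N)) (L H) (L N) 𝔭.ne_bot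
  have hbij : ∑ _t ∈ s, e * f = ∑ P ∈ IsDedekindDomain.primesOverFinset 𝔭.asIdeal (𝓞 (L N)),
      Ideal.ramificationIdx' 𝔭.asIdeal P * Ideal.inertiaDeg' 𝔭.asIdeal P := by
    refine Finset.sum_bij (fun t _ => ((t • W).prime (L N)).asIdeal) (fun t ht => ?_)
      (fun t ht t' ht' h => ?_) (fun P hP => ?_) (fun t ht => ?_)
    · rw [IsDedekindDomain.mem_primesOverFinset_iff 𝔭.ne_bot]
      refine ⟨((t • W).prime (L N)).isPrime, ?_⟩
      rw [← hp t (hs1 t ht)]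
      exact tw_liesOver halg _
    · obtain ⟨n, hnN, hn'⟩ := (prime_eq_iff_same hN).1 (HeightOneSpectrum.ext h)
      have h2 : t'⁻¹ * n * t ∈ Dec F W ⊓ H := by
        refine ⟨mem_Dec.2 ?_, H.mul_mem (H.mul_mem (H.inv_mem (hs1 _ ht')) (hle hnN)) (hs1 _ ht)⟩
        rw [mul_smul, mul_smul, hn', inv_smul_smul]
      have h3 : t'⁻¹ * t ∈ H1 := by
        have e1 : t'⁻¹ * t = (t'⁻¹ * n * t) * (t⁻¹ * n⁻¹ * t⁻¹⁻¹) := by group
        rw [e1]
        exact Subgroup.mul_mem_sup h2 (hn.conj_mem _ (N.inv_mem hnN) _)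
      exact (hs2 t (hs1 _ ht)).unique ⟨ht, by simp⟩ ⟨ht', h3⟩
    · rw [IsDedekindDomain.mem_primesOverFinset_iff 𝔭.ne_bot] at hP
      obtain ⟨hP1, hP2⟩ := hP
      have hP0 : P ≠ ⊥ := Ideal.ne_bot_of_liesOver_of_ne_bot 𝔭.ne_bot P
      have := isAlgebraic_rat F E
      obtain ⟨W', hW'⟩ := exists_pl_prime (L N) ⟨P, hP1, hP0⟩
      have hP3 : (W'.prime (L N)).asIdeal = P := congrArg HeightOneSpectrum.asIdeal hW'
      have h4 : 𝔭 = W'.prime (L H) := by
        apply HeightOneSpectrum.ext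
        rw [hP2.over, (tw_liesOver halg W').over, hP3]
      obtain ⟨h, hh, hW⟩ := (prime_eq_iff_same hH).1 h4
      obtain ⟨t, ⟨ht, ht'⟩, -⟩ := hs2 h hh
      rw [hH1, sup_comm] at ht'
      obtain ⟨n, hnN, d, hd, hnd⟩ := Subgroup.mem_sup_of_normal_left.1 ht'
      refine ⟨t, ht, ?_⟩
      rw [← hP3]
      refine congrArg HeightOneSpectrum.asIdeal ((prime_eq_iff_same hN).2
        ⟨t * n * t⁻¹, hn.conj_mem _ hnN _, ?_⟩)
      have e1 : h = t * n * d := by rw [mul_assoc, hnd]; group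
      have e2 : d • W = W := hd.1
      rw [← hW, e1]
      simp only [mul_smul, inv_smul_smul, e2]
    · have hsame : Same H W (t • W) := ⟨t, hs1 t ht, rfl⟩
      obtain ⟨h1, h2⟩ := tw_rel1 hH hN halg (t • W)
      rw [hp t (hs1 t ht), ← unif_same hsame, unif_smul (hconj t), he] at h1
      rw [hp t (hs1 t ht), ← resCard_same hsame, resCard_smul (hconj t), hf] at h2
      rw [tw_unif_inj hN W h1, tw_res_inj hH W h2]
  rw [hsum, tw_finrank hH hN hle halg, Finset.sum_const, smul_eq_mul, hs3,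
    ← Subgroup.relIndex_mul_relIndex N H1 H le_sup_right h1le, mul_comm (N.relIndex H1), hH1,
    Subgroup.relIndex_sup_right] at hbij
  exact Nat.eq_of_mul_eq_mul_left (Nat.pos_of_ne_zero h1i) hbij

end rel

theorem tw_ef (hH' : IsOpen (H' : Set Gal(E/F))) (hle : H' ≤ H) (W : Pl E) {e f : ℕ}
    (he : unif H W = unif H' W ^ e) (hf : resCard H' W = resCard H W ^ f) :
    e * f = (Dec F W ⊓ H').relIndex (Dec F W ⊓ H) := by
  have hN := isOpen_normalCore hH'
  have hNle : H'.normalCore ≤ H' := H'.normalCore_le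
  obtain ⟨e', f', -, -, he', hf'⟩ := tw_exists hN hNle W
  have h1 := tw_rel2 hN hNle W he' hf'
  have h2 := tw_rel2 hN (hNle.trans hle) W (e := e' * e) (f := f * f') (by rw [he, he', pow_mul])
    (by rw [hf', hf, pow_mul])
  have h3 := Subgroup.relIndex_mul_relIndex (Dec F W ⊓ H' ⊓ H'.normalCore) (Dec F W ⊓ H')
    (Dec F W ⊓ H) inf_le_left (inf_le_inf_left _ hle)
  have e1 : Dec F W ⊓ H' ⊓ H'.normalCore = Dec F W ⊓ H ⊓ H'.normalCore := by
    rw [inf_assoc, inf_assoc, inf_of_le_right hNle, inf_of_le_right (hNle.trans hle)]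
  rw [Subgroup.inf_relIndex_left, e1, Subgroup.inf_relIndex_left, ← h1, ← h2] at h3
  have h4 : 0 < e' * f' := h1 ▸ Nat.pos_of_ne_zero (relIndex_ne_zero_of_isOpen hN _)
  refine Nat.eq_of_mul_eq_mul_left h4 ?_
  rw [h3]
  ring

theorem tower (hH' : IsOpen (H' : Set Gal(E/F))) (hle : H' ≤ H) (W : Pl E) :
    ∃ e f : ℕ, 0 < e ∧ 0 < f ∧ unif H W = unif H' W ^ e ∧ resCard H' W = resCard H W ^ f ∧
      e * f = (Dec F W ⊓ H').relIndex (Dec F W ⊓ H) := by
  obtain ⟨e, f, h1, h2, h3, h4⟩ := tw_exists hH' hle W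
  exact ⟨e, f, h1, h2, h3, h4, tw_ef hH' hle W h3 h4⟩

theorem tw_relIndex_eq {G : Type*} [Group G] (A : Subgroup G) {K J : Subgroup G} (hKJ : K ≤ J)
    (h : ∀ j ∈ J, ∃ k ∈ K, k⁻¹ * j ∈ A) : A.relIndex K = A.relIndex J := by
  refine Nat.card_congr (Equiv.ofBijective (Subgroup.quotientSubgroupOfEmbeddingOfLE A hKJ)
    ⟨(Subgroup.quotientSubgroupOfEmbeddingOfLE A hKJ).injective, fun q => ?_⟩)
  obtain ⟨j, rfl⟩ := QuotientGroup.mk_surjective q
  obtain ⟨k, hk, hkj⟩ := h j j.2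
  refine ⟨QuotientGroup.mk ⟨k, hk⟩, ?_⟩
  rw [Subgroup.quotientSubgroupOfEmbeddingOfLE_apply_mk, QuotientGroup.eq]
  exact hkj

theorem tw_relIndex_cyc {G : Type*} [Group G] {J D : Subgroup G} {φ : G} (hφ : φ ∈ D) {f : ℕ}
    (hf : 0 < f) (h1 : ∀ d ∈ D, ∃ m : ℕ, (φ ^ m)⁻¹ * d ∈ J) (h2 : φ ^ f ∈ J)
    (h3 : ∀ m : ℕ, 0 < m → φ ^ m ∈ J → f ≤ m) : J.relIndex D = f := by
  have key : ∀ i j : Fin f, i ≤ j → (φ ^ (i : ℕ))⁻¹ * φ ^ (j : ℕ) ∈ J → i = j := by
    intro i j hij h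
    obtain ⟨m, hm⟩ := Nat.exists_eq_add_of_le (show (i : ℕ) ≤ j from hij)
    rw [hm, pow_add, inv_mul_cancel_left] at h
    rcases Nat.eq_zero_or_pos m with rfl | hm0
    · exact Fin.ext hm.symm
    · have := h3 m hm0 h
      have := j.2
      omega
  have hb : Function.Bijective fun i : Fin f =>
      (QuotientGroup.mk ⟨φ ^ (i : ℕ), D.pow_mem hφ _⟩ : D ⧸ J.subgroupOf D) := by
    constructor
    · intro i j h
      have h' : (φ ^ (i : ℕ))⁻¹ * φ ^ (j : ℕ) ∈ J :=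
        (QuotientGroup.eq (s := J.subgroupOf D)).1 h
      rcases le_total i j with hij | hij
      · exact key i j hij h'
      · refine (key j i hij ?_).symm
        simpa using J.inv_mem h'
    · intro q
      obtain ⟨d, rfl⟩ := QuotientGroup.mk_surjective q
      obtain ⟨m, hm⟩ := h1 d d.2
      refine ⟨⟨m % f, Nat.mod_lt _ hf⟩, QuotientGroup.eq.2 ?_⟩
      change (φ ^ (m % f))⁻¹ * (d : G) ∈ J
      have e : (φ ^ (m % f))⁻¹ * (d : G) = (φ ^ f) ^ (m / f) * ((φ ^ m)⁻¹ * d) := by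
        conv_rhs => rw [← Nat.mod_add_div m f, pow_add, pow_mul, Nat.mod_add_div]
        group
      rw [e]
      exact J.mul_mem (J.pow_mem h2 _) hm
  rw [Subgroup.relIndex, Subgroup.index, ← Nat.card_congr (Equiv.ofBijective _ hb), Nat.card_fin]

theorem tw_frob_pow {W : Pl E} {φ : Gal(E/F)} (h : IsFrob H W φ) (m : ℕ) {x : E}
    (hx : W.v x ≤ 1) : W.v ((φ ^ m) x - x ^ resCard H W ^ m) < 1 := by
  induction m generalizing x with
  | zero => simp
  | succ m ih =>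
    have e : (φ ^ (m + 1)) x - x ^ resCard H W ^ (m + 1) =
        (φ ^ m) (φ x - x ^ resCard H W) +
          ((φ ^ m) (x ^ resCard H W) - (x ^ resCard H W) ^ resCard H W ^ m) := by
      rw [pow_succ, AlgEquiv.mul_apply, map_sub, pow_succ', pow_mul]
      ring
    rw [e]
    refine lt_of_le_of_lt (W.v.map_add _ _) (max_lt ?_ (ih ?_))
    · rw [mem_Dec_iff.1 ((Dec F W).pow_mem h.2.1 m)]
      exact h.2.2 x hx
    · rw [map_pow]
      exact pow_le_one₀ zero_le hx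

open NumberField in
theorem tw_res_le (hH : IsOpen (H : Set Gal(E/F))) (W : Pl E) {n : ℕ} (hn : 1 < n)
    (h : ∀ x ∈ L H, W.v x ≤ 1 → W.v (x ^ n - x) < 1) : resCard H W ≤ n := by
  have := numberField_L hH
  set P := (W.prime (L H)).asIdeal with hP
  have : P.IsMaximal := (W.prime (L H)).isMaximal
  let : Field (𝓞 (L H) ⧸ P) := Ideal.Quotient.field P
  have : Finite (𝓞 (L H) ⧸ P) := Ideal.finiteQuotientOfFreeOfNeBot P (W.prime (L H)).ne_bot
  have := Fintype.ofFinite (𝓞 (L H) ⧸ P)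
  have hc : resCard H W = Fintype.card (𝓞 (L H) ⧸ P) := by
    rw [resCard_eq_absNorm, Ideal.absNorm_apply, Submodule.cardQuot_apply, Nat.card_eq_fintype_card]
  have h1 : ∀ y : 𝓞 (L H) ⧸ P, y ^ n = y := fun y => by
    obtain ⟨a, rfl⟩ := Ideal.Quotient.mk_surjective y
    rw [← map_pow, Ideal.Quotient.eq, hP, Pl.mem_prime]
    have := h _ (a : L H).2 (bridge_v_int_le_one W (L H) a)
    simpa using this
  have h2 : Fintype.card (𝓞 (L H) ⧸ P) - 1 ∣ n - 1 := by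
    rw [← FiniteField.forall_pow_eq_one_iff]
    intro x
    have h3 : x ^ (n - 1) * x = 1 * x := by
      rw [← pow_succ, Nat.sub_add_cancel hn.le, one_mul]
      exact Units.ext (by simpa using h1 x)
    exact mul_right_cancel h3
  have := Nat.le_of_dvd (by omega) h2
  omega

/-- the group `(Ine ⊓ H) (Dec ⊓ H')`. -/
def twJ (H H' : Subgroup Gal(E/F)) (W : Pl E) : Subgroup Gal(E/F) where
  carrier := {g | g ∈ H ∧ ∃ d ∈ Dec F W ⊓ H', g * d⁻¹ ∈ Ine F W}
  one_mem' := ⟨H.one_mem, 1, Subgroup.one_mem _, by simp⟩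
  mul_mem' := by
    rintro g g' ⟨hg, d, hd, h⟩ ⟨hg', d', hd', h'⟩
    refine ⟨H.mul_mem hg hg', d * d', Subgroup.mul_mem _ hd hd', ?_⟩
    have e : g * g' * (d * d')⁻¹ = g * d⁻¹ * (d * (g' * d'⁻¹) * d⁻¹) := by group
    rw [e]
    exact (Ine F W).mul_mem h (conj_mem_Ine hd.1 h')
  inv_mem' := by
    rintro g ⟨hg, d, hd, h⟩
    refine ⟨H.inv_mem hg, d⁻¹, Subgroup.inv_mem _ hd, ?_⟩
    have e : g⁻¹ * d⁻¹⁻¹ = d⁻¹ * (g * d⁻¹)⁻¹ * d⁻¹⁻¹ := by group
    rw [e]
    exact conj_mem_Ine ((Dec F W).inv_mem hd.1) ((Ine F W).inv_mem h)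

theorem tw_f (hH' : IsOpen (H' : Set Gal(E/F))) (hle : H' ≤ H) (W : Pl E) {f : ℕ} (hf0 : 0 < f)
    (hf : resCard H' W = resCard H W ^ f) : (twJ H H' W).relIndex (Dec F W ⊓ H) = f := by
  have hH : IsOpen (H : Set Gal(E/F)) := Subgroup.isOpen_mono hle hH'
  have hφ := frob_spec hH W
  have hφ' := frob_spec hH' W
  refine tw_relIndex_cyc (φ := frob H W) (Subgroup.mem_inf.2 ⟨hφ.2.1, hφ.1⟩) hf0 (fun d hd => ?_) ?_ fun m hm hJ => ?_
  · obtain ⟨m, τ, hτ, hτ', hn⟩ := hφ.exists_pow hH hd.1 hd.2 hH'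
    refine ⟨m, H.mul_mem (H.inv_mem (H.pow_mem hφ.1 _)) hd.2, _, ⟨?_, hn⟩, ?_⟩
    · exact (Dec F W).mul_mem ((Dec F W).inv_mem ((Dec F W).mul_mem ((Dec F W).pow_mem hφ.2.1 _)
        (Ine_le_Dec W hτ))) hd.1
    · have e : (frob H W ^ m)⁻¹ * d * ((frob H W ^ m * τ)⁻¹ * d)⁻¹ = τ := by group
      rw [e]
      exact hτ
  · refine ⟨H.pow_mem hφ.1 _, frob H' W, ⟨hφ'.2.1, hφ'.1⟩, ?_⟩
    have h1 := conj_mem_Ine hφ'.2.1 ((Ine F W).inv_mem (hφ.inv_mul_mem_Ine hφ' hf))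
    have e : frob H W ^ f * (frob H' W)⁻¹ =
        frob H' W * ((frob H W ^ f)⁻¹ * frob H' W)⁻¹ * (frob H' W)⁻¹ := by group
    rw [e]
    exact h1
  · obtain ⟨-, d, hd, hI⟩ := hJ
    have hq := tw_two_le hH W
    have h1 : resCard H' W ≤ resCard H W ^ m := by
      refine tw_res_le hH' W (Nat.one_lt_pow hm.ne' hq) fun x hx hx1 => ?_
      have h2 := tw_frob_pow hφ m hx1
      have h3 := hI.2 x hx1
      rw [AlgEquiv.mul_apply, mem_L.1 hx _ (H'.inv_mem hd.2)] at h3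
      have e : x ^ resCard H W ^ m - x = ((frob H W ^ m) x - x) -
          ((frob H W ^ m) x - x ^ resCard H W ^ m) := by ring
      rw [e]
      exact lt_of_le_of_lt (W.v.map_sub _ _) (max_lt h3 h2)
    rw [hf] at h1
    exact (Nat.pow_le_pow_iff_right hq).1 h1

theorem tw_e (hH' : IsOpen (H' : Set Gal(E/F))) (hle : H' ≤ H) (W : Pl E) {e : ℕ}
    (he : unif H W = unif H' W ^ e) : e = (Ine F W ⊓ H').relIndex (Ine F W ⊓ H) := by
  obtain ⟨e', f, -, hf0, he', hf, hef⟩ := tower hH' hle W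
  obtain rfl : e = e' := tw_unif_inj hH' W (he.symm.trans he')
  have h1 : Dec F W ⊓ H' ≤ twJ H H' W := fun d hd =>
    ⟨hle hd.2, d, hd, by simp⟩
  have h2 : twJ H H' W ≤ Dec F W ⊓ H := by
    rintro g ⟨hg, d, hd, h⟩
    refine ⟨?_, hg⟩
    simpa using (Dec F W).mul_mem (Ine_le_Dec W h) hd.1
  have h3 : Ine F W ⊓ H ≤ twJ H H' W := fun g hg =>
    ⟨hg.2, 1, Subgroup.one_mem _, by simpa using hg.1⟩
  have h4 := tw_relIndex_eq (Dec F W ⊓ H') h3 (by
    rintro g ⟨hg, d, hd, h⟩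
    exact ⟨g * d⁻¹, ⟨h, H.mul_mem hg (H.inv_mem (hle hd.2))⟩, by simpa using hd⟩)
  rw [← Subgroup.relIndex_mul_relIndex _ _ _ h1 h2, tw_f hH' hle W hf0 hf, ← h4] at hef
  rw [Nat.eq_of_mul_eq_mul_right hf0 hef, ← Subgroup.inf_relIndex_right,
    ← Subgroup.inf_relIndex_right (Ine F W ⊓ H')]
  congr 1
  ext g
  simp only [Subgroup.mem_inf]
  exact ⟨fun h => ⟨⟨h.2.1, h.1.2⟩, h.2⟩, fun h => ⟨⟨Ine_le_Dec W h.1.1, h.1.2⟩, h.2⟩⟩

theorem unif_eq_iff_ine_le (hH' : IsOpen (H' : Set Gal(E/F))) (hle : H' ≤ H) (W : Pl E) :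
    unif H' W = unif H W ↔ Ine F W ⊓ H ≤ H' := by
  obtain ⟨e, f, -, -, he, -⟩ := tw_exists hH' hle W
  have h1 := tw_e hH' hle W he
  constructor
  · intro h
    have h2 : e = 1 := tw_unif_inj hH' W (by rw [← he, pow_one, h])
    rw [h2] at h1
    exact (Subgroup.relIndex_eq_one.1 h1.symm).trans inf_le_right
  · intro h
    rw [Subgroup.relIndex_eq_one.2 (le_inf inf_le_left h)] at h1
    rw [he, h1, pow_one]

theorem unif_eq_pow_ine (hH' : IsOpen (H' : Set Gal(E/F))) (hle : H' ≤ H) (W : Pl E) :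
    unif H W = unif H' W ^ (Ine F W ⊓ H').relIndex (Ine F W ⊓ H) := by
  obtain ⟨e, f, -, -, he, -⟩ := tw_exists hH' hle W
  rw [← tw_e hH' hle W he, he]

/-- (Val) elements fixed by inertia have their value in the value group of `L H`
(apply `unif_eq_iff_ine_le` to `H' = H ⊓ stab x`). -/
theorem vU_mem_valGrp_of_ine (hH : IsOpen (H : Set Gal(E/F))) (W : Pl E) {x : Eˣ}
    (hx : (x : E) ∈ L (Ine F W ⊓ H)) : W.vU x ∈ valGrp H W := by
  have hH' : IsOpen ((H ⊓ stab F (x : E) : Subgroup Gal(E/F)) : Set Gal(E/F)) :=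
    isOpen_inf hH (isOpen_stab _)
  have h1 := (unif_eq_iff_ine_le hH' inf_le_left W).2
    (le_inf inf_le_right fun g hg => mem_stab.2 (mem_L.1 hx g hg))
  rw [(unif_spec hH W).2, ← h1, ← (unif_spec hH' W).2]
  exact ⟨x, mem_L.2 fun g hg => hg.2, rfl⟩

theorem tw_nm (hH' : IsOpen (H' : Set Gal(E/F))) (hle : H' ≤ H) (W W' : Pl E) :
    nm (Dv E) H H' (bas H' W) W' =
      if Same H W W' then unif H' W ^ (Dec F W ⊓ H').relIndex (Dec F W ⊓ H) else 1 := by
  obtain ⟨s, -, hs1, hs2, -⟩ := exists_reps (relIndex_ne_zero_of_isOpen hH' H)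
  have hfix : ∀ g ∈ H', g • bas H' W = bas H' W := fun g hg => by
    rw [smul_bas fun x => ⟨fun h => H'.mul_mem (H'.mul_mem hg h) (H'.inv_mem hg), fun h => by
      simpa [mul_assoc] using H'.mul_mem (H'.mul_mem (H'.inv_mem hg) h) hg⟩]
    exact (bas_same ⟨g, hg, rfl⟩).symm
  rw [nm_eq_prod s hs1 hs2 hfix, Dv.prod_apply]
  simp only [Dv.smul_apply, bas]
  rw [← Finset.prod_filter, Finset.prod_const]
  split_ifs with h
  · obtain ⟨h, hh, rfl⟩ := h
    obtain ⟨s', -, hs1', hs2', hs3'⟩ := exists_reps (relIndex_ne_zero_of_isOpen hH' (Dec F W ⊓ H))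
    have e1 : (Dec F W ⊓ H').relIndex (Dec F W ⊓ H) = H'.relIndex (Dec F W ⊓ H) := by
      rw [← Subgroup.inf_relIndex_right, ← Subgroup.inf_relIndex_right H']
      congr 1
      ext g
      simp only [Subgroup.mem_inf]
      exact ⟨fun h => ⟨h.1.2, h.2⟩, fun h => ⟨⟨h.2.1, h.1⟩, h.2⟩⟩
    rw [e1, ← hs3']
    congr 1
    symm
    have hc : ∀ d ∈ s', ∃ t, t ∈ s ∧ t⁻¹ * (h * d) ∈ H' := fun d hd =>
      (hs2 _ (H.mul_mem hh (hs1' d hd).2)).exists
    choose T hT1 hT2 using hc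
    refine Finset.card_bij T (fun d hd => ?_) (fun d hd d' hd' hdd => ?_) fun t ht => ?_
    · refine Finset.mem_filter.2 ⟨hT1 d hd, _, hT2 d hd, ?_⟩
      have e2 : d • W = W := (hs1' d hd).1
      simp only [mul_smul, e2]
    · have h1 := hT2 d hd
      rw [hdd] at h1
      have h2 := H'.mul_mem (H'.inv_mem (hT2 d' hd')) h1
      exact (hs2' d (hs1' d hd)).unique ⟨hd, by simp⟩ ⟨hd', by simpa [mul_assoc] using h2⟩
    · obtain ⟨ht1, k, hk, hkW⟩ := Finset.mem_filter.1 ht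
      have h1 : h⁻¹ * t * k ∈ Dec F W ⊓ H := by
        refine ⟨mem_Dec.2 ?_, H.mul_mem (H.mul_mem (H.inv_mem hh) (hs1 t ht1)) (hle hk)⟩
        simp only [mul_smul, hkW, smul_inv_smul, inv_smul_smul]
      obtain ⟨d, ⟨hd, hd'⟩, -⟩ := hs2' _ h1
      refine ⟨d, hd, (hs2 _ (H.mul_mem hh (hs1' d hd).2)).unique ⟨hT1 d hd, hT2 d hd⟩ ⟨ht1, ?_⟩⟩
      have e2 : t⁻¹ * (h * d) = k * (d⁻¹ * (h⁻¹ * t * k))⁻¹ := by group
      rw [e2]
      exact H'.mul_mem hk (H'.inv_mem hd')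
  · rw [Finset.filter_eq_empty_iff.2, Finset.card_empty, pow_zero]
    rintro t ht ⟨k, hk, hkW⟩
    exact h ⟨t * k, H.mul_mem (hs1 t ht) (hle hk), by rw [mul_smul, hkW, smul_inv_smul]⟩

theorem tw_nm_bas (hH' : IsOpen (H' : Set Gal(E/F))) (hle : H' ≤ H) (W : Pl E) {e f : ℕ}
    (he : unif H W = unif H' W ^ e) (hf : resCard H' W = resCard H W ^ f) :
    nm (Dv E) H H' (bas H' W) = bas H W ^ f := by
  refine Dv.ext fun W' => ?_
  rw [tw_nm hH' hle, ← tw_ef hH' hle W he hf, Dv.pow_apply, bas]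
  split_ifs
  · rw [he, pow_mul]
  · rw [one_pow]

theorem nm_bas (hH' : IsOpen (H' : Set Gal(E/F))) (hle : H' ≤ H) (W : Pl E) :
    ∃ f : ℕ, 0 < f ∧ resCard H' W = resCard H W ^ f ∧ nm (Dv E) H H' (bas H' W) = bas H W ^ f := by
  obtain ⟨e, f, -, hf0, he, hf⟩ := tw_exists hH' hle W
  exact ⟨f, hf0, hf, tw_nm_bas hH' hle W he hf⟩

theorem nm_bas_of_dec_le (hH' : IsOpen (H' : Set Gal(E/F))) (hle : H' ≤ H) {W : Pl E}
    (h : Dec F W ⊓ H ≤ H') :
    resCard H' W = resCard H W ∧ unif H' W = unif H W ∧ nm (Dv E) H H' (bas H' W) = bas H W := by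
  obtain ⟨e, f, -, -, he, hf, hef⟩ := tower hH' hle W
  have h1 := tw_nm_bas hH' hle W he hf
  rw [Subgroup.relIndex_eq_one.2 (le_inf inf_le_left h)] at hef
  obtain rfl := Nat.eq_one_of_mul_eq_one_right hef
  obtain rfl := Nat.eq_one_of_mul_eq_one_left hef
  rw [pow_one] at he hf h1
  exact ⟨hf, he.symm, h1⟩

theorem dec_le_of_resCard_eq (hH' : IsOpen (H' : Set Gal(E/F))) (hle : H' ≤ H) {W : Pl E}
    (hI : Ine F W ⊓ H ≤ H') (hq : resCard H' W = resCard H W) : Dec F W ⊓ H ≤ H' := by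
  have h1 := tw_ef hH' hle W (e := 1) (f := 1)
    (by rw [pow_one, (unif_eq_iff_ine_le hH' hle W).2 hI]) (by rw [pow_one, hq])
  exact (Subgroup.relIndex_eq_one.1 h1.symm).trans inf_le_right

end Crest.Agent.R018
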