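import Crest.Agent.R018.Core
import Crest.Agent.R018.GC
import Crest.Agent.R018.N2
import Crest.Agent.R018.Tower

/-!
# R018 / StepE1

`bad_finite`: `U_ε = U ⊓ {u | χ (cyc l u) · sg y u = 1}`; it contains `U1 = U ⊓ stab (rt 2 y) ⊓ FixMu l`; `H' = (H ⊓ pre U1 ⊓ FixMu r).normalCore`, `B` from `core H'.index`.  Use
`exists_finset_of_card_le`: given a family `s` with `card ≥ B` (and the `W_V`), choose an odd prime `l'` split for `H'` outside `{r} ∪ {V.p, W_V.p}`; `r ∣ l' - 1`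
(`dvd_sub_one_of_dec_le`), `χ` from `exists_chr`, `ε u = χ (cyc l u) * sg ℤ_[l'] y u`, `a` from `exists_eigen_zhom` (`δ` from a member of `s`, `x0 = 1`); `a` kills `Dec W ⊓ Uε` by
`eigen_dec_eq_zero`.  Genericity: for odd `r`, `ε^r = sg y`; for `r = 2`, `ε = sg (y y0)` on `U`.  `core` with `η = 1`, `μ = 0` is absurd.
`dec_le_of_good`: `resCard G0 V = p^f` (`tower` with `H = ⊤`, `f ≤ index`), `cyc l d` is a power of `p^f` (`exists_cyc_eq_pow`); if `f > 1` take a prime `r ∣ f`; so `f = 1` and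
`dec_le_of_resCard_eq`.
-/

set_option autoImplicit false
set_option linter.unusedSectionVars false

noncomputable section

namespace Crest.Agent.R018

open scoped NNReal Classical

variable {Ω F E : Type*} [Field Ω] [CharZero Ω] [IsAlgClosed Ω] [IsGalois ℚ Ω]
  [Field F] [NumberField F] [Field E] [CharZero E] [Algebra F E] [IsGalois F E] [RadCl E]

theorem dec_le_of_good {G0 : Subgroup Gal(Ω/ℚ)} (hG : IsOpen (G0 : Set Gal(Ω/ℚ))) {V : Pl Ω}
    (hI : Ine ℚ V ≤ G0) {l : ℕ} (hl : l.Prime) (hV : V.p ≠ l)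
    (h : ∀ r : ℕ, r.Prime → r ≤ G0.index → ∃ d ∈ Dec ℚ V, d ∈ G0 ∧ ¬ ∃ w, cyc l d = w ^ r) :
    Dec ℚ V ≤ G0 := by
  obtain ⟨f, hf0, hfle, hf⟩ := exists_resCard_eq_pow hG V
  rw [deg_rat] at hfle
  have hN : ¬ V.p ∣ l := fun hd => hV ((Nat.prime_dvd_prime_iff_eq V.hp hl).1 hd)
  have hf1 : f = 1 := by
    by_contra hne
    obtain ⟨r, hr, hrf⟩ := Nat.exists_prime_and_dvd hne
    obtain ⟨d, hd, hd', hw⟩ := h r hr ((Nat.le_of_dvd hf0 hrf).trans hfle)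
    obtain ⟨m, hm⟩ := exists_cyc_eq_pow hG hd hd' hN
    obtain ⟨k, rfl⟩ := hrf
    exact hw ⟨(V.p : ZMod l) ^ (k * m), by rw [hm, hf]; push_cast; ring⟩
  have := dec_le_of_resCard_eq (H := ⊤) hG le_top (W := V) (inf_le_left.trans hI)
    (by rw [hf, hf1, pow_one, resCard_top_rat])
  simpa using this

theorem e1_sg_iff {l : ℕ} [Fact l.Prime] {y : E} {u u' : Gal(E/F)}
    (h : sg ℤ_[l] y u = sg ℤ_[l] y u') : u (rt 2 y) = rt 2 y ↔ u' (rt 2 y) = rt 2 y := by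
  unfold sg at h
  have h2 : (1 : ℤ_[l]) ≠ -1 := by
    intro h3
    have : (2 : ℤ_[l]) = 0 := by linear_combination h3
    exact two_ne_zero this
  by_cases h0 : u (rt 2 y) = rt 2 y <;> by_cases h1 : u' (rt 2 y) = rt 2 y
  · exact iff_of_true h0 h1
  · rw [if_pos h0, if_neg h1] at h; exact absurd h h2
  · rw [if_neg h0, if_pos h1] at h; exact absurd h.symm h2
  · exact iff_of_false h0 h1

theorem e1_sg_sq (R : Type*) [Ring R] (y : E) (u : Gal(E/F)) : sg R y u ^ 2 = 1 := by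
  unfold sg
  split_ifs <;> simp

theorem e1_sg_one (R : Type*) [Ring R] {y : E} {u : Gal(E/F)} (h : u (rt 2 y) = rt 2 y) :
    sg R y u = 1 := if_pos h

namespace Setup
variable (S : Setup Ω F E)

theorem bad_finite {U : Subgroup Gal(E/F)} {H : Subgroup Gal(Ω/ℚ)} (hG : S.Good U H) {l r : ℕ}
    (hl : l.Prime) (hr : r.Prime) (hrl : r ∣ l - 1) {y y0 : E} (hy0 : y ≠ 0) (hy00 : y0 ≠ 0)
    (hy : y ∈ L U) (hy' : y0 ∈ L U) (hgen : S.Gen U H y) (hgen' : S.Gen U H (y * y0))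
    (hsq : ∀ u ∈ U, (u (rt 2 y0) = rt 2 y0 ↔ ∃ w, cyc l u = w ^ 2)) :
    ∃ P : Finset ℕ, ∀ (V : Pl Ω) (W : Pl E), S.Rel V W → Dec F W ≤ U ⊓ stab F (rt 2 y) →
      (∃ δ ∈ Dec F W, ¬ ∃ w, cyc l δ = w ^ r) →
      (∀ d ∈ Dec ℚ V, d ∈ S.G0 → ∃ w, cyc l (S.α d) = w ^ r) → V.p ∈ P := by
  have hl0 : l ≠ 0 := hl.ne_zero
  set U1 : Subgroup Gal(E/F) := U ⊓ stab F (rt 2 y) ⊓ FixMu F E l with hU1
  have hU1o : IsOpen (U1 : Set Gal(E/F)) :=
    isOpen_inf (isOpen_inf hG.openU (isOpen_stab _)) (isOpen_FixMu _)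
  set H' : Subgroup Gal(Ω/ℚ) := (H ⊓ S.pre U1 ⊓ FixMu ℚ Ω r).normalCore with hH'
  have hH'o : IsOpen (H' : Set Gal(Ω/ℚ)) :=
    isOpen_normalCore (isOpen_inf (isOpen_inf hG.openH (S.isOpen_pre hU1o)) (isOpen_FixMu _))
  have hH'le : H' ≤ H ⊓ S.pre U1 ⊓ FixMu ℚ Ω r := Subgroup.normalCore_le _
  have hH'H : H' ≤ H := hH'le.trans (inf_le_left.trans inf_le_left)
  obtain ⟨B, hB⟩ := S.core H'.index
  obtain ⟨T, -, hT⟩ := exists_finset_of_card_le
    (fun V : Pl Ω => ∃ W : Pl E, S.Rel V W ∧ Dec F W ≤ U ⊓ stab F (rt 2 y) ∧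
      (∃ δ ∈ Dec F W, ¬ ∃ w, cyc l δ = w ^ r) ∧
      (∀ d ∈ Dec ℚ V, d ∈ S.G0 → ∃ w, cyc l (S.α d) = w ^ r)) (fun V => V.p) B (by
    intro s hs hinj
    by_contra hcard
    rw [not_le] at hcard
    choose Wf hrel hdec hδ hpw using hs
    obtain ⟨l', hl', hl'B, hsplit⟩ := exists_split hH'o
      (insert 2 (insert r (s.image (fun V : Pl Ω => V.p) ∪
        s.attach.image fun V : {x // x ∈ s} => (Wf V.1 V.2).p)))
    have : Fact l'.Prime := ⟨hl'⟩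
    simp only [Finset.mem_insert, Finset.mem_union, not_or] at hl'B
    obtain ⟨hl2, hlr, hlV, hlW⟩ := hl'B
    have hlV' : ∀ V ∈ s, V.p ≠ l' := fun V hV h => hlV (Finset.mem_image.2 ⟨V, hV, h⟩)
    have hlW' : ∀ V (hV : V ∈ s), (Wf V hV).p ≠ l' := fun V hV h =>
      hlW (Finset.mem_image.2 ⟨⟨V, hV⟩, Finset.mem_attach _ _, h⟩)
    have hrl' : r ∣ l' - 1 := by
      obtain ⟨V0, hV0⟩ := exists_pl Ω hl'
      rw [← hV0]
      refine dvd_sub_one_of_dec_le V0 (fun hd => hlr ?_)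
        ((hsplit V0 hV0).trans (hH'le.trans inf_le_right))
      rw [← hV0]
      exact (Nat.prime_dvd_prime_iff_eq V0.hp hr).1 hd
    obtain ⟨χ, hχ1, hχm, hχr, hχk⟩ := exists_chr (l := l') hl hr hrl hrl'
    set ε : Gal(E/F) → ℤ_[l'] := fun u => χ (cyc l u) * sg ℤ_[l'] y u with hεd
    have hε : MHom U ε := by
      refine ⟨?_, fun a ha b hb => ?_⟩
      · simp only [hεd]
        rw [cyc_one hl0, hχ1, e1_sg_one _ rfl, mul_one]
      · simp only [hεd]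
        rw [cyc_mul hl0, hχm, sg_mul_right _ hy0 (mem_L.1 hy a ha) (mem_L.1 hy b hb)]
        ring
    obtain ⟨Uε, hker⟩ := hε.exists_ker
    have hU1ε : U1 ≤ Uε := by
      rintro u ⟨⟨hu1, hu2⟩, hu3⟩
      refine (hker u).2 ⟨hu1, ?_⟩
      simp only [hεd]
      rw [(mem_FixMu_iff hl0).1 hu3, hχ1, e1_sg_one _ hu2, mul_one]
    have hUεo : IsOpen (Uε : Set Gal(E/F)) := Subgroup.isOpen_mono hU1ε hU1o
    have hpow : ∀ u ∈ U, ε u ^ (l' - 1) = 1 := by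
      intro u _
      obtain ⟨k, hk⟩ := hrl'
      obtain ⟨k', hk'⟩ : 2 ∣ l' - 1 := (hl'.even_sub_one hl2).two_dvd
      simp only [hεd]
      rw [mul_pow]
      nth_rewrite 1 [hk]
      rw [hk', pow_mul, pow_mul, hχr _ (isUnit_cyc hl0 u), e1_sg_sq]
      simp
    have hδε : ∀ V (hV : V ∈ s), ∃ δ ∈ Dec F (Wf V hV), δ ∈ U ∧ ε δ ≠ 1 := by
      intro V hV
      obtain ⟨δ, hδ1, hδ2⟩ := hδ V hV
      refine ⟨δ, hδ1, (hdec V hV hδ1).1, fun h => hδ2 ?_⟩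
      simp only [hεd] at h
      rw [e1_sg_one _ (hdec V hV hδ1).2, mul_one] at h
      exact (hχk _ (isUnit_cyc hl0 δ)).1 h
    obtain ⟨V1, hV1⟩ : s.Nonempty := Finset.card_pos.1 (lt_of_le_of_lt (Nat.zero_le _) hcard)
    obtain ⟨δ1, -, hδ1U, hδ1ε⟩ := hδε V1 hV1
    obtain ⟨a, ha, heig, -, hane⟩ := exists_eigen_zhom hUεo hG.hasIU hG.degU hl2 hε hpow hker
      hδ1U hδ1ε Uε.one_mem
    have hH'ε : H' ≤ S.pre Uε := fun h hh =>
      ⟨(hH'le hh).1.2.1, hU1ε (hH'le hh).1.2.2⟩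
    have hgenε : ∀ t : Gal(Ω/ℚ), (∀ h ∈ H, ε (S.α (t * h * t⁻¹)) = ε (S.α h)) → t ∈ S.pre U := by
      intro t ht
      rcases hr.eq_two_or_odd' with h2 | hodd
      · subst h2
        have key : ∀ u ∈ U, ε u = sg ℤ_[l'] (y * y0) u := by
          intro u hu
          rw [sg_mul_left _ hy0 hy00 (mem_L.1 hy u hu) (mem_L.1 hy' u hu), mul_comm]
          simp only [hεd]
          congr 1
          by_cases h0 : u (rt 2 y0) = rt 2 y0
          · rw [e1_sg_one _ h0]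
            exact (hχk _ (isUnit_cyc hl0 u)).2 ((hsq u hu).1 h0)
          · have h1 : χ (cyc l u) ≠ 1 := fun h =>
              h0 ((hsq u hu).2 ((hχk _ (isUnit_cyc hl0 u)).1 h))
            have h2 := hχr _ (isUnit_cyc hl0 u)
            unfold sg
            rw [if_neg h0]
            exact (sq_eq_one_iff.1 h2).resolve_left h1
        refine hgen'.2 t fun h hh => e1_sg_iff (l := l') ?_
        rw [← key _ (hG.le (hG.normalH.conj_mem h hh t)).2, ← key _ (hG.le hh).2, ht h hh]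
      · have key : ∀ u, ε u ^ r = sg ℤ_[l'] y u := by
          intro u
          obtain ⟨k, hk⟩ := hodd
          simp only [hεd]
          rw [mul_pow, hχr _ (isUnit_cyc hl0 u), one_mul, hk, pow_succ, pow_mul, e1_sg_sq, one_pow,
            one_mul]
        refine hgen.2 t fun h hh => e1_sg_iff (l := l') ?_
        rw [← key, ← key, ht h hh]
    obtain ⟨t, -, h, -, h0⟩ := hB U Uε H H' l' ε a (fun _ => 1) (fun _ => 0) s hl2 hG.normalH hG.le
      (Subgroup.normalCore_normal _) hH'o hH'H hH'ε (hH'H.trans hG.hasIH) le_rfl hsplit hε hker ha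
      heig hane hgenε ⟨rfl, fun _ _ _ _ => (mul_one _).symm⟩
      ⟨fun _ _ _ _ => (add_zero _).symm, fun k => ⟨⊤, by simp, fun _ _ _ => by simp⟩⟩
      (fun _ _ _ _ => (mul_zero _).symm) hcard.le hinj hlV'
      (fun V hV d hd hd' => by
        obtain ⟨δ, hδ1, hδU, hδ2⟩ := hδε V hV
        refine eigen_dec_eq_zero hUεo (hlW' V hV) ha hδ1 hδ2 (fun x hx => ?_) (heig δ hδU) _
          (hrel V hV d hd (hH'ε hd').1) (hH'ε hd').2
        obtain ⟨hx1, hx2⟩ := (hker x).1 hx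
        refine (hker _).2 ⟨U.mul_mem (U.mul_mem hδU hx1) (U.inv_mem hδU), ?_⟩
        rw [hε.2 _ (U.mul_mem hδU hx1) _ (U.inv_mem hδU), hε.2 _ hδU _ hx1, hx2, mul_one,
          ← hε.2 _ hδU _ (U.inv_mem hδU), mul_inv_cancel, hε.1])
      (fun V hV t ht ht' => by
        simp only [hεd]
        rw [e1_sg_one _ (hdec V hV (hrel V hV t ht ht'.1)).2, mul_one]
        exact (hχk _ (isUnit_cyc hl0 _)).2 (hpw V hV t ht ht'.1))
    exact h0 rfl)
  exact ⟨T, fun V W h1 h2 h3 h4 => hT V ⟨W, h1, h2, h3, h4⟩⟩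

end Setup

end Crest.Agent.R018
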