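import Crest.Agent.R018.StepE

/-!
# R018 / StepF

Suppose the set `Z` of primes `p` having a place `W_p ∣ p` with `p ∉ {V.p | Rel V W_p}` is infinite.  `fib` gives finite sets `P p ⊇ {V.p | Rel V W_p}` of size `≤ B`; remove `p` and
non-primes from `P p`.  `exists_indep` gives `s ⊆ Z`, `|s| = g + 1` (`g, h0` from `stepBC`), `Pset = ⋃_{p ∈ s} P p` disjoint from `s`.  `H1, B0` from `stepE`; `N0 = (H1 ⊓ G0).normalCore`;
`r` a prime `> deg N0` outside `s ∪ Pset`; `exists_move_roots` gives `g0 ∈ N0 ⊓ FixMu r` moving `rt r p` (`p ∈ Pset`), fixing `rt r p` (`p ∈ s`); `fdt'` for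
`U' = N0 ⊓ FixMu r ⊓ ⨅ stab (rt r p)` gives `V0` with `l = V0.p ∉ B0 ∪ {2, r} ∪ primeFactors h0 ∪ s ∪ Pset`; `Split H1 l` (`N0` normal, `exists_smul_eq_of_p_eq`), so `Psi l`; `resPow`:
`p ∈ s` are `r`-th powers mod `l`, `p ∈ Pset` are not.  Every `W_p` (`p ∈ s`) is `l`-exceptional: if `Tl l V`, `Rel V W_p`, then for `d = frob G0 V`, `cyc l d = V.p^f`, `0 < f ≤ deg G0 < r`,
equals `cyc l (α d)` (`ll3_one`), a power of `p` (`exists_cyc_eq_pow` with `H = ⊤`, `exists_resCard_eq_pow`), so `V.p ∈ Pset` is an `r`-th power.  Contradiction with `stepBC`.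
-/

set_option autoImplicit false
set_option linter.unusedSectionVars false

noncomputable section

namespace Crest.Agent.R018

open scoped NNReal Classical

variable {Ω F E : Type*} [Field Ω] [CharZero Ω] [IsAlgClosed Ω] [IsGalois ℚ Ω]
  [Field F] [NumberField F] [Field E] [CharZero E] [Algebra F E] [IsGalois F E] [RadCl E]

theorem sf_pow {K : Type*} [Field K] {q u : K} (hq : q ≠ 0) {f r : ℕ} (hr : r.Prime) (hf : 0 < f)
    (hfr : f < r) (h : q ^ f = u ^ r) : ∃ w, q = w ^ r := by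
  obtain ⟨a, -, ha⟩ := Nat.exists_mul_mod_eq_one_of_coprime
    (Nat.Coprime.symm ((Nat.Prime.coprime_iff_not_dvd hr).2 (Nat.not_dvd_of_pos_of_lt hf hfr))) hr.one_lt
  refine ⟨u ^ a / q ^ (f * a / r), ?_⟩
  have e := Nat.div_add_mod (f * a) r
  rw [ha] at e
  rw [div_pow, ← pow_mul, mul_comm a, pow_mul, ← h, ← pow_mul, ← pow_mul, eq_div_iff (pow_ne_zero _ hq)]
  conv_rhs => rw [← e]
  ring

namespace Setup
variable (S : Setup Ω F E)

theorem stepF (hS : S.Maxl) : ∃ B : Finset ℕ, ∀ W : Pl E, W.p ∉ B → ∃ V : Pl Ω, V.p = W.p ∧ S.Rel V W := by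
  set Z : Set ℕ := {p | ∃ W : Pl E, W.p = p ∧ ∀ V : Pl Ω, V.p = W.p → ¬ S.Rel V W} with hZdef
  suffices hZ : Z.Finite by
    refine ⟨hZ.toFinset, fun W hW => ?_⟩
    by_contra h
    push Not at h
    exact hW (hZ.mem_toFinset.2 ⟨W, rfl, h⟩)
  by_contra hZ
  replace hZ : Z.Infinite := hZ
  have : Nonempty (Pl E) := by obtain ⟨_, W, -⟩ := hZ.nonempty; exact ⟨W⟩
  have hw : ∀ p ∈ Z, ∃ W : Pl E, W.p = p ∧ ∀ V : Pl Ω, V.p = W.p → ¬ S.Rel V W := fun p hp => hp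
  choose! w hw1 hw2 using hw
  obtain ⟨B, hB⟩ := S.fib hS
  choose P0 hP0 hP0' using hB
  obtain ⟨g, h0, hh0, hBC⟩ := S.stepBC hS
  obtain ⟨s, hs, hsZ, hsP⟩ := exists_indep hZ (fun p => (P0 (w p)).filter fun q => q.Prime ∧ q ≠ p) B
    (fun p _ => (Finset.card_filter_le _ _).trans (hP0 _)) (fun p _ => by simp) (g + 1)
  set Pset := s.biUnion fun p => (P0 (w p)).filter fun q => q.Prime ∧ q ≠ p with hPset
  have hsp : ∀ p ∈ s, p.Prime := fun p hp => hw1 p (hsZ p hp) ▸ (w p).hp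
  have hPp : ∀ q ∈ Pset, q.Prime := fun q hq => by
    obtain ⟨p, -, h⟩ := Finset.mem_biUnion.1 hq
    exact (Finset.mem_filter.1 h).2.1
  obtain ⟨H1, B0, hH1, hE⟩ := S.stepE hS
  set N0 := (H1 ⊓ S.G0).normalCore with hN0
  have hN0o : IsOpen (N0 : Set Gal(Ω/ℚ)) := isOpen_normalCore (isOpen_inf hH1 S.open0)
  have hN0le : N0 ≤ H1 ⊓ S.G0 := Subgroup.normalCore_le _
  obtain ⟨r, hrge, hr⟩ := Nat.exists_infinite_primes (deg N0 + Pset.sup id + 1)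
  have hdeg : deg S.G0 ≤ deg N0 := by
    rw [deg_eq_mul (hN0le.trans inf_le_right)]
    exact Nat.le_mul_of_pos_left _ (Nat.pos_of_ne_zero (relIndex_ne_zero_of_isOpen hN0o _))
  obtain ⟨g0, hg1, hg2, hg3, hg4⟩ := exists_move_roots hN0o hr (by omega) Pset s
    (fun q hq => ⟨hPp q hq, by have := Finset.le_sup (f := id) hq; simp only [id] at this; omega⟩)
    (fun p hp => ⟨hsp p hp, fun h => by
      obtain ⟨p', hp', h⟩ := Finset.mem_biUnion.1 h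
      exact hsP p hp p' hp' h⟩)
  set U' : Subgroup Gal(Ω/ℚ) := N0 ⊓ FixMu ℚ Ω r ⊓ ⨅ p ∈ s ∪ Pset, stab ℚ (rt r (p : Ω)) with hU'
  have hU'o : IsOpen (U' : Set Gal(Ω/ℚ)) := by
    refine isOpen_inf (isOpen_inf hN0o (isOpen_FixMu r)) ?_
    simp only [Subgroup.coe_iInf]
    exact isOpen_biInter_finset fun p _ => isOpen_stab _
  have hU'p : ∀ p ∈ s ∪ Pset, U' ≤ stab ℚ (rt r (p : Ω)) := fun p hp =>
    inf_le_right.trans (iInf₂_le p hp)
  obtain ⟨V0, hV0, -, hD, δ, hδ, hδ'⟩ := fdt' hU'o g0 (B0 ∪ {2, r} ∪ h0.primeFactors ∪ (s ∪ Pset))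
  simp only [Finset.mem_union, Finset.mem_insert, Finset.mem_singleton, not_or] at hV0
  obtain ⟨⟨⟨hl0, hl2, hlr⟩, hlh⟩, hls, hlP⟩ := hV0
  have hl := V0.hp
  have : Fact V0.p.Prime := ⟨hl⟩
  have hDle : ∀ K : Subgroup Gal(Ω/ℚ), g0 ∈ K → U' ≤ K → Dec ℚ V0 ≤ K := fun K h1 h2 d hd => by
    obtain ⟨i, hi⟩ := hD d hd
    exact (K.mul_mem_cancel_left (K.inv_mem (K.pow_mem h1 i))).1 (h2 hi)
  have hDN : Dec ℚ V0 ≤ N0 := hDle _ hg1 (inf_le_left.trans inf_le_left)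
  have hDr : Dec ℚ V0 ≤ FixMu ℚ Ω r := hDle _ hg2 (inf_le_left.trans inf_le_right)
  have hsplit : Split H1 V0.p := fun V hV d hd => by
    obtain ⟨t, rfl⟩ := exists_smul_eq_of_p_eq hV.symm
    have h1 := (Subgroup.normalCore_normal (H1 ⊓ S.G0)).conj_mem _ (hDN (mem_Dec_smul.1 hd)) t
    simp only [← mul_assoc, mul_inv_cancel, one_mul, mul_inv_cancel_right] at h1
    exact (hN0le h1).1
  have hnd : ∀ p : ℕ, p.Prime → V0.p ≠ p → ¬ V0.p ∣ p := fun p hp hne h =>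
    hne ((Nat.prime_dvd_prime_iff_eq hl hp).1 h)
  have hnd' : ∀ p : ℕ, p.Prime → p ≠ V0.p → ¬ p ∣ V0.p := fun p hp hne h =>
    hne ((Nat.prime_dvd_prime_iff_eq hp hl).1 h)
  have hinj : Set.InjOn w s := fun p hp p' hp' h => by
    rw [← hw1 p (hsZ p hp), ← hw1 p' (hsZ p' hp'), h]
  have key := (hBC V0.p hl2 fun h => hlh (Nat.mem_primeFactors.2 ⟨hl, h, hh0⟩)).2
    (hE V0.p hl0 hsplit) (s.image w) ?_ ?_
  · rw [Finset.card_image_of_injOn hinj] at key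
    omega
  · simp only [Finset.mem_image]
    rintro _ ⟨p, hp, rfl⟩ _ ⟨p', hp', rfl⟩ h
    rw [hw1 p (hsZ p hp), hw1 p' (hsZ p' hp')] at h
    rw [h]
  · simp only [Finset.mem_image]
    rintro _ ⟨p, hp, rfl⟩
    have hwp := hw1 p (hsZ p hp)
    have hpl : (w p).p ≠ V0.p := by rw [hwp]; rintro rfl; exact hls hp
    refine ⟨hpl, ?_⟩
    rintro ⟨V, hT, hR⟩
    have hq : V.p ∈ Pset := Finset.mem_biUnion.2 ⟨p, hp, Finset.mem_filter.2
      ⟨hP0' _ V hR, V.hp, fun h => hw2 p (hsZ p hp) V (h.trans hwp.symm) hR⟩⟩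
    have hF := frob_spec S.open0 V
    have h1 := hF.cyc_eq (hnd' _ V.hp hT.1)
    obtain ⟨f, hf0, hf1, hf⟩ := exists_resCard_eq_pow S.open0 V
    obtain ⟨m, hm⟩ := exists_cyc_eq_pow (H := ⊤) isOpen_univ (hR _ hF.2.1 hF.1) trivial
      (hnd' _ (w p).hp hpl)
    obtain ⟨f', -, -, hf'⟩ := exists_resCard_eq_pow (F := F) (H := ⊤) isOpen_univ (w p)
    obtain ⟨u, hu⟩ := (resPow V0 hr hlr hDr (hnd p (hsp p hp) (hwp ▸ hpl.symm))).2
      (hDle _ (hg4 p hp) (hU'p p (Finset.mem_union_left _ hp)))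
    rw [S.ll3_one hl hl2 hT hpl hR hF.2.1 hF.1, h1, hf, hf', hwp] at hm
    push_cast at hm
    rw [hu, ← pow_mul, ← pow_mul, mul_comm r, pow_mul] at hm
    have hq0 : (V.p : ZMod V0.p) ≠ 0 := fun h =>
      hnd _ V.hp hT.1.symm ((ZMod.natCast_eq_zero_iff _ _).1 h)
    have h2 := (resPow V0 hr hlr hDr (hnd _ V.hp hT.1.symm)).1 (sf_pow hq0 hr hf0 (by omega) hm)
    exact hg3 _ hq (((stab ℚ _).inv_mem_iff).1 (((stab ℚ _).mul_mem_cancel_right (h2 hδ)).1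
      (hU'p _ (Finset.mem_union_right _ hq) hδ')))

end Setup

end Crest.Agent.R018
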