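import Crest.Agent.R018.StepF
import Crest.Agent.R018.Emb

/-!
# R018 / StepG1

`Uε = U ⊓ stab (rt 2 y)` (normal in `U`), `H1, B0` from `stepE`, `H2` from `exists_normal_le_fixI Ω Uε`, `H' = (H ⊓ pre Uε ⊓ H1 ⊓ H2).normalCore`, `l` odd, split for `H'`, `∉ B0`
(`Psi l`), `ε = sg ℤ_[l] y`, `a` from `exists_eigen_zhom` (`x0 = 1`), `B` from `core`.  For every finite `P` there is `(V, W, ι)` with `V.p ∉ P`, `Dec W ≤ Uε` (`exists_dec_le`),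
`Rel V W`, `V.p = W.p` (`stepF`), `V.comap ι = W` (`exists_emb_comap`); by `exists_finset_emb` for `Uε` and pigeonhole one `ι0` serves (up to agreement on `L Uε`) for `V.p`
outside any finite set; `exists_family`.  `η = ε ∘ pb ι0`, `μ = a ∘ pb ι0` (`exists_setup_pb`, `zhom_comp`; `a ∘ pb ι = a ∘ pb ι0` on `H'` by `exists_pb_conj`).  For
`d ∈ Dec V ⊓ H'`, `x = α d (pb ι d)⁻¹ ∈ Dec W ⊓ Uε` has `lcyc x = 0` (`Psi`, `cyc_pb`, `lcyc_eq_of_cyc_eq`), so `a x = 0` (`frob_cyc_z`).  `core` gives `t`; take `t⁻¹ ∘ ι0`.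
-/

set_option autoImplicit false
set_option linter.unusedSectionVars false

noncomputable section

namespace Crest.Agent.R018

open scoped NNReal Classical

variable {Ω F E : Type*} [Field Ω] [CharZero Ω] [IsAlgClosed Ω] [IsGalois ℚ Ω]
  [Field F] [NumberField F] [Field E] [CharZero E] [Algebra F E] [IsGalois F E] [RadCl E]

theorem g1_sg_eq_one {l : ℕ} [Fact l.Prime] (y : E) (g : Gal(E/F)) :
    sg ℤ_[l] y g = 1 ↔ g (rt 2 y) = rt 2 y := by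
  unfold sg
  split_ifs with h
  · simp [h]
  · simp only [h, iff_false]
    intro h1
    have h2 : (2 : ℤ_[l]) = 0 := by linear_combination -h1
    exact two_ne_zero h2

theorem g1_sg_eq_iff {l : ℕ} [Fact l.Prime] (y : E) (g g' : Gal(E/F))
    (h : sg ℤ_[l] y g = sg ℤ_[l] y g') : g (rt 2 y) = rt 2 y ↔ g' (rt 2 y) = rt 2 y := by
  rw [← g1_sg_eq_one (l := l), ← g1_sg_eq_one (l := l), h]

namespace Setup
variable (S : Setup Ω F E)

theorem stepG1 (hS : S.Maxl) {U : Subgroup Gal(E/F)} {H : Subgroup Gal(Ω/ℚ)} (hG : S.Good U H)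
    (hfix : ∀ ι : E →+* Ω, H ≤ fixI ι U) {y : E} (hy0 : y ≠ 0) (hy : y ∈ L U) (hgen : S.Gen U H y) :
    ∃ ι : E →+* Ω, ∀ h ∈ H, (S.α h (rt 2 y) = rt 2 y ↔ h (ι (rt 2 y)) = ι (rt 2 y)) := by
  obtain ⟨H1, B0, hH1, hPsi⟩ := S.stepE hS
  obtain ⟨BF, hBF⟩ := S.stepF hS
  set Uε : Subgroup Gal(E/F) := U ⊓ stab F (rt 2 y) with hUεdef
  have hUε : IsOpen (Uε : Set Gal(E/F)) := isOpen_inf hG.openU (isOpen_stab _)
  have hUεc := isClosed_of_isOpen hUε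
  have hUc := isClosed_of_isOpen hG.openU
  obtain ⟨H2, -, hH2, hH2fix⟩ := exists_normal_le_fixI Ω hUε
  set H0 : Subgroup Gal(Ω/ℚ) := H ⊓ S.pre Uε ⊓ H1 ⊓ H2 with hH0def
  have hH0 : IsOpen (H0 : Set Gal(Ω/ℚ)) :=
    isOpen_inf (isOpen_inf (isOpen_inf hG.openH (S.isOpen_pre hUε)) hH1) hH2
  set H' : Subgroup Gal(Ω/ℚ) := H0.normalCore with hH'def
  have hH' : IsOpen (H' : Set Gal(Ω/ℚ)) := isOpen_normalCore hH0
  have hle0 : H' ≤ H0 := H0.normalCore_le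
  have hH'H : H' ≤ H := fun x hx => (hle0 hx).1.1.1
  have hH'pre : H' ≤ S.pre Uε := fun x hx => (hle0 hx).1.1.2
  have hH'1 : H' ≤ H1 := fun x hx => (hle0 hx).1.2
  have hH'2 : H' ≤ H2 := fun x hx => (hle0 hx).2
  obtain ⟨l, hl, hlB, hsplit⟩ := exists_split hH' (insert 2 B0)
  have : Fact l.Prime := ⟨hl⟩
  have hl2 : l ≠ 2 := fun h => hlB (h ▸ Finset.mem_insert_self _ _)
  have hpsi : S.Psi l := hPsi l (fun h => hlB (Finset.mem_insert_of_mem h))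
    (fun V hV => (hsplit V hV).trans hH'1)
  have hε : MHom U (sg ℤ_[l] y : Gal(E/F) → ℤ_[l]) :=
    ⟨(g1_sg_eq_one y 1).2 rfl, fun u hu v hv =>
      sg_mul_right _ hy0 (mem_L.1 hy u hu) (mem_L.1 hy v hv)⟩
  have hker : ∀ x : Gal(E/F), x ∈ Uε ↔ x ∈ U ∧ sg ℤ_[l] y x = 1 := fun x => by
    rw [g1_sg_eq_one]
    exact Iff.rfl
  have hpow : ∀ u ∈ U, sg ℤ_[l] y u ^ (l - 1) = 1 := fun u _ => by
    unfold sg
    split_ifs
    · exact one_pow _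
    · exact (hl.even_sub_one hl2).neg_one_pow
  obtain ⟨δ, hδ, hδ'⟩ := hgen.1
  obtain ⟨a, ha, haε, -, hane⟩ := exists_eigen_zhom hUε hG.hasIU hG.degU hl2 hε hpow hker hδ
    (fun h => hδ' ((g1_sg_eq_one y δ).1 h)) Uε.one_mem
  obtain ⟨B, hB⟩ := S.core H'.index
  -- pigeonhole on the embeddings
  obtain ⟨ι0, hι0⟩ : ∃ ι0 : E →+* Ω, ∀ T : Finset ℕ, ∃ V : Pl Ω, (V.p ≠ l ∧
      ∃ ι : E →+* Ω, Dec F (V.comap ι) ≤ Uε ∧ S.Rel V (V.comap ι) ∧ ∀ x ∈ L Uε, ι x = ι0 x) ∧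
      V.p ∉ T := by
    by_contra hcon
    push Not at hcon
    choose T hT using hcon
    obtain ⟨s, hs⟩ := exists_finset_emb Ω hUε
    obtain ⟨W, hW1, hW2⟩ := exists_dec_le hUε (insert l (BF ∪ s.biUnion T))
    simp only [Finset.mem_insert, Finset.mem_union, Finset.mem_biUnion, not_or, not_exists,
      not_and] at hW1
    obtain ⟨V, hVp, hrel⟩ := hBF W hW1.2.1
    obtain ⟨ι, hι⟩ := exists_emb_comap (F := F) V W hVp
    obtain ⟨ι', hι's, hι'⟩ := hs ι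
    refine hW1.2.2 ι' hι's ?_
    rw [← hVp]
    exact hT ι' V ⟨hVp ▸ hW1.1, ι, hι ▸ hW2, hι ▸ hrel, hι'⟩
  obtain ⟨s, hscard, hsP, hsinj⟩ := exists_family _ (fun V : Pl Ω => V.p) hι0 B
  obtain ⟨S', hS'0, hS'α⟩ := exists_setup_pb (F := F) ι0
  have hHfix : ∀ h ∈ H, h ∈ fixI ι0 (⊤ : Subgroup Gal(E/F)) ∧ pb F ι0 h ∈ U := fun h hh =>
    (mem_fixI_iff_pb ι0 hUc).1 (hfix ι0 hh)
  have hH'fix : ∀ ι : E →+* Ω, ∀ h ∈ H', h ∈ fixI ι (⊤ : Subgroup Gal(E/F)) ∧ pb F ι h ∈ Uε :=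
    fun ι h hh => (mem_fixI_iff_pb ι hUεc).1 (hH2fix ι (hH'2 hh))
  have hη : MHom H (fun g => sg ℤ_[l] y (pb F ι0 g)) := by
    refine ⟨?_, fun u hu v hv => ?_⟩
    · have h1 := S'.map_one
      rw [hS'α] at h1
      simp only [h1]
      exact hε.1
    · simp only
      rw [pb_mul ι0 (hHfix u hu).1 (hHfix v hv).1]
      exact hε.2 _ (hHfix u hu).2 _ (hHfix v hv).2
  have hμ : ZHom l H' (fun g => a (pb F ι0 g)) := by
    have h1 : H' ≤ S'.pre Uε := fun h hh => by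
      rw [mem_pre, hS'0, hS'α]
      exact hH'fix ι0 h hh
    have h2 := S'.zhom_comp h1 ha
    rwa [hS'α] at h2
  have heig : ∀ x ∈ H, ∀ h ∈ H', a (pb F ι0 (x * h * x⁻¹)) =
      sg ℤ_[l] y (pb F ι0 x) * a (pb F ι0 h) := fun x hx h hh => by
    have h1 := S'.map_conj (g := x) (h := h) (hS'0 ▸ (hHfix x hx).1) (hS'0 ▸ (hH'fix ι0 h hh).1)
    rw [hS'α] at h1
    rw [h1]
    exact haε _ (hHfix x hx).2 _ (hH'fix ι0 h hh).2
  have hcmp : ∀ V ∈ s, ∀ d ∈ Dec ℚ V, d ∈ H' → a (S.α d) = a (pb F ι0 d) := by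
    intro V hV d hd hd'
    obtain ⟨hVl, ι, hdec, hrel, hagree⟩ := hsP V hV
    have hd0 : d ∈ S.G0 := (hH'pre hd').1
    have h1 : S.α d ∈ Dec F (V.comap ι) := hrel d hd hd0
    have h2 : pb F ι d ∈ Dec F (V.comap ι) := pb_mem_Dec ι V hd (hH'fix ι d hd').1
    have h3 : S.α d * (pb F ι d)⁻¹ ∈ Dec F (V.comap ι) := mul_mem h1 (inv_mem h2)
    have h4 : lcyc l (S.α d * (pb F ι d)⁻¹) = 0 := by
      rw [lcyc_mul hl2, (zhom_lcyc hl2 (⊤ : Subgroup Gal(E/F))).1.map_inv (Subgroup.mem_top _),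
        hpsi d hd0, lcyc_eq_of_cyc_eq (g := pb F ι d) (g' := d)
          (fun k => cyc_pb ι (pow_ne_zero k hl.ne_zero) (hH'fix ι d hd').1), add_neg_cancel]
    have h5 := frob_cyc_z hl2 hUε (W := V.comap ι) hVl (ha.mono inf_le_right) h3 (hdec h3) h4
    rw [ha.1 _ (hdec h1) _ (inv_mem (hdec h2)), ha.1.map_inv (hdec h2), add_neg_eq_zero] at h5
    obtain ⟨u, hu, -, hu'⟩ := exists_pb_conj hUεc (ι := ι0) (ι' := ι) hagree
    rw [h5, hu' d (hH'fix ι0 d hd').1]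
    have h6 := ha.1.map_conj (inv_mem hu) (hH'fix ι0 d hd').2
    rwa [inv_inv] at h6
  obtain ⟨t, ht, -⟩ := hB U Uε H H' l (sg ℤ_[l] y) a (fun g => sg ℤ_[l] y (pb F ι0 g))
    (fun g => a (pb F ι0 g)) s hl2 hG.normalH hG.le H0.normalCore_normal hH' hH'H hH'pre
    (hH'H.trans hG.hasIH) le_rfl hsplit hε hker ha haε hane
    (fun t ht => hgen.2 t fun h hh => g1_sg_eq_iff y _ _ (ht h hh))
    hη hμ heig hscard.ge hsinj (fun V hV => (hsP V hV).1) hcmp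
    (fun V hV t ht ht' => by
      obtain ⟨-, ι, hdec, hrel, -⟩ := hsP V hV
      exact ((hker _).1 (hdec (hrel t ht ht'.1))).2)
  refine ⟨((t⁻¹ : Gal(Ω/ℚ)) : Ω →+* Ω).comp ι0, fun h hh => ?_⟩
  have h1 := g1_sg_eq_iff y _ _ (ht h hh)
  have h2 := pb_spec ι0 (hHfix _ (hG.normalH.conj_mem h hh t)).1 (rt 2 y)
  rw [← h1, ← ι0.injective.eq_iff, h2, ← t.injective.eq_iff (a := h _)]
  simp [AlgEquiv.mul_apply]

end Setup

end Crest.Agent.R018
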