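import Crest.Agent.R018.Hensel
import Crest.Agent.R018.SetupB

/-!
# R018 / Tame

Tame inertia.  `tame_conj`: `kummer` on `J` (`Ine_le_FixMu`) gives `ρ`; `kum_conj` gives `κ (d τ d⁻¹) = cyc d * kum (d⁻¹ ρ) τ`; `u = d⁻¹ρ / ρ` has value `1`, `τ` fixes
`u^N`, so `τ` fixes `u` (`Ine_fix_of_pow`) and `kum (d⁻¹ρ) τ = kum ρ τ`.
`zl_unram`: `d = frob H W`: `λ τ = λ (d τ d⁻¹) ≡ q λ τ mod l^k` for all `k`, `q ≥ 2`.
`frob_cyc`: `lcyc φ ≠ 0` (else `q^{l-1} ≡ 1 mod l^k` for all `k`); for `j` large write `x = φ^m τ n` with `n` in an open subgroup killing `κ` and `lcyc mod l^j`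
(`IsFrob.exists_pow`); `lcyc τ = 0`, so `m · lcyc φ ≡ 0 mod l^j`, so `l^k ∣ m`.
-/

set_option autoImplicit false
set_option linter.unusedSectionVars false

noncomputable section

namespace Crest.Agent.R018

open scoped NNReal Classical

variable {F E : Type*} [Field F] [NumberField F] [Field E] [CharZero E] [Algebra F E]
  [IsGalois F E] [RadCl E]

theorem tame_conj {W : Pl E} {N : ℕ} (hN : ¬ W.p ∣ N) {J : Subgroup Gal(E/F)} (hJ : J ≤ Ine F W)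
    {κ : Gal(E/F) → ZMod N} (hκ : CHom J κ) {d τ : Gal(E/F)} (hd : d ∈ Dec F W) (hτ : τ ∈ J)
    (hτ' : d * τ * d⁻¹ ∈ J) : κ (d * τ * d⁻¹) = cyc N d * κ τ := by
  have h0 : N ≠ 0 := fun h => hN (h ▸ dvd_zero _)
  obtain ⟨ρ, hρ, hρL, hk⟩ := kummer h0 (hJ.trans (Ine_le_FixMu hN)) hκ
  have h1 : τ (ρ ^ N) = ρ ^ N := mem_L.1 hρL τ hτ
  have h2 : τ ((d⁻¹ ρ) ^ N) = (d⁻¹ ρ) ^ N := by
    have := congrArg (fun y => d⁻¹ y) (mem_L.1 hρL _ hτ')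
    simp only [← AlgEquiv.mul_apply, ← mul_assoc, inv_mul_cancel, one_mul] at this
    rw [← map_pow]
    exact this
  have h3 : d⁻¹ ρ ≠ 0 := (map_ne_zero _).2 hρ
  have hu : τ ((d⁻¹ ρ / ρ) ^ N) = (d⁻¹ ρ / ρ) ^ N := by rw [div_pow, map_div₀, h1, h2]
  have hv : W.v (d⁻¹ ρ / ρ) = 1 := by
    rw [map_div₀, mem_Dec_iff.1 ((Dec F W).inv_mem hd), div_self ((map_ne_zero _).2 hρ)]
  have h4 := kum_mul_left h0 (div_ne_zero h3 hρ) hρ hu h1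
  rw [div_mul_cancel₀ _ hρ, (kum_eq_zero_iff h0 (div_ne_zero h3 hρ) hu).2
    (Ine_fix_of_pow hN (hJ hτ) hv hu), zero_add] at h4
  rw [← hk _ hτ', ← hk _ hτ, kum_conj h0 hρ d h2, h4]

theorem tame_not_dvd {l : ℕ} [Fact l.Prime] {W : Pl E} (hW : W.p ≠ l) (k : ℕ) : ¬ W.p ∣ l ^ k :=
  fun h => hW ((Nat.prime_dvd_prime_iff_eq W.hp Fact.out).1 (W.hp.dvd_of_dvd_pow h))

theorem tame_two_le {H : Subgroup Gal(E/F)} (hH : IsOpen (H : Set Gal(E/F))) (W : Pl E) :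
    2 ≤ resCard H W := by
  obtain ⟨f, hf, -, he⟩ := exists_resCard_eq_pow hH W
  rw [he]
  exact le_trans W.hp.two_le (Nat.le_self_pow hf.ne' _)

theorem zl_unram {l : ℕ} [Fact l.Prime] {H : Subgroup Gal(E/F)} (hH : IsOpen (H : Set Gal(E/F)))
    {W : Pl E} (hW : W.p ≠ l) {a : Gal(E/F) → ℤ_[l]} (ha : ZHom l (Dec F W ⊓ H) a) :
    ∀ τ ∈ Ine F W, τ ∈ H → a τ = 0 := by
  intro τ hτ hτH
  have hφ := frob_spec hH W
  have h1 : ((resCard H W : ℤ_[l]) - 1) * a τ = 0 := by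
    refine PadicInt.ext_of_toZModPow.1 fun k => ?_
    have h2 := tame_conj (tame_not_dvd hW k) (J := Ine F W ⊓ H) inf_le_left
      ((ha.chom k).mono (inf_le_inf_right _ (Ine_le_Dec W))) hφ.2.1 ⟨hτ, hτH⟩
      ⟨conj_mem_Ine hφ.2.1 hτ, H.mul_mem (H.mul_mem hφ.1 hτH) (H.inv_mem hφ.1)⟩
    rw [ha.1.map_conj ⟨hφ.2.1, hφ.1⟩ ⟨hτ.1, hτH⟩, hφ.cyc_eq (tame_not_dvd hW k)] at h2
    rw [map_mul, map_sub, map_natCast, map_one, map_zero, sub_mul, ← h2, one_mul, sub_self]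
  refine (mul_eq_zero.1 h1).resolve_left fun h => ?_
  have h2 : resCard H W = 1 := by exact_mod_cast sub_eq_zero.1 h
  have := tame_two_le hH W
  omega

theorem tame_decomp {U : Subgroup Gal(E/F)} (hU : IsOpen (U : Set Gal(E/F))) {W : Pl E}
    {φ : Gal(E/F)} (hφ : IsFrob U W φ) {x : Gal(E/F)} (hx : x ∈ Dec F W) (hx' : x ∈ U)
    {N : Subgroup Gal(E/F)} (hN : IsOpen (N : Set Gal(E/F))) :
    ∃ (m : ℕ) (τ n : Gal(E/F)), τ ∈ Ine F W ∧ τ ∈ U ∧ n ∈ Dec F W ⊓ U ∧ n ∈ N ∧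
      ∀ (A : Type) [AddCommGroup A] (f : Gal(E/F) → A), AHom (Dec F W ⊓ U) f →
        f x = m • f φ + f τ + f n := by
  obtain ⟨m, τ, h1, h2, h3⟩ := hφ.exists_pow hU hx hx' hN
  have a1 : φ ∈ Dec F W ⊓ U := ⟨hφ.2.1, hφ.1⟩
  have a2 : τ ∈ Dec F W ⊓ U := ⟨h1.1, h2⟩
  have a3 := (Dec F W ⊓ U).mul_mem ((Dec F W ⊓ U).pow_mem a1 m) a2
  have a4 := (Dec F W ⊓ U).mul_mem ((Dec F W ⊓ U).inv_mem a3) ⟨hx, hx'⟩
  refine ⟨m, τ, _, h1, h2, a4, h3, fun A _ f hf => ?_⟩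
  rw [← hf.map_pow a1, ← hf _ ((Dec F W ⊓ U).pow_mem a1 m) _ a2, ← hf _ a3 _ a4, mul_inv_cancel_left]

theorem frob_cyc {l : ℕ} [Fact l.Prime] (hl2 : l ≠ 2) {U : Subgroup Gal(E/F)}
    (hU : IsOpen (U : Set Gal(E/F))) {W : Pl E} (hW : W.p ≠ l) {k : ℕ} {κ : Gal(E/F) → ZMod (l ^ k)}
    (hκ : CHom (Dec F W ⊓ U) κ) (hu : ∀ τ ∈ Ine F W, τ ∈ U → κ τ = 0) {x : Gal(E/F)}
    (hx : x ∈ Dec F W) (hx' : x ∈ U) (h0 : lcyc l x = 0) : κ x = 0 := by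
  have hl : l.Prime := Fact.out
  have hφ := frob_spec hU W
  have hb : lcyc l (frob U W) ≠ 0 := fun h => by
    have hq := tame_two_le hU W
    set q := resCard U W with hqd
    have h1 : 1 < q ^ (l - 1) := Nat.one_lt_pow (by have := hl.two_le; omega) hq
    have h2 := (toZModPow_lcyc_eq_zero_iff hl2 (frob U W) (q ^ (l - 1))).1 (by rw [h, map_zero])
    rw [hφ.cyc_eq (tame_not_dvd hW _), ← hqd, ← Nat.cast_pow, ← Nat.cast_one (R := ZMod _), eq_comm,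
      ZMod.natCast_eq_natCast_iff, Nat.modEq_iff_dvd' h1.le] at h2
    have h3 := Nat.le_of_dvd (by omega) h2
    have h4 := Nat.lt_pow_self (n := q ^ (l - 1) + 1) hl.one_lt
    omega
  obtain ⟨N1, hN1, h1⟩ := hκ.2
  have hz := zhom_lcyc hl2 (Dec F W ⊓ U)
  obtain ⟨v, u, hu'⟩ : ∃ (v : ℕ) (u : ℤ_[l]ˣ), lcyc l (frob U W) = u * (l : ℤ_[l]) ^ v :=
    ⟨_, _, PadicInt.unitCoeff_spec hb⟩
  obtain ⟨N2, hN2, h2⟩ := hz.2 (k + v)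
  obtain ⟨m, τ, n, hτ, hτU, hn, hnN, hf⟩ := tame_decomp hU hφ hx hx' (isOpen_inf hN1 hN2)
  have h3 := congrArg (PadicInt.toZModPow (k + v)) (hf _ _ hz.1)
  have h2' : PadicInt.toZModPow (k + v) (lcyc l n) = 0 := h2 n hn hnN.2
  rw [h0, zl_unram hU hW hz τ hτ hτU, add_zero, map_add, h2', add_zero, map_zero, eq_comm,
    ← RingHom.mem_ker, PadicInt.ker_toZModPow, Ideal.mem_span_singleton, nsmul_eq_mul,
    hu', ← mul_assoc, pow_add] at h3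
  have h4 : (l : ℤ_[l]) ^ k ∣ (m : ℤ_[l]) :=
    Units.dvd_mul_right.1 ((mul_dvd_mul_iff_right
      (pow_ne_zero v (by exact_mod_cast hl.ne_zero : (l : ℤ_[l]) ≠ 0))).1 h3)
  have h5 : (m : ZMod (l ^ k)) = 0 := by
    rw [← map_natCast (PadicInt.toZModPow (p := l) k), ← RingHom.mem_ker, PadicInt.ker_toZModPow,
      Ideal.mem_span_singleton]
    exact h4
  rw [hf _ _ hκ.1, hu τ hτ hτU, h1 n hn hnN.1, nsmul_eq_mul, h5]
  simp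

theorem frob_cyc_z {l : ℕ} [Fact l.Prime] (hl2 : l ≠ 2) {U : Subgroup Gal(E/F)}
    (hU : IsOpen (U : Set Gal(E/F))) {W : Pl E} (hW : W.p ≠ l) {a : Gal(E/F) → ℤ_[l]}
    (ha : ZHom l (Dec F W ⊓ U) a) {x : Gal(E/F)} (hx : x ∈ Dec F W) (hx' : x ∈ U)
    (h0 : lcyc l x = 0) : a x = 0 := by
  refine PadicInt.ext_of_toZModPow.1 fun k => ?_
  rw [map_zero]
  exact frob_cyc hl2 hU hW (ha.chom k)
    (fun τ hτ hτU => by simp only [zl_unram hU hW ha τ hτ hτU, map_zero]) hx hx' h0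

theorem zhom_dec_eq_zero {l : ℕ} [Fact l.Prime] {U : Subgroup Gal(E/F)}
    (hU : IsOpen (U : Set Gal(E/F))) {W : Pl E} (hW : W.p ≠ l) {a : Gal(E/F) → ℤ_[l]}
    (ha : ZHom l (Dec F W ⊓ U) a) {φ : Gal(E/F)} (hφ : IsFrob U W φ) (h0 : a φ = 0) :
    ∀ x ∈ Dec F W, x ∈ U → a x = 0 := by
  intro x hx hx'
  refine PadicInt.ext_of_toZModPow.1 fun k => ?_
  obtain ⟨N, hN, h1⟩ := ha.2 k
  obtain ⟨m, τ, n, hτ, hτU, hn, hnN, hf⟩ := tame_decomp hU hφ hx hx' hN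
  rw [hf _ _ ha.1, h0, zl_unram hU hW ha τ hτ hτU, smul_zero, add_zero, zero_add, map_zero]
  exact h1 n hn hnN

/-- an eigen-character vanishes on `Dec W ⊓ Uε` when `ε` is non-trivial on `Dec W ⊓ U`
(`commutator_mem_Ine`, `zl_unram`). -/
theorem eigen_dec_eq_zero {l : ℕ} [Fact l.Prime] {Uε : Subgroup Gal(E/F)}
    (hU : IsOpen (Uε : Set Gal(E/F))) {W : Pl E} (hW : W.p ≠ l) {a : Gal(E/F) → ℤ_[l]}
    (ha : ZHom l Uε a) {δ : Gal(E/F)} (hδ : δ ∈ Dec F W) {e : ℤ_[l]} (he : e ≠ 1)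
    (hn : ∀ x ∈ Uε, δ * x * δ⁻¹ ∈ Uε) (heig : ∀ x ∈ Uε, a (δ * x * δ⁻¹) = e * a x) :
    ∀ x ∈ Dec F W, x ∈ Uε → a x = 0 := by
  intro x hx hx'
  have h1 := zl_unram hU hW (ha.mono inf_le_right) _ (commutator_mem_Ine hδ hx)
    (Uε.mul_mem (hn x hx') (Uε.inv_mem hx'))
  rw [ha.1 _ (hn x hx') _ (Uε.inv_mem hx'), heig x hx', ha.1.map_inv hx'] at h1
  have h2 : (e - 1) * a x = 0 := by linear_combination h1
  exact (mul_eq_zero.1 h2).resolve_left (sub_ne_zero.2 he)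

end Crest.Agent.R018
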