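import Crest.Agent.R018.Defs

/-!
# R018 / Top

Topological basics on `Gal(E/F)` (Krull topology; the group is compact: instance
`InfiniteGalois`/`CompactSpace Gal(E/F)` from `IsGalois`).  Useful Mathlib: `stabilizer_isOpen_of_isIntegral`,
`krullTopology_mem_nhds_one_iff`, `InfiniteGalois.fixingSubgroup_fixedField`, `InfiniteGalois.isOpen_iff_finite`,
`IntermediateField.finrank_eq_fixingSubgroup_index`, `Subgroup.isOpen_mono`, `Subgroup.finiteIndex_of_isOpen`-like lemmas,
`Subgroup.normalCore_eq_ker`, `Subgroup.normalCore_isClosed`, `Subgroup.isOpen_of_isClosed_of_finiteIndex`,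
`ProfiniteGrp.exist_openNormalSubgroup_sub_open_nhds_of_one`.
-/

set_option autoImplicit false
set_option linter.unusedSectionVars false

noncomputable section

namespace Crest.Agent.R018

open scoped NNReal Classical

variable {F E : Type*} [Field F] [NumberField F] [Field E] [CharZero E] [Algebra F E]
  [IsGalois F E]

variable (F E) in
include F in
theorem isAlgebraic_rat : Algebra.IsAlgebraic ℚ E := by
  exact Algebra.IsAlgebraic.trans ℚ F E

theorem isOpen_stab (x : E) : IsOpen (stab F x : Set Gal(E/F)) := by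
  exact stabilizer_isOpen_of_isIntegral x

theorem isOpen_FixMu (N : ℕ) : IsOpen (FixMu F E N : Set Gal(E/F)) := isOpen_stab _

theorem isOpen_inf {H H' : Subgroup Gal(E/F)} (h : IsOpen (H : Set Gal(E/F)))
    (h' : IsOpen (H' : Set Gal(E/F))) : IsOpen ((H ⊓ H' : Subgroup Gal(E/F)) : Set Gal(E/F)) :=
  h.inter h'

/-- a subgroup is open iff it contains the pointwise stabiliser of a finite set. -/
theorem isOpen_iff_finset (N : Subgroup Gal(E/F)) :
    IsOpen (N : Set Gal(E/F)) ↔ ∃ s : Finset E, ∀ g : Gal(E/F), (∀ x ∈ s, g x = x) → g ∈ N := by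
  constructor
  · intro h
    obtain ⟨K, hK, hsub⟩ := (krullTopology_mem_nhds_one_iff F E _).1 (h.mem_nhds N.one_mem)
    let b := Module.finBasis F K
    refine ⟨Finset.univ.image fun i => (b i : E), fun g hg => hsub ?_⟩
    rw [SetLike.mem_coe, IntermediateField.mem_fixingSubgroup_iff]
    intro x hx
    have h1 : (g.toLinearMap ∘ₗ K.val.toLinearMap) = K.val.toLinearMap :=
      b.ext fun i => hg _ (Finset.mem_image_of_mem _ (Finset.mem_univ i))
    exact LinearMap.congr_fun h1 ⟨x, hx⟩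
  · rintro ⟨s, hs⟩
    refine N.isOpen_of_mem_nhds (g := 1) (Filter.mem_of_superset
      ((Filter.biInter_finset_mem s).2 fun x _ =>
        (isOpen_stab (F := F) x).mem_nhds (stab F x).one_mem) fun g hg => hs g fun x hx => ?_)
    exact Set.mem_iInter₂.1 hg x hx

theorem isClosed_of_isOpen {H : Subgroup Gal(E/F)} (h : IsOpen (H : Set Gal(E/F))) :
    IsClosed (H : Set Gal(E/F)) := H.isClosed_of_isOpen h

theorem index_ne_zero_of_isOpen {H : Subgroup Gal(E/F)} (h : IsOpen (H : Set Gal(E/F))) :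
    H.index ≠ 0 := by
  have := Subgroup.quotient_finite_of_isOpen H h
  exact Subgroup.index_ne_zero_of_finite

theorem relIndex_ne_zero_of_isOpen {H' : Subgroup Gal(E/F)} (h : IsOpen (H' : Set Gal(E/F)))
    (H : Subgroup Gal(E/F)) : H'.relIndex H ≠ 0 := by
  have : H'.FiniteIndex := ⟨index_ne_zero_of_isOpen h⟩
  exact Subgroup.FiniteIndex.index_ne_zero

theorem isOpen_normalCore {H : Subgroup Gal(E/F)} (h : IsOpen (H : Set Gal(E/F))) :
    IsOpen (H.normalCore : Set Gal(E/F)) := by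
  have : H.FiniteIndex := ⟨index_ne_zero_of_isOpen h⟩
  exact Subgroup.isOpen_of_isClosed_of_finiteIndex _ (H.normalCore_isClosed (isClosed_of_isOpen h))

theorem index_normalCore_le {H : Subgroup Gal(E/F)} (h : IsOpen (H : Set Gal(E/F))) :
    H.normalCore.index ≤ H.index.factorial := by
  have := Subgroup.quotient_finite_of_isOpen H h
  rw [Subgroup.normalCore_eq_ker, Subgroup.index_ker, Subgroup.index_eq_card, ← Nat.card_perm]
  exact Nat.le_of_dvd Nat.card_pos (Subgroup.card_subgroup_dvd_card (MulAction.toPermHom _ (_ ⧸ H)).range)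

/-- the conjugate `{h | g⁻¹ h g ∈ H}` of an open subgroup is open. -/
theorem isOpen_conj {H : Subgroup Gal(E/F)} (h : IsOpen (H : Set Gal(E/F))) (g : Gal(E/F)) :
    IsOpen (H.comap (MulAut.conj g⁻¹).toMonoidHom : Set Gal(E/F)) := by
  have : Continuous fun x : Gal(E/F) => g⁻¹ * x * g⁻¹⁻¹ := by fun_prop
  exact h.preimage this

theorem top_isOpen (x : E) (P : E → Prop) : IsOpen {g : Gal(E/F) | P (g x)} := by
  rw [isOpen_iff_mem_nhds]
  intro g hg
  have hc : Continuous fun h : Gal(E/F) => g⁻¹ * h := by fun_prop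
  refine Filter.mem_of_superset (((isOpen_stab (F := F) x).preimage hc).mem_nhds
    (by simp [(stab F x).one_mem])) fun h hh => ?_
  have h1 : g⁻¹ (h x) = x := hh
  have h2 : h x = g x := by
    conv_rhs => rw [← h1]
    simp
  change P (h x)
  rw [h2]; exact hg

theorem top_isClosed (x : E) (P : E → Prop) : IsClosed {g : Gal(E/F) | P (g x)} :=
  ⟨top_isOpen x fun y => ¬ P y⟩

/-- `{g | g • W = W'}` is an intersection of the clopen sets `{g | W.v (g⁻¹ x) = W'.v x}`. -/
theorem isClosed_smul_eq (W W' : Pl E) : IsClosed {g : Gal(E/F) | g • W = W'} := by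
  have : {g : Gal(E/F) | g • W = W'} = ⋂ x : E, (fun g : Gal(E/F) => g⁻¹) ⁻¹' {g | W.v (g x) = W'.v x} := by
    ext g
    simp only [Set.mem_ofPred_eq, Set.mem_iInter, Set.mem_preimage]
    exact ⟨fun h x => by rw [← h]; rfl, fun h => Pl.ext_v h⟩
  rw [this]
  exact isClosed_iInter fun x => (top_isClosed x fun y => W.v y = W'.v x).preimage continuous_inv

theorem isClosed_Dec (W : Pl E) : IsClosed (Dec F W : Set Gal(E/F)) := isClosed_smul_eq W W

theorem isClosed_Ine (W : Pl E) : IsClosed (Ine F W : Set Gal(E/F)) := by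
  have : (Ine F W : Set Gal(E/F)) = (Dec F W : Set Gal(E/F)) ∩
      ⋂ x : E, {g | W.v x ≤ 1 → W.v (g x - x) < 1} := by
    ext g
    simp only [SetLike.mem_coe, mem_Ine, Set.mem_inter_iff, Set.mem_iInter, Set.mem_ofPred_eq]
  rw [this]
  exact (isClosed_Dec W).inter (isClosed_iInter fun x =>
    top_isClosed x fun y => W.v x ≤ 1 → W.v (y - x) < 1)

theorem top_fix {H : Subgroup Gal(E/F)} (h : IsClosed (H : Set Gal(E/F))) :
    (L H).fixingSubgroup = H :=
  InfiniteGalois.fixingSubgroup_fixedField ⟨H, h⟩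

theorem finiteDimensional_L {H : Subgroup Gal(E/F)} (h : IsOpen (H : Set Gal(E/F))) :
    FiniteDimensional F (L H) := by
  refine (InfiniteGalois.isOpen_iff_finite (L H)).1 ?_
  rw [top_fix (isClosed_of_isOpen h)]
  exact h

theorem numberField_L {H : Subgroup Gal(E/F)} (h : IsOpen (H : Set Gal(E/F))) :
    NumberField (L H) := by
  have := finiteDimensional_L h
  exact NumberField.of_module_finite F _

theorem finrank_L {H : Subgroup Gal(E/F)} (h : IsOpen (H : Set Gal(E/F))) :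
    Module.finrank F (L H) = H.index := by
  rw [IntermediateField.finrank_eq_fixingSubgroup_index, top_fix (isClosed_of_isOpen h)]

theorem finrank_rat_L {H : Subgroup Gal(E/F)} (h : IsOpen (H : Set Gal(E/F))) :
    Module.finrank ℚ (L H) = deg H := by
  rw [deg, ← finrank_L h, mul_comm, Module.finrank_mul_finrank]

theorem mem_of_fix_L {H : Subgroup Gal(E/F)} (h : IsClosed (H : Set Gal(E/F))) {g : Gal(E/F)}
    (hg : ∀ x ∈ L H, g x = x) : g ∈ H := by
  rw [← top_fix h, IntermediateField.mem_fixingSubgroup_iff]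
  exact hg

theorem fixingSubgroup_L {H : Subgroup Gal(E/F)} (h : IsClosed (H : Set Gal(E/F))) :
    (L H).fixingSubgroup = H := by
  exact top_fix h

theorem mem_L_top {x : E} : x ∈ L (⊤ : Subgroup Gal(E/F)) ↔ ∃ a : F, algebraMap F E a = x := by
  rw [L, InfiniteGalois.fixedField_bot, IntermediateField.mem_bot]
  rfl

/-- a closed subgroup is the intersection of the `Γ N`. -/
theorem mem_of_forall_normal {Γ : Subgroup Gal(E/F)} (hΓ : IsClosed (Γ : Set Gal(E/F)))
    {g : Gal(E/F)} (h : ∀ N : Subgroup Gal(E/F), N.Normal → IsOpen (N : Set Gal(E/F)) →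
      ∃ γ ∈ Γ, γ⁻¹ * g ∈ N) : g ∈ Γ := by
  by_contra hg
  have hc : Continuous fun x : Gal(E/F) => g * x⁻¹ := by fun_prop
  obtain ⟨N, hN⟩ := ProfiniteGrp.exist_openNormalSubgroup_sub_open_nhds_of_one
    (hΓ.isOpen_compl.preimage hc) (by simpa using hg)
  obtain ⟨γ, hγ, h1⟩ := h N.toSubgroup N.isNormal' N.isOpen
  apply hN h1
  simpa using hγ

/-- a compact set missing a closed subgroup misses an open subgroup containing it
(take `U = Γ ⊔ N`, `N` open normal small; finite subcover). -/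
theorem exists_open_sep {Γ : Subgroup Gal(E/F)} (hΓ : IsClosed (Γ : Set Gal(E/F)))
    {Z : Set Gal(E/F)} (hZ : IsCompact Z) (h : ∀ z ∈ Z, z ∉ Γ) :
    ∃ U : Subgroup Gal(E/F), IsOpen (U : Set Gal(E/F)) ∧ Γ ≤ U ∧ ∀ z ∈ Z, z ∉ U := by
  have key : ∀ z ∈ Z, ∃ U : Subgroup Gal(E/F), IsOpen (U : Set Gal(E/F)) ∧ Γ ≤ U ∧ z ∉ U := by
    intro z hz
    by_contra hc
    push Not at hc
    refine h z hz (mem_of_forall_normal hΓ fun N hN hNo => ?_)
    obtain ⟨γ, hγ, n, hn, e⟩ := Subgroup.mem_sup_of_normal_right.1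
      (hc (Γ ⊔ N) (Subgroup.isOpen_mono le_sup_right hNo) le_sup_left)
    exact ⟨γ, hγ, by rw [← e]; simpa using hn⟩
  choose! U hU1 hU2 hU3 using key
  obtain ⟨t, ht, hcov⟩ := hZ.elim_nhds_subcover (fun z => (U z : Set Gal(E/F))ᶜ) fun z hz =>
    (isClosed_of_isOpen (hU1 z hz)).isOpen_compl.mem_nhds (hU3 z hz)
  refine ⟨⨅ z ∈ t, U z, ?_, le_iInf₂ fun z hz => hU2 z (ht z hz), fun z hz hm => ?_⟩
  · simp only [Subgroup.coe_iInf]
    exact isOpen_biInter_finset fun z hz => hU1 z (ht z hz)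
  · obtain ⟨y, hy, h1⟩ := Set.mem_iUnion₂.1 (hcov hz)
    exact h1 (Subgroup.mem_iInf.1 (Subgroup.mem_iInf.1 hm y) hy)

/-- compactness principle over the directed system of open normal subgroups. -/
theorem exists_forall_normal {X : Type*} [TopologicalSpace X] [CompactSpace X]
    (C : Subgroup Gal(E/F) → Set X)
    (hcl : ∀ N : Subgroup Gal(E/F), N.Normal → IsOpen (N : Set Gal(E/F)) → IsClosed (C N))
    (hne : ∀ N : Subgroup Gal(E/F), N.Normal → IsOpen (N : Set Gal(E/F)) → (C N).Nonempty)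
    (hmono : ∀ N N' : Subgroup Gal(E/F), N' ≤ N → C N' ⊆ C N) :
    ∃ x, ∀ N : Subgroup Gal(E/F), N.Normal → IsOpen (N : Set Gal(E/F)) → x ∈ C N := by
  have : Nonempty {N : Subgroup Gal(E/F) // N.Normal ∧ IsOpen (N : Set Gal(E/F))} :=
    ⟨⟨⊤, inferInstance, by simp⟩⟩
  obtain ⟨x, hx⟩ := IsCompact.nonempty_iInter_of_directed_nonempty_isCompact_isClosed
    (fun N : {N : Subgroup Gal(E/F) // N.Normal ∧ IsOpen (N : Set Gal(E/F))} => C N.1)
    (fun N N' => ⟨⟨N.1 ⊓ N'.1, @Subgroup.normal_inf_normal _ _ _ _ N.2.1 N'.2.1, isOpen_inf N.2.2 N'.2.2⟩,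
      hmono _ _ inf_le_left, hmono _ _ inf_le_right⟩)
    (fun N => hne _ N.2.1 N.2.2) (fun N => (hcl _ N.2.1 N.2.2).isCompact) fun N => hcl _ N.2.1 N.2.2
  exact ⟨x, fun N h1 h2 => Set.mem_iInter.1 hx ⟨N, h1, h2⟩⟩

theorem deg_pos {H : Subgroup Gal(E/F)} (h : IsOpen (H : Set Gal(E/F))) : 0 < deg H := by
  exact Nat.mul_pos (Nat.pos_of_ne_zero (index_ne_zero_of_isOpen h)) Module.finrank_pos

theorem deg_eq_mul {H H' : Subgroup Gal(E/F)} (hle : H' ≤ H) : deg H' = H'.relIndex H * deg H := by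
  rw [deg, deg, ← mul_assoc, Subgroup.relIndex_mul_index hle]

theorem deg_rat {Ω : Type*} [Field Ω] [CharZero Ω] (H : Subgroup Gal(Ω/ℚ)) : deg H = H.index := by
  simp [deg]

theorem top_totient_dvd [RadCl E] {H : Subgroup Gal(E/F)} (h : IsOpen (H : Set Gal(E/F))) {N : ℕ}
    (hN : N ≠ 0) (hi : H ≤ FixMu F E N) : N.totient ∣ deg H := by
  have := numberField_L h
  have hz : IsPrimitiveRoot (⟨zeta E N, mem_L.2 fun g hg => hi hg⟩ : L H) N :=
    IsPrimitiveRoot.coe_submonoidClass_iff.1 (zeta_prim hN)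
  rw [← finrank_rat_L h, ← Polynomial.natDegree_cyclotomic N ℚ,
    Polynomial.cyclotomic_eq_minpoly_rat hz (Nat.pos_of_ne_zero hN)]
  exact minpoly.degree_dvd (Algebra.IsIntegral.isIntegral _)

/-- `L H ∋ √-1`, so the degree is even. -/
theorem two_dvd_deg [RadCl E] {H : Subgroup Gal(E/F)} (h : IsOpen (H : Set Gal(E/F)))
    (hi : HasI H) : 2 ∣ deg H := by
  exact top_totient_dvd h (N := 4) (by norm_num) hi

/-- small normal subgroups of large degree (`L U ∋ ζ_N` forces `deg U ≥ φ(N)`). -/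
theorem exists_small_normal [RadCl E] {U0 : Subgroup Gal(E/F)} (h : IsOpen (U0 : Set Gal(E/F)))
    (n : ℕ) : ∃ U : Subgroup Gal(E/F), U.Normal ∧ IsOpen (U : Set Gal(E/F)) ∧ U ≤ U0 ∧ HasI U ∧
      n ≤ deg U := by
  obtain ⟨p, hn, hp⟩ := Nat.exists_infinite_primes (n + 1)
  have ho := isOpen_normalCore (isOpen_inf h (isOpen_inf (isOpen_FixMu (F := F) (E := E) 4)
    (isOpen_FixMu (F := F) (E := E) p)))
  have hle := Subgroup.normalCore_le (U0 ⊓ (FixMu F E 4 ⊓ FixMu F E p))
  refine ⟨_, inferInstance, ho, hle.trans inf_le_left,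
    hle.trans (inf_le_right.trans inf_le_left), ?_⟩
  have := Nat.le_of_dvd (deg_pos ho)
    (top_totient_dvd ho hp.ne_zero (hle.trans (inf_le_right.trans inf_le_right)))
  rw [Nat.totient_prime hp] at this
  omega

end Crest.Agent.R018
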