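import Crest.Agent.R018.UnitA
import Crest.Agent.R018.Herb

/-!
# R018 / U2

(U2) many eigen-units.  Let `X = SU H' ∅`, `T x = σ x / x^u`.  For the pair `(T, 1)`: `hq 1 T X = [X : T X]`, `hq T 1 X = |ker T|`.  On `Λ = ℤ^{r × n}` with the shift,
`T` is injective with cokernel of order `(u^n - 1)^r` (`ℤ[C_n]/(τ - u) ≅ ℤ/(u^n - 1)` via `c ↦ ∑ c_i u^i`); on `ℤκ` it is multiplication by `1 - u`.  By `hq_map`,
`hq_mul_of_le`: `[X : T X] (u - 1) = |ker T| (u^n - 1)^r`, so `l^{k (r-1)}` divides `[X : T X]` (`v_l (u - 1) ≤ k`).  `Q = X / T X` is killed by `u^n - 1 = l^k w`, `l ∤ w`, so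
`|Q / Q^{l^k}|` is the `l`-part of `|Q|`.  On the finite group `X / X^{l^k}`, `|ker T| = |coker T| = |Q / Q^{l^k}|`.  Elements of `X` that are `l^k`-th powers in
`LU H'` are `l^k`-th powers in `X`.
-/

set_option autoImplicit false
set_option linter.unusedSectionVars false

noncomputable section

namespace Crest.Agent.R018

open scoped NNReal Classical

variable {F E : Type*} [Field F] [NumberField F] [Field E] [CharZero E] [Algebra F E]
  [IsGalois F E] [RadCl E]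
variable {H H' : Subgroup Gal(E/F)} {σ : Gal(E/F)} {n : ℕ} {π : E}

section aux
variable {M Γ : Type*} [CommGroup M] [Group Γ] [MulDistribMulAction Γ M]

variable (M) in
/-- `x ↦ σ x / x ^ u`. -/
def u2T (τ : Γ) (u : ℕ) : M →* M := MulDistribMulAction.toMonoidHom M τ / powMonoidHom u

theorem u2T_apply (τ : Γ) (u : ℕ) (x : M) : u2T M τ u x = τ • x / x ^ u := rfl

theorem u2T_smul (τ : Γ) (u : ℕ) (x : M) : u2T M τ u (τ • x) = τ • u2T M τ u x := by
  simp [u2T_apply, smul_div', smul_pow']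

theorem u2_pow_mem {τ : Γ} {u m : ℕ} {X B : Subgroup M} (hu : 1 ≤ u) (hX : ∀ x ∈ X, τ • x ∈ X)
    (hB : ∀ x ∈ X, u2T M τ u x ∈ B) {x : M} (hx : x ∈ X) (hm : τ ^ m • x = x) :
    x ^ (u ^ m - 1) ∈ B := by
  have key : ∀ i : ℕ, τ ^ i • x ∈ X ∧ τ ^ i • x / x ^ u ^ i ∈ B := by
    intro i
    induction i with
    | zero => simp [hx]
    | succ i ih =>
      rw [pow_succ', mul_smul]
      refine ⟨hX _ ih.1, ?_⟩
      have := B.mul_mem (hB _ ih.1) (B.pow_mem ih.2 u)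
      rwa [u2T_apply, div_pow, div_mul_div_cancel, ← pow_mul, ← pow_succ] at this
  have h := B.inv_mem (key m).2
  rw [hm, inv_div] at h
  have e : x ^ u ^ m = x ^ (u ^ m - 1) * x := by
    rw [← pow_succ, Nat.sub_add_cancel (Nat.one_le_pow _ _ hu)]
  rwa [e, mul_div_cancel_right] at h

theorem u2_cyc {A B : Subgroup M} {g : M} (hg : g ∈ A) (hA : ∀ a ∈ A, ∃ t : ℤ, a = g ^ t) {m : ℕ}
    (hm : g ^ m ∈ B) : B.relIndex A ∣ m := by
  have h1 : orderOf (QuotientGroup.mk (⟨g, hg⟩ : A) : A ⧸ B.subgroupOf A) =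
      Nat.card (A ⧸ B.subgroupOf A) := by
    refine orderOf_eq_card_of_forall_mem_zpowers fun y => ?_
    obtain ⟨⟨a, ha⟩, rfl⟩ := QuotientGroup.mk_surjective y
    obtain ⟨t, rfl⟩ := hA a ha
    exact ⟨t, rfl⟩
  rw [Subgroup.relIndex, Subgroup.index_eq_card, ← h1]
  refine orderOf_dvd_of_pow_eq_one ?_
  rw [← QuotientGroup.mk_pow, QuotientGroup.eq_one_iff]
  exact hm

theorem u2_not_dvd {A B : Subgroup M} (hfin : B.relIndex A ≠ 0) {l w : ℕ} (hl : l.Prime)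
    (hw : ¬ l ∣ w) (h : ∀ a ∈ A, a ^ w ∈ B) : ¬ l ∣ B.relIndex A := by
  intro hd
  have : Fact l.Prime := ⟨hl⟩
  have : Finite (A ⧸ B.subgroupOf A) := Subgroup.index_ne_zero_iff_finite.1 hfin
  obtain ⟨y, hy⟩ := exists_prime_orderOf_dvd_card' (G := A ⧸ B.subgroupOf A) l hd
  obtain ⟨a, rfl⟩ := QuotientGroup.mk_surjective y
  refine hw (hy ▸ orderOf_dvd_of_pow_eq_one ?_)
  rw [← QuotientGroup.mk_pow, QuotientGroup.eq_one_iff]
  exact h a a.2

theorem u2_reps {A B : Subgroup M} (hfin : B.relIndex A ≠ 0) :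
    ∃ s : Finset M, s.card = B.relIndex A ∧ (∀ x ∈ s, x ∈ A) ∧
      ∀ x ∈ s, ∀ x' ∈ s, x'⁻¹ * x ∈ B → x = x' := by
  have : Finite (A ⧸ B.subgroupOf A) := Subgroup.index_ne_zero_iff_finite.1 hfin
  have : Fintype (A ⧸ B.subgroupOf A) := Fintype.ofFinite _
  have hinj : Function.Injective fun y : A ⧸ B.subgroupOf A => ((y.out : A) : M) :=
    Subtype.val_injective.comp Quotient.out_injective
  refine ⟨Finset.univ.image fun y : A ⧸ B.subgroupOf A => ((y.out : A) : M), ?_, ?_, ?_⟩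
  · rw [Finset.card_image_of_injective _ hinj, Finset.card_univ, Subgroup.relIndex,
      Subgroup.index_eq_card, Nat.card_eq_fintype_card]
  · intro x hx
    obtain ⟨y, -, rfl⟩ := Finset.mem_image.1 hx
    exact y.out.2
  · intro x hx x' hx' hb
    obtain ⟨y, -, rfl⟩ := Finset.mem_image.1 hx
    obtain ⟨y', -, rfl⟩ := Finset.mem_image.1 hx'
    have : (QuotientGroup.mk y'.out : A ⧸ B.subgroupOf A) = QuotientGroup.mk y.out :=
      QuotientGroup.eq.2 hb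
    rw [QuotientGroup.out_eq', QuotientGroup.out_eq'] at this
    rw [this]

/-- kernel and cokernel of an endomorphism of the finite group `X / P` have the same order. -/
theorem u2_ker_coker {X P : Subgroup M} (T : M →* M) (hPX : P ≤ X) (hX : ∀ x ∈ X, T x ∈ X)
    (hP : ∀ x ∈ P, T x ∈ P) (hfin : P.relIndex X ≠ 0) :
    P.relIndex (X ⊓ P.comap T) = (X.map T ⊔ P).relIndex X := by
  have hY : X.map T ⊔ P ≤ X := sup_le (Subgroup.map_le_iff_le_comap.2 hX) hPX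
  have hPZ : P ≤ X ⊓ P.comap T := le_inf hPX hP
  have e1 := Subgroup.relIndex_mul_relIndex P (X.map T ⊔ P) X le_sup_right hY
  have e2 := Subgroup.relIndex_mul_relIndex P (X ⊓ P.comap T) X hPZ inf_le_left
  have e3 : (X ⊓ P.comap T).relIndex X = P.relIndex (X.map T ⊔ P) := by
    rw [Subgroup.inf_relIndex_left, Subgroup.relIndex_comap, Subgroup.relIndex_sup_right]
  have e4 : P.relIndex (X.map T ⊔ P) ≠ 0 := fun h0 => hfin (by rw [← e1, h0, zero_mul])
  rw [e3, ← e1, mul_comm] at e2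
  exact Nat.eq_of_mul_eq_mul_left (Nat.pos_of_ne_zero e4) e2

theorem u2_hq_left (T : M →* M) (X : Subgroup M) : hq 1 T X = (X.map T).relIndex X := by
  unfold hq
  rw [MonoidHom.ker_one, inf_top_eq]

theorem u2_hq_right (T : M →* M) (X : Subgroup M) : hq T 1 X = Nat.card ↥(X ⊓ T.ker) := by
  unfold hq
  have : X.map (1 : M →* M) = ⊥ := by
    rw [eq_bot_iff]
    rintro _ ⟨x, -, rfl⟩
    exact Subgroup.mem_bot.2 rfl
  rw [this, Subgroup.relIndex_bot_left]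

theorem u2_hPair {T : M →* M} {X : Subgroup M} (h : ∀ x ∈ X, T x ∈ X) : HPair 1 T X :=
  ⟨fun _ _ => X.one_mem, h, fun _ _ => rfl, fun _ _ => map_one T⟩

variable {r n : ℕ}

/-- the free module on the units `τ^i e_j`. -/
def u2Φ (τ : Γ) (n : ℕ) (e : Fin r → M) : Multiplicative (Fin r → Fin n → ℤ) →* M where
  toFun c := ∏ j, ∏ i : Fin n, (τ ^ (i : ℕ) • e j) ^ c.toAdd j i
  map_one' := by simp
  map_mul' c d := by simp [zpow_add, Finset.prod_mul_distrib]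

theorem u2Φ_apply (τ : Γ) (e : Fin r → M) (c : Multiplicative (Fin r → Fin n → ℤ)) :
    u2Φ τ n e c = ∏ j, ∏ i : Fin n, (τ ^ (i : ℕ) • e j) ^ c.toAdd j i := rfl

/-- shift minus `u`. -/
def u2S (r n : ℕ) [NeZero n] (u : ℕ) :
    Multiplicative (Fin r → Fin n → ℤ) →* Multiplicative (Fin r → Fin n → ℤ) where
  toFun c := Multiplicative.ofAdd fun j i => c.toAdd j (i - 1) - u * c.toAdd j i
  map_one' := by
    apply Multiplicative.toAdd.injective
    funext j i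
    simp
  map_mul' c d := by
    apply Multiplicative.toAdd.injective
    funext j i
    simp
    ring

theorem u2S_apply [NeZero n] (u : ℕ) (c : Multiplicative (Fin r → Fin n → ℤ)) (j : Fin r)
    (i : Fin n) : (u2S r n u c).toAdd j i = c.toAdd j (i - 1) - u * c.toAdd j i := rfl

theorem u2_smul_mod {τ : Γ} {x : M} (hx : τ ^ n • x = x) (a : ℕ) : τ ^ (a % n) • x = τ ^ a • x := by
  have : ∀ b : ℕ, (τ ^ n) ^ b • x = x := fun b => by
    induction b with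
    | zero => simp
    | succ b ih => rw [pow_succ, mul_smul, hx, ih]
  conv_rhs => rw [← Nat.mod_add_div a n, pow_add, pow_mul, mul_smul, this]

theorem u2_val_succ [NeZero n] (i : Fin n) : ((i + 1 : Fin n) : ℕ) = (i + 1) % n := by
  rw [Fin.val_add, Fin.val_one', Nat.add_mod_mod]

theorem u2Φ_S [NeZero n] {τ : Γ} {e : Fin r → M} (he : ∀ j, τ ^ n • e j = e j) (u : ℕ)
    (c : Multiplicative (Fin r → Fin n → ℤ)) :
    u2Φ τ n e (u2S r n u c) = u2T M τ u (u2Φ τ n e c) := by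
  rw [u2T_apply, u2Φ_apply, u2Φ_apply, Finset.smul_prod', ← Finset.prod_pow,
    ← Finset.prod_div_distrib]
  refine Finset.prod_congr rfl fun j _ => ?_
  simp only [u2S_apply, zpow_sub, Finset.prod_mul_distrib, Finset.prod_inv_distrib]
  rw [div_eq_mul_inv, ← Finset.prod_pow, Finset.smul_prod']
  congr 1
  · rw [← Equiv.prod_comp (Equiv.addRight (1 : Fin n))]
    refine Finset.prod_congr rfl fun i _ => ?_
    rw [Equiv.coe_addRight, add_sub_cancel_right, u2_val_succ, u2_smul_mod (he j), smul_zpow',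
      pow_succ', mul_smul]
  · congr 1
    refine Finset.prod_congr rfl fun i _ => ?_
    rw [mul_comm, zpow_mul, zpow_natCast]

theorem u2S_ker [NeZero n] {u : ℕ} (hu : 2 ≤ u) : (u2S r n u).ker = ⊥ := by
  rw [eq_bot_iff]
  intro c hc
  have h : ∀ j i, c.toAdd j (i - 1) = u * c.toAdd j i := fun j i => by
    have : (u2S r n u c).toAdd j i = 0 := by rw [MonoidHom.mem_ker.1 hc]; rfl
    rw [u2S_apply] at this
    linarith
  refine Subgroup.mem_bot.2 (Multiplicative.toAdd.injective (funext fun j => funext fun i => ?_))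
  have h1 : ∑ i, |c.toAdd j i| = u * ∑ i, |c.toAdd j i| := by
    conv_lhs => rw [← Equiv.sum_comp (Equiv.subRight (1 : Fin n))]
    rw [Finset.mul_sum]
    refine Finset.sum_congr rfl fun i _ => ?_
    rw [Equiv.subRight_apply, h, abs_mul, Nat.abs_cast]
  have h2 : 0 ≤ ∑ i, |c.toAdd j i| := Finset.sum_nonneg fun i _ => abs_nonneg _
  have h3 : (2 : ℤ) ≤ u := by exact_mod_cast hu
  have h4 : ∑ i, |c.toAdd j i| = 0 := by nlinarith
  exact abs_eq_zero.1
    ((Finset.sum_eq_zero_iff_of_nonneg fun i _ => abs_nonneg _).1 h4 i (Finset.mem_univ i))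

theorem u2S_index [NeZero n] {u q : ℕ} (hq : (u : ZMod q) ^ n = 1) :
    q ^ r ∣ ((⊤ : Subgroup (Multiplicative (Fin r → Fin n → ℤ))).map (u2S r n u)).index := by
  let ψ : Multiplicative (Fin r → Fin n → ℤ) →* Multiplicative (Fin r → ZMod q) :=
    { toFun := fun c => Multiplicative.ofAdd fun j => ∑ i, (c.toAdd j i : ZMod q) * (u : ZMod q) ^ (i : ℕ)
      map_one' := by
        apply Multiplicative.toAdd.injective
        funext j
        simp
      map_mul' := fun c d => by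
        apply Multiplicative.toAdd.injective
        funext j
        simp [add_mul, Finset.sum_add_distrib] }
  have hψ : ∀ c j, (ψ c).toAdd j = ∑ i, (c.toAdd j i : ZMod q) * (u : ZMod q) ^ (i : ℕ) :=
    fun _ _ => rfl
  have hsurj : ψ.range = ⊤ := by
    rw [eq_top_iff]
    intro y _
    choose t ht using fun j => ZMod.intCast_surjective (y.toAdd j)
    refine ⟨Multiplicative.ofAdd fun j => Pi.single 0 (t j), ?_⟩
    apply Multiplicative.toAdd.injective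
    funext j
    rw [hψ, Finset.sum_eq_single (0 : Fin n)]
    · simp [ht]
    · intro i _ hi
      simp [Pi.single_eq_of_ne hi]
    · simp
  have hle : (⊤ : Subgroup (Multiplicative (Fin r → Fin n → ℤ))).map (u2S r n u) ≤ ψ.ker := by
    rintro _ ⟨c, -, rfl⟩
    refine MonoidHom.mem_ker.2 (Multiplicative.toAdd.injective (funext fun j => ?_))
    rw [hψ]
    simp only [u2S_apply, Int.cast_sub, sub_mul, Finset.sum_sub_distrib]
    rw [← Equiv.sum_comp (Equiv.addRight (1 : Fin n))]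
    change _ = 0
    rw [sub_eq_zero]
    refine Finset.sum_congr rfl fun i _ => ?_
    rw [Equiv.coe_addRight, add_sub_cancel_right, u2_val_succ, ← pow_eq_pow_mod _ hq]
    push_cast
    ring
  have := Subgroup.index_dvd_of_le hle
  rwa [Subgroup.index_ker, hsurj, Subgroup.card_top, Nat.card_congr Multiplicative.toAdd,
    Nat.card_fun, Nat.card_zmod, Nat.card_eq_fintype_card, Fintype.card_fin] at this

theorem u2_arith {l k r a b c : ℕ} (hl : l.Prime) (hb : b ≠ 0) (hc : ¬ l ^ (k + 1) ∣ c)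
    (ha : (l ^ k) ^ r ∣ a) (h : a ∣ c * b) : (l ^ k) ^ (r - 1) ∣ b := by
  have hc0 : c ≠ 0 := fun h0 => hc (h0 ▸ dvd_zero _)
  rw [← pow_mul] at ha ⊢
  have h1 := (hl.pow_dvd_iff_le_factorization (mul_ne_zero hc0 hb)).1 (ha.trans h)
  rw [Nat.factorization_mul hc0 hb, Finsupp.add_apply] at h1
  rw [hl.pow_dvd_iff_le_factorization hc0] at hc
  rw [hl.pow_dvd_iff_le_factorization hb, Nat.mul_sub_one]
  omega

theorem u2_main [NeZero n] {τ : Γ} {X : Subgroup M} (hτ : ∀ x ∈ X, τ • x ∈ X)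
    (hn : ∀ x ∈ X, τ ^ n • x = x) {e : Fin r → M} (he : ∀ j, e j ∈ X)
    (hidx : (Subgroup.closure {x | ∃ j, ∃ i : ℕ, x = τ ^ i • e j}).relIndex X ≠ 0)
    {κ : Fin r → ℤ} (hrel : ∀ c : Fin r → Fin n → ℤ,
        (∏ j, ∏ i : Fin n, (τ ^ (i : ℕ) • e j) ^ c j i = 1 ↔ ∃ t : ℤ, ∀ j i, c j i = t * κ j))
    {l k u : ℕ} (hker : Finite ↥(X ⊓ (u2T M τ u).ker)) (hl : l.Prime) (hu : 2 ≤ u)
    (h1 : l ^ k ∣ u ^ n - 1) (h2 : ¬ l ^ (k + 1) ∣ u ^ n - 1) :
    (Pw X (l ^ k)).relIndex (X ⊓ (Pw X (l ^ k)).comap (u2T M τ u)) ≠ 0 ∧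
    (l ^ k) ^ (r - 1) ≤ (Pw X (l ^ k)).relIndex (X ⊓ (Pw X (l ^ k)).comap (u2T M τ u)) := by
  set T := u2T M τ u with hT
  set Φ := u2Φ τ n e with hΦ
  set S := u2S r n u with hS
  have hτi : ∀ (i : ℕ), ∀ x ∈ X, τ ^ i • x ∈ X := fun i => by
    induction i with
    | zero => simp
    | succ i ih => intro x hx; rw [pow_succ', mul_smul]; exact hτ _ (ih x hx)
  have hTX : ∀ x ∈ X, T x ∈ X := fun x hx => X.div_mem (hτ x hx) (X.pow_mem hx u)
  have hcomm : ∀ c, Φ (S c) = T (Φ c) := u2Φ_S (fun j => hn _ (he j)) u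
  have hX'X : (⊤ : Subgroup _).map Φ ≤ X := by
    rintro _ ⟨c, -, rfl⟩
    rw [hΦ, u2Φ_apply]
    exact X.prod_mem fun j _ => X.prod_mem fun i _ => X.zpow_mem (hτi _ _ (he j)) _
  have hcl : Subgroup.closure {x | ∃ j, ∃ i : ℕ, x = τ ^ i • e j} ≤ (⊤ : Subgroup _).map Φ := by
    rw [Subgroup.closure_le]
    rintro _ ⟨j, i, rfl⟩
    refine ⟨Multiplicative.ofAdd (Pi.single j (Pi.single ⟨i % n, Nat.mod_lt _ (NeZero.pos n)⟩ 1)),
      trivial, ?_⟩
    rw [hΦ, u2Φ_apply, Finset.prod_eq_single j, Finset.prod_eq_single ⟨i % n, Nat.mod_lt _ (NeZero.pos n)⟩]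
    · simp [u2_smul_mod (hn _ (he j))]
    · intro i' _ hi'
      simp [Pi.single_eq_of_ne hi']
    · simp
    · intro j' _ hj'
      simp [Pi.single_eq_of_ne hj']
    · simp
  have hidx' : ((⊤ : Subgroup _).map Φ).relIndex X ≠ 0 := fun h0 =>
    hidx (Subgroup.relIndex_eq_zero_of_le_left hcl h0)
  -- finiteness of `X / X^m`
  have hfin : ∀ m : ℕ, m ≠ 0 → (Pw X m).relIndex X ≠ 0 := fun m hm => by
    have hfg : ((⊤ : Subgroup _).map Φ).FG := by
      rw [← MonoidHom.range_eq_map]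
      exact (Group.fg_iff_subgroup_fg _).1 (Group.fg_range Φ)
    have a1 := (Subgroup.isFiniteRelIndex_map_powMonoidHom_of_fg hfg hm).relIndex_ne_zero
    have a2 := Subgroup.relIndex_ne_zero_trans a1 hidx'
    exact fun h0 => a2 (Subgroup.relIndex_eq_zero_of_le_left (Subgroup.map_mono hX'X) h0)
  have hN : u ^ n - 1 ≠ 0 := fun h0 => h2 (h0 ▸ dvd_zero _)
  have hpowT : ∀ x ∈ X, x ^ (u ^ n - 1) ∈ X.map T := fun x hx =>
    u2_pow_mem (by omega) hτ (fun y hy => Subgroup.mem_map_of_mem _ hy) hx (hn x hx)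
  have hb : (X.map T).relIndex X ≠ 0 := fun h0 => hfin _ hN
    (Subgroup.relIndex_eq_zero_of_le_left (by rintro _ ⟨x, hx, rfl⟩; exact hpowT x hx) h0)
  -- the relation module
  have hκ : Multiplicative.ofAdd (fun j (_ : Fin n) => κ j) ∈ (⊤ : Subgroup _) ⊓ Φ.ker :=
    ⟨trivial, (hrel _).2 ⟨1, fun j i => by simp⟩⟩
  have hc : hq 1 S (⊤ ⊓ Φ.ker) ∣ u - 1 := by
    rw [u2_hq_left]
    refine u2_cyc hκ (fun a ha => ?_) ?_
    · obtain ⟨t, ht⟩ := (hrel a.toAdd).1 ha.2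
      refine ⟨t, Multiplicative.toAdd.injective (funext fun j => funext fun i => ?_)⟩
      simp [ht]
    · refine ⟨_, Subgroup.inv_mem _ hκ, ?_⟩
      apply Multiplicative.toAdd.injective
      funext j i
      rw [hS, u2S_apply]
      simp only [toAdd_inv, toAdd_ofAdd, Pi.neg_apply, toAdd_pow, Pi.smul_apply, nsmul_eq_mul]
      rw [Nat.cast_sub (by omega)]
      push_cast
      ring
  have hc0 : hq 1 S (⊤ ⊓ Φ.ker) ≠ 0 := fun h0 => by
    rw [h0, zero_dvd_iff] at hc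
    omega
  have hS1 : ∀ Y : Subgroup _, hq S 1 Y = 1 := fun Y => by
    rw [u2_hq_right, hS, u2S_ker hu, inf_bot_eq, Subgroup.card_bot]
  have m1 := hq_map (f := 1) (g := S) (f' := 1) (g' := T) (X := ⊤) (u2_hPair fun _ _ => trivial) Φ
    (fun _ _ => map_one Φ) (fun c _ => hcomm c) hc0 (by rw [hS1]; exact one_ne_zero)
  have hTX' : ∀ x ∈ (⊤ : Subgroup _).map Φ, T x ∈ (⊤ : Subgroup _).map Φ := by
    rintro _ ⟨c, -, rfl⟩
    exact ⟨S c, trivial, hcomm c⟩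
  have m2 := hq_mul_of_le (u2_hPair hTX') (u2_hPair hTX) hX'X hidx'
  rw [hS1, hS1, mul_one, one_mul] at m1
  have hk' : hq T 1 ((⊤ : Subgroup _).map Φ) ≠ 0 := by
    rw [u2_hq_right]
    have : Finite ↥((⊤ : Subgroup _).map Φ ⊓ T.ker) :=
      Finite.of_injective _ (Subgroup.inclusion_injective (inf_le_inf_right T.ker hX'X))
    exact Nat.card_pos.ne'
  have m3 : hq 1 S ⊤ * hq T 1 X = hq 1 S (⊤ ⊓ Φ.ker) * hq 1 T X := by
    refine Nat.eq_of_mul_eq_mul_left (Nat.pos_of_ne_zero hk') ?_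
    calc hq T 1 ((⊤ : Subgroup _).map Φ) * (hq 1 S ⊤ * hq T 1 X)
        = (hq 1 S ⊤ * hq T 1 ((⊤ : Subgroup _).map Φ)) * hq T 1 X := by ring
      _ = hq 1 S (⊤ ⊓ Φ.ker) * (hq 1 T ((⊤ : Subgroup _).map Φ) * hq T 1 X) := by rw [m1]; ring
      _ = _ := by rw [m2]; ring
  have ha : (l ^ k) ^ r ∣ hq 1 S ⊤ := by
    rw [u2_hq_left, Subgroup.relIndex_top_right]
    refine u2S_index ?_
    have := (ZMod.natCast_eq_zero_iff _ _).2 h1
    rwa [Nat.cast_sub (Nat.one_le_pow _ _ (by omega)), sub_eq_zero, Nat.cast_pow, Nat.cast_one] at this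
  have hc2 : ¬ l ^ (k + 1) ∣ hq 1 S (⊤ ⊓ Φ.ker) := fun h0 =>
    h2 ((h0.trans hc).trans (Nat.sub_one_dvd_pow_sub_one u n))
  have hdvd : (l ^ k) ^ (r - 1) ∣ (X.map T).relIndex X := by
    rw [← u2_hq_left] at hb ⊢
    exact u2_arith hl hb hc2 ha (m3 ▸ dvd_mul_right _ _)
  -- pass to `X / X^q`
  have hq0 : l ^ k ≠ 0 := pow_ne_zero _ hl.ne_zero
  have hPX : Pw X (l ^ k) ≤ X := by rintro _ ⟨x, hx, rfl⟩; exact X.pow_mem hx _
  have hY : X.map T ⊔ Pw X (l ^ k) ≤ X := sup_le (Subgroup.map_le_iff_le_comap.2 hTX) hPX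
  have e1 := Subgroup.relIndex_mul_relIndex (X.map T) (X.map T ⊔ Pw X (l ^ k)) X le_sup_left hY
  obtain ⟨w, hw⟩ := h1
  have hlw : ¬ l ∣ w := fun h0 => h2 (by rw [hw, pow_succ]; exact mul_dvd_mul_left _ h0)
  have hnd : ¬ l ∣ (X.map T).relIndex (X.map T ⊔ Pw X (l ^ k)) := by
    refine u2_not_dvd (fun h0 => hb (by rw [← e1, h0, zero_mul])) hl hlw fun a ha => ?_
    obtain ⟨t, ht, _, ⟨x, hx, rfl⟩, rfl⟩ := Subgroup.mem_sup.1 ha
    rw [mul_pow, powMonoidHom_apply, ← pow_mul, ← hw]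
    exact Subgroup.mul_mem _ (Subgroup.pow_mem _ ht _) (hpowT x hx)
  have hY0 : (X.map T ⊔ Pw X (l ^ k)).relIndex X ≠ 0 := fun h0 => hb (by rw [← e1, h0, mul_zero])
  rw [u2_ker_coker T hPX hTX (by
    rintro _ ⟨x, hx, rfl⟩
    exact ⟨T x, hTX x hx, by simp⟩) (hfin _ hq0)]
  refine ⟨hY0, Nat.le_of_dvd (Nat.pos_of_ne_zero hY0) ?_⟩
  rw [← e1] at hdvd
  refine Nat.Coprime.dvd_of_dvd_mul_left ?_ hdvd
  exact Nat.Coprime.pow_left _ (Nat.Coprime.pow_left _ ((Nat.Prime.coprime_iff_not_dvd hl).2 hnd))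

end aux

theorem exists_eigen_units (h : CycExt H H' σ n) (hi : HasI H) {l k u : ℕ} (hl : l.Prime) (hu : 2 ≤ u)
    (h1 : l ^ k ∣ u ^ n - 1) (h2 : ¬ l ^ (k + 1) ∣ u ^ n - 1) :
    ∃ s : Finset Eˣ, (l ^ k) ^ (deg H / 2 - 1) ≤ s.card ∧
      (∀ x ∈ s, x ∈ SU H' ∅ ∧ ∃ w ∈ SU H' ∅, σ • x = x ^ u * w ^ l ^ k) ∧
      ∀ x ∈ s, ∀ x' ∈ s, ∀ w ∈ LU H', x = x' * w ^ l ^ k → x = x' := by
  obtain ⟨e, he, hidx, κ, hκ, hrel⟩ := exists_units h hi
  have hn := h.ne_zero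
  have : NeZero n := ⟨hn⟩
  have hfix : ∀ x ∈ SU H' (∅ : Set (Pl E)), ∀ g ∈ H', g • x = x := fun x hx =>
    mem_LU_iff_smul.1 hx.1
  have hσ : ∀ x ∈ SU H' (∅ : Set (Pl E)), σ • x ∈ SU H' (∅ : Set (Pl E)) := fun x hx =>
    ⟨mem_LU_iff_smul.2 (h.smul_fixed (hfix x hx) h.mem), fun W _ => by
      have := hx.2 (σ⁻¹ • W) (Set.notMem_empty _)
      simpa using this⟩
  have hσn : ∀ x ∈ SU H' (∅ : Set (Pl E)), σ ^ n • x = x := fun x hx =>
    hfix x hx _ ((h.pow_mem_iff n).2 dvd_rfl)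
  have hN : u ^ n - 1 ≠ 0 := fun h0 => h2 (h0 ▸ dvd_zero _)
  have hker : Finite ↥(SU H' (∅ : Set (Pl E)) ⊓ (u2T Eˣ σ u).ker) := by
    have : NeZero (u ^ n - 1) := ⟨hN⟩
    have hle : SU H' (∅ : Set (Pl E)) ⊓ (u2T Eˣ σ u).ker ≤ rootsOfUnity (u ^ n - 1) E := by
      intro x hx
      rw [mem_rootsOfUnity]
      exact Subgroup.mem_bot.1 (u2_pow_mem (X := SU H' (∅ : Set (Pl E)) ⊓ (u2T Eˣ σ u).ker)
        (B := ⊥) (by omega)
        (fun y hy => ⟨hσ y hy.1, by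
          have h0 : u2T Eˣ σ u y = 1 := hy.2
          change u2T Eˣ σ u (σ • y) = 1
          rw [u2T_smul, h0, smul_one]⟩)
        (fun y hy => Subgroup.mem_bot.2 hy.2) hx (hσn x hx.1))
    exact Finite.of_injective _ (Subgroup.inclusion_injective hle)
  obtain ⟨hfin, hle⟩ := u2_main hσ hσn he hidx hrel hker hl hu h1 h2
  obtain ⟨s, hs, hs1, hs2⟩ := u2_reps hfin
  refine ⟨s, hs ▸ hle, fun x hx => ?_, fun x hx x' hx' w hw hxw => ?_⟩
  · obtain ⟨hx1, w, hw, hw'⟩ := hs1 x hx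
    refine ⟨hx1, w, hw, ?_⟩
    have hw'' : w ^ l ^ k = σ • x / x ^ u := hw'
    rw [hw'']
    simp
  · refine hs2 x hx x' hx' ?_
    have hq : l ^ k ≠ 0 := pow_ne_zero _ hl.ne_zero
    have hx1 := (hs1 x hx).1
    have hx2 := (hs1 x' hx').1
    have hwX : w ∈ SU H' (∅ : Set (Pl E)) := ⟨hw, fun W hW => by
      have a1 := hx1.2 W hW
      have a2 := hx2.2 W hW
      rw [hxw] at a1
      simp only [Units.val_mul, Units.val_pow_eq_pow_val, map_mul, map_pow, a2, one_mul] at a1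
      exact (pow_eq_one_iff_of_nonneg zero_le hq).1 a1⟩
    refine ⟨w, hwX, ?_⟩
    rw [hxw]
    simp

/-- choice of the integer lift `u`. (If `l ∣ n` any lift works by LTE; otherwise adjust by a multiple of `l^k`.) -/
theorem exists_lift_exact {l k : ℕ} (hl : l.Prime) (hl2 : l ≠ 2) (hk : k ≠ 0) (x : (ZMod (l ^ k))ˣ) :
    ∃ u : ℕ, 2 ≤ u ∧ (u : ZMod (l ^ k)) = x ∧ l ^ k ∣ u ^ orderOf x - 1 ∧
      ¬ l ^ (k + 1) ∣ u ^ orderOf x - 1 := by
  have : Fact l.Prime := ⟨hl⟩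
  have hq : l ^ k ≠ 0 := pow_ne_zero _ hl.ne_zero
  have : NeZero (l ^ k) := ⟨hq⟩
  have hq2 : 2 ≤ l ^ k := hl.two_le.trans (Nat.le_self_pow hk l)
  have hpos : 0 < orderOf x := orderOf_pos x
  -- divisibility of `v ^ m - 1` by `l ^ k`
  have hdvd : ∀ v : ℕ, 1 ≤ v → (v : ZMod (l ^ k)) = x → ∀ m, l ^ k ∣ v ^ m - 1 ↔ x ^ m = 1 := by
    intro v hv hvx m
    rw [← ZMod.natCast_eq_zero_iff, Nat.cast_sub (Nat.one_le_pow _ _ hv), sub_eq_zero, Nat.cast_pow,
      hvx, Nat.cast_one, ← Units.val_pow_eq_pow_val, Units.val_eq_one]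
  have hcop : ∀ v : ℕ, (v : ZMod (l ^ k)) = x → ¬ l ∣ v := by
    intro v hvx hlv
    have hunit : IsUnit (v : ZMod (l ^ k)) := hvx ▸ x.isUnit
    have hc := (ZMod.isUnit_iff_coprime v (l ^ k)).1 hunit
    exact hl.one_lt.ne' (Nat.eq_one_of_dvd_coprimes hc hlv (dvd_pow_self l hk))
  set v := (x : ZMod (l ^ k)).val + l ^ k with hv
  have hvx : (v : ZMod (l ^ k)) = x := by
    rw [hv, Nat.cast_add, ZMod.natCast_zmod_val, ZMod.natCast_self, add_zero]
  have hv2 : 2 ≤ v := by omega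
  by_cases hA : l ^ (k + 1) ∣ v ^ orderOf x - 1
  · have hvx' : ((v + l ^ k : ℕ) : ZMod (l ^ k)) = x := by
      rw [Nat.cast_add, ZMod.natCast_self, add_zero, hvx]
    refine ⟨v + l ^ k, by omega, hvx', (hdvd _ (by omega) hvx' _).2 (pow_orderOf_eq_one x),
      fun hB => ?_⟩
    -- `l` divides the order
    have hln : l ∣ orderOf x := by
      have a1 := sq_dvd_add_pow_sub_sub ((l : ℤ) ^ k) (v : ℤ) (orderOf x)
      have a2 : (l : ℤ) ^ (k + 1) ∣ ((l : ℤ) ^ k) ^ 2 := by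
        rw [← pow_mul]; exact pow_dvd_pow _ (by omega)
      have a3 : (l : ℤ) ^ (k + 1) ∣ (v : ℤ) ^ orderOf x - 1 := by
        have := Int.natCast_dvd_natCast.2 hA
        rwa [Nat.cast_sub (Nat.one_le_pow _ _ (by omega)), Nat.cast_pow, Nat.cast_pow,
          Nat.cast_one] at this
      have a4 : (l : ℤ) ^ (k + 1) ∣ ((v : ℤ) + (l : ℤ) ^ k) ^ orderOf x - 1 := by
        have := Int.natCast_dvd_natCast.2 hB
        rwa [Nat.cast_sub (Nat.one_le_pow _ _ (by omega)), Nat.cast_pow, Nat.cast_pow,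
          Nat.cast_one, Nat.cast_add, Nat.cast_pow] at this
      have a5 : (l : ℤ) ^ k * l ∣ (l : ℤ) ^ k * ((v : ℤ) ^ (orderOf x - 1) * orderOf x) := by
        have := dvd_sub (dvd_sub a4 a3) (a2.trans a1)
        rw [← pow_succ]
        refine this.trans (dvd_of_eq ?_)
        ring
      have a6 := (mul_dvd_mul_iff_left (by exact_mod_cast hq)).1 a5
      have a7 : l ∣ v ^ (orderOf x - 1) * orderOf x := by exact_mod_cast a6
      exact ((Nat.Prime.dvd_mul hl).1 a7).resolve_left fun h => hcop v hvx (hl.dvd_of_dvd_pow h)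
    obtain ⟨m, hm⟩ := hln
    have hm0 : 0 < m := Nat.pos_of_ne_zero fun h0 => by rw [h0, mul_zero] at hm; omega
    have hy : ¬ l ∣ v ^ m := fun h => hcop v hvx (hl.dvd_of_dvd_pow h)
    have hy1 : 1 ≤ v ^ m := Nat.one_le_pow _ _ (by omega)
    rw [hm, mul_comm, pow_mul] at hA
    have hl1 : l ∣ v ^ m - 1 := by
      have b1 : l ∣ (v ^ m) ^ l - 1 := (dvd_pow_self l (Nat.succ_ne_zero k)).trans hA
      rw [← ZMod.natCast_eq_zero_iff, Nat.cast_sub (Nat.one_le_pow _ _ hy1), Nat.cast_pow,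
        ZMod.pow_card] at b1
      rw [← ZMod.natCast_eq_zero_iff, Nat.cast_sub hy1]
      exact b1
    have hlte := Nat.emultiplicity_pow_sub_pow hl (hl.odd_of_ne_two hl2) (x := v ^ m) (y := 1) hl1 hy l
    rw [one_pow, hl.emultiplicity_self] at hlte
    have b2 : ((k + 1 : ℕ) : ℕ∞) ≤ emultiplicity l (v ^ m - 1) + 1 :=
      hlte ▸ le_emultiplicity_of_pow_dvd hA
    have b3 : (k : ℕ∞) ≤ emultiplicity l (v ^ m - 1) := by
      rw [Nat.cast_add, Nat.cast_one] at b2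
      exact (WithTop.add_le_add_iff_right WithTop.one_ne_top).1 b2
    have b4 := (hdvd v (by omega) hvx m).1 (pow_dvd_of_le_emultiplicity b3)
    have b5 := Nat.le_of_dvd hm0 (orderOf_dvd_of_pow_eq_one b4)
    have := hl.two_le
    nlinarith
  · exact ⟨v, hv2, hvx, (hdvd v (by omega) hvx _).2 (pow_orderOf_eq_one x), hA⟩

end Crest.Agent.R018
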