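import Crest.Agent.R018.ZeroEst
import Crest.Agent.R018.DetDiv

/-!
# R018 / W0

(W0) Interpolation determinants.  Core case: `d + 1` rows indexed by `Fin (d+1)`, `c0 = 0`, `m = 4 (d+1) 3^(d+1) + 1` columns.  Put `n = d + 1`, `Z` large, `Y = Z²`,
`T = Y^n`, `D0 = 2 Y^d`, `κ = Fin n → Fin D0`, `N = D0^n`, `S = Z`.  By `zero_est` with `D = n D0` (`(n D0)^(2·3^n) < Z^m` for large `Z`) the columns of the matrix
`(∏_c β_c(s)^{t c})`, `β_c(s) = ∏_i α c i ^ s i`, `s ≤ n S`, `t ∈ κ`, are independent, so some `N` rows give `Δ ≠ 0`.  If a relation holds mod `p^K`, `K = T`, then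
`det_div` (variables `c ≠ 0`, exponents `t c + b c * t 0`, `λ = p`) gives `W.v Δ ≤ W.v p ^ (T (N - T^d))`, `N - T^d ≥ N / 2`; `liouville` with `R = n m D0 n Z` gives
`2^{T N / 2} ≤ (N^N A^{R N})^δ`, i.e. `Z^{2n} / 2 · log 2 ≤ δ (log N + R log A) = O(Z^{2n - 1})`, false for large `Z`.
General case: reindex `C ≃ Fin (d+1)` with `c0 ↦ 0`, `m = 4 n 3^n + 1` for the bound `n`, and use only the first columns (or prove the core for any `m ≥ ..`).
-/

set_option autoImplicit false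
set_option linter.unusedSectionVars false

noncomputable section

namespace Crest.Agent.R018

open scoped NNReal Classical


/-- a family of rows with no common annihilator contains an invertible square matrix. -/
theorem w0_rows {K ι κ : Type*} [Field K] [Fintype κ] [DecidableEq κ] (r : ι → κ → K)
    (h : ∀ x : κ → K, (∀ s, ∑ t, r s t * x t = 0) → x = 0) :
    ∃ σ : κ → ι, (Matrix.of fun s t => r (σ s) t).det ≠ 0 := by
  have htop : Submodule.span K (Set.range r) = ⊤ := by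
    by_contra hne
    obtain ⟨f, hf0, hf⟩ := Submodule.exists_le_ker_of_lt_top _ (lt_top_iff_ne_top.2 hne)
    apply hf0
    have hx := h (fun t => f fun j => if t = j then 1 else 0) fun s => by
      have h1 : f (r s) = 0 := hf (Submodule.subset_span ⟨s, rfl⟩)
      rw [LinearMap.pi_apply_eq_sum_univ] at h1
      simpa using h1
    refine LinearMap.ext fun y => ?_
    rw [LinearMap.pi_apply_eq_sum_univ]
    refine Finset.sum_eq_zero fun t _ => ?_
    rw [congrFun hx t]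
    simp
  obtain ⟨κ', a, -, hsp, hli⟩ := exists_linearIndependent' K r
  haveI : Finite κ' := hli.finite
  haveI := Fintype.ofFinite κ'
  have hc : Fintype.card κ = Fintype.card κ' := by
    rw [← finrank_span_eq_card hli, hsp, htop, finrank_top, Module.finrank_fintype_fun_eq_card]
  let e := Fintype.equivOfCardEq hc
  refine ⟨a ∘ e, ?_⟩
  have h1 : LinearIndependent K (Matrix.of fun s t => r ((a ∘ e) s) t).row :=
    hli.comp e e.injective
  exact ((Matrix.isUnit_iff_isUnit_det _).1 (Matrix.linearIndependent_rows_iff_isUnit.1 h1)).ne_zero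

/-- congruence of integral elements. -/
def w0Cong {K : Type*} [Field K] (v : Valuation K ℝ≥0) (ε : ℝ≥0) (x y : K) : Prop :=
  v x ≤ 1 ∧ v y ≤ 1 ∧ v (x - y) ≤ ε

section cong
variable {K : Type*} [Field K] {v : Valuation K ℝ≥0} {ε : ℝ≥0}

theorem w0Cong.refl {x : K} (h : v x ≤ 1) : w0Cong v ε x x := ⟨h, h, by simp⟩

theorem w0Cong.mul {x y x' y' : K} (h : w0Cong v ε x y) (h' : w0Cong v ε x' y') :
    w0Cong v ε (x * x') (y * y') := by
  refine ⟨by rw [map_mul]; exact mul_le_one' h.1 h'.1, by rw [map_mul]; exact mul_le_one' h.2.1 h'.2.1,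
    ?_⟩
  have e : x * x' - y * y' = (x - y) * x' + y * (x' - y') := by ring
  rw [e]
  refine (v.map_add _ _).trans (max_le ?_ ?_)
  · rw [map_mul]; exact (mul_le_mul' h.2.2 h'.1).trans (mul_one _).le
  · rw [map_mul]; exact (mul_le_mul' h.2.1 h'.2.2).trans (one_mul _).le

theorem w0Cong.pow {x y : K} (h : w0Cong v ε x y) (n : ℕ) : w0Cong v ε (x ^ n) (y ^ n) := by
  induction n with
  | zero => rw [pow_zero, pow_zero]; exact w0Cong.refl (map_one v).le
  | succ n ih => rw [pow_succ, pow_succ]; exact ih.mul h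

theorem w0Cong.prod {ι : Type*} (s : Finset ι) {f g : ι → K} (h : ∀ i ∈ s, w0Cong v ε (f i) (g i)) :
    w0Cong v ε (∏ i ∈ s, f i) (∏ i ∈ s, g i) := by
  induction s using Finset.induction_on with
  | empty => rw [Finset.prod_empty, Finset.prod_empty]; exact w0Cong.refl (map_one v).le
  | insert a s ha ih =>
    rw [Finset.prod_insert ha, Finset.prod_insert ha]
    exact (h a (Finset.mem_insert_self _ _)).mul (ih fun i hi => h i (Finset.mem_insert_of_mem hi))

end cong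

/-- the degree condition of the zero estimate. -/
theorem w0_deg {d m Z : ℕ} (hm : 4 * (d + 1) * 3 ^ (d + 1) + 1 ≤ m) (hZ : 2 * (d + 1) ≤ Z) :
    ((d + 1) * (2 * (Z ^ 2) ^ d)) ^ (2 * 3 ^ (d + 1)) < Z ^ m := by
  have hZ1 : 1 < Z := by omega
  calc ((d + 1) * (2 * (Z ^ 2) ^ d)) ^ (2 * 3 ^ (d + 1))
      ≤ (Z ^ (2 * d + 1)) ^ (2 * 3 ^ (d + 1)) := by
        refine Nat.pow_le_pow_left ?_ _
        calc (d + 1) * (2 * (Z ^ 2) ^ d) = (2 * (d + 1)) * (Z ^ 2) ^ d := by ring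
          _ ≤ Z * (Z ^ 2) ^ d := Nat.mul_le_mul_right _ hZ
          _ = Z ^ (2 * d + 1) := by ring
    _ = Z ^ ((2 * d + 1) * (2 * 3 ^ (d + 1))) := by rw [← pow_mul]
    _ < Z ^ m := by
        refine Nat.pow_lt_pow_right hZ1 (lt_of_lt_of_le ?_ hm)
        have : 0 < 3 ^ (d + 1) := by positivity
        nlinarith

/-- the final numerical contradiction. -/
theorem w0_num {d m δ a Z p : ℕ} {A : ℝ} (hA1 : 1 ≤ A) (hA : A ≤ 2 ^ a) (hp : 2 ≤ p) (hZ1 : 1 ≤ Z)
    (hZ : 2 * δ * ((d + 1) + 2 * d * (d + 1) + 2 * a * (d + 1) ^ 2 * m) < Z) :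
    ¬ (p : ℝ) ^ ((Z ^ 2) ^ (d + 1) * ((2 * (Z ^ 2) ^ d) ^ (d + 1) - ((Z ^ 2) ^ (d + 1)) ^ d)) ≤
      ((((2 * (Z ^ 2) ^ d) ^ (d + 1)).factorial : ℝ) *
        A ^ (((d + 1) * m * ((d + 1) * Z * (2 * (Z ^ 2) ^ d))) * (2 * (Z ^ 2) ^ d) ^ (d + 1))) ^ δ := by
  intro h
  set N := (2 * (Z ^ 2) ^ d) ^ (d + 1) with hN
  set R := (d + 1) * m * ((d + 1) * Z * (2 * (Z ^ 2) ^ d)) with hR
  set T := (Z ^ 2) ^ (d + 1) with hT
  have hN0 : 0 < N := by positivity
  have hNT : 2 * T ^ d ≤ N := by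
    have e : N = 2 ^ (d + 1) * T ^ d := by
      rw [hN, hT, mul_pow, ← pow_mul (Z ^ 2) d, ← pow_mul (Z ^ 2) (d + 1), mul_comm d (d + 1)]
    rw [e]
    refine Nat.mul_le_mul_right _ ?_
    calc 2 = 2 ^ 1 := rfl
      _ ≤ 2 ^ (d + 1) := Nat.pow_le_pow_right (by norm_num) (by omega)
  have hN2 : N ≤ 2 ^ ((d + 1) * (1 + 2 * d * Z)) := by
    rw [hN, mul_comm (d + 1), pow_mul]
    refine Nat.pow_le_pow_left ?_ _
    rw [pow_add, pow_one, ← pow_mul, mul_comm (2 * d) Z, pow_mul 2 Z]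
    exact Nat.mul_le_mul_left _ (Nat.pow_le_pow_left Nat.lt_two_pow_self.le _)
  have h1 : (N.factorial : ℝ) ≤ 2 ^ ((d + 1) * (1 + 2 * d * Z) * N) := by
    have := (Nat.factorial_le_pow N).trans (Nat.pow_le_pow_left hN2 N)
    rw [← pow_mul] at this
    exact_mod_cast this
  have h2 : A ^ (R * N) ≤ 2 ^ (a * (R * N)) := by
    rw [pow_mul 2 a]
    exact pow_le_pow_left₀ (by linarith) hA _
  have h3 : (2 : ℝ) ^ (T * (N - T ^ d)) ≤
      2 ^ (((d + 1) * (1 + 2 * d * Z) * N + a * (R * N)) * δ) := by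
    calc (2 : ℝ) ^ (T * (N - T ^ d)) ≤ (p : ℝ) ^ (T * (N - T ^ d)) :=
          pow_le_pow_left₀ (by norm_num) (by exact_mod_cast hp) _
      _ ≤ _ := h
      _ ≤ (2 ^ ((d + 1) * (1 + 2 * d * Z) * N) * 2 ^ (a * (R * N))) ^ δ :=
          pow_le_pow_left₀ (by positivity) (mul_le_mul h1 h2 (by positivity) (by positivity)) _
      _ = _ := by rw [← pow_add, ← pow_mul]
  have h4 := (pow_le_pow_iff_right₀ (by norm_num : (1 : ℝ) < 2)).1 h3
  have h5 : T * N ≤ 2 * (T * (N - T ^ d)) := by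
    rw [mul_left_comm]
    exact Nat.mul_le_mul_left _ (by omega)
  have h6 : T * N ≤ (2 * δ * ((d + 1) * (1 + 2 * d * Z) + a * R)) * N := by
    refine h5.trans ((Nat.mul_le_mul_left 2 h4).trans (le_of_eq ?_))
    ring
  have h7 := Nat.le_of_mul_le_mul_right h6 hN0
  set X := Z ^ (2 * d + 1) with hX
  have hX1 : Z ≤ X := by
    calc Z = Z ^ 1 := (pow_one Z).symm
      _ ≤ X := Nat.pow_le_pow_right hZ1 (by omega)
  have eT : T = Z * X := by rw [hT, hX]; ring
  have eR : R = 2 * (d + 1) ^ 2 * m * X := by rw [hR, hX]; ring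
  have h8 : (d + 1) * (1 + 2 * d * Z) + a * R ≤
      ((d + 1) + 2 * d * (d + 1) + 2 * a * (d + 1) ^ 2 * m) * X := by
    have b1 : 1 + 2 * d * Z ≤ X + 2 * d * X :=
      add_le_add (hZ1.trans hX1) (Nat.mul_le_mul_left _ hX1)
    calc (d + 1) * (1 + 2 * d * Z) + a * R ≤ (d + 1) * (X + 2 * d * X) + a * R :=
          add_le_add (Nat.mul_le_mul_left _ b1) le_rfl
      _ = _ := by rw [eR]; ring
  have h9 : Z * X ≤ (2 * δ * ((d + 1) + 2 * d * (d + 1) + 2 * a * (d + 1) ^ 2 * m)) * X := by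
    rw [← eT, mul_assoc]
    exact h7.trans (Nat.mul_le_mul_left _ h8)
  have h10 := Nat.le_of_mul_le_mul_right h9 (by omega)
  omega

theorem w0_core (d m : ℕ) (hm : 4 * (d + 1) * 3 ^ (d + 1) + 1 ≤ m) {E : Type*} [Field E] [CharZero E]
    (W : Pl E) (α : Fin (d + 1) → Fin m → Eˣ) (hint : ∀ c i, IsIntegral ℤ (α c i : E))
    (hind : ∀ e : Fin (d + 1) → Fin m → ℤ, ∏ c, ∏ i, α c i ^ e c i = 1 → e = 0)
    (h1 : ∀ c i, W.v ((α c i : E) - 1) ≤ W.v (W.p : E)) :
    ∃ K : ℕ, ¬ ∃ b : Fin d → ℕ, ∀ i,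
      W.v ((α 0 i : E) - ∏ c : Fin d, (α c.succ i : E) ^ b c) ≤ W.v (W.p : E) ^ K := by
  obtain ⟨δ, A, hA1, hL⟩ := liouville W (fun j : Fin (d + 1) × Fin m => (α j.1 j.2 : E))
    (fun j => hint j.1 j.2)
  obtain ⟨a, ha⟩ : ∃ a : ℕ, A ≤ 2 ^ a := by
    obtain ⟨a, ha⟩ := pow_unbounded_of_one_lt A (by norm_num : (1 : ℝ) < 2)
    exact ⟨a, ha.le⟩
  obtain ⟨Z, hZ⟩ : ∃ Z : ℕ, Z = 2 * δ * ((d + 1) + 2 * d * (d + 1) + 2 * a * (d + 1) ^ 2 * m) +
    2 * (d + 1) := ⟨_, rfl⟩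
  have hZ2 : 2 * (d + 1) ≤ Z := by omega
  have hZ1 : 1 ≤ Z := by omega
  set D0 := 2 * (Z ^ 2) ^ d with hD0
  have hD02 : 2 ≤ D0 := Nat.le_mul_of_pos_right _ (by positivity)
  refine ⟨(Z ^ 2) ^ (d + 1), ?_⟩
  rintro ⟨b, hb⟩
  have hv : ∀ c i, W.v (α c i : E) ≤ 1 := fun c i => W.v_le_one_of_isIntegral (hint c i)
  -- choice of the rows
  obtain ⟨σ, hσ⟩ := w0_rows (K := E) (ι := {s : Fin m → ℕ // ∀ i, s i ≤ (d + 1) * Z})
    (κ := Fin (d + 1) → Fin D0)
    (fun s t => ∏ c, (∏ i, (α c i : E) ^ s.1 i) ^ (t c : ℕ)) (fun x hx => by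
      by_contra hx0
      obtain ⟨t0, ht0⟩ := Function.ne_iff.1 hx0
      let f : (Fin (d + 1) → Fin D0) → (Fin (d + 1) →₀ ℕ) :=
        fun t => Finsupp.equivFunOnFinite.symm fun c => (t c : ℕ)
      have hf : Function.Injective f := by
        intro t t' h
        funext c
        exact Fin.ext (congrFun (Finsupp.equivFunOnFinite.symm.injective h) c)
      obtain ⟨s, hs, hne⟩ := zero_est (K := E) (d + 1) (m := m) (D := (d + 1) * D0) (S := Z) α
        (fun t s ht hs h => by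
          have h0 := hind (fun c i => t c * s i) h
          obtain ⟨c, hc⟩ := Function.ne_iff.1 ht
          obtain ⟨i, hi⟩ := Function.ne_iff.1 hs
          exact mul_ne_zero hc hi (congrFun (congrFun h0 c) i))
        (hD02.trans (Nat.le_mul_of_pos_left _ (by omega))) (w0_deg hm hZ2)
        (∑ t, MvPolynomial.monomial (f t) (x t)) (fun h => by
          have h2 := congrArg (MvPolynomial.coeff (f t0)) h
          rw [MvPolynomial.coeff_sum, Finset.sum_eq_single t0 (fun t _ ht => by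
            rw [MvPolynomial.coeff_monomial, if_neg fun hc => ht (hf hc)]) (by simp),
            MvPolynomial.coeff_monomial, if_pos rfl, MvPolynomial.coeff_zero] at h2
          exact ht0 h2)
        (MvPolynomial.totalDegree_finsetSum_le fun t _ => by
          refine (MvPolynomial.totalDegree_monomial_le _ _).trans ?_
          rw [Finsupp.sum_fintype _ _ (fun _ => rfl)]
          refine (Finset.sum_le_card_nsmul _ _ D0 fun c _ => (t c).2.le).trans ?_
          simp)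
      apply hne
      rw [map_sum, ← hx ⟨s, hs⟩]
      refine Finset.sum_congr rfl fun t _ => ?_
      rw [MvPolynomial.eval_monomial, Finsupp.prod_fintype _ _ (fun _ => pow_zero _), mul_comm]
      rfl)
  have hM : (Matrix.of fun (s t : Fin (d + 1) → Fin D0) =>
      ∏ c, (∏ i, (α c i : E) ^ (σ s).1 i) ^ (t c : ℕ)) =
      Matrix.of fun (s t : Fin (d + 1) → Fin D0) =>
        ∏ j : Fin (d + 1) × Fin m, (α j.1 j.2 : E) ^ ((σ s).1 j.2 * t j.1) := by
    ext s t
    simp only [Matrix.of_apply, Fintype.prod_prod_type, ← Finset.prod_pow, pow_mul]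
  have hp0 : (W.p : E) ≠ 0 := by exact_mod_cast W.hp.ne_zero
  have hβ : ∀ (s : Fin m → ℕ) c, w0Cong W.v (W.v (W.p : E)) (∏ i, (α c i : E) ^ s i) 1 := by
    intro s c
    have := w0Cong.prod (v := W.v) (ε := W.v (W.p : E)) Finset.univ
      (f := fun i => (α c i : E) ^ s i) (g := fun i => 1 ^ s i)
      fun i _ => w0Cong.pow ⟨hv c i, by simp, h1 c i⟩ _
    simpa using this
  have hdiv := det_div W.v (lam := (W.p : E)) W.v_p_lt_one.le (ι := Fin (d + 1) → Fin D0) (C := Fin d)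
    (fun s c => ((∏ i, (α c.succ i : E) ^ (σ s).1 i) - 1) / W.p)
    (fun s c => by
      rw [map_div₀, div_le_one W.v_p_pos]
      exact (hβ _ _).2.2)
    (fun t c => t c.succ + b c * t 0) ((Z ^ 2) ^ (d + 1))
    (Matrix.of fun s t => ∏ c, (∏ i, (α c i : E) ^ (σ s).1 i) ^ (t c : ℕ)) (fun s t => by
      have e1 : ∀ c : Fin d, 1 + (W.p : E) * (((∏ i, (α c.succ i : E) ^ (σ s).1 i) - 1) / W.p) =
          ∏ i, (α c.succ i : E) ^ (σ s).1 i := fun c => by
        rw [mul_div_cancel₀ _ hp0]; ring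
      simp only [e1, Matrix.of_apply]
      have c1 : w0Cong W.v (W.v (W.p : E) ^ (Z ^ 2) ^ (d + 1)) (∏ i, (α 0 i : E) ^ (σ s).1 i)
          (∏ i, (∏ c : Fin d, (α c.succ i : E) ^ b c) ^ (σ s).1 i) :=
        w0Cong.prod _ fun i _ => w0Cong.pow ⟨hv 0 i,
          (w0Cong.prod (ε := 0) Finset.univ fun c _ => (w0Cong.refl (hv c.succ i)).pow (b c)).1, hb i⟩ _
      have c2 := (c1.pow (t 0)).mul (w0Cong.prod Finset.univ fun (c : Fin d) _ =>
        (w0Cong.refl (hβ (σ s).1 c.succ).1).pow (t c.succ))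
      have e2 : ∏ c : Fin d, (∏ i, (α c.succ i : E) ^ (σ s).1 i) ^ ((t c.succ : ℕ) + b c * t 0) =
          (∏ i, (∏ c : Fin d, (α c.succ i : E) ^ b c) ^ (σ s).1 i) ^ (t 0 : ℕ) *
            ∏ c : Fin d, (∏ i, (α c.succ i : E) ^ (σ s).1 i) ^ (t c.succ : ℕ) := by
        simp only [pow_add, Finset.prod_mul_distrib]
        rw [mul_comm]
        congr 1
        simp only [← Finset.prod_pow, ← pow_mul]
        rw [Finset.prod_comm]
        refine Finset.prod_congr rfl fun i _ => Finset.prod_congr rfl fun c _ => ?_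
        congr 1
        ring
      rw [Fin.prod_univ_succ, e2]
      exact c2.2.2)
  rw [hM] at hσ hdiv
  have hfin := hL (Fin (d + 1) → Fin D0) (fun s t j => (σ s).1 j.2 * t j.1)
    ((d + 1) * m * ((d + 1) * Z * D0)) _ (fun s t => by
      refine (Finset.sum_le_card_nsmul _ _ ((d + 1) * Z * D0) fun j _ =>
        Nat.mul_le_mul ((σ s).2 j.2) (t j.1).2.le).trans ?_
      simp) hσ hdiv
  simp only [Fintype.card_fun, Fintype.card_fin] at hfin
  exact w0_num hA1 ha W.hp.two_le hZ1 (by omega) hfin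

universe u v in
theorem w0 (n : ℕ) : ∃ m : ℕ, ∀ {E : Type u} [Field E] [CharZero E] (W : Pl E) (C : Type v) [Fintype C]
    [DecidableEq C], Fintype.card C ≤ n → ∀ (c0 : C) (α : C → Fin m → Eˣ),
    (∀ c i, IsIntegral ℤ (α c i : E)) →
    (∀ e : C → Fin m → ℤ, ∏ c, ∏ i, α c i ^ e c i = 1 → e = 0) →
    (∀ c i, W.v ((α c i : E) - 1) ≤ W.v (W.p : E)) →
    ∃ K : ℕ, ¬ ∃ b : C → ℕ, ∀ i,
      W.v ((α c0 i : E) - ∏ c ∈ Finset.univ.erase c0, (α c i : E) ^ b c) ≤ W.v (W.p : E) ^ K := by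
  refine ⟨4 * n * 3 ^ n + 1, fun {E} _ _ W C _ _ hC c0 α hint hind h1 => ?_⟩
  obtain ⟨d, hd⟩ : ∃ d, Fintype.card C = d + 1 :=
    Nat.exists_eq_succ_of_ne_zero (Fintype.card_pos_iff.2 ⟨c0⟩).ne'
  let e0 : Fin (d + 1) ≃ C := (Fintype.equivFinOfCardEq hd).symm
  let e : Fin (d + 1) ≃ C := e0.trans (Equiv.swap (e0 0) c0)
  have he : e 0 = c0 := by simp [e]
  have hdn : d + 1 ≤ n := hd ▸ hC
  obtain ⟨K, hK⟩ := w0_core d (4 * n * 3 ^ n + 1) (by gcongr; norm_num) W (fun c => α (e c))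
    (fun c i => hint _ _) (fun x hx => by
      have h2 := hind (fun c => x (e.symm c)) (by
        rw [← hx, ← e.prod_comp]
        simp)
      funext c
      simpa using congrFun h2 (e c)) (fun c i => h1 _ _)
  refine ⟨K, fun ⟨b, hb⟩ => hK ⟨fun c => b (e c.succ), fun i => ?_⟩⟩
  have e1 : ∏ c : Fin d, (α (e c.succ) i : E) ^ b (e c.succ) =
      ∏ c ∈ Finset.univ.erase c0, (α c i : E) ^ b c := by
    refine mul_left_cancel₀ (pow_ne_zero (b c0) (α c0 i).ne_zero) ?_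
    rw [Finset.mul_prod_erase Finset.univ (fun c => (α c i : E) ^ b c) (Finset.mem_univ c0),
      ← e.prod_comp, Fin.prod_univ_succ, he]
  rw [he, e1]
  exact hb i

end Crest.Agent.R018
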