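import Crest.Agent.R018.WR1

/-!
# R018 / WR

(WR) `B = 2^n · m(n) + 1` (`m` from `w0_log`).  Pigeonhole: there are `≤ 2^{index}` subgroups containing `H`, so `m` members `V_i` of `s` have the same `H1 = Dec V_i ⊔ H`.
`exists_ray_pow` for `H1`: `x_i ∈ rayU H1 l`, `dv x_i = bas H1 V_i ^ c_i` (integral by `isIntegral_of_v_le_one`); it is supported on the `H`-orbit of `V_i`, so `dv x_i` is a power of
`bas H V_i` (`eq_prod_bas`) and `art H λ (dv x_i) = 0` (`art_bas`).  With `b` from `art_dv_rep` and `C = Gal ⧸ H1`, `α c i = c.out • x_i`, `B c = ∑_{q ↦ c} b q`: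
`∑_c B c lg (α c i) = 0`; the `α c i` are multiplicatively independent (evaluate `dv` at `c.out • V_i`), so `B = 0`.  Let `T ⊆ Dec V_0`, `1 ∈ T`, be representatives of `H1 / H`
(`exists_reps` for `Dec V_0` and `H`), `ν h = ∑_{t ∈ T} λ (t h t⁻¹)`.  For `x ∈ rayU H l`: `art H ν (dv x) = ∑_t art H λ (dv (t • x)) = ∑_t ∑_q b q lg (q.out t x) = ∑_{q'} B(q') lg (q'.out x) = 0`
(`art_sum`, `art_conj`).  By `exists_ray_pow` and torsion-freeness `art H ν = 0` on `DivP H l`, and `art_surj` applied to `ν mod l^k` gives `ν = 0` on `H`.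
-/

set_option autoImplicit false
set_option linter.unusedSectionVars false

noncomputable section

namespace Crest.Agent.R018

open scoped NNReal Classical

variable {Ω : Type*} [Field Ω] [CharZero Ω] [IsAlgClosed Ω] [IsGalois ℚ Ω]

theorem wr_act {K : Subgroup Gal(Ω/ℚ)} {x : Ω} (hx : x ∈ L K) {g g' : Gal(Ω/ℚ)}
    (h : g⁻¹ * g' ∈ K) : g x = g' x := by
  have h1 := mem_L.1 hx _ h
  calc g x = g ((g⁻¹ * g') x) := by rw [h1]
    _ = (g * (g⁻¹ * g')) x := rfl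
    _ = g' x := by rw [mul_inv_cancel_left]

theorem wr_not_lt {l : ℕ} [hl : Fact l.Prime] {V : Pl Ω} (hV : V.p ≠ l) : ¬ V.v (l : Ω) < 1 := fun h =>
  hV ((Nat.prime_dvd_prime_iff_eq V.hp hl.out).1 (V.v_natCast_lt_one_iff.1 h))

theorem wr_ne {l : ℕ} {V : Pl Ω} (hV : ¬ V.v (l : Ω) < 1) : V.p ≠ l := fun h =>
  hV (by rw [← h]; exact V.v_p_lt_one)

theorem wr_unram {H : Subgroup Gal(Ω/ℚ)} (hH : IsOpen (H : Set Gal(Ω/ℚ))) {l : ℕ} [Fact l.Prime]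
    {lam : Gal(Ω/ℚ) → ℤ_[l]} (hlam : ZHom l H lam) :
    ∀ W : Pl Ω, ¬ W.v (l : Ω) < 1 → ∀ τ ∈ Ine ℚ W, τ ∈ H → lam τ = 0 := fun _ hW =>
  zl_unram hH (wr_ne hW) (hlam.mono inf_le_right)

/-- averaging over conjugations preserves continuous characters -/
theorem wr_zhom_avg {H : Subgroup Gal(Ω/ℚ)} [hn : H.Normal] {l : ℕ} [Fact l.Prime]
    {lam : Gal(Ω/ℚ) → ℤ_[l]} (hlam : ZHom l H lam) (T : Finset Gal(Ω/ℚ)) :
    ZHom l H (fun h => ∑ t ∈ T, lam (t * h * t⁻¹)) := by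
  refine ⟨fun x hx y hy => ?_, fun k => ?_⟩
  · rw [← Finset.sum_add_distrib]
    refine Finset.sum_congr rfl fun t _ => ?_
    rw [← hlam.1 _ (hn.conj_mem x hx t) _ (hn.conj_mem y hy t)]
    congr 1
    group
  · obtain ⟨N, hN, hN'⟩ := hlam.2 k
    refine ⟨N.normalCore, isOpen_normalCore hN, fun x hx hxN => ?_⟩
    simp only [map_sum]
    exact Finset.sum_eq_zero fun t _ => hN' _ (hn.conj_mem x hx t)
      (N.normalCore_le ((N.normalCore_normal).conj_mem x hxN t))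

/-- a character whose Artin map kills the principal ray divisors is zero -/
theorem wr_zero {H : Subgroup Gal(Ω/ℚ)} (hH : IsOpen (H : Set Gal(Ω/ℚ))) {l : ℕ} [hl : Fact l.Prime]
    {ν : Gal(Ω/ℚ) → ℤ_[l]} (hν : ZHom l H ν) (h0 : ∀ x ∈ rayU H (l : Ω), art H ν (dv x) = 0) :
    ∀ h ∈ H, ν h = 0 := by
  have hl0 : (l : Ω) ≠ 0 := by exact_mod_cast hl.out.ne_zero
  have h1 : ∀ a ∈ DivP H (l : Ω), art H ν a = 0 := by
    intro a ha
    obtain ⟨c, hc, x, hx, hxa⟩ := exists_ray_pow hH (natCast_mem _ l) hl0 ha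
    have h2 := h0 x hx
    rw [hxa, art_pow hH ν (DivP_le_one ha), nsmul_eq_mul] at h2
    exact (mul_eq_zero.1 h2).resolve_left (by exact_mod_cast hc)
  intro h hh
  refine PadicInt.ext_of_toZModPow.1 fun k => ?_
  obtain ⟨a, ha, ha'⟩ := art_surj hH (hν.chom k) hl0
    (fun W hW τ hτ hτ' => by rw [wr_unram hH hν W hW τ hτ hτ', map_zero]) hh
  have h3 := art_map hH (PadicInt.toZModPow (p := l) k).toAddMonoidHom ν (DivP_le_one ha)
  rw [h1 a ha, map_zero] at h3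
  rw [map_zero, ← ha']
  exact h3

/-- the generators of powers of the primes of `L H1` -/
theorem wr_gen {H H1 : Subgroup Gal(Ω/ℚ)} [hn : H.Normal] (hH : IsOpen (H : Set Gal(Ω/ℚ))) (hle : H ≤ H1)
    {l : ℕ} [hl : Fact l.Prime] {lam : Gal(Ω/ℚ) → ℤ_[l]} (hlam : ZHom l H lam) {V : Pl Ω} (hV : V.p ≠ l)
    (h1 : ∀ g ∈ H1, ∃ d ∈ Dec ℚ V, d⁻¹ * g ∈ H) (h0 : ∀ d ∈ Dec ℚ V, d ∈ H → lam d = 0) :
    ∃ x ∈ rayU H1 (l : Ω), ∃ c : ℕ, c ≠ 0 ∧ dv x = bas H1 V ^ c ∧ IsIntegral ℤ (x : Ω) ∧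
      art H lam (dv x) = 0 := by
  have hl0 : (l : Ω) ≠ 0 := by exact_mod_cast hl.out.ne_zero
  have hH1 : IsOpen (H1 : Set Gal(Ω/ℚ)) := Subgroup.isOpen_mono hle hH
  obtain ⟨c, hc, x, hx, hxa⟩ := exists_ray_pow hH1 (natCast_mem _ l) hl0
    (bas_mem_DivP (H := H1) (wr_not_lt hV))
  refine ⟨x, hx, c, hc, hxa, isIntegral_of_v_le_one ℚ fun W => ?_, ?_⟩
  · have h2 : W.vU x = bas H1 V W ^ c := by rw [← dv_apply, hxa, Dv.pow_apply]
    rw [← Pl.coe_vU, h2, Units.val_pow_eq_pow_val]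
    refine pow_le_one₀ (by simp) ?_
    unfold bas
    split_ifs
    · exact (unif_spec hH1 V).1.le
    · simp
  · have hmem : dv x ∈ DivP H 1 := dv_mem_DivP_one hH (LU_anti hle hx.1)
    have h2 := eq_prod_bas hH hmem {V} (by simp) (fun W hW => by
      rw [hxa, Dv.pow_apply]
      unfold bas
      rw [if_neg, one_pow]
      rintro ⟨g, hg, rfl⟩
      obtain ⟨d, hd, hd'⟩ := h1 g hg
      refine hW ⟨V, by simp, d * (d⁻¹ * g) * d⁻¹, hn.conj_mem _ hd' d, ?_⟩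
      have h3 : d⁻¹ • V = V := (Dec ℚ V).inv_mem hd
      rw [mul_smul, h3, mul_inv_cancel_left])
    rw [Finset.prod_singleton] at h2
    have hf := frob_spec hH V
    rw [h2, art_zpow hH lam (bas_mem_DivP (by simp)),
      art_bas hH hlam.1 (fun τ hτ hτ' => h0 τ (Ine_le_Dec V hτ) hτ'), h0 _ hf.2.1 hf.1, smul_zero]

/-- multiplicative independence of the conjugates -/
theorem wr_indep {H1 : Subgroup Gal(Ω/ℚ)} (hH1 : IsOpen (H1 : Set Gal(Ω/ℚ))) {C I : Type*} [Fintype C]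
    [Fintype I] (g : C → Gal(Ω/ℚ)) (hg : ∀ c c', (g c)⁻¹ * g c' ∈ H1 → c = c') (V : I → Pl Ω)
    (hV : ∀ i i', (V i).p = (V i').p → i = i') (hD : ∀ i, Dec ℚ (V i) ≤ H1) (x : I → Ωˣ) (k : I → ℕ)
    (hk : ∀ i, k i ≠ 0) (hx : ∀ i, dv (x i) = bas H1 (V i) ^ k i) (e : C → I → ℤ)
    (he : ∏ c, ∏ i, (g c • x i) ^ e c i = 1) : e = 0 := by
  funext c0 i0
  have h1 := congrArg (fun y => dv y (g c0 • V i0)) he
  simp only [map_prod, map_zpow, map_one, Dv.prod_apply, Dv.zpow_apply, Dv.one_apply, dv_smul,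
    Dv.smul_apply, hx, Dv.pow_apply] at h1
  have key : ∀ c i, Same H1 (V i) ((g c)⁻¹ • g c0 • V i0) → c = c0 ∧ i = i0 := by
    intro c i hs
    have hi : i = i0 := hV _ _ hs.p_eq
    subst hi
    obtain ⟨h, hh, hh'⟩ := hs
    refine ⟨hg _ _ ?_, rfl⟩
    have h2 : h⁻¹ * ((g c)⁻¹ * g c0) ∈ Dec ℚ (V i) := by
      rw [mem_Dec, mul_smul, mul_smul, ← hh', inv_smul_smul]
    have h3 := H1.mul_mem hh (hD i h2)
    rwa [mul_inv_cancel_left] at h3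
  rw [Finset.prod_eq_single c0, Finset.prod_eq_single i0] at h1
  · unfold bas at h1
    rw [inv_smul_smul, if_pos (Same.refl _ _), ← zpow_natCast, ← zpow_mul] at h1
    have h2 : (k i0 : ℤ) * e c0 i0 = 0 := unif_zpow_injective hH1 (V i0) (by simpa using h1)
    exact (mul_eq_zero.1 h2).resolve_left (by exact_mod_cast hk i0)
  · intro i _ hi
    unfold bas
    rw [if_neg (fun hs => hi (key _ _ hs).2), one_pow, one_zpow]
  · simp
  · intro c _ hc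
    refine Finset.prod_eq_one fun i _ => ?_
    unfold bas
    rw [if_neg (fun hs => hc (key _ _ hs).1), one_pow, one_zpow]
  · simp

/-- the combinatorial regrouping -/
theorem wr_regroup {G Q R : Type*} [Group Q] [Fintype Q] [CommRing R] (D : Subgroup Q) (T : Finset G)
    (φ : G → Q) (hT : ∀ t ∈ T, φ t ∈ D) (hT' : ∀ d ∈ D, ∃! t, t ∈ T ∧ φ t = d) (b f : Q → R)
    (hB : ∀ c : Q ⧸ D, ∑ q ∈ Finset.univ.filter (fun q : Q => (q : Q ⧸ D) = c), b q = 0) :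
    ∑ t ∈ T, ∑ q, b q * f (q * φ t) = 0 := by
  have h1 : ∀ t, ∑ q, b q * f (q * φ t) = ∑ q, b (q * (φ t)⁻¹) * f q := fun t =>
    Fintype.sum_equiv (Equiv.mulRight (φ t)) _ _ fun q => by simp
  simp_rw [h1]
  rw [Finset.sum_comm]
  refine Finset.sum_eq_zero fun q _ => ?_
  rw [← Finset.sum_mul]
  have h2 : ∑ t ∈ T, b (q * (φ t)⁻¹) =
      ∑ q' ∈ Finset.univ.filter (fun q' : Q => (q' : Q ⧸ D) = (q : Q ⧸ D)), b q' := by
    refine Finset.sum_bij (fun t _ => q * (φ t)⁻¹) (fun t ht => ?_) (fun t ht t' ht' h => ?_)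
      (fun q' hq' => ?_) (fun _ _ => rfl)
    · simp only [Finset.mem_filter, Finset.mem_univ, true_and, QuotientGroup.eq]
      simpa using hT t ht
    · have h3 : φ t = φ t' := inv_injective (mul_left_cancel h)
      exact (hT' _ (hT t ht)).unique ⟨ht, rfl⟩ ⟨ht', h3.symm⟩
    · simp only [Finset.mem_filter, Finset.mem_univ, true_and, QuotientGroup.eq] at hq'
      obtain ⟨t, ⟨ht, ht'⟩, -⟩ := hT' _ hq'
      exact ⟨t, ht, by rw [ht']; group⟩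
  rw [h2, hB, zero_mul]

variable (Ω) in
theorem wr (n : ℕ) : ∃ B : ℕ, ∀ (H : Subgroup Gal(Ω/ℚ)), H.Normal → IsOpen (H : Set Gal(Ω/ℚ)) →
    H.index ≤ n → HasI H → ∀ (l : ℕ) [Fact l.Prime], l ≠ 2 → Split H l →
    ∀ lam : Gal(Ω/ℚ) → ℤ_[l], ZHom l H lam → ∀ s : Finset (Pl Ω), B ≤ s.card →
    (∀ V ∈ s, ∀ V' ∈ s, V.p = V'.p → V = V') → (∀ V ∈ s, V.p ≠ l) →
    (∀ V ∈ s, ∀ d ∈ Dec ℚ V, d ∈ H → lam d = 0) →
    ∃ V ∈ s, ∃ T : Finset Gal(Ω/ℚ), 1 ∈ T ∧ (∀ t ∈ T, t ∈ Dec ℚ V) ∧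
      ∀ h ∈ H, ∑ t ∈ T, lam (t * h * t⁻¹) = 0 := by
  obtain ⟨m, hm⟩ := w0_log.{u_1, u_1} (Ω := Ω) n
  refine ⟨2 ^ n * m + 1, fun H hn hH hidx hi l hl hl2 hs lam hlam s hcard hinj hpl h0 => ?_⟩
  have hl0 : (l : Ω) ≠ 0 := by exact_mod_cast hl.out.ne_zero
  have : H.FiniteIndex := ⟨index_ne_zero_of_isOpen hH⟩
  let _ : Fintype (Gal(Ω/ℚ) ⧸ H) := Fintype.ofFinite _
  have hQ : Fintype.card (Gal(Ω/ℚ) ⧸ H) ≤ n := by
    rw [← Nat.card_eq_fintype_card]; exact hidx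
  -- pigeonhole
  obtain ⟨S, -, hS⟩ := Finset.exists_lt_card_fiber_of_mul_lt_card_of_maps_to (s := s)
    (t := (Finset.univ : Finset (Set (Gal(Ω/ℚ) ⧸ H))))
    (f := fun V => (((Dec ℚ V).map (QuotientGroup.mk' H) : Subgroup (Gal(Ω/ℚ) ⧸ H)) : Set (Gal(Ω/ℚ) ⧸ H)))
    (n := m) (fun _ _ => Finset.mem_univ _) (by
      rw [Finset.card_univ, Fintype.card_set]
      have : 2 ^ Fintype.card (Gal(Ω/ℚ) ⧸ H) * m ≤ 2 ^ n * m :=
        Nat.mul_le_mul_right _ (Nat.pow_le_pow_right (by norm_num) hQ)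
      omega)
  obtain ⟨V0, hV0⟩ := Finset.card_pos.1 (lt_of_le_of_lt (Nat.zero_le _) hS)
  obtain ⟨s', hs', hs'c⟩ := Finset.exists_subset_card_eq hS.le
  let V : Fin m → Pl Ω := fun i => (s'.equivFinOfCardEq hs'c).symm i
  have hVs' : ∀ i, V i ∈ s' := fun i => ((s'.equivFinOfCardEq hs'c).symm i).2
  have hVs : ∀ i, V i ∈ s := fun i => (Finset.mem_filter.1 (hs' (hVs' i))).1
  have hVinj : ∀ i i', (V i).p = (V i').p → i = i' := fun i i' h =>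
    (s'.equivFinOfCardEq hs'c).symm.injective (Subtype.ext (hinj _ (hVs i) _ (hVs i') h))
  set D : Subgroup (Gal(Ω/ℚ) ⧸ H) := (Dec ℚ V0).map (QuotientGroup.mk' H) with hD
  have hVD : ∀ i, (Dec ℚ (V i)).map (QuotientGroup.mk' H) = D := fun i =>
    SetLike.coe_injective (((Finset.mem_filter.1 (hs' (hVs' i))).2).trans (Finset.mem_filter.1 hV0).2.symm)
  set H1 : Subgroup Gal(Ω/ℚ) := D.comap (QuotientGroup.mk' H) with hH1def
  have hmem1 : ∀ g, g ∈ H1 ↔ (g : Gal(Ω/ℚ) ⧸ H) ∈ D := fun g => Iff.rfl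
  have hle : H ≤ H1 := fun g hg => by
    rw [hmem1, (QuotientGroup.eq_one_iff g).2 hg]; exact D.one_mem
  have hH1 : IsOpen (H1 : Set Gal(Ω/ℚ)) := Subgroup.isOpen_mono hle hH
  have hgen : ∀ i, ∀ g ∈ H1, ∃ d ∈ Dec ℚ (V i), d⁻¹ * g ∈ H := by
    intro i g hg
    rw [hmem1, ← hVD i] at hg
    obtain ⟨d, hd, hd'⟩ := hg
    exact ⟨d, hd, QuotientGroup.eq.1 hd'⟩
  have hDle : ∀ i, Dec ℚ (V i) ≤ H1 := fun i d hd => by
    rw [hmem1, ← hVD i]; exact ⟨d, hd, rfl⟩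
  choose x hx k hk hxk hxint hxart using fun i =>
    wr_gen hH hle hlam (hpl _ (hVs i)) (hgen i) (h0 _ (hVs i))
  obtain ⟨Vl, hVl⟩ := exists_pl Ω hl.out
  obtain ⟨lg, hlg⟩ := exists_llog hl2 Vl hVl
  obtain ⟨b, hb⟩ := art_dv_rep hH hi hl2 hs hVl hlg hlam
  have hray : ∀ (g : Gal(Ω/ℚ)) {y : Ωˣ}, y ∈ rayU H (l : Ω) → g • y ∈ rayU H (l : Ω) := fun g y hy =>
    smul_mem_rayU (map_natCast g l) (fun z hz => by simpa using hn.conj_mem z hz g⁻¹) hy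
  have hxH : ∀ i, x i ∈ rayU H (l : Ω) := fun i => rayU_mono (fun _ _ => le_rfl) hle (hx i)
  let _ : Fintype ((Gal(Ω/ℚ) ⧸ H) ⧸ D) := Fintype.ofFinite _
  have hB := hm l Vl lg hVl hlg ((Gal(Ω/ℚ) ⧸ H) ⧸ D)
    ((Fintype.card_le_of_surjective _ QuotientGroup.mk_surjective).trans hQ)
    (fun c i => c.out.out • x i) (fun c i => tr_int_smul _ (hxint i))
    (wr_indep hH1 (fun c : (Gal(Ω/ℚ) ⧸ H) ⧸ D => c.out.out) (fun c c' h => by
      rw [hmem1, QuotientGroup.mk_mul, QuotientGroup.mk_inv, QuotientGroup.out_eq',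
        QuotientGroup.out_eq', ← QuotientGroup.eq, QuotientGroup.out_eq', QuotientGroup.out_eq'] at h
      exact h) V hVinj hDle x k hk hxk)
    (fun c i => L_anti (hs Vl hVl) (hray _ (hxH i)).1)
    (fun c i => (hray _ (hxH i)).2 Vl (by rw [← hVl]; exact Vl.v_p_lt_one))
    (fun c => ∑ q ∈ Finset.univ.filter (fun q : Gal(Ω/ℚ) ⧸ H => (q : (Gal(Ω/ℚ) ⧸ H) ⧸ D) = c), b q)
    (fun i => by
      rw [← hxart i, hb _ (hxH i),
        ← Finset.sum_fiberwise Finset.univ (fun q : Gal(Ω/ℚ) ⧸ H => (q : (Gal(Ω/ℚ) ⧸ H) ⧸ D))]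
      refine Finset.sum_congr rfl fun c _ => ?_
      rw [Finset.sum_mul]
      refine Finset.sum_congr rfl fun q hq => ?_
      rw [coe_smul_units, wr_act (hx i).1 (g' := q.out)]
      rw [hmem1, QuotientGroup.mk_mul, QuotientGroup.mk_inv, QuotientGroup.out_eq',
        QuotientGroup.out_eq', ← QuotientGroup.eq, QuotientGroup.out_eq']
      exact (Finset.mem_filter.1 hq).2.symm)
  obtain ⟨T, hT1, hT, hT', -⟩ := exists_reps (H := Dec ℚ V0) (relIndex_ne_zero_of_isOpen hH _)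
  refine ⟨V0, (Finset.mem_filter.1 hV0).1, T, hT1, hT, wr_zero hH (wr_zhom_avg hlam T) fun y hy => ?_⟩
  have hyD : dv y ∈ DivP H (l : Ω) := Ray_le_DivP hH (natCast_mem _ l) ⟨y, hy, rfl⟩
  rw [art_sum hH T (fun t g => lam (t * g * t⁻¹)) (DivP_le_one hyD)]
  rw [← wr_regroup D T (fun t => (t : Gal(Ω/ℚ) ⧸ H)) (fun t ht => ⟨t, hT t ht, rfl⟩) (by
      rintro _ ⟨d, hd, rfl⟩
      simpa only [QuotientGroup.mk'_apply, QuotientGroup.eq] using hT' d hd)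
    b (fun q => lg (q.out (y : Ω))) (fun c => congrFun hB c)]
  refine Finset.sum_congr rfl fun t _ => ?_
  rw [art_conj hH hlam.1 (map_natCast t l) (wr_unram hH hlam) hyD, ← dv_smul, hb _ (hray t hy)]
  refine Finset.sum_congr rfl fun q _ => ?_
  congr 2
  rw [coe_smul_units]
  refine wr_act hy.1 (g := q.out * t) ?_
  rw [← QuotientGroup.eq, QuotientGroup.mk_mul, QuotientGroup.out_eq', QuotientGroup.out_eq']

end Crest.Agent.R018
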