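import Crest.Agent.R018.Llog
import Crest.Agent.R018.Recip
import Crest.Agent.R018.Tame

/-!
# R018 / WR1

`μ x = art H λ (dv x)` is a `ℤ_l`-linear form in the local logarithms of the conjugates.  Apply `lin_rep` with `R = rayU H l`, `Lg q x = lg (q.out x)`.
Density: `approx` at the places `q.out⁻¹ • V0` (pairwise not `H`-conjugate since `Dec V0 ≤ H`; every place above `l` is `H`-conjugate to one of them by
`exists_smul_eq_of_p_eq`), `x ≈ 1 + l` at one of them and `≈ 1` at the others.  Continuity: `recip` for `λ mod l^k` (unramified outside `l` by `zl_unram`), `art_map`.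
-/

set_option autoImplicit false
set_option linter.unusedSectionVars false

noncomputable section

namespace Crest.Agent.R018

open scoped NNReal Classical

variable {Ω : Type*} [Field Ω] [CharZero Ω] [IsAlgClosed Ω] [IsGalois ℚ Ω]

theorem wr1_v (g : Gal(Ω/ℚ)) (V0 : Pl Ω) (x : Ω) : (g⁻¹ • V0).v x = V0.v (g x) := by
  rw [Pl.smul_v, inv_inv]

theorem wr1_mem {H : Subgroup Gal(Ω/ℚ)} [hN : H.Normal] (g : Gal(Ω/ℚ)) {x : Ω} (hx : x ∈ L H) :
    g x ∈ L H := by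
  refine mem_L.2 fun h hh => ?_
  have := congrArg g (mem_L.1 hx _ (hN.conj_mem' h hh g))
  simpa [AlgEquiv.mul_apply] using this

theorem wr1_same {H : Subgroup Gal(Ω/ℚ)} {V0 W : Pl Ω} (h : V0.p = W.p) :
    ∃ q : Gal(Ω/ℚ) ⧸ H, Same H (q.out⁻¹ • V0) W := by
  obtain ⟨g, rfl⟩ := exists_smul_eq_of_p_eq h
  obtain ⟨t, ht⟩ := QuotientGroup.mk_out_eq_mul H g⁻¹
  refine ⟨QuotientGroup.mk g⁻¹, t, t.2, ?_⟩
  rw [ht, mul_inv_rev, inv_inv, mul_smul, smul_inv_smul]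

theorem wr1_inj {H : Subgroup Gal(Ω/ℚ)} [hN : H.Normal] {V0 : Pl Ω} (hD : Dec ℚ V0 ≤ H)
    {q q' : Gal(Ω/ℚ) ⧸ H} (h : Same H (q.out⁻¹ • V0) (q'.out⁻¹ • V0)) : q = q' := by
  obtain ⟨t, ht, e⟩ := h
  have h1 : q'.out * t * q.out⁻¹ ∈ H := hD (mem_Dec.2 (by
    rw [mul_smul, mul_smul, e, smul_inv_smul]))
  have h2 := hN.conj_mem' _ h1 q.out
  rw [← q.out_eq, ← q'.out_eq]
  refine QuotientGroup.eq.2 ?_
  have h3 := H.mul_mem h2 (H.inv_mem ht)
  simpa [mul_assoc] using h3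

theorem wr1_ray {H : Subgroup Gal(Ω/ℚ)} {l : ℕ} (hl : l.Prime) {V0 : Pl Ω} (hV0 : V0.p = l)
    {x : Ωˣ} (hx : x ∈ LU H) {n : ℕ} (hn : n ≠ 0)
    (h : ∀ q : Gal(Ω/ℚ) ⧸ H, V0.v (q.out (x : Ω) - 1) ≤ V0.v (l : Ω) ^ n) :
    x ∈ rayU H ((l : Ω) ^ n) := by
  refine ⟨hx, fun W hW => ?_⟩
  rw [map_pow, pow_lt_one_iff_of_nonneg zero_le hn, Pl.v_natCast_lt_one_iff,
    Nat.prime_dvd_prime_iff_eq W.hp hl] at hW
  obtain ⟨q, hq⟩ := wr1_same (H := H) (hV0.trans hW.symm)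
  rw [← hq.v_eq ((L H).sub_mem hx (L H).one_mem), ← hq.v_eq (pow_mem (natCast_mem _ l) n),
    wr1_v, wr1_v, map_sub, map_one, map_pow, map_natCast, map_pow]
  exact h q

theorem wr1_le {H : Subgroup Gal(Ω/ℚ)} {l : ℕ} {V0 : Pl Ω} (hV0 : V0.p = l)
    {x : Ωˣ} (hx : x ∈ rayU H (l : Ω)) (g : Gal(Ω/ℚ)) : V0.v (g (x : Ω) - 1) ≤ V0.v (l : Ω) := by
  have h := hx.2 (g⁻¹ • V0) (by rw [wr1_v, map_natCast, ← hV0]; exact V0.v_p_lt_one)
  rwa [wr1_v, wr1_v, map_sub, map_one, map_natCast] at h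

theorem art_dv_rep {H : Subgroup Gal(Ω/ℚ)} [H.Normal] (hH : IsOpen (H : Set Gal(Ω/ℚ))) (hi : HasI H)
    [Fintype (Gal(Ω/ℚ) ⧸ H)] {l : ℕ} [Fact l.Prime] (hl2 : l ≠ 2) (hs : Split H l) {V0 : Pl Ω}
    (hV0 : V0.p = l) {lg : Ω → ℤ_[l]} (hlg : LlogSpec V0 l lg) {lam : Gal(Ω/ℚ) → ℤ_[l]}
    (hlam : ZHom l H lam) : ∃ b : Gal(Ω/ℚ) ⧸ H → ℤ_[l], ∀ x ∈ rayU H (l : Ω),
      art H lam (dv x) = ∑ q : Gal(Ω/ℚ) ⧸ H, b q * lg (q.out (x : Ω)) := by
  have hl : l.Prime := Fact.out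
  have hD : Dec ℚ V0 ≤ H := hs V0 hV0
  have hLD : ∀ (g : Gal(Ω/ℚ)) {x : Ω}, x ∈ L H → g x ∈ L (Dec ℚ V0) := fun g _ hx =>
    L_anti hD (wr1_mem g hx)
  have hv0 : 0 < V0.v (l : Ω) := hV0 ▸ V0.v_p_pos
  have hv1 : V0.v (l : Ω) < 1 := hV0 ▸ V0.v_p_lt_one
  refine lin_rep (rayU H (l : Ω)) (fun (q : Gal(Ω/ℚ) ⧸ H) (x : Ωˣ) => lg (q.out (x : Ω)))
    (fun x => art H lam (dv x)) (fun q x hx y hy => ?_) (fun x hx y hy => ?_)
    (fun N q0 => ?_) fun k => ?_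
  · simp only [Units.val_mul, map_mul]
    exact hlg.1 _ (hLD _ hx.1) _ (hLD _ hy.1) (wr1_le hV0 hx _) (wr1_le hV0 hy _)
  · simp only [map_mul]
    exact art_mul hH lam (dv_mem_DivP_one hH hx.1) (dv_mem_DivP_one hH hy.1)
  · obtain ⟨x, hx, hx0, hx'⟩ := approx hH
      (Finset.univ.image fun q : Gal(Ω/ℚ) ⧸ H => q.out⁻¹ • V0)
      (fun W hW W' hW' h => by
        obtain ⟨q, -, rfl⟩ := Finset.mem_image.1 hW
        obtain ⟨q', -, rfl⟩ := Finset.mem_image.1 hW'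
        rw [wr1_inj hD h])
      (fun W => if W = q0.out⁻¹ • V0 then 1 + (l : Ω) else 1)
      (fun W _ => by
        split_ifs
        · exact (L H).add_mem (L H).one_mem (natCast_mem _ l)
        · exact (L H).one_mem)
      (pow_pos hv0 (N + 2))
    have h0 : V0.v (q0.out x - (1 + l)) < V0.v (l : Ω) ^ (N + 2) := by
      have := hx' _ (Finset.mem_image_of_mem _ (Finset.mem_univ q0))
      rwa [if_pos rfl, wr1_v, map_sub, map_add, map_one, map_natCast] at this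
    have h1 : ∀ q : Gal(Ω/ℚ) ⧸ H, q ≠ q0 → V0.v (q.out x - 1) < V0.v (l : Ω) ^ (N + 2) := by
      intro q hq
      have := hx' _ (Finset.mem_image_of_mem _ (Finset.mem_univ q))
      have hne : q.out⁻¹ • V0 ≠ q0.out⁻¹ • V0 := fun e =>
        hq (wr1_inj hD (by rw [e]; exact Same.refl _ _))
      rwa [if_neg hne, wr1_v, map_sub, map_one] at this
    have hpow : ∀ {a b : ℕ}, a ≤ b → V0.v (l : Ω) ^ b ≤ V0.v (l : Ω) ^ a := fun h =>
      pow_le_pow_of_le_one zero_le hv1.le h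
    have h2 : ∀ q : Gal(Ω/ℚ) ⧸ H, V0.v (q.out x - 1) ≤ V0.v (l : Ω) ^ 1 := by
      intro q
      by_cases hq : q = q0
      · subst hq
        have e : q.out x - 1 = (q.out x - (1 + l)) + l := by ring
        rw [e]
        exact (V0.v.map_add _ _).trans (max_le (h0.le.trans (hpow (by omega))) (pow_one _).ge)
      · exact (h1 q hq).le.trans (hpow (by omega))
    have hxR : Units.mk0 x hx0 ∈ rayU H (l : Ω) := by
      have := wr1_ray hl hV0 (x := Units.mk0 x hx0) hx one_ne_zero h2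
      rwa [pow_one] at this
    refine ⟨Units.mk0 x hx0, hxR, ?_, fun q hq => ?_⟩
    · simp only [Units.val_mk0]
      have hv : V0.v (1 + (l : Ω)) = 1 := V0.v.map_one_add_of_lt hv1
      have hne : 1 + (l : Ω) ≠ 0 := fun e => by simp [e] at hv
      have hm : 1 + (l : Ω) ∈ L (Dec ℚ V0) := (L _).add_mem (L _).one_mem (natCast_mem _ l)
      have hz : q0.out x / (1 + l) ∈ L (Dec ℚ V0) := (L _).div_mem (hLD _ hx) hm
      have hz1 : V0.v (q0.out x / (1 + l) - 1) ≤ V0.v (l : Ω) ^ (1 + 1) := by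
        rw [div_sub_one hne, map_div₀, hv, div_one]
        exact h0.le.trans (hpow (by omega))
      have hz2 : V0.v (q0.out x / (1 + l) - 1) ≤ V0.v (l : Ω) :=
        hz1.trans ((hpow (by omega)).trans (pow_one _).le)
      have e := hlg.1 _ hm _ hz (by rw [add_sub_cancel_left]) hz2
      rw [mul_div_cancel₀ _ hne] at e
      have h3 := (hlg.2.1 _ hz hz2 1).2 hz1
      have h4 : IsUnit (lg (q0.out x) + -lg (q0.out x / (1 + l))) := by
        rw [e, add_neg_cancel_right]; exact hlg.2.2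
      refine (IsLocalRing.isUnit_or_isUnit_of_isUnit_add h4).resolve_right fun h5 => ?_
      have h6 := h5.map (PadicInt.toZModPow 1)
      rw [map_neg, h3, neg_zero] at h6
      have : Fact (1 < l ^ 1) := ⟨by rw [pow_one]; exact hl.one_lt⟩
      exact not_isUnit_zero h6
    · simp only [Units.val_mk0]
      exact (hlg.2.1 _ (hLD _ hx) ((h2 q).trans (pow_one _).le) N).2
        ((h1 q hq).le.trans (hpow (by omega)))
  · obtain ⟨N, hN, h⟩ := recip hH hi hl hl2 (hlam.chom k) (π := (l : Ω)) (natCast_mem _ l)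
      (Nat.cast_ne_zero.2 hl.ne_zero) (fun W => W.v_natCast_le_one l) (fun W hW τ hτ hτH => by
        have hW' : W.p ≠ l := fun e => hW (e ▸ W.v_p_lt_one)
        rw [zl_unram hH hW' (hlam.mono inf_le_right) τ hτ hτH, map_zero])
    refine ⟨N, fun x hx hx' => ?_⟩
    have h1 := h x (wr1_ray hl hV0 hx.1 hN fun q =>
      ((hlg.2.1 _ (hLD _ hx.1) (wr1_le hV0 hx _) N).1 (hx' q)).trans
        (pow_le_pow_of_le_one zero_le hv1.le (Nat.le_succ N)))
    have h2 := art_map hH (PadicInt.toZModPow k).toAddMonoidHom lam (dv_mem_DivP_one hH hx.1)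
    exact h2.symm.trans h1

end Crest.Agent.R018
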