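import Crest.Agent.R018.Defs

/-!
# R018 / ZeroEst

(Z) Zero estimate on `𝔾_m^n`, induction on `n` (for all `D`, `P`).  `n = 0`: `P` is a nonzero constant.  Step: divide `P` by its monomial content (irreducible factors
associated to some `X_c` do not vanish at points with unit coordinates); let `Q_1, …, Q_r` (`r ≤ D`) be the remaining irreducible factors, each has at least two monomials
`t ≠ t'`.  For `g = γ^{s0}` let `P_g(X) = P(g X)` (an algebra automorphism of the polynomial ring).  If `Q_j ~ (Q_{j'})_g ~ (Q_{j'})_{g'}` then comparing two monomials of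
`Q_{j'}` gives `∏ γ c i ^ ((t - t') c * (s0 - s0') i) = 1`, so `s0 = s0'`; hence at most `D²` values of `s0 ∈ [0, S)^m` are bad, and some `s0` makes `P, P_g` coprime.
View them in `A[X_0]`, `A = K[X_1..X_n]` (`MvPolynomial.finSuccEquiv`); they are coprime over `Frac A` (Gauss), so `R = resultant ≠ 0`, `R = U P + V P_g`
(`Polynomial.resultant`, `exists_mul_add_mul_eq_C_resultant`, `resultant_eq_zero_iff`; if both have degree `0` in `X_0` take `R = P`), `totalDegree R ≤ 2 D² ≤ D³`
(Sylvester determinant).  `R` vanishes at `γ^s`, `s ≤ n S`, if `P` vanishes at `γ^s`, `s ≤ (n+1) S`; and `(D³)^(2·3^n) = D^(2·3^(n+1))`.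
-/

set_option autoImplicit false
set_option linter.unusedSectionVars false

noncomputable section

namespace Crest.Agent.R018

open scoped NNReal Classical


section ze_aux

open MvPolynomial

/-- removing the monomial content -/
theorem ze_strip {K σ : Type*} [Field K] (N : ℕ) :
    ∀ P : MvPolynomial σ K, P ≠ 0 → P.totalDegree ≤ N →
      ∃ P' : MvPolynomial σ K, P' ≠ 0 ∧ P'.totalDegree ≤ P.totalDegree ∧ (∀ c, ¬ X c ∣ P') ∧
        ∀ x : σ → K, (∀ c, x c ≠ 0) → eval x P = 0 → eval x P' = 0 := by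
  induction N with
  | zero =>
    intro P hP hN
    refine ⟨P, hP, le_rfl, ?_, fun x _ h => h⟩
    rintro c ⟨Q, rfl⟩
    have hQ : Q ≠ 0 := by rintro rfl; simp at hP
    rw [totalDegree_mul_of_isDomain (X_ne_zero c) hQ, totalDegree_X] at hN
    omega
  | succ N ih =>
    intro P hP hN
    by_cases h : ∃ c, X c ∣ P
    · obtain ⟨c, Q, rfl⟩ := h
      have hQ : Q ≠ 0 := by rintro rfl; simp at hP
      have hd := totalDegree_mul_of_isDomain (X_ne_zero (R := K) c) hQ
      rw [totalDegree_X] at hd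
      obtain ⟨P', h1, h2, h3, h4⟩ := ih Q hQ (by omega)
      refine ⟨P', h1, by omega, h3, fun x hx h => h4 x hx ?_⟩
      rw [map_mul, eval_X] at h
      exact (mul_eq_zero.1 h).resolve_left (hx c)
    · push Not at h
      exact ⟨P, hP, le_rfl, h, fun x _ h => h⟩

/-- an irreducible polynomial not divisible by a variable has two monomials -/
theorem ze_two_mon {K σ : Type*} [Field K] {Q : MvPolynomial σ K} (hQ : Irreducible Q)
    (hX : ∀ c, ¬ X c ∣ Q) : ∃ t t' : σ →₀ ℕ, t ≠ t' ∧ coeff t Q ≠ 0 ∧ coeff t' Q ≠ 0 := by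
  by_contra hcon
  push Not at hcon
  obtain ⟨t, ht⟩ := ne_zero_iff.1 hQ.ne_zero
  have hQe : Q = monomial t (coeff t Q) := by
    ext u
    rw [coeff_monomial]
    split_ifs with h
    · rw [h]
    · exact hcon t u h ht
  by_cases h0 : t = 0
  · apply hQ.not_isUnit
    rw [hQe, h0]
    rw [h0] at ht
    exact (IsUnit.mk0 _ ht).map (C : K →+* MvPolynomial σ K)
  · obtain ⟨c, hc⟩ := Finsupp.ne_iff.1 h0
    apply hX c
    rw [hQe, X_dvd_monomial]
    right
    simpa using hc

/-- scaling of the variables -/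
def zeSc {K σ : Type*} [Field K] (g : σ → Kˣ) : MvPolynomial σ K →ₐ[K] MvPolynomial σ K :=
  aeval (fun c => C (g c : K) * X c)

theorem zeSc_monomial {K σ : Type*} [Field K] [Fintype σ] (g : σ → Kˣ) (u : σ →₀ ℕ) (a : K) :
    zeSc g (monomial u a) = monomial u ((∏ c, (g c : K) ^ u c) * a) := by
  rw [zeSc, aeval_monomial, monomial_eq, Finsupp.prod_fintype _ _ (by simp),
    Finsupp.prod_fintype _ _ (by simp)]
  simp only [mul_pow, Finset.prod_mul_distrib, algebraMap_eq, map_mul, map_prod, map_pow]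
  ring

theorem zeSc_coeff {K σ : Type*} [Field K] [Fintype σ] (g : σ → Kˣ) (t : σ →₀ ℕ)
    (P : MvPolynomial σ K) : coeff t (zeSc g P) = (∏ c, (g c : K) ^ t c) * coeff t P := by
  induction P using MvPolynomial.induction_on' with
  | monomial u a =>
    rw [zeSc_monomial, coeff_monomial, coeff_monomial]
    split_ifs with h
    · rw [h]
    · simp
  | add p q hp hq => rw [map_add, coeff_add, coeff_add, hp, hq, mul_add]

theorem zeSc_totalDegree {K σ : Type*} [Field K] [Fintype σ] (g : σ → Kˣ)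
    (P : MvPolynomial σ K) : (zeSc g P).totalDegree ≤ P.totalDegree := by
  apply totalDegree_le_of_support_subset
  intro t ht
  rw [mem_support_iff] at ht ⊢
  rw [zeSc_coeff] at ht
  exact right_ne_zero_of_mul ht

theorem zeSc_eval {K σ : Type*} [Field K] (g : σ → Kˣ) (x : σ → K)
    (P : MvPolynomial σ K) : eval x (zeSc g P) = eval (fun c => (g c : K) * x c) P := by
  induction P using MvPolynomial.induction_on with
  | C a => simp [zeSc]
  | add p q hp hq => simp only [map_add, hp, hq]
  | mul_X p c hp => simp only [map_mul, hp]; simp [zeSc]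

theorem zeSc_inv {K σ : Type*} [Field K] [Fintype σ] (g : σ → Kˣ)
    (P : MvPolynomial σ K) : zeSc g (zeSc g⁻¹ P) = P := by
  ext t
  rw [zeSc_coeff, zeSc_coeff, ← mul_assoc, ← Finset.prod_mul_distrib]
  simp

theorem zeSc_inv' {K σ : Type*} [Field K] [Fintype σ] (g : σ → Kˣ)
    (P : MvPolynomial σ K) : zeSc g⁻¹ (zeSc g P) = P := by
  simpa using zeSc_inv g⁻¹ P

/-- the scaling as a multiplicative equivalence -/
def zeScE {K σ : Type*} [Field K] [Fintype σ] (g : σ → Kˣ) :
    MvPolynomial σ K ≃* MvPolynomial σ K where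
  toFun := zeSc g
  invFun := zeSc g⁻¹
  left_inv := zeSc_inv' g
  right_inv := zeSc_inv g
  map_mul' := map_mul _

theorem zeSc_irred {K σ : Type*} [Field K] [Fintype σ] (g : σ → Kˣ)
    {Q : MvPolynomial σ K} (hQ : Irreducible Q) : Irreducible (zeSc g Q) :=
  (MulEquiv.irreducible_iff (zeScE g)).2 hQ

theorem ze_assoc_char {K σ : Type*} [Field K] [Fintype σ] (g g' : σ → Kˣ)
    {Q : MvPolynomial σ K} (h : Associated (zeSc g Q) (zeSc g' Q)) {t t' : σ →₀ ℕ}
    (ht : coeff t Q ≠ 0) (ht' : coeff t' Q ≠ 0) :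
    ∏ c, (g c / g' c) ^ ((t c : ℤ) - (t' c : ℤ)) = 1 := by
  obtain ⟨u, hu⟩ := h
  obtain ⟨a, -, ha⟩ := isUnit_iff_eq_C_of_isReduced.1 u.isUnit
  rw [ha] at hu
  have h1 := congrArg (coeff t) hu
  have h2 := congrArg (coeff t') hu
  rw [mul_comm, coeff_C_mul, zeSc_coeff, zeSc_coeff, ← mul_assoc] at h1 h2
  have h1' := mul_right_cancel₀ ht h1
  have h2' := mul_right_cancel₀ ht' h2
  have e : ∀ v : σ →₀ ℕ, a * ∏ c, (g c : K) ^ v c = ∏ c, (g' c : K) ^ v c →
      a * ((∏ c, (g c / g' c) ^ (v c : ℤ) : Kˣ) : K) = 1 := by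
    intro v hv
    have hne : (∏ c, (g' c : K) ^ v c) ≠ 0 :=
      Finset.prod_ne_zero_iff.2 fun c _ => pow_ne_zero _ (Units.ne_zero _)
    simp only [zpow_natCast, Units.coe_prod, Units.val_pow_eq_pow_val, Units.val_div_eq_div_val,
      div_pow, Finset.prod_div_distrib]
    rw [← mul_div_assoc, hv, div_self hne]
  have e1 := e t h1'
  have e2 := e t' h2'
  have ha0 : a ≠ 0 := left_ne_zero_of_mul_eq_one e1
  have e3 : (∏ c, (g c / g' c) ^ (t c : ℤ) : Kˣ) = (∏ c, (g c / g' c) ^ (t' c : ℤ) : Kˣ) :=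
    Units.ext (mul_left_cancel₀ ha0 (e1.trans e2.symm))
  simp only [zpow_sub, Finset.prod_mul_distrib, Finset.prod_inv_distrib]
  rw [e3, mul_inv_cancel]

theorem ze_card_le {K σ : Type*} [Field K] (f : Multiset (MvPolynomial σ K))
    (hf : ∀ b ∈ f, Irreducible b) : Multiset.card f ≤ f.prod.totalDegree := by
  induction f using Multiset.induction_on with
  | empty => simp
  | cons a f ih =>
    have ha := hf a (Multiset.mem_cons_self _ _)
    have hf' : ∀ b ∈ f, Irreducible b := fun b hb => hf b (Multiset.mem_cons_of_mem hb)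
    have hne : f.prod ≠ 0 := Multiset.prod_ne_zero fun h => (hf' 0 h).ne_zero rfl
    rw [Multiset.prod_cons, totalDegree_mul_of_isDomain ha.ne_zero hne, Multiset.card_cons]
    have h1 : a.totalDegree ≠ 0 := by
      intro h0
      rw [totalDegree_eq_zero_iff_eq_C] at h0
      apply ha.not_isUnit
      have hc : coeff 0 a ≠ 0 := by
        intro h; apply ha.ne_zero; rw [h0, h]; simp
      rw [h0]
      exact (IsUnit.mk0 _ hc).map (C : K →+* MvPolynomial σ K)
    have := ih hf'
    omega

theorem ze_factors_card {K σ : Type*} [Field K] [Fintype σ] {P : MvPolynomial σ K} (hP : P ≠ 0) :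
    (UniqueFactorizationMonoid.factors P).toFinset.card ≤ P.totalDegree := by
  refine (Multiset.toFinset_card_le _).trans ?_
  refine (ze_card_le _ UniqueFactorizationMonoid.irreducible_of_factor).trans ?_
  obtain ⟨u, hu⟩ := UniqueFactorizationMonoid.factors_prod hP
  have hne : (UniqueFactorizationMonoid.factors P).prod ≠ 0 := by
    intro h; rw [h, zero_mul] at hu; exact hP hu.symm
  have := totalDegree_mul_of_isDomain hne u.ne_zero
  rw [hu] at this
  omega

/-- the good shift -/
theorem ze_good {K σ : Type*} [Field K] [Fintype σ] {m D S : ℕ} (γ : σ → Fin m → Kˣ)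
    (hγ : ∀ (t : σ → ℤ) (s : Fin m → ℤ), t ≠ 0 → s ≠ 0 → ∏ c, ∏ i, γ c i ^ (t c * s i) ≠ 1)
    (hS : D ^ 2 < S ^ m) {P : MvPolynomial σ K} (hP : P ≠ 0) (hdeg : P.totalDegree ≤ D)
    (hX : ∀ c, ¬ X c ∣ P) :
    ∃ s0 : Fin m → Fin S, IsRelPrime P (zeSc (fun c => ∏ i, γ c i ^ (s0 i : ℕ)) P) := by
  by_contra hcon
  push Not at hcon
  obtain ⟨F, hF⟩ : ∃ F, F = (UniqueFactorizationMonoid.factors P).toFinset := ⟨_, rfl⟩
  have hFc : F.card ≤ D := hF ▸ (ze_factors_card hP).trans hdeg
  have key : ∀ s0 : Fin m → Fin S, ∃ q : MvPolynomial σ K × MvPolynomial σ K, q ∈ F ×ˢ F ∧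
      Associated q.1 (zeSc (fun c => ∏ i, γ c i ^ (s0 i : ℕ)) q.2) := by
    intro s0
    have h := hcon s0
    obtain ⟨g, hg⟩ : ∃ g : σ → Kˣ, g = fun c => ∏ i, γ c i ^ (s0 i : ℕ) := ⟨_, rfl⟩
    rw [← hg] at h ⊢
    have h2 : ¬ ∀ z, Irreducible z → z ∣ P → ¬ z ∣ zeSc g P := fun H =>
      h (WfDvdMonoid.isRelPrime_of_no_irreducible_factors (fun h => hP h.1) H)
    push Not at h2
    obtain ⟨z, hz, hz1, hz2⟩ := h2
    obtain ⟨q1, hq1, ha1⟩ := UniqueFactorizationMonoid.exists_mem_factors_of_dvd hP hz hz1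
    have hz3 : zeSc g⁻¹ z ∣ P := by
      have := map_dvd (zeSc g⁻¹) hz2
      rwa [zeSc_inv'] at this
    obtain ⟨q2, hq2, ha2⟩ :=
      UniqueFactorizationMonoid.exists_mem_factors_of_dvd hP (zeSc_irred g⁻¹ hz) hz3
    refine ⟨(q1, q2), ?_, ?_⟩
    · rw [Finset.mem_product, hF]
      exact ⟨Multiset.mem_toFinset.2 hq1, Multiset.mem_toFinset.2 hq2⟩
    · have := ha2.map (zeSc g)
      rw [zeSc_inv] at this
      exact ha1.symm.trans this
  choose q hq hqa using key
  have hcard : (F ×ˢ F).card < (Finset.univ : Finset (Fin m → Fin S)).card := by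
    rw [Finset.card_product, Finset.card_univ, Fintype.card_fun, Fintype.card_fin,
      Fintype.card_fin]
    calc F.card * F.card ≤ D * D := Nat.mul_le_mul hFc hFc
      _ = D ^ 2 := by ring
      _ < _ := hS
  obtain ⟨s, -, s', -, hne, heq⟩ :=
    Finset.exists_ne_map_eq_of_card_lt_of_maps_to hcard (f := q) (fun x _ => hq x)
  have h1 := hqa s
  have h2 := hqa s'
  rw [← heq] at h2
  have hq2 : (q s).2 ∈ UniqueFactorizationMonoid.factors P := by
    have := (Finset.mem_product.1 (hq s)).2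
    rwa [hF, Multiset.mem_toFinset] at this
  obtain ⟨t, t', htt, ht, ht'⟩ := ze_two_mon (UniqueFactorizationMonoid.irreducible_of_factor _ hq2)
    (fun c hc => hX c (hc.trans (UniqueFactorizationMonoid.dvd_of_mem_factors hq2)))
  have h3 := ze_assoc_char _ _ (h1.symm.trans h2) ht ht'
  refine hγ (fun c => (t c : ℤ) - (t' c : ℤ)) (fun i => ((s i : ℕ) : ℤ) - ((s' i : ℕ) : ℤ)) ?_ ?_ ?_
  · intro h
    apply htt
    ext c
    have := congrFun h c
    simp only [Pi.zero_apply] at this
    omega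
  · intro h
    apply hne
    ext i
    have := congrFun h i
    simp only [Pi.zero_apply] at this
    omega
  · rw [← h3]
    refine Finset.prod_congr rfl fun c _ => ?_
    rw [← Finset.prod_div_distrib, ← Finset.prod_zpow]
    refine Finset.prod_congr rfl fun i _ => ?_
    rw [mul_comm, zpow_mul, zpow_sub (γ c i), zpow_natCast, zpow_natCast, div_eq_mul_inv]

theorem ze_coprime_frac {A : Type*} [CommRing A] [IsDomain A] [UniqueFactorizationMonoid A]
    {f g : Polynomial A} (hf : f ≠ 0) (h : IsRelPrime f g) :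
    IsCoprime (f.map (algebraMap A (FractionRing A))) (g.map (algebraMap A (FractionRing A))) := by
  let : NormalizedGCDMonoid A := Nonempty.some inferInstance
  have hinj := IsFractionRing.injective A (FractionRing A)
  have hf' : f.map (algebraMap A (FractionRing A)) ≠ 0 :=
    (Polynomial.map_ne_zero_iff hinj).2 hf
  refine isCoprime_of_dvd _ _ (fun h => hf' h.1) ?_
  intro z hz hz0 hzf hzg
  apply hz
  apply Polynomial.isUnit_or_eq_zero_of_isUnit_integerNormalization_primPart
    (R := A) hz0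
  obtain ⟨b, hb, hbz⟩ := IsLocalization.integerNormalization_spec (nonZeroDivisors A) z
  obtain ⟨p, hp⟩ : ∃ p, p = IsLocalization.integerNormalization (nonZeroDivisors A) z := ⟨_, rfl⟩
  rw [← hp] at hbz ⊢
  have hb0 : algebraMap A (FractionRing A) b ≠ 0 := by
    rw [map_ne_zero_iff _ hinj]
    exact nonZeroDivisors.ne_zero hb
  have hd : p.primPart.map (algebraMap A (FractionRing A)) ∣ z := by
    have h1 : p.primPart.map (algebraMap A (FractionRing A)) ∣
        p.map (algebraMap A (FractionRing A)) := Polynomial.map_dvd _ p.primPart_dvd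
    rw [hbz, Algebra.smul_def, Polynomial.algebraMap_apply] at h1
    exact (IsUnit.dvd_mul_left (Polynomial.isUnit_C.2 (IsUnit.mk0 _ hb0))).1 h1
  exact h (p.isPrimitive_primPart.dvd_of_fraction_map_dvd_fraction_map (hd.trans hzf))
    (p.isPrimitive_primPart.dvd_of_fraction_map_dvd_fraction_map (hd.trans hzg))

theorem ze_res_ne {A : Type*} [CommRing A] [IsDomain A] [UniqueFactorizationMonoid A]
    {f g : Polynomial A} (hf : f ≠ 0) (h : IsRelPrime f g) :
    Polynomial.resultant f g ≠ 0 := by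
  have hinj := IsFractionRing.injective A (FractionRing A)
  have h1 := Polynomial.resultant_ne_zero _ _ (ze_coprime_frac hf h)
  rw [Polynomial.natDegree_map_eq_of_injective hinj, Polynomial.natDegree_map_eq_of_injective hinj,
    Polynomial.resultant_map_map] at h1
  intro h0
  rw [h0, map_zero] at h1
  exact h1 rfl

theorem ze_res_deg {K τ : Type*} [Field K] {D : ℕ} (f g : Polynomial (MvPolynomial τ K))
    (a b : ℕ) (hf : ∀ i, (f.coeff i).totalDegree ≤ D) (hg : ∀ i, (g.coeff i).totalDegree ≤ D) :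
    (Polynomial.resultant f g a b).totalDegree ≤ (a + b) * D := by
  have hent : ∀ i j, (Polynomial.sylvester f g a b i j).totalDegree ≤ D := by
    intro i j
    rw [Polynomial.sylvester, Matrix.of_apply]
    induction j using Fin.addCases with
    | left j =>
      rw [Fin.addCases_left]
      split_ifs
      · exact hg _
      · simp
    | right j =>
      rw [Fin.addCases_right]
      split_ifs
      · exact hf _
      · simp
  rw [Polynomial.resultant, Matrix.det_apply]
  refine totalDegree_finsetSum_le fun σ _ => ?_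
  have h1 : (∏ i, Polynomial.sylvester f g a b (σ i) i).totalDegree ≤ (a + b) * D := by
    refine (totalDegree_finsetProd _ _).trans ?_
    refine (Finset.sum_le_sum fun i _ => hent (σ i) i).trans ?_
    simp
  rcases Int.units_eq_one_or (Equiv.Perm.sign σ) with h | h
  · rw [h, one_smul]; exact h1
  · rw [h, Units.neg_smul, one_smul, totalDegree_neg]; exact h1

theorem ze_coeff_deg {K : Type*} [Field K] {n : ℕ} (P : MvPolynomial (Fin (n + 1)) K) (i : ℕ) :
    ((finSuccEquiv K n P).coeff i).totalDegree ≤ P.totalDegree := by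
  by_cases h : (finSuccEquiv K n P).coeff i = 0
  · rw [h]; simp
  · have := totalDegree_coeff_finSuccEquiv_add_le P i h
    omega

/-- elimination of the first variable -/
theorem ze_elim {K : Type*} [Field K] {n D : ℕ} (hD : 2 ≤ D) {P Q : MvPolynomial (Fin (n + 1)) K}
    (hP : P ≠ 0) (h : IsRelPrime P Q) (hPd : P.totalDegree ≤ D) (hQd : Q.totalDegree ≤ D) :
    ∃ R : MvPolynomial (Fin n) K, R ≠ 0 ∧ R.totalDegree ≤ D ^ 3 ∧
      ∀ x : Fin (n + 1) → K, eval x P = 0 → eval x Q = 0 → eval (fun c => x c.succ) R = 0 := by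
  obtain ⟨f, hf⟩ : ∃ f, f = finSuccEquiv K n P := ⟨_, rfl⟩
  obtain ⟨g, hg⟩ : ∃ g, g = finSuccEquiv K n Q := ⟨_, rfl⟩
  have hf0 : f ≠ 0 := by
    rw [hf]; exact (map_ne_zero_iff _ (finSuccEquiv K n).injective).2 hP
  have hfg : IsRelPrime f g := by
    intro d hdf hdg
    have h1 : (finSuccEquiv K n).symm d ∣ P := by
      have := map_dvd (finSuccEquiv K n).symm hdf
      rwa [hf, AlgEquiv.symm_apply_apply] at this
    have h2 : (finSuccEquiv K n).symm d ∣ Q := by
      have := map_dvd (finSuccEquiv K n).symm hdg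
      rwa [hg, AlgEquiv.symm_apply_apply] at this
    have := (h h1 h2).map (finSuccEquiv K n)
    rwa [AlgEquiv.apply_symm_apply] at this
  have hfd : f.natDegree ≤ D := by
    rw [hf, natDegree_finSuccEquiv]; exact (degreeOf_le_totalDegree _ _).trans hPd
  have hgd : g.natDegree ≤ D := by
    rw [hg, natDegree_finSuccEquiv]; exact (degreeOf_le_totalDegree _ _).trans hQd
  have hfc : ∀ i, (f.coeff i).totalDegree ≤ D := fun i => hf ▸ (ze_coeff_deg P i).trans hPd
  have hgc : ∀ i, (g.coeff i).totalDegree ≤ D := fun i => hg ▸ (ze_coeff_deg Q i).trans hQd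
  have hev : ∀ (x : Fin (n + 1) → K) (T : MvPolynomial (Fin (n + 1)) K), eval x T =
      Polynomial.eval (x 0) (Polynomial.map (eval fun c => x c.succ) (finSuccEquiv K n T)) := by
    intro x T
    rw [← eval_eq_eval_mv_eval']
    congr 2
    exact (Fin.cons_self_tail x).symm
  by_cases h0 : f.natDegree ≠ 0 ∨ g.natDegree ≠ 0
  · obtain ⟨p, q, -, -, hpq⟩ :=
      Polynomial.exists_mul_add_mul_eq_C_resultant f g le_rfl le_rfl h0
    refine ⟨Polynomial.resultant f g, ze_res_ne hf0 hfg, ?_, ?_⟩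
    · refine (ze_res_deg f g _ _ hfc hgc).trans ?_
      calc (f.natDegree + g.natDegree) * D ≤ (D + D) * D := by gcongr
        _ = 2 * D ^ 2 := by ring
        _ ≤ D * D ^ 2 := by gcongr
        _ = D ^ 3 := by ring
    · intro x hx1 hx2
      rw [hev, ← hf] at hx1
      rw [hev, ← hg] at hx2
      have := congrArg (fun T => Polynomial.eval (x 0)
        (Polynomial.map (eval fun c : Fin n => x c.succ) T)) hpq
      simp only [Polynomial.map_add, Polynomial.map_mul, Polynomial.eval_add, Polynomial.eval_mul,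
        hx1, hx2, Polynomial.map_C, Polynomial.eval_C, zero_mul, add_zero] at this
      exact this.symm
  · push Not at h0
    have hfC := Polynomial.eq_C_of_natDegree_eq_zero h0.1
    refine ⟨f.coeff 0, ?_, (hfc 0).trans ?_, ?_⟩
    · intro h1; apply hf0; rw [hfC, h1]; simp
    · exact Nat.le_self_pow (by norm_num) D
    · intro x hx1 _
      rw [hev, ← hf, hfC] at hx1
      simpa using hx1

end ze_aux

theorem zero_est {K : Type*} [Field K] (n : ℕ) {m D S : ℕ} (γ : Fin n → Fin m → Kˣ)
    (hγ : ∀ (t : Fin n → ℤ) (s : Fin m → ℤ), t ≠ 0 → s ≠ 0 → ∏ c, ∏ i, γ c i ^ (t c * s i) ≠ 1)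
    (hD : 2 ≤ D) (hS : D ^ (2 * 3 ^ n) < S ^ m) (P : MvPolynomial (Fin n) K) (hP : P ≠ 0)
    (hdeg : P.totalDegree ≤ D) :
    ∃ s : Fin m → ℕ, (∀ i, s i ≤ n * S) ∧
      MvPolynomial.eval (fun c => ∏ i, (γ c i : K) ^ s i) P ≠ 0 := by
  induction n generalizing D with
  | zero =>
    refine ⟨fun _ => 0, fun _ => Nat.zero_le _, ?_⟩
    rw [MvPolynomial.eq_C_of_isEmpty P] at hP ⊢
    rw [MvPolynomial.eval_C]
    intro h
    apply hP
    rw [h]; simp
  | succ n ih =>
    by_contra hcon
    push Not at hcon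
    obtain ⟨P', hP', hd', hX, hev⟩ := ze_strip _ P hP le_rfl
    have hS2 : D ^ 2 < S ^ m := by
      refine lt_of_le_of_lt (Nat.pow_le_pow_right (by omega) ?_) hS
      have : 1 ≤ 3 ^ (n + 1) := Nat.one_le_pow _ _ (by norm_num)
      omega
    obtain ⟨s0, hs0⟩ := ze_good γ hγ hS2 hP' (hd'.trans hdeg) hX
    obtain ⟨R, hR0, hRd, hR⟩ := ze_elim hD hP' hs0 (hd'.trans hdeg)
      ((zeSc_totalDegree _ _).trans (hd'.trans hdeg))
    have hγ' : ∀ (t : Fin n → ℤ) (s : Fin m → ℤ), t ≠ 0 → s ≠ 0 →
        ∏ c : Fin n, ∏ i, γ c.succ i ^ (t c * s i) ≠ 1 := by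
      intro t s ht hs
      have := hγ (Fin.cons 0 t) s (by
        intro h; apply ht; ext c
        have := congrFun h c.succ
        simpa using this) hs
      rw [Fin.prod_univ_succ] at this
      simpa using this
    have hD3 : 2 ≤ D ^ 3 := hD.trans (Nat.le_self_pow (by norm_num) D)
    have hS3 : (D ^ 3) ^ (2 * 3 ^ n) < S ^ m := by
      rw [← pow_mul]
      convert hS using 2
      ring
    obtain ⟨s, hs, hne⟩ := ih (fun c => γ c.succ) hγ' hD3 hS3 R hR0 hRd
    apply hne
    have hz : ∀ s : Fin m → ℕ, (∀ i, s i ≤ (n + 1) * S) →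
        MvPolynomial.eval (fun c => ∏ i, (γ c i : K) ^ s i) P' = 0 := by
      intro s hs
      refine hev _ (fun c => ?_) (hcon s hs)
      exact Finset.prod_ne_zero_iff.2 fun i _ => pow_ne_zero _ (Units.ne_zero _)
    refine hR (fun c => ∏ i, (γ c i : K) ^ s i) (hz s fun i => (hs i).trans ?_) ?_
    · exact Nat.mul_le_mul_right _ (Nat.le_succ n)
    · rw [zeSc_eval]
      have := hz (fun i => (s0 i : ℕ) + s i) (fun i => by
        have h1 := hs i
        have h2 := (s0 i).2
        rw [Nat.succ_mul]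
        omega)
      convert this using 3
      ext c
      simp only [Units.coe_prod, Units.val_pow_eq_pow_val, pow_add, Finset.prod_mul_distrib]

end Crest.Agent.R018
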