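import Crest.Agent.R018.Defs

/-!
# R018 / Zeta1

`∑_𝔭 N𝔭^{-s} ~ log (1/(s-1))` for a number field `K`, and the primes of non-prime norm or above a finite set of primes
contribute `O(1)`.  Inputs: `NumberField.tendsto_sub_one_mul_dedekindZeta_nhdsGT` (residue `> 0`: `dedekindZeta_residue_pos`),
so `log ζ_K(s) = log (1/(s-1)) + O(1)`.  Euler product for ideals (not in Mathlib for `K`; prove the two inequalities directly or
use `EulerProduct`-style arguments): with `P(s) = ∑_𝔭 N𝔭^{-s}`: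
(a) `ζ_K(s) ≤ ∏_𝔭 (1 - N𝔭^{-s})⁻¹ ≤ exp (P(s) + C)` (every finite set of ideals is contained in the set of ideals generated by a
finite set of primes; induct on the finite set of primes; `-log (1-x) ≤ x + 2x²` for `x ≤ 1/2`; `∑ N𝔭^{-2s} ≤ deg K · ∑ p^{-2}`);
(b) `exp (P(s) - C) ≤ ∏ (1 + N𝔭^{-s}) ≤ ζ_K(s)` (squarefree ideals are distinct; `log (1+x) ≥ x - x²`).
`dedekindZeta K s = LSeries (fun n ↦ Nat.card {I // absNorm I = n}) s`; relate to `∑' I ≠ ⊥, (absNorm I)^{-s}` for real `s > 1`.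
At most `finrank ℚ K` primes lie over each `p`, and their norms are powers of `p`.
-/

set_option autoImplicit false
set_option linter.unusedSectionVars false

noncomputable section

namespace Crest.Agent.R018

open scoped NNReal Classical

open NumberField IsDedekindDomain Filter Topology

variable (K : Type*) [Field K] [NumberField K]

/-- `N I ^ (-s)` -/
def zeta1W (s : ℝ) (I : Ideal (𝓞 K)) : ℝ := (Ideal.absNorm I : ℝ) ^ (-s)

variable {K}

theorem zeta1W_nonneg (s : ℝ) (I : Ideal (𝓞 K)) : 0 ≤ zeta1W K s I := by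
  unfold zeta1W; positivity

theorem zeta1W_mul (s : ℝ) (I J : Ideal (𝓞 K)) :
    zeta1W K s (I * J) = zeta1W K s I * zeta1W K s J := by
  unfold zeta1W
  rw [map_mul, Nat.cast_mul, Real.mul_rpow (Nat.cast_nonneg _) (Nat.cast_nonneg _)]

theorem zeta1W_anti {s s' : ℝ} (h0 : 0 < s) (h : s ≤ s') (I : Ideal (𝓞 K)) :
    zeta1W K s' I ≤ zeta1W K s I := by
  unfold zeta1W
  rcases Nat.eq_zero_or_pos (Ideal.absNorm I) with h1 | h1
  · rw [h1, Nat.cast_zero, Real.zero_rpow (by linarith), Real.zero_rpow (by linarith)]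
  · exact Real.rpow_le_rpow_of_exponent_le (by exact_mod_cast h1) (by linarith)

theorem zeta1W_le_half {s : ℝ} (hs : 1 ≤ s) (𝔭 : HeightOneSpectrum (𝓞 K)) :
    zeta1W K s 𝔭.asIdeal ≤ 1 / 2 := by
  refine (zeta1W_anti one_pos hs _).trans ?_
  have : (2 : ℝ) ≤ Ideal.absNorm 𝔭.asIdeal := by
    exact_mod_cast NumberField.HeightOneSpectrum.one_lt_absNorm 𝔭
  rw [zeta1W, Real.rpow_neg_one, one_div]
  exact inv_anti₀ two_pos this

variable (K)

theorem zeta1_eq {s : ℝ} (hs : s ≠ 0) :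
    ((∑' I, zeta1W K s I : ℝ) : ℂ) = dedekindZeta K s := by
  have e : ∀ n : ℕ, ∑' I : {I : Ideal (𝓞 K) // Ideal.absNorm I = n}, zeta1W K s I =
      (Nat.card {I : Ideal (𝓞 K) // Ideal.absNorm I = n} : ℝ) * (n : ℝ) ^ (-s) := fun n => by
    rw [← nsmul_eq_mul, ← tsum_const]
    exact tsum_congr fun I => by rw [zeta1W, I.2]
  have e1 : ∑' I, zeta1W K s I = ∑' n : ℕ,
      ∑' I : {I : Ideal (𝓞 K) // Ideal.absNorm I = n}, zeta1W K s I := by
    rw [← (Equiv.sigmaFiberEquiv (Ideal.absNorm (S := 𝓞 K))).tsum_eq]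
    by_cases h : Summable fun p => zeta1W K s (Equiv.sigmaFiberEquiv (Ideal.absNorm (S := 𝓞 K)) p)
    · exact h.tsum_sigma
    · rw [tsum_eq_zero_of_not_summable h, tsum_eq_zero_of_not_summable fun h' => h ?_]
      refine (summable_sigma_of_nonneg fun _ => zeta1W_nonneg _ _).2 ⟨fun n => ?_, h'⟩
      have : Finite {I : Ideal (𝓞 K) // Ideal.absNorm I = n} :=
        (Ideal.finite_setOfPred_absNorm_eq n).to_subtype
      exact Summable.of_finite
  rw [e1, Complex.ofReal_tsum, dedekindZeta, LSeries]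
  refine tsum_congr fun n => ?_
  rw [e, LSeries.term_of_ne_zero' (Complex.ofReal_ne_zero.2 hs), Real.rpow_neg (Nat.cast_nonneg _),
    Complex.ofReal_mul, Complex.ofReal_inv, Complex.ofReal_cpow (Nat.cast_nonneg _), div_eq_mul_inv]
  rfl

theorem zeta1_tendsto : Tendsto (fun s : ℝ => (s - 1) * ∑' I, zeta1W K s I) (𝓝[>] 1)
    (𝓝 (dedekindZeta_residue K)) := by
  refine ((Complex.continuous_re.tendsto _).comp
    (tendsto_sub_one_mul_dedekindZeta_nhdsGT K)).congr' ?_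
  filter_upwards [self_mem_nhdsWithin] with s (hs : 1 < s)
  rw [Function.comp_apply, ← zeta1_eq K (by linarith)]
  norm_cast

theorem zeta1_summable {s : ℝ} (hs : 1 < s) : Summable (zeta1W K s) := by
  obtain ⟨t, h1, h2⟩ := (((zeta1_tendsto K).eventually
    (lt_mem_nhds (dedekindZeta_residue_pos K))).and (Ioo_mem_nhdsGT hs)).exists
  refine Summable.of_nonneg_of_le (zeta1W_nonneg s) (zeta1W_anti (by linarith [h2.1]) h2.2.le)
    (by_contra fun h => ?_)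
  rw [tsum_eq_zero_of_not_summable h, mul_zero] at h1
  exact lt_irrefl _ h1

/-- sieving out the primes of `S` -/
theorem zeta1_sieve {s : ℝ} (hs : 1 < s) (S : Finset (HeightOneSpectrum (𝓞 K))) :
    ∑' I, (if ∀ 𝔮 ∈ S, ¬ 𝔮.asIdeal ∣ I then zeta1W K s I else 0) =
      (∑' I, zeta1W K s I) * ∏ 𝔮 ∈ S, (1 - zeta1W K s 𝔮.asIdeal) := by
  have hsum : ∀ (P : Ideal (𝓞 K) → Prop) [DecidablePred P],
      Summable fun I => if P I then zeta1W K s I else 0 :=
    fun P _ => Summable.of_nonneg_of_le (fun I => by split_ifs; exacts [zeta1W_nonneg _ _, le_rfl])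
      (fun I => by split_ifs; exacts [le_rfl, zeta1W_nonneg _ _]) (zeta1_summable K hs)
  induction S using Finset.induction_on with
  | empty => simp
  | insert 𝔭 S h ih =>
    have e1 : ∑' I, (if 𝔭.asIdeal ∣ I ∧ ∀ 𝔮 ∈ S, ¬ 𝔮.asIdeal ∣ I then zeta1W K s I else 0) =
        zeta1W K s 𝔭.asIdeal * ∑' I, (if ∀ 𝔮 ∈ S, ¬ 𝔮.asIdeal ∣ I then zeta1W K s I else 0) := by
      rw [← tsum_mul_left, ← (mul_right_injective₀ 𝔭.prime.ne_zero).tsum_eq]
      · refine tsum_congr fun J => ?_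
        have : (∀ 𝔮 ∈ S, ¬ 𝔮.asIdeal ∣ 𝔭.asIdeal * J) ↔ ∀ 𝔮 ∈ S, ¬ 𝔮.asIdeal ∣ J := by
          refine forall₂_congr fun 𝔮 h𝔮 => not_congr (𝔮.prime.dvd_mul.trans (or_iff_right ?_))
          rw [prime_dvd_prime_iff_eq 𝔮.prime 𝔭.prime]
          exact fun e => h (HeightOneSpectrum.ext e ▸ h𝔮)
        simp only [dvd_mul_right, true_and, this, zeta1W_mul, mul_ite, mul_zero]
      · intro I hI
        obtain ⟨J, rfl⟩ := (ite_ne_right_iff.1 hI).1.1
        exact ⟨J, rfl⟩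
    have e2 : ∑' I, (if ∀ 𝔮 ∈ insert 𝔭 S, ¬ 𝔮.asIdeal ∣ I then zeta1W K s I else 0) +
        ∑' I, (if 𝔭.asIdeal ∣ I ∧ ∀ 𝔮 ∈ S, ¬ 𝔮.asIdeal ∣ I then zeta1W K s I else 0) =
        ∑' I, (if ∀ 𝔮 ∈ S, ¬ 𝔮.asIdeal ∣ I then zeta1W K s I else 0) := by
      rw [← (hsum _).tsum_add (hsum _)]
      refine tsum_congr fun I => ?_
      by_cases h1 : 𝔭.asIdeal ∣ I <;> simp [h1]
    rw [Finset.prod_insert h]
    rw [e1, ih] at e2
    linarith

theorem zeta1_sieve_tendsto {s : ℝ} (hs : 1 < s) :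
    Tendsto (fun S : Finset (HeightOneSpectrum (𝓞 K)) =>
      (∑' I, zeta1W K s I) * ∏ 𝔮 ∈ S, (1 - zeta1W K s 𝔮.asIdeal)) atTop (𝓝 1) := by
  simp only [← zeta1_sieve K hs]
  rw [← tsum_ite_eq (⊤ : Ideal (𝓞 K)) fun _ => (1 : ℝ)]
  refine tendsto_tsum_of_dominated_convergence (zeta1_summable K hs) (fun I => ?_)
    (Eventually.of_forall fun S I => ?_)
  · refine tendsto_const_nhds.congr' ?_
    by_cases h : I = ⊤
    · subst h
      refine Eventually.of_forall fun S => ?_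
      have : ∀ 𝔮 ∈ S, ¬ 𝔮.asIdeal ∣ ⊤ := fun 𝔮 _ h =>
        𝔮.isPrime.ne_top (top_le_iff.1 (Ideal.le_of_dvd h))
      simp only [if_pos this, zeta1W, Ideal.absNorm_top, if_true, Nat.cast_one, Real.one_rpow]
    by_cases h0 : I = ⊥
    · subst h0
      refine Eventually.of_forall fun S => ?_
      simp only [if_neg h, zeta1W, Ideal.absNorm_bot, Nat.cast_zero,
        Real.zero_rpow (by linarith : -s ≠ 0), ite_self]
    obtain ⟨P, hP, hIP⟩ := I.exists_le_maximal h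
    filter_upwards [eventually_ge_atTop
      {(⟨P, hP.isPrime, fun e => h0 (le_bot_iff.1 (e ▸ hIP))⟩ : HeightOneSpectrum (𝓞 K))}] with S hS
    rw [if_neg h, if_neg fun h' => h' _ (hS (Finset.mem_singleton_self _)) (Ideal.dvd_iff_le.2 hIP)]
  · split_ifs
    · exact (Real.norm_of_nonneg (zeta1W_nonneg _ _)).le
    · exact norm_zero.trans_le (zeta1W_nonneg _ _)

theorem summable_primes {s : ℝ} (hs : 1 < s) :
    Summable fun 𝔭 : HeightOneSpectrum (𝓞 K) => (Ideal.absNorm 𝔭.asIdeal : ℝ) ^ (-s) := by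
  exact (zeta1_summable K hs).comp_injective fun _ _ h => HeightOneSpectrum.ext h

theorem zeta1_bounds {s : ℝ} (hs : 1 < s) :
    |(∑' 𝔭 : HeightOneSpectrum (𝓞 K), zeta1W K s 𝔭.asIdeal) - Real.log (∑' I, zeta1W K s I)| ≤
      2 * ∑' 𝔭 : HeightOneSpectrum (𝓞 K), zeta1W K 2 𝔭.asIdeal := by
  have h1 : Summable fun 𝔭 : HeightOneSpectrum (𝓞 K) => zeta1W K s 𝔭.asIdeal :=
    summable_primes K hs
  have h2 : Summable fun 𝔭 : HeightOneSpectrum (𝓞 K) => zeta1W K 2 𝔭.asIdeal :=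
    summable_primes K one_lt_two
  have h0 : 0 ≤ ∑' 𝔭 : HeightOneSpectrum (𝓞 K), zeta1W K 2 𝔭.asIdeal :=
    tsum_nonneg fun _ => zeta1W_nonneg _ _
  have hZ : 0 < ∑' I, zeta1W K s I :=
    (zeta1_summable K hs).tsum_pos (zeta1W_nonneg s) ⊤ (by simp [zeta1W])
  have ht := zeta1_sieve_tendsto K hs
  obtain ⟨Z, hZe⟩ : ∃ Z, Z = ∑' I, zeta1W K s I := ⟨_, rfl⟩
  rw [← hZe] at hZ ht ⊢
  have a1 : 1 ≤ Z * Real.exp (-∑' 𝔭 : HeightOneSpectrum (𝓞 K), zeta1W K s 𝔭.asIdeal) := by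
    refine le_of_tendsto_of_tendsto' ht
      (((Real.continuous_exp.tendsto _).comp (Tendsto.neg h1.hasSum)).const_mul Z) fun S => ?_
    refine mul_le_mul_of_nonneg_left ?_ hZ.le
    rw [Function.comp_apply, ← Finset.sum_neg_distrib, Real.exp_sum]
    exact Finset.prod_le_prod (fun 𝔮 _ => by linarith [zeta1W_le_half hs.le 𝔮])
      fun 𝔮 _ => by linarith [Real.add_one_le_exp (-zeta1W K s 𝔮.asIdeal)]
  have a2 : Z * Real.exp (-((∑' 𝔭 : HeightOneSpectrum (𝓞 K), zeta1W K s 𝔭.asIdeal) +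
      2 * ∑' 𝔭 : HeightOneSpectrum (𝓞 K), zeta1W K 2 𝔭.asIdeal)) ≤ 1 := by
    refine le_of_tendsto_of_tendsto' (((Real.continuous_exp.tendsto _).comp
      (Tendsto.neg (h1.hasSum.add (h2.hasSum.mul_left 2)))).const_mul Z) ht fun S => ?_
    refine mul_le_mul_of_nonneg_left ?_ hZ.le
    rw [Function.comp_apply, ← Finset.sum_neg_distrib, Real.exp_sum]
    refine Finset.prod_le_prod (fun 𝔮 _ => (Real.exp_pos _).le) fun 𝔮 _ => ?_
    have b1 := zeta1W_le_half hs.le 𝔮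
    have b2 := zeta1W_nonneg s 𝔮.asIdeal
    have b3 : zeta1W K s 𝔮.asIdeal ^ 2 ≤ zeta1W K 2 𝔮.asIdeal := by
      refine le_trans (le_of_eq ?_) (zeta1W_anti two_pos (by linarith : 2 ≤ s * 2) _)
      rw [zeta1W, zeta1W, ← neg_mul, Real.rpow_mul (Nat.cast_nonneg _), Real.rpow_two]
    have b4 := Real.add_one_le_exp (zeta1W K s 𝔮.asIdeal + 2 * zeta1W K 2 𝔮.asIdeal)
    rw [Real.exp_neg, inv_le_iff_one_le_mul₀ (Real.exp_pos _)]
    generalize zeta1W K s 𝔮.asIdeal = x at *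
    have b5 := mul_le_mul_of_nonneg_left (le_trans (by linarith : x + 2 * x ^ 2 + 1 ≤ _) b4)
      (by linarith : 0 ≤ 1 - x)
    nlinarith [mul_nonneg (sq_nonneg x) (by linarith : 0 ≤ 1 - 2 * x)]
  have c1 := Real.log_nonneg a1
  have c2 := Real.log_nonpos (by positivity) a2
  rw [Real.log_mul hZ.ne' (Real.exp_ne_zero _), Real.log_exp] at c1 c2
  exact abs_le.2 ⟨by linarith, by linarith⟩

theorem primeSum_sub_log_bounded : ∃ C : ℝ, ∀ᶠ s in 𝓝[>] (1 : ℝ),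
    |(∑' 𝔭 : HeightOneSpectrum (𝓞 K), (Ideal.absNorm 𝔭.asIdeal : ℝ) ^ (-s)) -
      Real.log (1 / (s - 1))| ≤ C := by
  have ht := ((Real.continuousAt_log (dedekindZeta_residue_ne_zero K)).tendsto.comp
    (zeta1_tendsto K)).abs
  refine ⟨2 * (∑' 𝔭 : HeightOneSpectrum (𝓞 K), zeta1W K 2 𝔭.asIdeal) +
    (|Real.log (dedekindZeta_residue K)| + 1), ?_⟩
  filter_upwards [ht.eventually (gt_mem_nhds (lt_add_one _)), self_mem_nhdsWithin] with s h1 (hs : 1 < s)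
  have hZ : 0 < ∑' I, zeta1W K s I :=
    (zeta1_summable K hs).tsum_pos (zeta1W_nonneg s) ⊤ (by simp [zeta1W])
  rw [Function.comp_apply, Real.log_mul (sub_pos.2 hs).ne' hZ.ne'] at h1
  rw [one_div, Real.log_inv]
  refine (abs_sub_le _ (Real.log (∑' I, zeta1W K s I)) _).trans (add_le_add (zeta1_bounds K hs) ?_)
  rw [sub_neg_eq_add, add_comm]
  exact h1.le

/-- primes whose norm is not a prime number outside `B` are negligible. -/
theorem primeSum_bad_bounded (B : Finset ℕ) : ∃ C : ℝ, ∀ s : ℝ, 1 < s →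
    (∑' 𝔭 : HeightOneSpectrum (𝓞 K),
      if (Ideal.absNorm 𝔭.asIdeal).Prime ∧ Ideal.absNorm 𝔭.asIdeal ∉ B then 0
      else (Ideal.absNorm 𝔭.asIdeal : ℝ) ^ (-s)) ≤ C := by
  have hex := fun 𝔭 : HeightOneSpectrum (𝓞 K) =>
    Ideal.exists_prime_and_absNorm_eq_pow 𝔭.asIdeal
  choose g n hn hg hp hN using hex
  have hcard : ∀ (T : Finset (HeightOneSpectrum (𝓞 K))) (p : ℕ), p.Prime → (∀ 𝔭 ∈ T, g 𝔭 = p) →
      T.card ≤ Module.finrank ℤ (𝓞 K) := fun T p hp' hT => by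
    have h1 : ∏ 𝔭 ∈ T, 𝔭.asIdeal ∣ Ideal.span {(p : 𝓞 K)} :=
      Finset.prod_dvd_of_coprime (fun 𝔭 _ 𝔮 _ h => 𝔭.isCoprime_of_ne 𝔮 h) fun 𝔭 h =>
        Ideal.dvd_iff_le.2 ((Ideal.span_singleton_le_iff_mem _).2 (hT 𝔭 h ▸ hg 𝔭))
    have h2 := map_dvd Ideal.absNorm h1
    rw [Ideal.absNorm_span_natCast, map_prod] at h2
    refine (Nat.pow_dvd_pow_iff_le_right hp'.one_lt).1 (Dvd.dvd.trans ?_ h2)
    rw [← Finset.prod_const]
    exact Finset.prod_dvd_prod_of_dvd _ _ fun 𝔭 h => by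
      rw [hN, hT 𝔭 h]; exact dvd_pow_self _ (hn 𝔭).ne'
  obtain ⟨A, hA1, hA⟩ : ∃ A : ℝ, 1 ≤ A ∧ ∀ b ∈ B, (b : ℝ) ^ 2 ≤ A :=
    ⟨1 + ∑ b ∈ B, (b : ℝ) ^ 2, le_add_of_nonneg_right (by positivity), fun b hb =>
      (Finset.single_le_sum (f := fun b : ℕ => (b : ℝ) ^ 2) (fun _ _ => by positivity) hb).trans
        (le_add_of_nonneg_left zero_le_one)⟩
  refine ⟨Module.finrank ℤ (𝓞 K) * (A * ∑' p : ℕ, ((p : ℝ) ^ 2)⁻¹), fun s hs => ?_⟩
  refine Real.tsum_le_of_sum_le (fun 𝔭 => by dsimp only; split_ifs <;> positivity) fun T => ?_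
  calc _ ≤ ∑ 𝔭 ∈ T, A * ((g 𝔭 : ℝ) ^ 2)⁻¹ := by
        refine Finset.sum_le_sum fun 𝔭 _ => ?_
        have h1 : (1 : ℝ) ≤ g 𝔭 := by exact_mod_cast (hp 𝔭).one_le
        split_ifs with h
        · positivity
        refine (zeta1W_anti one_pos hs.le 𝔭.asIdeal).trans ?_
        rw [zeta1W, Real.rpow_neg_one]
        rw [hN] at h ⊢
        push_cast
        rcases (Nat.succ_le_of_lt (hn 𝔭)).eq_or_lt with h2 | h2
        · rw [← h2, pow_one] at h
          refine (inv_le_one_of_one_le₀ (one_le_pow₀ h1)).trans ?_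
          rw [← div_eq_mul_inv, one_le_div (by positivity)]
          exact hA _ (by_contra fun hb => h ⟨hp 𝔭, hb⟩)
        · exact (inv_anti₀ (by positivity) (pow_le_pow_right₀ h1 h2)).trans
            (le_mul_of_one_le_left (by positivity) hA1)
    _ = ∑ p ∈ T.image g, (T.filter fun 𝔭 => g 𝔭 = p).card • (A * ((p : ℝ) ^ 2)⁻¹) :=
        Finset.sum_comp (fun p : ℕ => A * ((p : ℝ) ^ 2)⁻¹) g
    _ ≤ ∑ p ∈ T.image g, Module.finrank ℤ (𝓞 K) * (A * ((p : ℝ) ^ 2)⁻¹) := by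
        refine Finset.sum_le_sum fun p hp' => ?_
        obtain ⟨𝔭, -, rfl⟩ := Finset.mem_image.1 hp'
        rw [nsmul_eq_mul]
        gcongr
        exact hcard _ _ (hp 𝔭) fun 𝔮 h => (Finset.mem_filter.1 h).2
    _ ≤ _ := by
        rw [← Finset.mul_sum, ← Finset.mul_sum]
        gcongr
        exact (Real.summable_nat_pow_inv.2 one_lt_two).sum_le_tsum _ fun _ _ => by positivity

end Crest.Agent.R018
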