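import Crest.Agent.R018.Zeta1
import Crest.Agent.R018.Tower
import Crest.Agent.R018.Ram

/-!
# R018 / Zeta2

Translation of `Zeta1` to the group-theoretic setting.  `O` runs over the `G`-orbits of places (primes of `F`),
`cnt N C B O` counts the cosets `t N` with `t (Dec O.out) t⁻¹ ≤ C`, i.e. `Dec (t • O.out) ≤ C` (well defined as `N ≤ C` is normal in `G`).
The `C`-orbits of places `W` with `Dec W ≤ C` inside `O` correspond to the `C/N`-orbits (all free, of size `[C : N]`) on these cosets;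
for such `W`, `resCard C W = resCard ⊤ W` (`nm_bas_of_dec_le`).  The `C`-orbits of places are the primes of the number field `L C`
(`prime_eq_iff_same`, `exists_pl_prime`, `resCard_eq_absNorm`).  Sandwich: a prime of `L C` whose norm is a prime number `p` outside
`B ∪ (ramified primes)` has `Dec W ≤ C` (`dec_le_of_resCard_eq` with `H = ⊤`, `exists_resCard_eq_pow`, `exists_ine_le`).
-/

set_option autoImplicit false
set_option linter.unusedSectionVars false

noncomputable section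

namespace Crest.Agent.R018

open scoped NNReal Classical

variable {F E : Type*} [Field F] [NumberField F] [Field E] [CharZero E] [Algebra F E]
  [IsGalois F E]
open Filter Topology

/-- number of cosets `t N` with `Dec (t • O.out) ≤ C` (zero above the primes in `B`). -/
def cnt (N C : Subgroup Gal(E/F)) (B : Finset ℕ)
    (O : MulAction.orbitRel.Quotient Gal(E/F) (Pl E)) : ℕ :=
  if (O.out : Pl E).p ∈ B then 0 else Nat.card {t : Gal(E/F) ⧸ N // Dec F (t.out • (O.out : Pl E)) ≤ C}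

theorem summable_orbits {s : ℝ} (hs : 1 < s) :
    Summable fun O : MulAction.orbitRel.Quotient Gal(E/F) (Pl E) =>
      (resCard (⊤ : Subgroup Gal(E/F)) O.out : ℝ) ^ (-s) := by
  have hT : IsOpen ((⊤ : Subgroup Gal(E/F)) : Set Gal(E/F)) := isOpen_univ
  have := numberField_L hT
  have hinj : Function.Injective fun O : MulAction.orbitRel.Quotient Gal(E/F) (Pl E) =>
      (O.out : Pl E).prime (L (⊤ : Subgroup Gal(E/F))) := by
    intro O O' h
    obtain ⟨g, -, hg⟩ := ((prime_eq_iff_same hT).1 h).symm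
    rw [← O.out_eq, ← O'.out_eq]
    exact Quotient.sound (MulAction.orbitRel_apply.2 ⟨g, hg⟩)
  simp only [resCard_eq_absNorm]
  exact (summable_primes (L (⊤ : Subgroup Gal(E/F))) hs).comp_injective hinj

theorem z2_dec_smul {C : Subgroup Gal(E/F)} {W W' : Pl E} (h : Same C W W') (hW : Dec F W ≤ C) :
    Dec F W' ≤ C := by
  obtain ⟨c, hc, rfl⟩ := h
  intro d hd
  have h1 := C.mul_mem (C.mul_mem hc (hW (mem_Dec_smul.1 hd))) (C.inv_mem hc)
  simpa [mul_assoc] using h1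

theorem z2_card_coset {N C : Subgroup Gal(E/F)} [N.Normal] (hle : N ≤ C) (g : Gal(E/F)) :
    Nat.card {t : Gal(E/F) ⧸ N // t.out * g⁻¹ ∈ C} = N.relIndex C := by
  have h1 := Subgroup.relIndex_ker C (QuotientGroup.mk' N)
  rw [QuotientGroup.ker_mk'] at h1
  rw [h1]
  refine Nat.card_congr (Equiv.subtypeEquiv (Equiv.mulRight (g : Gal(E/F) ⧸ N)⁻¹) fun t => ?_)
  have h2 : C = (C.map (QuotientGroup.mk' N)).comap (QuotientGroup.mk' N) := by
    rw [Subgroup.comap_map_eq, QuotientGroup.ker_mk', sup_eq_left.2 hle]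
  conv_lhs => rw [h2]
  rw [Subgroup.mem_comap, QuotientGroup.mk'_apply, QuotientGroup.mk_mul, QuotientGroup.mk_inv,
    QuotientGroup.out_eq']
  rfl

/-- pairs (orbit, coset) that are counted. -/
abbrev z2_X (N C : Subgroup Gal(E/F)) (B : Finset ℕ) : Type _ :=
  {x : MulAction.orbitRel.Quotient Gal(E/F) (Pl E) × (Gal(E/F) ⧸ N) //
    (x.1.out : Pl E).p ∉ B ∧ Dec F (x.2.out • (x.1.out : Pl E)) ≤ C}

theorem z2_card_fst (N C : Subgroup Gal(E/F)) (B : Finset ℕ)
    (O : MulAction.orbitRel.Quotient Gal(E/F) (Pl E)) :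
    Nat.card ((fun x : z2_X N C B => x.1.1) ⁻¹' {O}) = cnt N C B O := by
  unfold cnt
  split_ifs with h
  · have : IsEmpty ((fun x : z2_X N C B => x.1.1) ⁻¹' {O}) := ⟨fun x => x.1.2.1 (by
      have hx : x.1.1.1 = O := x.2
      rw [hx]; exact h)⟩
    exact Nat.card_of_isEmpty
  · refine Nat.card_congr ⟨fun x => ⟨x.1.1.2, ?_⟩, fun t => ⟨⟨(O, t.1), h, t.2⟩, rfl⟩, ?_, ?_⟩
    · have hx : x.1.1.1 = O := x.2
      have h2 := x.1.2.2
      rwa [hx] at h2
    · rintro ⟨⟨⟨O', t⟩, h'⟩, hx⟩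
      obtain rfl : O' = O := hx
      rfl
    · intro t; rfl

open NumberField IsDedekindDomain in
theorem z2_card_prime {N C : Subgroup Gal(E/F)} [N.Normal] (hC : IsOpen (C : Set Gal(E/F)))
    (hle : N ≤ C) [NumberField (L C)] (B : Finset ℕ) (𝔭 : HeightOneSpectrum (𝓞 (L C))) :
    Nat.card ((fun x : z2_X N C B => (x.1.2.out • (x.1.1.out : Pl E)).prime (L C)) ⁻¹' {𝔭}) =
      if ∃ W : Pl E, W.prime (L C) = 𝔭 ∧ W.p ∉ B ∧ Dec F W ≤ C then N.relIndex C else 0 := by
  split_ifs with h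
  · obtain ⟨W, rfl, hB, hW⟩ := h
    set O : MulAction.orbitRel.Quotient Gal(E/F) (Pl E) := Quotient.mk _ W with hO
    obtain ⟨g, hg⟩ : ∃ g : Gal(E/F), g • (O.out : Pl E) = W :=
      MulAction.orbitRel_apply.1 (Quotient.exact (hO.symm.trans O.out_eq.symm))
    have hsame : ∀ t : Gal(E/F), t * g⁻¹ ∈ C → Same C W (t • (O.out : Pl E)) := fun t ht =>
      ⟨_, ht, by rw [← hg, smul_smul, inv_mul_cancel_right]⟩
    have hp : (O.out : Pl E).p ∉ B := by rw [← hg] at hB; exact hB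
    rw [← z2_card_coset hle g]
    have key : ∀ x : z2_X N C B, (x.1.2.out • (x.1.1.out : Pl E)).prime (L C) = W.prime (L C) →
        x.1.1 = O ∧ x.1.2.out * g⁻¹ ∈ C := by
      rintro ⟨⟨O', t⟩, h'⟩ hx
      obtain ⟨c, hc, hcx⟩ := (prime_eq_iff_same hC).1 hx
      simp only at hcx
      have h1 : O' = O := by
        rw [hO, ← O'.out_eq]
        exact (Quotient.sound (MulAction.orbitRel_apply.2 ⟨c * t.out, by
          simp only [mul_smul]; exact hcx⟩)).symm
      subst h1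
      refine ⟨rfl, ?_⟩
      have h2 : c * (t.out * g⁻¹) ∈ Dec F W := by
        rw [mem_Dec, mul_smul, mul_smul, ← hg, inv_smul_smul, hcx, hg]
      exact (C.mul_mem_cancel_left hc).1 (hW h2)
    refine Nat.card_congr ⟨fun x => ⟨x.1.1.2, (key x.1 x.2).2⟩,
      fun t => ⟨⟨(O, t.1), hp, z2_dec_smul (hsame _ t.2) hW⟩,
        ((prime_eq_iff_same hC).2 (hsame _ t.2)).symm⟩, ?_, ?_⟩
    · rintro ⟨⟨⟨O', t⟩, h'⟩, hx⟩
      obtain rfl : O' = O := (key _ hx).1
      rfl
    · intro t; rfl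
  · have : IsEmpty ((fun x : z2_X N C B =>
        (x.1.2.out • (x.1.1.out : Pl E)).prime (L C)) ⁻¹' {𝔭}) :=
      ⟨fun x => h ⟨_, x.2, x.1.2.1, x.1.2.2⟩⟩
    exact Nat.card_of_isEmpty

open NumberField IsDedekindDomain in
theorem z2_sum_eq {N C : Subgroup Gal(E/F)} [N.Normal] (hN : IsOpen (N : Set Gal(E/F)))
    (hle : N ≤ C) [NumberField (L C)] (B : Finset ℕ) {s : ℝ} (hs : 1 < s) :
    (∑' O : MulAction.orbitRel.Quotient Gal(E/F) (Pl E),
        (cnt N C B O : ℝ) * (resCard (⊤ : Subgroup Gal(E/F)) O.out : ℝ) ^ (-s)) =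
      ∑' 𝔭 : HeightOneSpectrum (𝓞 (L C)),
        ((if ∃ W : Pl E, W.prime (L C) = 𝔭 ∧ W.p ∉ B ∧ Dec F W ≤ C then N.relIndex C else 0 : ℕ) : ℝ) *
          (Ideal.absNorm 𝔭.asIdeal : ℝ) ^ (-s) := by
  have hC : IsOpen (C : Set Gal(E/F)) := Subgroup.isOpen_mono hle hN
  have h0 : Summable fun x : MulAction.orbitRel.Quotient Gal(E/F) (Pl E) × (Gal(E/F) ⧸ N) =>
      (resCard (⊤ : Subgroup Gal(E/F)) x.1.out : ℝ) ^ (-s) := by
    have : Finite (Gal(E/F) ⧸ N) := Nat.finite_of_card_ne_zero (index_ne_zero_of_isOpen hN)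
    rw [summable_prod_of_nonneg fun x => by positivity]
    refine ⟨fun _ => Summable.of_finite, ?_⟩
    simp only [tsum_const, nsmul_eq_mul]
    exact (summable_orbits hs).mul_left _
  have h1 : Summable fun x : z2_X N C B => (resCard (⊤ : Subgroup Gal(E/F)) x.1.1.out : ℝ) ^ (-s) :=
    h0.subtype _
  have h2 := (h1.hasSum.tsum_fiberwise fun x : z2_X N C B => x.1.1).tsum_eq
  have h3 := (h1.hasSum.tsum_fiberwise
    fun x : z2_X N C B => (x.1.2.out • (x.1.1.out : Pl E)).prime (L C)).tsum_eq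
  refine Eq.trans (tsum_congr fun O => ?_) (h2.trans (h3.symm.trans (tsum_congr fun 𝔭 => ?_)))
  · rw [← z2_card_fst, ← nsmul_eq_mul, ← tsum_const]
    refine tsum_congr fun x => ?_
    have hx : x.1.1.1 = O := x.2
    rw [hx]
  · rw [← z2_card_prime hC hle, ← nsmul_eq_mul, ← tsum_const]
    refine tsum_congr fun ⟨x, hx⟩ => ?_
    obtain rfl : (x.1.2.out • (x.1.1.out : Pl E)).prime (L C) = 𝔭 := hx
    rw [← resCard_eq_absNorm, (nm_bas_of_dec_le hC le_top (inf_le_left.trans x.2.2)).1,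
      resCard_same (H := ⊤) ⟨x.1.2.out, trivial, rfl⟩]

theorem cntSum_sub_log_bounded {N C : Subgroup Gal(E/F)} [N.Normal] (hN : IsOpen (N : Set Gal(E/F)))
    (hle : N ≤ C) (B : Finset ℕ) : ∃ c : ℝ, ∀ᶠ s in 𝓝[>] (1 : ℝ),
    |(∑' O : MulAction.orbitRel.Quotient Gal(E/F) (Pl E),
        (cnt N C B O : ℝ) * (resCard (⊤ : Subgroup Gal(E/F)) O.out : ℝ) ^ (-s)) -
      (N.relIndex C : ℝ) * Real.log (1 / (s - 1))| ≤ c := by
  have hC : IsOpen (C : Set Gal(E/F)) := Subgroup.isOpen_mono hle hN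
  have := numberField_L hC
  have := isAlgebraic_rat F E
  obtain ⟨B', hB'⟩ := exists_ine_le hC
  obtain ⟨c₁, h₁⟩ := primeSum_sub_log_bounded (L C)
  obtain ⟨c₂, h₂⟩ := primeSum_bad_bounded (L C) (B ∪ B')
  refine ⟨N.relIndex C * (c₁ + c₂), ?_⟩
  filter_upwards [h₁, self_mem_nhdsWithin] with s h₁ hs
  replace hs : 1 < s := hs
  replace h₂ := h₂ s hs
  rw [z2_sum_eq hN hle B hs]
  have hsum := summable_primes (L C) hs
  set a : IsDedekindDomain.HeightOneSpectrum (NumberField.RingOfIntegers (L C)) → ℝ :=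
    fun 𝔭 => (Ideal.absNorm 𝔭.asIdeal : ℝ) ^ (-s) with ha
  have a0 : ∀ 𝔭, 0 ≤ a 𝔭 := fun 𝔭 => by simp only [ha]; positivity
  set b : IsDedekindDomain.HeightOneSpectrum (NumberField.RingOfIntegers (L C)) → ℝ :=
    fun 𝔭 => if ∃ W : Pl E, W.prime (L C) = 𝔭 ∧ W.p ∉ B ∧ Dec F W ≤ C then 0 else a 𝔭 with hb
  have b0 : ∀ 𝔭, 0 ≤ b 𝔭 := fun 𝔭 => by
    simp only [hb]; split_ifs
    · exact le_rfl
    · exact a0 _
  have hsb : Summable b := Summable.of_nonneg_of_le b0 (fun 𝔭 => by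
    simp only [hb]; split_ifs
    · exact a0 _
    · exact le_rfl) hsum
  have e1 : (∑' 𝔭 : IsDedekindDomain.HeightOneSpectrum (NumberField.RingOfIntegers (L C)),
      ((if ∃ W : Pl E, W.prime (L C) = 𝔭 ∧ W.p ∉ B ∧ Dec F W ≤ C then N.relIndex C else 0 : ℕ) : ℝ) *
        a 𝔭) = N.relIndex C * ((∑' 𝔭, a 𝔭) - ∑' 𝔭, b 𝔭) := by
    rw [← hsum.tsum_sub hsb, ← tsum_mul_left]
    refine tsum_congr fun 𝔭 => ?_
    simp only [hb]
    split_ifs <;> simp
  have e2 : ∑' 𝔭, b 𝔭 ≤ c₂ := by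
    refine le_trans (hsb.tsum_le_tsum (fun 𝔭 => ?_) (Summable.of_nonneg_of_le (fun 𝔭 => ?_)
      (fun 𝔭 => ?_) hsum)) h₂
    · simp only [hb]
      split_ifs with h1 h2 h2
      · exact le_rfl
      · exact a0 _
      · exfalso
        apply h1
        obtain ⟨W, rfl⟩ := exists_pl_prime (L C) 𝔭
        rw [← resCard_eq_absNorm] at h2
        obtain ⟨f, -, -, hf⟩ := exists_resCard_eq_pow hC W
        have hp := (h2.1.pow_eq_iff.1 hf.symm).1
        rw [← hp, Finset.mem_union, not_or] at h2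
        obtain ⟨f', -, hf', -⟩ := nm_bas hC le_top W
        have hq : resCard C W = resCard (⊤ : Subgroup Gal(E/F)) W := by
          rw [← hp] at hf' ⊢
          exact (W.hp.pow_eq_iff.1 hf'.symm).1.symm
        have := dec_le_of_resCard_eq hC le_top (inf_le_left.trans (hB' W h2.2.2)) hq
        exact ⟨W, rfl, h2.2.1, by simpa using this⟩
      · exact le_rfl
    · split_ifs
      · exact le_rfl
      · exact a0 _
    · split_ifs
      · exact a0 _
      · exact le_rfl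
  have e3 : 0 ≤ ∑' 𝔭, b 𝔭 := tsum_nonneg b0
  rw [e1, ← mul_sub, abs_mul, Nat.abs_cast]
  refine mul_le_mul_of_nonneg_left ?_ (Nat.cast_nonneg _)
  have h4 := abs_le.1 h₁
  exact abs_le.2 ⟨by linarith [h4.1], by linarith [h4.2]⟩

end Crest.Agent.R018
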